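import Crest.Agent.X212.Mp86.Mos
import Crest.Agent.X212.An.Gauge
import Crest.Agent.X212.Eqv71.Sec

/-!
# Row 212, layer AN (helper86): the resolvent `Fr.res` on functions

Uniqueness, sup bounds, linearity, intertwiners.  No existence statement is used: `res` is either
a solution or zero.
-/

set_option autoImplicit false
set_option linter.unusedSectionVars false
open Set Filter Topology Module MeasureTheory
open scoped Manifold ContDiff InnerProductSpace

noncomputable section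

namespace Crest.Agent.X212.Mp86
open An Wz78 Eqv71

variable {E : Type} [NormedAddCommGroup E] [NormedSpace ℝ E] [FiniteDimensional ℝ E]
  [MeasurableSpace E] [BorelSpace E]
  {HM : Type} [TopologicalSpace HM] {I : ModelWithCorners ℝ E HM}
  {M : Type} [TopologicalSpace M] [ChartedSpace HM M] [IsManifold I ∞ M]
  [MeasurableSpace M] {ι : Type} [Fintype ι]
  {V : Type} [NormedAddCommGroup V] [InnerProductSpace ℝ V]
  {V' : Type} [NormedAddCommGroup V'] [InnerProductSpace ℝ V']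
  {F : Fr I M ι} {A : ι → M → V →L[ℝ] V} {A' : ι → M → V' →L[ℝ] V'} {u w s t : M → V}

variable (I) in
/-- a smooth metric connection form -/
structure Mc (A : ι → M → V →L[ℝ] V) : Prop where
  sm : ∀ a, Sm I (A a)
  sk : ∀ a x, Skew (A a x)

theorem Mc.mc (h : Mc I A) (x : M) : MC I A x := ⟨fun a => cm1 (h.sm a) x,
  fun a => .of_forall fun y => h.sk a y⟩

theorem res_spec (h : ∃ u, F.IsRes A s u) : F.IsRes A s (F.res A s) := by
  rw [Fr.res, dif_pos h]; exact h.choose_spec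

theorem res_cases (F : Fr I M ι) (A : ι → M → V →L[ℝ] V) (s : M → V) :
    F.IsRes A s (F.res A s) ∨ ((¬∃ u, F.IsRes A s u) ∧ F.res A s = 0) := by
  by_cases h : ∃ u, F.IsRes A s u
  · exact .inl (res_spec h)
  · exact .inr ⟨h, by rw [Fr.res, dif_neg h]⟩

theorem sm_res (F : Fr I M ι) (A : ι → M → V →L[ℝ] V) (s : M → V) : Sm I (F.res A s) := by
  rcases res_cases F A s with h | h
  · exact h.1
  · rw [h.2]; exact contMDiff_const

theorem bdd_res (F : Fr I M ι) (A : ι → M → V →L[ℝ] V) (s : M → V) :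
    ∃ C, ∀ x, ‖F.res A s x‖ ≤ C := by
  rcases res_cases F A s with h | h
  · exact h.2.1
  · exact ⟨0, fun x => by simp [h.2]⟩

theorem lap_zero (x : M) : lap I F.e F.dv A (0 : M → V) x = 0 := by
  have h : ∀ a, nab I F.e A a (0 : M → V) = 0 := fun a => funext fun y => by
    simp only [nab, Pi.zero_apply, map_zero, add_zero]; exact dv_const (0 : V)
  simp [lap, h]

theorem isRes_zero : F.IsRes A 0 0 :=
  ⟨contMDiff_const, ⟨0, fun _ => by simp⟩, fun x => by simp [lap_zero]⟩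

/-- `res s` solves the equation with a right hand side `s` or `0` -/
theorem res_rhs (F : Fr I M ι) (A : ι → M → V →L[ℝ] V) (s : M → V) :
    ∃ t, F.IsRes A t (F.res A s) ∧ ∀ x, ‖t x‖ ≤ ‖s x‖ := by
  rcases res_cases F A s with h | h
  · exact ⟨s, h, fun _ => le_rfl⟩
  · exact ⟨0, by rw [h.2]; exact isRes_zero, fun _ => by simp⟩

theorem lap_add (hA : ∀ a, Sm I (A a)) (hu : Sm I u) (hw : Sm I w) (x : M) :
    lap I F.e F.dv A (fun y => u y + w y) x = lap I F.e F.dv A u x + lap I F.e F.dv A w x := by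
  have h : ∀ a, nab I F.e A a (fun y => u y + w y) =
      fun y => nab I F.e A a u y + nab I F.e A a w y := fun a => funext fun y =>
    nab_add a (hu y) (hw y)
  simp only [lap, h, fun a => nab_add (e := F.e) (A := A) a (sm_nab (F := F) hA a hu x)
    (sm_nab (F := F) hA a hw x), smul_add, Finset.sum_add_distrib]
  abel

theorem sm_isRes (hA : ∀ a, Sm I (A a)) (h : F.IsRes A s u) : Sm I s := by
  rw [← funext h.2.2]; exact h.1.add (sm_lap hA h.1)

theorem isRes_add (hA : ∀ a, Sm I (A a)) (h : F.IsRes A s u) (k : F.IsRes A t w) :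
    F.IsRes A (fun x => s x + t x) fun x => u x + w x := by
  obtain ⟨h1, ⟨C, h2⟩, h3⟩ := h
  obtain ⟨k1, ⟨C', k2⟩, k3⟩ := k
  refine ⟨h1.add k1, ⟨C + C', fun x => (norm_add_le _ _).trans (add_le_add (h2 x) (k2 x))⟩,
    fun x => ?_⟩
  simp only [lap_add hA h1 k1, ← h3, ← k3]; abel

/-- a bounded intertwiner maps solutions to solutions -/
theorem isRes_map {T : M → V →L[ℝ] V'} (hA : ∀ a, Sm I (A a)) (hT : Sm I T)
    (hb : ∃ C, ∀ x, ‖T x‖ ≤ C) (hi : ∀ x, Itw I F.e A A' T x) (h : F.IsRes A s u) :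
    F.IsRes A' (fun x => T x (s x)) fun x => T x (u x) := by
  obtain ⟨h1, ⟨C, h2⟩, h3⟩ := h
  obtain ⟨C', hb⟩ := hb
  refine ⟨hT.clm_apply h1, ⟨C' * C, fun x => ((T x).le_opNorm _).trans
    (mul_le_mul (hb x) (h2 x) (norm_nonneg _) ((norm_nonneg _).trans (hb x)))⟩, fun x => ?_⟩
  rw [itw_lap (frm F) (.of_forall hi) (hT x) (fun a => hA a x) (h1 x), ← map_add, h3]

theorem isRes_smul (hA : ∀ a, Sm I (A a)) (r : ℝ) (h : F.IsRes A s u) :
    F.IsRes A (fun x => r • s x) fun x => r • u x :=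
  isRes_map (T := fun _ => r • ContinuousLinearMap.id ℝ V) hA contMDiff_const ⟨_, fun _ => le_rfl⟩
    (fun x a => by rw [dv_const]; ext v; simp) h

theorem isRes_sum {κ : Type*} (S : Finset κ) {s u : κ → M → V} (hA : ∀ a, Sm I (A a))
    (h : ∀ k ∈ S, F.IsRes A (s k) (u k)) :
    F.IsRes A (fun x => ∑ k ∈ S, s k x) fun x => ∑ k ∈ S, u k x := by
  classical
  induction S using Finset.induction_on with
  | empty => simp only [Finset.sum_empty]; exact isRes_zero
  | insert k S hk ih =>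
    simp only [Finset.sum_insert hk]
    exact isRes_add hA (h k (by simp)) (ih fun j hj => h j (by simp [hj]))

variable [BoundarylessManifold I M] [T2Space M]

theorem isRes_norm_le (hB : Bumps I F.e F.dv) (hA : Mc I A) (h : F.IsRes A s u) {m : ℝ}
    (hm : ∀ x, ‖s x‖ ≤ m) (x : M) : ‖u x‖ ≤ m := by
  obtain ⟨h1, ⟨C, h2⟩, h3⟩ := h
  refine norm_le_of_bdd (A := A) hB finite_empty (by simp) (vf F.toPre) (by simp) (by simp)
    (fun y _ => hA.mc y) (fun y _ => cm2 h1 y) (fun y _ => h2 y) (fun y _ => ?_) x (by simp)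
  rw [show LA I F.e F.dv A u y = -lap I F.e F.dv A u y from (neg_neg _).symm, sub_neg_eq_add, h3]
  exact hm y

theorem isRes_unique (hB : Bumps I F.e F.dv) (hA : Mc I A) (h : F.IsRes A s u)
    (k : F.IsRes A s w) : u = w := by
  have := isRes_add hA.sm h (isRes_smul hA.sm (-1) k)
  funext x
  have h2 := isRes_norm_le hB hA this (m := 0) (fun y => by simp) x
  simpa [add_neg_eq_zero] using h2

theorem res_eq (hB : Bumps I F.e F.dv) (hA : Mc I A) (h : F.IsRes A s u) : F.res A s = u :=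
  isRes_unique hB hA (res_spec ⟨u, h⟩) h

theorem res_zero (hB : Bumps I F.e F.dv) (hA : Mc I A) : F.res A 0 = 0 := res_eq hB hA isRes_zero

theorem norm_res_le (hB : Bumps I F.e F.dv) (hA : Mc I A) {m : ℝ} (hm : ∀ x, ‖s x‖ ≤ m) (x : M) :
    ‖F.res A s x‖ ≤ m := by
  obtain ⟨t, h1, h2⟩ := res_rhs F A s
  exact isRes_norm_le hB hA h1 (fun y => (h2 y).trans (hm y)) x

theorem res_add (hB : Bumps I F.e F.dv) (hA : Mc I A) (h : ∃ u, F.IsRes A s u)
    (k : ∃ u, F.IsRes A t u) :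
    F.res A (fun x => s x + t x) = fun x => F.res A s x + F.res A t x :=
  res_eq hB hA (isRes_add hA.sm (res_spec h) (res_spec k))

theorem res_smul (hB : Bumps I F.e F.dv) (hA : Mc I A) (r : ℝ) (s : M → V) :
    F.res A (fun x => r • s x) = fun x => r • F.res A s x := by
  rcases res_cases F A s with h | h
  · exact res_eq hB hA (isRes_smul hA.sm r h)
  rcases eq_or_ne r 0 with rfl | hr
  · simp only [zero_smul]; exact res_zero hB hA
  rcases res_cases F A (fun x => r • s x) with k | k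
  · have k' := isRes_smul hA.sm r⁻¹ k
    simp only [smul_smul, inv_mul_cancel₀ hr, one_smul] at k'
    exact absurd ⟨_, k'⟩ h.1
  · rw [h.2, k.2]; funext x; simp

/-- `res` preserves parallel sub-bundles -/
theorem res_fix (hB : Bumps I F.e F.dv) (hA : Mc I A) {T : M → V →L[ℝ] V} (hT : Sm I T)
    (hb : ∃ C, ∀ x, ‖T x‖ ≤ C) (hi : ∀ x, Itw I F.e A A T x) (hs : ∀ x, T x (s x) = s x) (x : M) :
    T x (F.res A s x) = F.res A s x := by
  rcases res_cases F A s with h | h
  · have := isRes_map hA.sm hT hb hi h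
    simp only [hs] at this
    exact congrFun (isRes_unique hB hA this h) x
  · simp [h.2]

/-- `res` commutes with intertwiners which have a left inverse on `s` -/
theorem res_map (hB : Bumps I F.e F.dv) (hA : ∀ a, Sm I (A a)) (hA' : Mc I A')
    {T : M → V →L[ℝ] V'} {T' : M → V' →L[ℝ] V} (hT : Sm I T) (hT' : Sm I T')
    (hb : ∃ C, ∀ x, ‖T x‖ ≤ C) (hb' : ∃ C, ∀ x, ‖T' x‖ ≤ C) (hi : ∀ x, Itw I F.e A A' T x)
    (hi' : ∀ x, Itw I F.e A' A T' x) (hs : ∀ x, T' x (T x (s x)) = s x) :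
    F.res A' (fun x => T x (s x)) = fun x => T x (F.res A s x) := by
  rcases res_cases F A s with h | h
  · exact res_eq hB hA' (isRes_map hA hT hb hi h)
  rcases res_cases F A' (fun x => T x (s x)) with k | k
  · have := isRes_map hA'.sm hT' hb' hi' k
    simp only [hs] at this
    exact absurd ⟨_, this⟩ h.1
  · rw [h.2, k.2]; funext x; simp

section compact
variable [BorelSpace M] [CompactSpace M]

theorem sol_of_isRes (hA : Mc I A) (h : F.IsRes A s u) : Sol F A u s :=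
  ⟨hA.sm, hA.sk, h.1, h.2.2, by simp [cocompact_eq_bot]⟩

theorem integ_pow_norm (hs : Continuous s) (n : ℕ) : Integrable (fun x => ‖s x‖ ^ n) F.μ :=
  (hs.norm.pow n).integrable_of_hasCompactSupport (HasCompactSupport.of_compactSpace _)

/-- `L² → L⁴` -/
theorem l4_res_le (hA : Mc I A) {S β : ℝ} (hS : L4 F.toPre S) (hS0 : 0 ≤ S) (hβ0 : 0 ≤ β)
    (hs : Continuous s) (hβ : ∫ x, ‖s x‖ ^ 2 ∂F.μ ≤ β ^ 2) :
    ∫ x, ‖F.res A s x‖ ^ 4 ∂F.μ ≤ (S * β ^ 2) ^ 2 := by
  rcases res_cases F A s with h | h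
  · exact ((sol_of_isRes hA h).l4_le hS hS0 hβ0 (integ_pow_norm hs 2) hβ).2
  · simp only [h.2, Pi.zero_apply, norm_zero]; simp; positivity

/-- `L⁴ → L^∞` -/
theorem sup_res_le [F.μ.IsOpenPosMeasure] (hA : Mc I A) {S β : ℝ} (hS : L4 F.toPre S)
    (hS0 : 0 ≤ S) (hβ0 : 0 ≤ β) (hs : Continuous s) (hβ : ∫ x, ‖s x‖ ^ 4 ∂F.μ ≤ β ^ 4) (x : M) :
    ‖F.res A s x‖ ≤ (3 + 8 * S ^ 2) * β := by
  rcases res_cases F A s with h | h
  · exact (sol_of_isRes hA h).sup_le hS hS0 hβ0 (integ_pow_norm hs 4) hβ x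
  · simp only [h.2, Pi.zero_apply, norm_zero]; positivity

/-- `L² → L^∞` for the square of the resolvent -/
theorem sup_res_res [F.μ.IsOpenPosMeasure] (hA : Mc I A) {S β : ℝ} (hS : L4 F.toPre S)
    (hS0 : 0 ≤ S) (hβ0 : 0 ≤ β) (hs : Continuous s) (hβ : ∫ x, ‖s x‖ ^ 2 ∂F.μ ≤ β ^ 2) (x : M) :
    ‖F.res A (F.res A s) x‖ ≤ (3 + 8 * S ^ 2) * (√S * β) := by
  refine sup_res_le hA hS hS0 (by positivity) (sm_res F A s).continuous
    ((l4_res_le hA hS hS0 hβ0 hs hβ).trans_eq ?_) x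
  rw [mul_pow √S, show 4 = 2 * 2 from rfl, pow_mul, Real.sq_sqrt hS0]; ring

end compact

end Crest.Agent.X212.Mp86

end
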