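import Crest.Agent.X212.Mp86.Bd

/-!
# Row 212, layer AN (helper86): the `C⁰` and energy bound for solutions
-/

set_option autoImplicit false
set_option linter.unusedSectionVars false
open Set Filter Topology Module MeasureTheory
open scoped Manifold ContDiff InnerProductSpace

noncomputable section

namespace Crest.Agent.X212.Mp86
open An Wz78

variable {E : Type} [NormedAddCommGroup E] [NormedSpace ℝ E] [FiniteDimensional ℝ E]
  [MeasurableSpace E] [BorelSpace E]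
  {HM : Type} [TopologicalSpace HM] {I : ModelWithCorners ℝ E HM}
  {M : Type} [TopologicalSpace M] [ChartedSpace HM M] [IsManifold I ∞ M]
  [MeasurableSpace M] {ι : Type} [Fintype ι] {lam : Type} [Fintype lam] {r n : ℕ}
  {B : Base M ι lam} {G : Geo I M ι lam} {w : M → M → ℝ} {τ : Pt M ι lam r n}
  {K ε R σ σ' a v k : ℝ} {c : Cfg M ι lam r} {O O' : Set M}

/-- the Dirac equation holds on `O'`, the curvature equation on `O ⊇ O'`, `Φ = 0` off `O'` -/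
structure SolOn (c : Cfg M ι lam r) (B : Base M ι lam) (G : Geo I M ι lam) (τ : Pt M ι lam r n)
    (O' O : Set M) : Prop extends c.Adm B G where
  op : IsOpen O'
  sub : O' ⊆ O
  D : ∀ x ∈ O', c.eD G τ x = 0
  C : ∀ x ∈ O, c.eC B G τ x = 0
  off : ∀ x ∉ O', c.Φ x = 0

theorem solOn_of_sol (h : c.Sol B G τ) : SolOn c B G τ univ univ :=
  ⟨h.toAdm, isOpen_univ, le_rfl, fun x _ => h.D x, fun x _ => h.C x, fun _ hx => (hx trivial).elim⟩

theorem le_mono {F : Fr I M ι} (h : c.Le F w σ) (hs : σ ≤ σ') : c.Le F w σ' :=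
  ⟨h.one.trans hs, fun x => (h.Φ x).trans hs, h.int,
    fun x => (h.F x).trans (pow_le_pow_left₀ (by linarith [h.one]) hs 2)⟩

theorem le_limit {F : Fr I M ι} {C : ℝ} (h : c.Le F w σ)
    (hs : ∀ σ, c.Le F w σ → c.Le F w (σ / 2 + C)) : c.Le F w (2 * C) := by
  have key : ∀ j : ℕ, c.Le F w (σ * (1 / 2) ^ j + 2 * C - 2 * C * (1 / 2) ^ j) := fun j => by
    induction j with
    | zero => simpa using h
    | succ j ih => convert hs _ ih using 1; ring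
  have l0 := tendsto_pow_atTop_nhds_zero_of_lt_one (r := (1 / 2 : ℝ)) (by norm_num) (by norm_num)
  have lim := ((l0.const_mul σ).add_const (2 * C)).sub (l0.const_mul (2 * C))
  simp only [mul_zero, zero_add, sub_zero] at lim
  exact ⟨ge_of_tendsto' lim fun j => (key j).one, fun x => ge_of_tendsto' lim fun j => (key j).Φ x,
    h.int, fun x => ge_of_tendsto' (lim.pow 2) fun j => (key j).F x⟩

theorem sm_Fg (hB : B.OK I) (hG : G.OK B) {m : Md M ι lam} {W : m.Cn} (H : m.OK I B)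
    (C : m.IsConn B G W) : Sm I (m.Fg G.F W) := by
  have h : ∀ s : ι × ι, Sm I fun x => m.Fg G.F W x s := fun s => by
    have e : (fun x => m.Fg G.F W x s) = fun x => hsL (curv I G.F.e G.F.c W s.1 s.2 x * m.p x
        - (1 / 4 : ℝ) • ∑ k, ∑ l, Rm I G.F.e G.F.c G.F.Gam s.1 s.2 k l x • (m.ρ k x * m.ρ l x)
        - (fL B G x s * (1 / 2)) • (m.J * m.p x)) := funext fun x => by
      rw [curv_eq hB hG H C, spin, mul_one_div]; simp; abel
    rw [e]
    exact fun x => SA.clm _ (((SA.mul ((gfrm hG).sCurv (fun a => C.cc.sm a x) _ _) (H.sp x)).sub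
      (SA.smul contMDiffAt_const (SA.sum _ fun k _ => SA.sum _ fun l _ => SA.smul
        ((glc hG).sRm (gfrm hG) _ _ _ _ x) (SA.mul (H.sρ k x) (H.sρ l x))))).sub
      (SA.smul (SA.mul (sm_fL hB hG s x) contMDiffAt_const) (SA.mul contMDiffAt_const (H.sp x))))
  exact (PiLp.continuousLinearEquiv 2 ℝ fun _ : ι × ι => m.A).symm.contDiff.contMDiff.comp
    (contMDiff_pi_space.2 h)

/-- bound of the self-dual curvature -/
theorem SolOn.norm_p2_sq (hB : B.OK I) (h : SolOn c B G τ O' O) {x : M} (hx : x ∈ O) :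
    ‖c.m.p2 B x (c.m.Fg G.F c.W x)‖ ^ 2 ≤ 32 * (‖c.Φ x‖ ^ 2) ^ 2 + 2 * ‖τ.C c x‖ ^ 2 := by
  have := h.C x hx
  rw [Cfg.eC, sub_sub, sub_eq_zero] at this
  rw [this]
  nlinarith [normSq_add_le (c.m.mu B x (c.Φ x) (c.Φ x)) (τ.C c x),
    pow_le_pow_left₀ (norm_nonneg _) (norm_mu hB h.ok (x := x) (c.Φ x) (c.Φ x)) 2]

variable [I.Boundaryless] [T2Space M] [BorelSpace M]

/-- the Weitzenboeck inequality -/
theorem SolOn.ineq (hB : B.OK I) (hG : G.OK B) (h : SolOn c B G τ O' O) {x : M} (hx : x ∈ O')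
    {δ : ℝ} (hδ : 0 < δ) (ha : √(∑ s, fP B G x s ^ 2) - sc G x / 4 ≤ a) :
    1 / 576 * (‖c.Φ x‖ ^ 2) ^ 2 - (a + 1 / δ) * ‖c.Φ x‖ ^ 2 - ‖τ.C c x‖ ^ 2 / 4
      - δ * gr2 I G.F.e c.W (τ.D c) x ≤ -⟪lap I G.F.e G.F.dv c.W c.Φ x, c.Φ x⟫_ℝ := by
  have h0 := adm_weitz hB hG h.toAdm x (c.Φ x)
  have e1 : dir I G.F.e c.m.ρ c.W (dir I G.F.e c.m.ρ c.W c.Φ) x =
      ∑ b, c.m.ρ b x (nab I G.F.e c.W b (τ.D c) x) := Finset.sum_congr rfl fun b _ => by
    rw [nab_congr b (eventually_of_mem (h.op.mem_nhds hx) fun y hy => sub_eq_zero.1 (h.D y hy))]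
  have e2 := h.C x (h.sub hx)
  rw [Cfg.eC, sub_sub, sub_eq_zero] at e2
  rw [e1, ← p2_mu hB, ← inner_p2 hB, e2, inner_add_left, real_inner_self_eq_norm_sq,
    real_inner_self_eq_norm_sq] at h0
  have h5 := inner_cl_le (h.ok.cl x) (hB.rk x) (fun b => h.ok.ρsk b x) (h.ok.psym x) (h.ok.pidem x)
    (fun b => nab I G.F.e c.W b (τ.D c) x) (c.Φ x) hδ
  have h1 := neg_le_of_abs_le (abs_rp_le hB h.ok (x := x) (fP B G x) (c.m.J (c.Φ x)) (c.Φ x))
  have h2 : ‖c.m.J (c.Φ x)‖ = ‖c.Φ x‖ := by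
    simpa [cs] using norm_cs h.ok.Jsq h.ok.Jsk Complex.I (c.Φ x)
  have h3 := neg_le_of_abs_le (abs_real_inner_le_norm (τ.C c x) (c.m.mu B x (c.Φ x) (c.Φ x)))
  have h4 := pow_le_pow_left₀ (sq_nonneg _) (mu_proper hB h.ok (h.pos x)) 2
  rw [h2] at h1
  rw [gr2_eq, add_mul, one_div_mul_eq_div δ]
  nlinarith [sq_nonneg (‖τ.C c x‖ - ‖c.m.mu B x (c.Φ x) (c.Φ x)‖),
    mul_le_mul_of_nonneg_right ha (sq_nonneg ‖c.Φ x‖)]

/-- one step of the `C⁰` bound, for a single configuration -/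
theorem SolOn.step (hb : Bumps I G.F.e G.F.dv) (hB : B.OK I) (hG : G.OK B)
    (h : SolOn c B G τ O' O) (hσ : ∀ x, ‖c.Φ x‖ ^ 2 ≤ σ) (hK : 0 ≤ K)
    (hD : Ctl G.F (gr2 I G.F.e c.W c.Φ) σ K c.W (τ.D c)) {γ β : ℝ} {g : M → ℝ} (hγ : 0 ≤ γ)
    (hg : Dom G.F β g) (hC : ∀ x, ‖τ.C c x‖ ^ 2 ≤ γ ^ 2 + g x) (ha0 : 0 ≤ a)
    (ha : ∀ x, √(∑ s, fP B G x s ^ 2) - sc G x / 4 ≤ a) {η : ℝ} (hη : 0 < η) (hη1 : η ≤ 1)
    (x : M) : ‖c.Φ x‖ ^ 2 ≤ 12 * γ + β / 2 + 3 * η * σ + (576 * (a + (K + 1) / η) + 216) := by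
  have σ0 : 0 ≤ σ := (sq_nonneg _).trans (hσ x)
  have d0 : 0 < η / (K + 1) := by positivity
  have d1 : η / (K + 1) * K ≤ η := by
    rw [div_mul_eq_mul_div, div_le_iff₀ (by positivity)]; nlinarith
  have := c0_core hb (mc_W h.conn) h.sm hσ hD (hg.mul (C := 1 / 4) (by norm_num)) (c := 1 / 576)
    (a := a + 1 / (η / (K + 1))) (r := γ ^ 2 / 4) (by norm_num) (by positivity) (by positivity)
    d0.le hK (d1.trans hη1) (fun y => ?_) x
  · rw [show γ ^ 2 / 4 / (1 / 576) = (12 * γ) ^ 2 by ring, Real.sqrt_sq (by positivity),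
      one_div_div] at this
    nlinarith [mul_le_mul_of_nonneg_right d1 σ0]
  by_cases hy : y ∈ O'
  · linarith [h.ineq hB hG hy d0 (ha y), hC y]
  · have := mul_nonneg d0.le (gr2_nonneg (I := I) (e := G.F.e) (A := c.W) (Φ := τ.D c) (x := y))
    simp only [h.off y hy, norm_zero, inner_zero_right]
    nlinarith [hC y, sq_nonneg ‖τ.C c y‖]

/-- the energy is bounded by the self-dual part of the curvature over `O` -/
def Eb (c : Cfg M ι lam r) (B : Base M ι lam) (F : Fr I M ι) (w : M → M → ℝ) (O : Set M)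
    (v k : ℝ) : Prop :=
  ∀ γ g, 1 ≤ γ → Dom F γ g → (∀ x ∈ O, ‖c.m.p2 B x (c.m.Fg F c.W x)‖ ^ 2 ≤ γ ^ 2 + g x) →
    (∀ x, ‖c.Φ x‖ ^ 2 ≤ γ) → ∀ x, ∫ y, (w x y * ‖c.m.Fg F c.W y‖) ^ 2 ∂F.μ ≤ (v * γ + k) ^ 2

/-- the constant of the `C⁰` bound -/
def kB (v k a K R : ℝ) : ℝ :=
  2 * ((v + 1) * (80 * R + 6 * (576 * (a + (K + 1) * (72 * (v + 1))) + 216) + 1) + k)

/-- **`C⁰` and energy bound** -/
theorem SolOn.le (hb : Bumps I G.F.e G.F.dv) (hB : B.OK I) (hG : G.OK B)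
    (h : SolOn c B G τ O' O) (hτ : τ.Bd B G w K ε R) (hv : 0 ≤ v) (hk : 0 ≤ k)
    (hE : Eb c B G.F w O v k) (hε : 320 * (v + 1) * ε ≤ 1) (ha0 : 0 ≤ a)
    (ha : ∀ x, √(∑ s, fP B G x s ^ 2) - sc G x / 4 ≤ a) (hσ : c.Le G.F w σ) :
    c.Le G.F w (kB v k a K R) := by
  refine le_limit hσ fun σ hσ => ?_
  obtain ⟨g, g1, g2⟩ := hτ.C c σ h.toAdm hσ
  have σ0 : 0 ≤ σ := by linarith [hσ.one]
  have K0 := hτ.K0
  have R0 := hτ.R0
  have e0 := mul_nonneg hτ.e0 σ0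
  have η0 : 0 < 1 / (72 * (v + 1)) := by positivity
  have s1 := h.step hb hB hG hσ.Φ K0 (hτ.D c σ h.toAdm hσ) (by linarith) g1 g2 ha0 ha η0
    (div_le_one_of_le₀ (by linarith) (by positivity))
  rw [div_div_eq_mul_div, div_one] at s1
  set C := 576 * (a + (K + 1) * (72 * (v + 1))) + 216
  have C0 : 0 ≤ C := by positivity
  set η := 1 / (72 * (v + 1)) with hη
  have p0 := mul_nonneg η0.le σ0
  set s := 13 * (ε * σ + R) + 3 * η * σ + C with hs
  have s0 : 0 ≤ s := by rw [hs]; nlinarith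
  have s2 : ∀ x, ‖c.Φ x‖ ^ 2 ≤ s := fun x => by linarith [s1 x]
  set γ := 6 * s + 2 * (ε * σ + R) + 1 with hγ
  have γ1 : 1 ≤ γ := by linarith
  have s3 := hE γ _ γ1 ((g1.mul zero_le_two).mono (by linarith) fun _ => le_rfl) (fun x hx => by
    have b1 := pow_le_pow_left₀ (sq_nonneg _) (s2 x) 2
    have b2 : 0 ≤ ε * σ + R := by linarith
    have b3 := pow_le_pow_left₀ (by linarith) (show 6 * s + 2 * (ε * σ + R) ≤ γ by linarith) 2
    nlinarith [h.norm_p2_sq hB hx, g2 x, mul_nonneg s0 b2]) fun x => by linarith [s2 x]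
  have s4 : (v + 1) * γ + k ≤ σ / 2 + ((v + 1) * (80 * R + 6 * C + 1) + k) := by
    have b1 : (v + 1) * η = 1 / 72 := by rw [hη]; field_simp
    have b2 := mul_le_mul_of_nonneg_right hε σ0
    have b3 : (v + 1) * γ = 80 * ((v + 1) * ε * σ) + 18 * ((v + 1) * η) * σ +
      (v + 1) * (80 * R + 6 * C + 1) := by rw [hγ, hs]; ring
    rw [b3, b1]; linarith
  have p1 := mul_nonneg hv (zero_le_one.trans γ1)
  exact ⟨by linarith, fun x => by linarith [s2 x], hσ.int, fun x => (s3 x).trans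
    (pow_le_pow_left₀ (by linarith) (by linarith) 2)⟩

section closed
variable [CompactSpace M]

theorem integ_of_cont {μ : Measure M} [IsFiniteMeasureOnCompacts μ] {f : M → ℝ}
    (hf : Continuous f) : Integrable f μ :=
  hf.integrable_of_hasCompactSupport (HasCompactSupport.of_compactSpace _)

theorem exists_le (hB : B.OK I) (hG : G.OK B) (h : c.Adm B G) : ∃ σ, c.Le G.F (fun _ _ => 1) σ := by
  obtain ⟨C, hC⟩ := isCompact_univ.bddAbove_image (h.sm.continuous.norm.pow 2).continuousOn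
  set X := ∫ y, (1 * ‖c.m.Fg G.F c.W y‖) ^ 2 ∂G.F.μ
  have X0 : 0 ≤ X := integral_nonneg fun _ => sq_nonneg _
  refine ⟨|C| + X + 1, by linarith [abs_nonneg C], fun x => ?_, fun _ => integ_of_cont
    ((continuous_const.mul (sm_Fg hB hG h.ok h.conn).continuous.norm).pow 2), fun _ => ?_⟩
  · linarith [show ‖c.Φ x‖ ^ 2 ≤ C from hC ⟨x, trivial, rfl⟩, le_abs_self C]
  · nlinarith [abs_nonneg C, sq_nonneg (|C| + X)]

/-- energy and level on a closed manifold -/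
theorem integral_Fg_sq (hB : B.OK I) (hG : G.OK B) (h : c.Adm B G) :
    Integrable (fun x => ‖c.m.p2 B x (c.m.Fg G.F c.W x)‖ ^ 2) G.F.μ ∧
    ∫ x, ‖c.m.Fg G.F c.W x‖ ^ 2 ∂G.F.μ =
      2 * ∫ x, ‖c.m.p2 B x (c.m.Fg G.F c.W x)‖ ^ 2 ∂G.F.μ + 128 * Real.pi ^ 2 * c.kap B G := by
  have f := (sm_Fg hB hG h.ok h.conn).continuous
  have i1 := integ_of_cont (μ := G.F.μ) (f.norm.pow 2)
  have i2 : Integrable (c.m.kd B G.F c.W) G.F.μ := by
    refine integ_of_cont (continuous_const.mul ?_)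
    simp only [PiLp.inner_apply, idx_apply, ContinuousLinearMap.id_apply]
    have f' : ∀ s, Continuous fun x => c.m.Fg G.F c.W x s := fun s =>
      (PiLp.proj 2 (fun _ : ι × ι => c.m.A) s : CL _ _).continuous.comp f
    exact continuous_finsetSum _ fun s _ => (f' s).inner (continuous_finsetSum _ fun t _ =>
      ((hB.so _ _ _ _).continuous.div_const 2).smul (f' t))
  have i3 : Integrable (fun x => ‖c.m.p2 B x (c.m.Fg G.F c.W x)‖ ^ 2) G.F.μ :=
    ((i1.sub (i2.const_mul (128 * Real.pi ^ 2))).const_mul (1 / 2)).congr (.of_forall fun x => by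
      simp only [Pi.sub_apply, Pi.pow_apply, norm_Fg_sq hG h.conn hB]; ring)
  refine ⟨i3, ?_⟩
  simp only [norm_Fg_sq hG h.conn hB]
  rw [integral_add (i3.const_mul _) (i2.const_mul _), integral_const_mul, integral_const_mul]
  rfl

theorem eb_closed (hB : B.OK I) (hG : G.OK B) (h : c.Adm B G) (hv : 0 ≤ v) (hk : 0 ≤ k)
    (hv' : 3 * G.F.μ.real univ ≤ v ^ 2) (hk' : 128 * Real.pi ^ 2 * c.kap B G ≤ k ^ 2) :
    Eb c B G.F (fun _ _ => 1) univ v k := fun γ g h1 h2 h3 _ _ => by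
  obtain ⟨i, e⟩ := integral_Fg_sq hB hG h
  have := h2.integral_le i fun x => h3 x trivial
  have m0 : 0 ≤ G.F.μ.real univ := measureReal_nonneg
  have b1 : γ ≤ γ ^ 2 := by nlinarith
  simp only [one_mul, e]
  nlinarith [mul_le_mul_of_nonneg_right b1 m0, mul_le_mul_of_nonneg_right hv' (sq_nonneg γ),
    mul_nonneg (mul_nonneg hv (zero_le_one.trans h1)) hk]

/-- **closed manifolds**: the bound only depends on volume, level, curvature bounds and `τ` -/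
theorem c0_sol (hB : B.OK I) (hG : G.OK B) (h : c.Sol B G τ) (hτ : τ.Bd B G (fun _ _ => 1) K ε R)
    (hv : 0 ≤ v) (hk : 0 ≤ k) (hv' : 3 * G.F.μ.real univ ≤ v ^ 2)
    (hk' : 128 * Real.pi ^ 2 * c.kap B G ≤ k ^ 2) (hε : 320 * (v + 1) * ε ≤ 1) (ha0 : 0 ≤ a)
    (ha : ∀ x, √(∑ s, fP B G x s ^ 2) - sc G x / 4 ≤ a) :
    c.Le G.F (fun _ _ => 1) (kB v k a K R) :=
  (exists_le hB hG h.toAdm).elim fun _ hσ => (solOn_of_sol h).le bumps_of_compact hB hG hτ hv hk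
    (eb_closed hB hG h.toAdm hv hk hv' hk') hε ha0 ha hσ

end closed

end Crest.Agent.X212.Mp86

end
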