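import Crest.Agent.X212.Mp86.C0
import Crest.Agent.X212.An.Defs

/-!
# Row 212, layer AN (helper86): bounded subsolutions on noncompact manifolds (Omori-Yau)
-/

set_option autoImplicit false
set_option linter.unusedSectionVars false
open Set Filter Topology Module
open scoped Manifold ContDiff InnerProductSpace

noncomputable section

namespace Crest.Agent.X212.Mp86

section free
variable {E H M : Type*} [NormedAddCommGroup E] [NormedSpace ℝ E]
  [TopologicalSpace H] {I : ModelWithCorners ℝ E H} [TopologicalSpace M] [ChartedSpace H M]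
  [IsManifold I ∞ M]
  {ι : Type*} [Fintype ι] {e : ι → Π x : M, TangentSpace I x} {b : ι → M → ℝ}
  {U U' : Type*} [NormedAddCommGroup U] [InnerProductSpace ℝ U]
  [NormedAddCommGroup U'] [InnerProductSpace ℝ U']
  {A : ι → M → U →L[ℝ] U} {A' : ι → M → U' →L[ℝ] U'}

variable (I e b) in
/-- bump functions with a uniform lower bound for `Lop` -/
def Bumps : Prop := ∃ C : ℝ, ∀ x : M, ∃ χ : M → ℝ, (∀ y, CM I 2 χ y) ∧ HasCompactSupport χ ∧
  (∀ y, χ y ≤ 1) ∧ χ x = 1 ∧ ∀ y, -C ≤ Lop I e b χ y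

omit [IsManifold I ∞ M] in
theorem bumps_of_compact [CompactSpace M] : Bumps I e b :=
  ⟨0, fun _ => ⟨fun _ => 1, fun _ => contMDiffAt_const, HasCompactSupport.of_compactSpace _,
    fun _ => le_rfl, rfl, fun y => by rw [Lop_const]; simp⟩⟩

variable [FiniteDimensional ℝ E] [BoundarylessManifold I M] [T2Space M]

/-- maximum principle for bounded functions, finitely many punctures -/
theorem maxp_bdd (hB : Bumps I e b) {S : Set M} (hS : S.Finite) (hd : S.Nonempty → 3 ≤ finrank ℝ E)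
    {f : M → ℝ} {m C : ℝ} (he : ∀ x a, VF I 1 (e a) x)
    (hb : ∀ s ∈ S, ∀ a, ContinuousAt (b a) s)
    (hs : ∀ s ∈ S, Submodule.span ℝ (range fun a => (show E from e a s)) = ⊤)
    (hf : ∀ x ∉ S, CM I 2 f x) (hC : ∀ x ∉ S, f x ≤ C)
    (hL : ∀ δ > 0, ∃ κ > 0, ∀ x ∉ S, m + δ ≤ f x → κ ≤ Lop I e b f x) : ∀ x ∉ S, f x ≤ m := by
  intro x₀ hx₀
  have := Manifold.locallyCompact_of_finiteDimensional (M := M) I
  obtain ⟨B, hB⟩ := hB
  have hbd : BddAbove (f '' Sᶜ) := ⟨C, by rintro _ ⟨y, hy, rfl⟩; exact hC y hy⟩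
  have hne : (f '' Sᶜ).Nonempty := ⟨_, x₀, hx₀, rfl⟩
  set T := sSup (f '' Sᶜ)
  have hT : ∀ y ∉ S, f y ≤ T := fun y hy => le_csSup hbd ⟨y, hy, rfl⟩
  refine (hT x₀ hx₀).trans (le_of_not_gt fun h => ?_)
  obtain ⟨κ, hκ, hL⟩ := hL ((T - m) / 2) (by linarith)
  obtain ⟨η, η0, η1, η2⟩ : ∃ η > 0, η ≤ (T - m) / 2 ∧ η * B < κ := by
    refine ⟨min ((T - m) / 2) (κ / (|B| + 1)), lt_min (by linarith) (by positivity),
      min_le_left _ _, ?_⟩
    have h1 : min ((T - m) / 2) (κ / (|B| + 1)) * B ≤ κ / (|B| + 1) * |B| :=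
      (mul_le_mul_of_nonneg_left (le_abs_self B) (le_min (by linarith) (by positivity))).trans
        (mul_le_mul_of_nonneg_right (min_le_right _ _) (abs_nonneg B))
    refine h1.trans_lt ?_
    rw [div_mul_eq_mul_div, div_lt_iff₀ (by positivity)]; nlinarith
  obtain ⟨_, ⟨x, hx, rfl⟩, hx1⟩ := exists_lt_of_lt_csSup hne (show T - η < T by linarith)
  obtain ⟨χ, c1, c2, c3, c4, c5⟩ := hB x
  obtain ⟨K, hK, h2⟩ := exists_compact_superset (c2.isCompact.union hS.isCompact)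
  have hxK : x ∈ K := interior_subset (h2 (Or.inl (subset_tsupport _ (by simp [c4]))))
  have g2 : ∀ y ∉ S, CM I 2 (fun y => f y + η * χ y) y := fun y hy =>
    (hf y hy).add (contMDiffAt_const.mul (c1 y))
  have gL : ∀ y ∉ S, T < f y + η * χ y → 0 < Lop I e b (fun y => f y + η * χ y) y := by
    intro y hy h3
    rw [Lop_add (w := fun y => η * χ y) (he y) (hf y hy) (contMDiffAt_const.mul (c1 y)),
      Lop_mul _ (he y) (c1 y)]
    have h4 := hL y hy (by nlinarith [c3 y])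
    nlinarith [c5 y]
  have gfr : ∀ y ∈ K, y ∉ interior K → f y + η * χ y ≤ T := fun y _ hi => by
    rw [image_eq_zero_of_notMem_tsupport fun h => hi (h2 (Or.inl h)), mul_zero, add_zero]
    exact hT y fun h => hi (h2 (Or.inr h))
  have key : f x + η * χ x ≤ T := by
    rcases S.eq_empty_or_nonempty with rfl | hn
    · exact maxp0 (b := b) (f := fun y => f y + η * χ y) hK
        (fun y _ => (g2 y (by simp)).continuousAt.continuousWithinAt) (fun y _ => he y)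
        (fun y _ _ => g2 y (by simp)) (fun y _ h3 _ => gL y (by simp) h3) gfr x hxK
    · exact maxp (b := b) (f := fun y => f y + η * χ y) (C := T + η) (hd hn) hK hS
        (fun s hs' => h2 (Or.inr hs')) (fun y _ => he y) hb hs (fun y hy => g2 y hy.2)
        (fun y hy => by nlinarith [hT y hy.2, c3 y]) (fun y hy => gL y hy.2) gfr x ⟨hxK, hx⟩
  rw [c4] at key
  linarith

/-- sup bound for bounded solutions of `u - LA u = s` -/
theorem norm_le_of_bdd (hB : Bumps I e b) {S : Set M} (hS : S.Finite)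
    (hd : S.Nonempty → 3 ≤ finrank ℝ E) {u : M → U} {m C : ℝ} (he : ∀ x a, VF I 1 (e a) x)
    (hb : ∀ s ∈ S, ∀ a, ContinuousAt (b a) s)
    (hs : ∀ s ∈ S, Submodule.span ℝ (range fun a => (show E from e a s)) = ⊤)
    (hA : ∀ x ∉ S, MC I A x) (hu : ∀ x ∉ S, CM I 2 u x) (hC : ∀ x ∉ S, ‖u x‖ ≤ C)
    (hm : ∀ x ∉ S, ‖u x - LA I e b A u x‖ ≤ m) : ∀ x ∉ S, ‖u x‖ ≤ m := by
  intro x hx
  have h0 : 0 ≤ m := (norm_nonneg _).trans (hm x hx)
  refine le_of_sq (maxp_bdd (f := fun y => ‖u y‖ ^ 2) (C := C ^ 2) hB hS hd he hb hs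
    (fun y hy => cm_normSq (hu y hy)) (fun y hy => pow_le_pow_left₀ (norm_nonneg _) (hC y hy) 2)
    (fun δ hδ => ⟨δ, hδ, fun y hy h => ?_⟩) x hx) h0
  rw [Lop_normSq (he y) (hA y hy).sm (hA y hy).sk (hu y hy)]
  have h2 := real_inner_le_norm (u y - LA I e b A u y) (u y)
  rw [inner_sub_left, real_inner_self_eq_norm_sq] at h2
  have h3 : 0 ≤ ∑ a, ‖cd I (e a) (A a) u y‖ ^ 2 := Finset.sum_nonneg fun _ _ => sq_nonneg _
  nlinarith [mul_le_mul_of_nonneg_right (hm y hy) (norm_nonneg (u y)), sq_nonneg (‖u y‖ - m)]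

/-- uniqueness of bounded solutions of `u - LA u = s` -/
theorem eq_of_bdd (hB : Bumps I e b) {S : Set M} (hS : S.Finite)
    (hd : S.Nonempty → 3 ≤ finrank ℝ E) {u w : M → U} {C : ℝ} (he : ∀ x a, VF I 1 (e a) x)
    (hb : ∀ s ∈ S, ∀ a, ContinuousAt (b a) s)
    (hs : ∀ s ∈ S, Submodule.span ℝ (range fun a => (show E from e a s)) = ⊤)
    (hA : ∀ x ∉ S, MC I A x) (hu : ∀ x ∉ S, CM I 2 u x) (hw : ∀ x ∉ S, CM I 2 w x)
    (hC : ∀ x ∉ S, ‖u x - w x‖ ≤ C)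
    (h : ∀ x ∉ S, u x - LA I e b A u x = w x - LA I e b A w x) : ∀ x ∉ S, u x = w x := by
  intro x hx
  refine sub_eq_zero.1 (norm_le_zero_iff.1 (norm_le_of_bdd (A := A) (u := fun y => u y - w y)
    hB hS hd he hb hs hA (fun y hy => (hu y hy).sub (hw y hy)) hC (fun y hy => ?_) x hx))
  rw [LA_sub (he y) (hA y hy).sm (hu y hy) (hw y hy), sub_sub_sub_comm, h y hy, sub_self, norm_zero]

/-- `C⁰` bound for bounded configurations: `c t² - a t - r` is the good term -/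
theorem c0_bdd (hB : Bumps I e b) {Φ : M → U} {u : M → U'} {m β c a r C T : ℝ}
    (he : ∀ x a, VF I 1 (e a) x) (hA : ∀ x, MC I A x) (hA' : ∀ x, MC I A' x)
    (hΦ : ∀ x, CM I 2 Φ x) (hu : ∀ x, CM I 2 u x) (hC : ∀ x, ‖Φ x‖ ≤ C) (hC' : ∀ x, ‖u x‖ ≤ C)
    (hm : 0 ≤ m) (hβ : ∀ x, ‖u x - LA I e b A' u x‖ ≤ β) (hc : 0 < c)
    (hW : ∀ x, c * (‖Φ x‖ ^ 2) ^ 2 - a * ‖Φ x‖ ^ 2 - r - gr2 I e A Φ x - m * gr2 I e A' u x ≤
      ⟪LA I e b A Φ x, Φ x⟫_ℝ)
    (hT0 : 0 ≤ T) (hTa : a ≤ c * T) (hT : r + m * β ^ 2 / 4 ≤ c * T ^ 2 - a * T) (x : M) :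
    ‖Φ x‖ ^ 2 ≤ T + m * β ^ 2 := by
  have h1 : ∀ y, ‖u y‖ ≤ β := fun y => norm_le_of_bdd hB finite_empty (by simp) he (by simp)
    (by simp) (fun y _ => hA' y) (fun y _ => hu y) (fun y _ => hC' y) (fun y _ => hβ y) y (by simp)
  have h2 := maxp_bdd (f := fun y => ‖Φ y‖ ^ 2 + m * ‖u y‖ ^ 2) (m := T + m * β ^ 2)
    (C := C ^ 2 + m * C ^ 2) hB finite_empty (by simp) he (by simp) (by simp)
    (fun y _ => cm_F (hΦ y) (hu y))
    (fun y _ => add_le_add (pow_le_pow_left₀ (norm_nonneg _) (hC y) 2)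
      (mul_le_mul_of_nonneg_left (pow_le_pow_left₀ (norm_nonneg _) (hC' y) 2) hm))
    (fun δ hδ => ⟨2 * (c * δ ^ 2), by positivity, fun y _ h => ?_⟩) x (by simp)
  · nlinarith [mul_nonneg hm (sq_nonneg ‖u x‖)]
  · refine le_trans ?_ (Lop_F (he y) (hA y) (hA' y) (hΦ y) (hu y) hm (hβ y) (hW y))
    have h3 := mul_le_mul_of_nonneg_left (pow_le_pow_left₀ (norm_nonneg _) (h1 y) 2) hm
    have h4 : T + δ ≤ ‖Φ y‖ ^ 2 := by linarith
    set t := ‖Φ y‖ ^ 2
    have h5 : 0 ≤ (t - T) * (c * (t + T) - a) - c * δ ^ 2 := by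
      have h6 : c * δ ≤ c * (t + T) - a := by nlinarith
      nlinarith [mul_le_mul (show δ ≤ t - T by linarith) h6 (by positivity) (by linarith)]
    nlinarith

end free

section An
open An
variable {E : Type} [NormedAddCommGroup E] [NormedSpace ℝ E] [FiniteDimensional ℝ E]
  [MeasurableSpace E] [BorelSpace E]
  {HM : Type} [TopologicalSpace HM] {I : ModelWithCorners ℝ E HM}
  {M : Type} [TopologicalSpace M] [ChartedSpace HM M] [IsManifold I ∞ M]
  [MeasurableSpace M] {ι : Type} [Fintype ι]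

theorem vf (F : Pre I M ι) (x : M) (a : ι) : VF I 1 (F.e a) x := (F.sm a x).of_le (by simp)

theorem cm2 {N : Type} [NormedAddCommGroup N] [NormedSpace ℝ N] {f : M → N} (h : Sm I f) (x : M) :
    CM I 2 f x := (h x).of_le two_le

theorem cm1 {N : Type} [NormedAddCommGroup N] [NormedSpace ℝ N] {f : M → N} (h : Sm I f) (x : M) :
    CM I 1 f x := (h x).of_le (by simp)

theorem abs_Lop_le (F : Fr I M ι) {C : ℕ → ℝ} (h : F.Tame C) {χ : M → ℝ} (hχ : F.CBs χ C) (y : M) :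
    |Lop I F.e F.dv χ y| ≤ Fintype.card ι * (C 2 + C 0 * C 2) := by
  refine (Finset.abs_sum_le_sum_abs _ _).trans ((Finset.sum_le_card_nsmul _ _ _ fun a _ => ?_).trans
    (by rw [nsmul_eq_mul, Finset.card_univ]))
  have h1 : |dv I (F.e a) (dv I (F.e a) χ) y| ≤ C 2 := hχ.2 2 [a, a] le_rfl y
  have h2 : |dv I (F.e a) χ y| ≤ C 2 := hχ.2 2 [a] one_le_two y
  have h3 : |F.dv a y| ≤ C 0 := (h.dv a).2 0 [] le_rfl y
  refine (abs_add_le _ _).trans (add_le_add h1 ?_)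
  rw [smul_eq_mul, abs_mul]
  exact mul_le_mul h3 h2 (abs_nonneg _) ((abs_nonneg _).trans h3)

theorem bumps_of_tame (F : Fr I M ι) {C : ℕ → ℝ} (h : F.Tame C) : Bumps I F.e F.dv := by
  refine ⟨Fintype.card ι * (C 2 + C 0 * C 2), fun x => ?_⟩
  obtain ⟨χ, h1, h2, h3, h4⟩ := h.exh {x} isCompact_singleton
  exact ⟨χ, cm2 h1.1, h2, fun y => (h3 y).2, h4 x rfl, fun y => (abs_le.1 (abs_Lop_le F h h1 y)).1⟩

end An

end Crest.Agent.X212.Mp86

end
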