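import Crest.Agent.X212.Mp86.Res

/-!
# Row 212, layer AN (helper86): weighted `L² → L⁴ → L^∞` bounds for the resolvent

A weight is a positive function tending to zero at infinity with small logarithmic derivatives
(`1` on a compact manifold, `exp (-δ ⟨t - t₀⟩)` on a cylinder).
-/

set_option autoImplicit false
set_option linter.unusedSectionVars false
open Set Filter Topology Module MeasureTheory
open scoped Manifold ContDiff InnerProductSpace

noncomputable section

namespace Crest.Agent.X212.Mp86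
open An Wz78

variable {E : Type} [NormedAddCommGroup E] [NormedSpace ℝ E] [FiniteDimensional ℝ E]
  [MeasurableSpace E] [BorelSpace E]
  {HM : Type} [TopologicalSpace HM] {I : ModelWithCorners ℝ E HM}
  {M : Type} [TopologicalSpace M] [ChartedSpace HM M] [IsManifold I ∞ M]
  [MeasurableSpace M] {ι : Type} [Fintype ι]
  {V : Type} [NormedAddCommGroup V] [InnerProductSpace ℝ V]
  {F : Fr I M ι} {A : ι → M → V →L[ℝ] V} {u s : M → V} {w : M → ℝ} {S β : ℝ}

/-- weights -/
structure Wt (F : Fr I M ι) (w : M → ℝ) : Prop where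
  sm : Sm I w
  pos : ∀ x, 0 < w x
  lim : Tendsto w (cocompact M) (𝓝 0)
  gr : ∀ x, 16 * ∑ a, F.D a w x ^ 2 ≤ w x ^ 2
  lop : ∀ x, -(w x / 4) ≤ Lop I F.e F.dv w x

theorem wt_one [CompactSpace M] : Wt F fun _ => 1 :=
  ⟨contMDiff_const, fun _ => one_pos, by simp [cocompact_eq_bot],
    fun x => by simp [Pre.D, Mp86.dv_const], fun x => by rw [Lop_const]; norm_num⟩

variable [T2Space M] [BorelSpace M]

/-- a bounded nonnegative subsolution times a weight -/
theorem Wt.en (h : Wt F w) {f σ : M → ℝ} {C : ℝ} (hf : Sm I f) (f0 : ∀ x, 0 ≤ f x)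
    (fC : ∀ x, f x ≤ C) (hσ : Continuous σ) (hL : ∀ x, f x - σ x ≤ Lop I F.e F.dv f x) :
    Eng F (fun x => w x * f x) fun x => 2 * (w x * σ x) := by
  refine en_drift (h.sm.mul hf) (fun t ht => ?_) (h.sm.continuous.mul hσ) fun x => ?_
  · have := h.lim.mul_const C
    rw [zero_mul] at this
    obtain ⟨K, hK, h2⟩ := mem_cocompact.1 (this.eventually (gt_mem_nhds ht))
    refine hK.of_isClosed_subset (isClosed_le continuous_const
      (h.sm.continuous.mul hf.continuous)) fun x (hx : t ≤ _) => by_contra fun h3 => ?_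
    have h4 : w x * C < t := h2 h3
    linarith [mul_le_mul_of_nonneg_left (fC x) (h.pos x).le]
  · have p := h.pos x
    have g := h.gr x
    simp only [Pre.D] at g
    have hD : ∀ a, dv I (F.e a) (fun x => w x * f x) x =
        dv I (F.e a) w x * f x + w x * dv I (F.e a) f x := fun a =>
      Mp86.dv_mul ((cm1 h.sm x).md le_rfl) ((cm1 hf x).md le_rfl)
    refine ⟨(∑ a, dv I (F.e a) w x * dv I (F.e a) (fun x => w x * f x) x) / w x, ?_, ?_⟩
    · rw [div_pow, ← mul_div_assoc, div_le_iff₀ (by positivity)]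
      have h1 := Finset.sum_mul_sq_le_sq_mul_sq Finset.univ (fun a => dv I (F.e a) w x)
        fun a => dv I (F.e a) (fun x => w x * f x) x
      have h2 : 0 ≤ ∑ a, dv I (F.e a) (fun x => w x * f x) x ^ 2 :=
        Finset.sum_nonneg fun _ _ => sq_nonneg _
      nlinarith [mul_le_mul_of_nonneg_right g h2]
    · rw [Lop_mul_fun (vf F.toPre x) (cm2 h.sm x) (cm2 hf x)]
      have e : (∑ a, dv I (F.e a) w x * dv I (F.e a) (fun x => w x * f x) x) / w x =
          (∑ a, dv I (F.e a) w x ^ 2) / w x * f x + ∑ a, dv I (F.e a) w x * dv I (F.e a) f x := by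
        rw [div_mul_eq_mul_div, div_add' _ _ _ p.ne', Finset.sum_mul, Finset.sum_mul,
          ← Finset.sum_add_distrib]
        congr 1
        exact Finset.sum_congr rfl fun a _ => by rw [hD]; ring
      have e2 : (∑ a, dv I (F.e a) w x ^ 2) / w x ≤ w x / 16 := by
        rw [div_le_iff₀ p]; nlinarith
      rw [e]
      nlinarith [mul_le_mul_of_nonneg_right e2 (f0 x), mul_le_mul_of_nonneg_left (hL x) p.le,
        mul_le_mul_of_nonneg_right (h.lop x) (f0 x)]

theorem Wt.en_res (h : Wt F w) (hA : Mc I A) (hu : F.IsRes A s u) {δ : ℝ} (hδ : 0 < δ) :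
    Eng F (fun x => w x * (√(‖u x‖ ^ 2 + δ ^ 2) - δ)) fun x => 2 * (w x * ‖s x‖) := by
  have h1 : Sm I fun x => √(‖u x‖ ^ 2 + δ ^ 2) := fun x =>
    (Real.contDiffAt_sqrt (by positivity)).comp_contMDiffAt
      ((cm_normSq (hu.1 x)).add contMDiffAt_const)
  obtain ⟨C, hC⟩ := hu.2.1
  refine h.en (C := C) (h1.sub contMDiff_const)
    (fun x => sub_nonneg.2 (Real.le_sqrt_of_sq_le (by nlinarith))) (fun x => ?_)
    (sm_isRes hA.sm hu).continuous.norm fun x => ?_
  · have h5 : √(‖u x‖ ^ 2 + δ ^ 2) ≤ ‖u x‖ + δ :=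
      Real.sqrt_le_iff.2 ⟨by positivity, by nlinarith [mul_nonneg (norm_nonneg (u x)) hδ.le]⟩
    linarith [hC x]
  · rw [Lop_sub (vf F.toPre x) (cm2 h1 x) contMDiffAt_const, Lop_const, sub_zero, ← hu.2.2 x,
      ← sub_neg_eq_add (u x), ← LA_eq_lap]
    exact kato_sub hδ (vf F.toPre x) (hA.mc x) (cm2 hu.1 x)

/-- weighted `L⁴ → L^∞` -/
theorem Wt.sup_le [F.μ.IsOpenPosMeasure] (h : Wt F w) (hA : Mc I A) (hS : L4 F.toPre S)
    (hS0 : 0 ≤ S) (hβ0 : 0 ≤ β) (hi : Integrable (fun x => (w x * ‖s x‖) ^ 4) F.μ)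
    (hβ : ∫ x, (w x * ‖s x‖) ^ 4 ∂F.μ ≤ β ^ 4) (x : M) :
    w x * ‖F.res A s x‖ ≤ (3 + 8 * S ^ 2) * (2 * β) := by
  rcases res_cases F A s with hu | hu
  swap
  · simp only [hu.2, Pi.zero_apply, norm_zero, mul_zero]; positivity
  have key : ∀ δ > 0, w x * ‖F.res A s x‖ ≤ (3 + 8 * (S + δ) ^ 2) * (2 * (β + δ)) + w x * δ :=
    fun δ hδ => by
      have := (h.en_res hA hu hδ).sup_le (hS.mono (S' := S + δ) (by linarith)) (by linarith)
        (β := 2 * (β + δ)) (by linarith) (by simpa only [mul_pow (2 : ℝ)] using hi.const_mul _)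
        (by
          simp only [mul_pow (2 : ℝ), integral_const_mul]
          exact mul_le_mul_of_nonneg_left (hβ.trans (pow_le_pow_left₀ hβ0 (by linarith) 4))
            (by norm_num)) x
      linarith [mul_le_mul_of_nonneg_left (norm_le_sqrt (F.res A s x) δ) (h.pos x).le]
  have lim : Tendsto (fun δ : ℝ => (3 + 8 * (S + δ) ^ 2) * (2 * (β + δ)) + w x * δ) (𝓝[>] 0)
      (𝓝 ((3 + 8 * (S + 0) ^ 2) * (2 * (β + 0)) + w x * 0)) :=
    Tendsto.mono_left (Continuous.tendsto (by fun_prop) 0) nhdsWithin_le_nhds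
  simp only [add_zero, mul_zero] at lim
  exact ge_of_tendsto lim (eventually_nhdsWithin_of_forall key)

/-- weighted `L² → L⁴` -/
theorem Wt.l4_le (h : Wt F w) (hA : Mc I A) (hS : L4 F.toPre S)
    (hS0 : 0 ≤ S) (hβ0 : 0 ≤ β) (hi : Integrable (fun x => (w x * ‖s x‖) ^ 2) F.μ)
    (hβ : ∫ x, (w x * ‖s x‖) ^ 2 ∂F.μ ≤ β ^ 2) :
    Integrable (fun x => (w x * ‖F.res A s x‖) ^ 4) F.μ ∧
      ∫ x, (w x * ‖F.res A s x‖) ^ 4 ∂F.μ ≤ (S * (2 * β) ^ 2) ^ 2 := by
  rcases res_cases F A s with hu | hu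
  swap
  · simp only [hu.2, Pi.zero_apply, norm_zero, mul_zero]
    exact ⟨by simp, by simp; positivity⟩
  set u := F.res A s
  have uc := hu.1.continuous
  have wc := h.sm.continuous
  let δ : ℕ → ℝ := fun n => 1 / (n + 1)
  have δ0 : ∀ n, 0 < δ n := fun n => Nat.one_div_pos_of_nat
  have fc : ∀ n, Continuous fun x => max (w x * ‖u x‖ - (w x + 2) * δ n) 0 ^ 4 := fun n => by
    fun_prop
  have key : ∀ n, Integrable (fun x => max (w x * ‖u x‖ - (w x + 2) * δ n) 0 ^ 4) F.μ ∧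
      ∫ x, max (w x * ‖u x‖ - (w x + 2) * δ n) 0 ^ 4 ∂F.μ ≤ (S * (2 * β) ^ 2) ^ 2 := fun n => by
    obtain ⟨v, a1, a2, a3, -, a5⟩ := (h.en_res hA hu (δ0 n)).l4_le (β := 2 * β) hS hS0
      (by linarith) (by simpa only [mul_pow (2 : ℝ)] using hi.const_mul _)
      (by
        simp only [mul_pow (2 : ℝ), integral_const_mul]
        exact mul_le_mul_of_nonneg_left hβ (by norm_num)) (δ0 n) (δ0 n)
    have i4 : Integrable (fun x => v x ^ 4) F.μ := integ_pow a1 a2 (by norm_num)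
    have le : ∀ x, max (w x * ‖u x‖ - (w x + 2) * δ n) 0 ^ 4 ≤ v x ^ 4 := fun x => by
      rcases le_total (w x * ‖u x‖ - (w x + 2) * δ n) 0 with h1 | h1
      · rw [max_eq_right h1]; simp; positivity
      · rw [max_eq_left h1]
        refine pow_le_pow_left₀ h1 ?_ 4
        linarith [a3 x, mul_le_mul_of_nonneg_left (norm_le_sqrt (u x) (δ n)) (h.pos x).le]
    have i5 := i4.mono' (fc n).aestronglyMeasurable (.of_forall fun x => by
      rw [Real.norm_of_nonneg (by positivity)]; exact le x)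
    exact ⟨i5, (integral_mono i5 i4 le).trans a5⟩
  refine fatou (f := fun n x => max (w x * ‖u x‖ - (w x + 2) * δ n) 0 ^ 4)
    (by fun_prop : Continuous fun x => (w x * ‖u x‖) ^ 4).measurable (fun x => by positivity)
    (fun n => (fc n).measurable) (fun n => (key n).1) (fun n x => by positivity)
    (fun n => (key n).2) fun x => ?_
  have := (((tendsto_one_div_add_atTop_nhds_zero_nat (𝕜 := ℝ)).const_mul (w x + 2)).const_sub
    (w x * ‖u x‖)).max (tendsto_const_nhds (x := (0 : ℝ))) |>.pow 4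
  rwa [mul_zero, sub_zero, max_eq_left (mul_nonneg (h.pos x).le (norm_nonneg _))] at this

/-- weighted `L² → L^∞` for the square of the resolvent -/
theorem Wt.sup_GG [F.μ.IsOpenPosMeasure] (h : Wt F w) (hA : Mc I A) (hS : L4 F.toPre S)
    (hS0 : 0 ≤ S) (hβ0 : 0 ≤ β) (hi : Integrable (fun x => (w x * ‖s x‖) ^ 2) F.μ)
    (hβ : ∫ x, (w x * ‖s x‖) ^ 2 ∂F.μ ≤ β ^ 2) (x : M) :
    w x * ‖F.res A (F.res A s) x‖ ≤ 4 * (3 + 8 * S ^ 2) * √S * β := by
  obtain ⟨h1, h2⟩ := h.l4_le hA hS hS0 hβ0 hi hβ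
  refine (h.sup_le (β := √S * (2 * β)) hA hS hS0 (by positivity) h1 (h2.trans_eq ?_) x).trans_eq
    (by ring)
  rw [mul_pow √S, show 4 = 2 * 2 from rfl, pow_mul, Real.sq_sqrt hS0]; ring

end Crest.Agent.X212.Mp86

end
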