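import Crest.Agent.X212.Mp86.Ctl
import Crest.Agent.X212.Mp86.Wt
import Crest.Agent.X212.Wz78.Mu

/-!
# Row 212, layer AN (helper86): sizes of words, sup bounds and control of words
-/

set_option autoImplicit false
set_option linter.unusedSectionVars false
open Set Filter Topology Module MeasureTheory
open scoped Manifold ContDiff InnerProductSpace

noncomputable section

namespace Crest.Agent.X212.Mp86
open An Wz78 Wrd81

section alg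
variable {ι : Type*} [Fintype ι] {V : Type*} [NormedAddCommGroup V] [InnerProductSpace ℝ V]
  {P : ι → ι → ℝ} {p : V →L[ℝ] V} {ρ : ι → V →L[ℝ] V}

theorem proj_le (h1 : ∀ v w, ⟪p v, w⟫_ℝ = ⟪v, p w⟫_ℝ) (h2 : p * p = p) (v : V) :
    0 ≤ ⟪v, p v⟫_ℝ ∧ ⟪v, p v⟫_ℝ ≤ ‖v‖ ^ 2 ∧ ‖p v‖ ≤ ‖v‖ := by
  have e : ⟪v, p v⟫_ℝ = ‖p v‖ ^ 2 := by
    rw [← real_inner_self_eq_norm_sq, h1, ← mul_apply_eq_comp, h2]
  have h3 := real_inner_le_norm v (p v)
  have h4 : ‖p v‖ ≤ ‖v‖ := le_of_sq_le_mul (norm_nonneg _) (e ▸ h3)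
  exact ⟨e ▸ sq_nonneg _, e ▸ pow_le_pow_left₀ (norm_nonneg _) h4 2, h4⟩

theorem quad_le (hP : Pr P) (θ : ι → ℝ) :
    0 ≤ ∑ a, ∑ b, θ a * θ b * P a b ∧ ∑ a, ∑ b, θ a * θ b * P a b ≤ ∑ a, θ a ^ 2 := by
  have e1 : ∑ a, ∑ b, θ a * θ b * P a b = ∑ a, θ a * ∑ b, P a b * θ b := by
    simp only [Finset.mul_sum]
    exact Finset.sum_congr rfl fun a _ => Finset.sum_congr rfl fun b _ => by ring
  have e2 : ∑ a, (∑ b, P a b * θ b) ^ 2 = ∑ a, ∑ b, θ a * θ b * P a b := by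
    simp only [sq, Finset.sum_mul_sum]
    rw [Finset.sum_comm]
    refine Finset.sum_congr rfl fun a _ => ?_
    rw [Finset.sum_comm]
    refine Finset.sum_congr rfl fun b _ => ?_
    rw [← hP.idem a b, Finset.mul_sum]
    exact Finset.sum_congr rfl fun k _ => by rw [hP.symm a k]; ring
  have e3 : 0 ≤ ∑ a, (θ a - ∑ b, P a b * θ b) ^ 2 := Finset.sum_nonneg fun _ _ => sq_nonneg _
  simp only [sub_sq, Finset.sum_add_distrib, Finset.sum_sub_distrib, mul_assoc (2 : ℝ), e2] at e3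
  rw [← Finset.mul_sum, ← e1] at e3
  exact ⟨e2 ▸ Finset.sum_nonneg fun _ _ => sq_nonneg _, by linarith⟩

theorem norm_cl (hP : Pr P) (C : Cl P p ρ) (hρ : ∀ a, Skew (ρ a))
    (h1 : ∀ v w, ⟪p v, w⟫_ℝ = ⟪v, p w⟫_ℝ) (h2 : p * p = p) (θ : ι → ℝ) (v : V) :
    ‖∑ a, θ a • ρ a v‖ ^ 2 ≤ (∑ a, θ a ^ 2) * ‖v‖ ^ 2 := by
  have e := congrArg (fun T : V →L[ℝ] V => ⟪v, T v⟫_ℝ)
    (C.sym_sum (S := fun a b => θ a * θ b) fun a b => mul_comm _ _)
  simp only [_root_.sum_apply, smul_apply, inner_sum, real_inner_smul_right,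
    mul_apply_eq_comp] at e
  have e2 : ‖∑ a, θ a • ρ a v‖ ^ 2 = -∑ a, ∑ b, θ a * θ b * ⟪v, ρ a (ρ b v)⟫_ℝ := by
    simp only [← real_inner_self_eq_norm_sq, sum_inner, inner_sum, real_inner_smul_left,
      real_inner_smul_right, hρ _ v, ← Finset.sum_neg_distrib]
    rw [Finset.sum_comm]
    exact Finset.sum_congr rfl fun a _ => Finset.sum_congr rfl fun b _ => by ring
  obtain ⟨a1, a2, -⟩ := proj_le h1 h2 v
  obtain ⟨b1, b2⟩ := quad_le hP θ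
  rw [e2, e, neg_mul, neg_neg]
  exact mul_le_mul b2 a2 a1 (b1.trans b2)

/-- the Dirac symbol has norm at most two -/
theorem inner_cl_le (C : Cl P p ρ) (h4 : ∑ a, P a a = 4) (hρ : ∀ a, Skew (ρ a))
    (h1 : ∀ v w, ⟪p v, w⟫_ℝ = ⟪v, p w⟫_ℝ) (h2 : p * p = p) (u : ι → V) (w : V) {ε : ℝ}
    (hε : 0 < ε) : ⟪∑ a, ρ a (u a), w⟫_ℝ ≤ ε * ∑ a, ‖u a‖ ^ 2 + ‖w‖ ^ 2 / ε := by
  have e : ∀ a, ‖ρ a w‖ ^ 2 = P a a * ⟪w, p w⟫_ℝ := fun a => by
    have := congrArg (fun T : V →L[ℝ] V => ⟪w, T w⟫_ℝ) (C.rel a a)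
    simp only [add_apply, smul_apply, inner_add_right, real_inner_smul_right,
      mul_apply_eq_comp] at this
    rw [← real_inner_self_eq_norm_sq, hρ]; linarith
  have e2 : ∑ a, ‖ρ a w‖ ^ 2 ≤ 4 * ‖w‖ ^ 2 := by
    simp only [e, ← Finset.sum_mul, h4]; linarith [(proj_le h1 h2 w).2.1]
  have e3 : ∀ a, ⟪ρ a (u a), w⟫_ℝ ≤ ε * ‖u a‖ ^ 2 + (4 * ε)⁻¹ * ‖ρ a w‖ ^ 2 := fun a => by
    rw [hρ]
    have h := (abs_le.1 (abs_real_inner_le_norm (u a) (ρ a w))).1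
    have h5 : 0 ≤ (4 * ε)⁻¹ * (2 * ε * ‖u a‖ - ‖ρ a w‖) ^ 2 := by positivity
    have h6 : (4 * ε)⁻¹ * (2 * ε * ‖u a‖ - ‖ρ a w‖) ^ 2 =
        ε * ‖u a‖ ^ 2 - ‖u a‖ * ‖ρ a w‖ + (4 * ε)⁻¹ * ‖ρ a w‖ ^ 2 := by field_simp; ring
    linarith
  rw [sum_inner]
  refine (Finset.sum_le_sum fun a _ => e3 a).trans ?_
  rw [Finset.sum_add_distrib, ← Finset.mul_sum, ← Finset.mul_sum]
  have : (4 * ε)⁻¹ * (4 * ‖w‖ ^ 2) = ‖w‖ ^ 2 / ε := by field_simp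
  linarith [mul_le_mul_of_nonneg_left e2 (show 0 ≤ (4 * ε)⁻¹ by positivity)]

theorem normSq_toLp {α : Type} [Fintype α] {V : Type} [NormedAddCommGroup V]
    [InnerProductSpace ℝ V] (f : α → ℝ) (v : V) :
    ‖(WithLp.toLp 2 fun s => f s • v : Fm α V)‖ ^ 2 = (∑ s, f s ^ 2) * ‖v‖ ^ 2 := by
  simp [PiLp.norm_sq_eq_of_L2, norm_smul, mul_pow, Finset.sum_mul]

theorem norm_sum_smul_sq {α : Type} [Fintype α] {V : Type} [NormedAddCommGroup V]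
    [InnerProductSpace ℝ V] (f : α → ℝ) (η : Fm α V) :
    ‖∑ s, f s • η s‖ ^ 2 ≤ (∑ s, f s ^ 2) * ‖η‖ ^ 2 := by
  refine (pow_le_pow_left₀ (norm_nonneg _) (norm_sum_le _ _) 2).trans ?_
  simp only [norm_smul, PiLp.norm_sq_eq_of_L2]
  simpa using Finset.sum_mul_sq_le_sq_mul_sq Finset.univ (fun s => ‖f s‖) fun s => ‖η s‖

theorem sum_sq_prod (f g : ι → ℝ) :
    ∑ s : ι × ι, (f s.1 * g s.2) ^ 2 = (∑ a, f a ^ 2) * ∑ a, g a ^ 2 := by
  simp only [Fintype.sum_prod_type, mul_pow, Finset.sum_mul_sum]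

variable {κ : Type} [Fintype κ]

theorem norm_cs {J : En κ} (h1 : J * J = -1) (h2 : Skw J) (c : ℂ) (v : Eu κ) :
    ‖cs J c v‖ = ‖c‖ * ‖v‖ := by
  have e1 : ⟪v, J v⟫_ℝ = 0 := by rw [real_inner_comm]; exact Skew.self h2 v
  have e2 : ‖J v‖ ^ 2 = ‖v‖ ^ 2 := by
    rw [← real_inner_self_eq_norm_sq, h2, ← mul_apply_eq_comp, h1]; simp
  rw [← sq_eq_sq₀ (norm_nonneg _) (by positivity), cs, norm_add_sq_real, mul_pow, Complex.sq_norm,
    Complex.normSq_apply]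
  simp only [norm_smul, mul_pow, real_inner_smul_left, real_inner_smul_right, e1, e2,
    Real.norm_eq_abs, sq_abs]
  ring

end alg

variable {E : Type} [NormedAddCommGroup E] [NormedSpace ℝ E] [FiniteDimensional ℝ E]
  [MeasurableSpace E] [BorelSpace E]
  {HM : Type} [TopologicalSpace HM] {I : ModelWithCorners ℝ E HM}
  {M : Type} [TopologicalSpace M] [ChartedSpace HM M] [IsManifold I ∞ M]
  [MeasurableSpace M] {ι : Type} [Fintype ι] {lam : Type} [Fintype lam] {r n : ℕ}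

/-! ### sizes -/

/-- the Hessian coefficients -/
def Hs (F : Fr I M ι) (g : M → ℝ) (a k : ι) (x : M) : ℝ :=
  F.D a (F.D k g) x + ∑ b, F.D b g x * F.Gam a b k x

/-- `‖dg‖² ≤ C` -/
def G1 (F : Fr I M ι) (C : ℝ) (g : M → ℝ) : Prop := ∀ x, ∑ a, F.D a g x ^ 2 ≤ C

/-- `dg` has size `√C` in `C¹` -/
structure Gd (F : Fr I M ι) (C : ℝ) (g : M → ℝ) : Prop where
  sm : Sm I g
  le : G1 F C g
  gr : ∀ x, ∑ a, ∑ k, Hs F g a k x ^ 2 ≤ C

/-- sections of `Λ` of size `√C` in `C¹` -/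
structure Sc (G : Geo I M ι lam) (C : ℝ) (s : M → Eu lam) : Prop where
  sm : Sm I s
  le : ∀ x, ‖s x‖ ^ 2 ≤ C
  gr : ∀ x, gr2 I G.F.e G.a s x ≤ C

def LtSz (F : Fr I M ι) (N : ℕ) : Lt M → Prop
  | .mul f => Fn F N f
  | .cl g => Gd F N g
  | _ => True

def SWSz (F : Fr I M ι) (N : ℕ) (w : SW M) : Prop := w.length ≤ N ∧ ∀ t ∈ w, LtSz F N t

def LaSz (N : ℕ) : La M → Prop
  | .mul f => ∀ x, |f x| ≤ N
  | .G => True

def LLSz (N : ℕ) (l : List (La M)) : Prop := l.length ≤ N ∧ ∀ t ∈ l, LaSz N t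

def SdSz (F : Fr I M ι) (N : ℕ) : Sd M → Prop
  | .q u v => SWSz F N u ∧ SWSz F N v
  | .cv f g h => (∀ x, f x ^ 2 ≤ N) ∧ G1 F N g ∧ G1 F N h

/-- all coefficients and lengths are bounded by `N` -/
def TmSz (G : Geo I M ι lam) (N : ℕ) : Tm M lam r n → Prop
  | .lin u => SWSz G.F N u
  | .anti _ s u => Sc G N s ∧ SWSz G.F N u
  | .ad g h ξ => G1 G.F N g ∧ G1 G.F N h ∧ SdSz G.F N ξ.s ∧ LLSz N ξ.l
  | .adj _ s g h u v l => (∀ x, ‖s x‖ ≤ N) ∧ G1 G.F N g ∧ G1 G.F N h ∧ SWSz G.F N u ∧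
      SWSz G.F N v ∧ LLSz N l
  | .adn f g h φ _ => (∀ x, |f x| ≤ N) ∧ G1 G.F N g ∧ G1 G.F N h ∧ ∀ t, 0 ≤ t → φ t ^ 2 * t ≤ N
  | _ => True

/-! ### operators -/

variable {B : Base M ι lam} {G : Geo I M ι lam} {m : Md M ι lam} {W : m.Cn} {C : ℝ} {N : ℕ}

theorem mc_W (h : m.IsConn B G W) : Mc I W := ⟨fun a x => h.cc.sm a x, h.sk⟩

theorem mc_adW (h : m.IsConn B G W) : Mc I (m.adW W) :=
  ⟨fun a x => SA.clm adcL (h.cc.sm a x), fun a x => adc_skw (h.sk a x)⟩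

theorem norm_j (hB : B.OK I) (H : m.OK I B) (x : M) (s : Eu lam) (v : m.V) :
    ‖m.j x s v‖ ≤ ‖s‖ * ‖v‖ := by
  refine (abs_le_of_sq_le_sq' ?_ (by positivity)).2
  obtain ⟨a1, a2, -⟩ := proj_le (H.psym x) (H.pidem x) v
  rw [← real_inner_self_eq_norm_sq, H.jsym, ← mul_apply_eq_comp, H.jsq, smul_apply,
    real_inner_smul_right, mul_pow]
  exact mul_le_mul (pow_le_pow_left₀ (norm_nonneg _) (proj_le (hB.lsym x) (hB.lidem x) s).2.2 2)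
    a2 a1 (sq_nonneg _)

theorem opr_j (hB : B.OK I) (H : m.OK I B) (h : m.IsConn B G W) {s : M → Eu lam}
    (hs : Sc G C s) : Opr G.F W W C fun x => m.j x (s x) := by
  have b : ∀ x s v, ‖m.j x s v‖ ^ 2 ≤ ‖s‖ ^ 2 * ‖v‖ ^ 2 := fun x s v =>
    (pow_le_pow_left₀ (norm_nonneg _) (norm_j hB H x s v) 2).trans_eq (mul_pow _ _ _)
  refine ⟨H.sj.clm_apply hs.sm, fun x v => (b x _ v).trans
    (mul_le_mul_of_nonneg_right (hs.le x) (sq_nonneg _)), fun x v => ?_⟩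
  have e : ∀ a, nabH G.F W W a (fun x => m.j x (s x)) x = m.j x (nab I G.F.e G.a a s x) :=
    fun a => by
      rw [nab, map_add, ← h.j, nabH, Pre.D, Sob92.dv_app (SA.md (H.sj x)) (SA.md (hs.sm x))]
      change _ + (W a x * _ - _ * W a x) = _
      simp only [Pre.D]; abel
  simp only [e]
  refine (Finset.sum_le_sum fun a _ => b x _ v).trans ?_
  rw [← Finset.sum_mul]
  exact mul_le_mul_of_nonneg_right (hs.gr x) (sq_nonneg _)

theorem opr_cs (H : m.OK I B) (h : m.IsConn B G W) {c : ℂ} (hc : ‖c‖ ≤ 1) :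
    Opr G.F W W 1 fun _ => c.re • ContinuousLinearMap.id ℝ m.V + c.im • m.J := by
  refine Opr.par contMDiff_const (fun x v => ?_) fun a x => ?_
  · exact (norm_cs H.Jsq H.Jsk c v).trans_le (mul_le_of_le_one_left (norm_nonneg _) hc)
  · rw [nabH, Pre.D, Mp86.dv_const, zero_add]
    change W a x * (c.re • 1 + c.im • m.J) - (c.re • 1 + c.im • m.J) * W a x = 0
    simp [mul_add, add_mul, h.J]

theorem opr_cl (hB : B.OK I) (H : m.OK I B) (h : m.IsConn B G W) {g : M → ℝ}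
    (hg : Gd G.F C g) : Opr G.F W W C fun x => ∑ a, G.F.D a g x • m.ρ a x := by
  have b := fun x => norm_cl (hB.pr x) (H.cl x) (fun a => H.ρsk a x) (H.psym x) (H.pidem x)
  have s1 := fun a x => SA.smul (G.F.sm_D hg.sm a x) (H.sρ a x)
  refine ⟨fun x => SA.sum _ fun a _ => s1 a x, fun x v => ?_, fun x v => ?_⟩
  · simp only [_root_.sum_apply, smul_apply]
    exact (b x _ v).trans (mul_le_mul_of_nonneg_right (hg.le x) (sq_nonneg _))
  have e : ∀ a, nabH G.F W W a (fun x => ∑ a, G.F.D a g x • m.ρ a x) x =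
      ∑ k, Hs G.F g a k x • m.ρ k x := fun a => by
    change nabE I G.F.e W a _ x = _
    rw [nabE_sum a _ fun b => s1 b x]
    simp only [fun b => nabE_smul (e := G.F.e) (A := W) a (G.F.sm_D hg.sm b x) (H.sρ b x),
      show ∀ b, nabE I G.F.e W a (m.ρ b) x = _ from fun b => h.cc.comp a b x, Hs, add_smul,
      Finset.sum_add_distrib, Finset.smul_sum, Finset.sum_smul, smul_smul]
    rw [Finset.sum_comm]; rfl
  simp only [e, _root_.sum_apply, smul_apply]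
  refine (Finset.sum_le_sum fun a _ => b x _ v).trans ?_
  rw [← Finset.sum_mul]
  exact mul_le_mul_of_nonneg_right (hg.gr x) (sq_nonneg _)

end Crest.Agent.X212.Mp86

end
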