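import Crest.Agent.X212.Qab60.Lq
import Crest.Agent.X212.Pat85.Out
import Crest.Agent.X212.Lns95.Asm

/-! Row 212, RFQ-UQQ (helper86), part A: simple roots, two reductions, gluing isomorphisms. -/

set_option autoImplicit false
set_option linter.unusedSectionVars false
noncomputable section
open scoped Manifold ContDiff Topology InnerProductSpace Real
open Set Function Filter

namespace Crest.Agent.X212.Mp86.Uq
open An M Nd18 Rf65 Qab60 Mp86.St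
open An.Job (Str Obc)
open Abel74 (fm fF)
open Dfl49 (PI)
open Eqv71 (ad0)

/-- a simple root is locally unique, uniformly in the parameters -/
theorem inj_ev {V α : Type} [NormedAddCommGroup V] [NormedSpace ℝ V] {Ψ : V × ℝ → ℝ} {v₀ : V}
    {t₀ : ℝ} {l : Filter α} {v : α → V} {t t' : α → ℝ} (h : ContDiffAt ℝ 1 Ψ (v₀, t₀))
    (d : deriv (fun s => Ψ (v₀, s)) t₀ ≠ 0) (hv : Tendsto v l (𝓝 v₀)) (ht : Tendsto t l (𝓝 t₀))
    (ht' : Tendsto t' l (𝓝 t₀)) : ∀ᶠ k in l, Ψ (v k, t k) = Ψ (v k, t' k) → t k = t' k := by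
  have H := h.hasStrictFDerivAt one_ne_zero
  have e : deriv (fun s => Ψ (v₀, s)) t₀ = fderiv ℝ Ψ (v₀, t₀) (0, 1) :=
    (H.hasFDerivAt.comp_hasDerivAt t₀ ((hasDerivAt_const t₀ v₀).prodMk (hasDerivAt_id t₀))).deriv
  rw [e] at d
  have p := abs_pos.2 d
  filter_upwards [((hv.prodMk_nhds ht).prodMk_nhds (hv.prodMk_nhds ht')).eventually
    (H.isLittleO.def (half_pos p))] with k a b
  have : (v k, t k) - (v k, t' k) = (t k - t' k) • ((0 : V), (1 : ℝ)) := by simp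
  rw [b, sub_self, zero_sub, norm_neg, this, map_smul, norm_smul, norm_smul] at a
  simp only [Prod.norm_def, norm_zero, norm_one, zero_le_one, max_eq_right, Real.norm_eq_abs] at a
  exact sub_eq_zero.1 (abs_nonpos_iff.1 (by nlinarith [abs_nonneg (t k - t' k)]))

section gauge
variable {E : Type} [NormedAddCommGroup E] [NormedSpace ℝ E] [FiniteDimensional ℝ E]
  [MeasurableSpace E] [BorelSpace E]
  {HM : Type} [TopologicalSpace HM] {I : ModelWithCorners ℝ E HM} [I.Boundaryless]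
  {M : Type} [TopologicalSpace M] [ChartedSpace HM M] [IsManifold I ∞ M] [T2Space M]
  [MeasurableSpace M] [BorelSpace M] [SecondCountableTopology M]
  {ι : Type} [Fintype ι] {lam : Type} [Fintype lam] {B : Base M ι lam} {G : Geo I M ι lam}
  {Ω : Set M} {r : ℕ} {c : Cfg M ι lam r} {ξ ξ' : M → c.m.A}

/-- two reductions have the same curvature form up to sign -/
theorem fm_pm (hB : B.OK I) (hG : G.OK B) (hΩ : IsPreconnected Ω) (A : Ab B G Ω c ξ)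
    (A' : Ab B G Ω c ξ') :
    fm G.F c.m c.W ξ' = fm G.F c.m c.W ξ ∨ fm G.F c.m c.W ξ' = -fm G.F c.m c.W ξ := by
  obtain ⟨t, ht⟩ := Abel74.const_of_D (F := G.F) A.rd.op hΩ (u := fun x => ⟪ξ x, ξ' x⟫_ℝ)
    (fun x hx => (A.rd.sm x hx).inner (A'.rd.sm x hx)) fun a x hx => by
      rw [Pre.D_def, Wz78.dv_inner a (Wz78.adW_skw A.adm.conn a x) (A.rd.sm x hx) (A'.rd.sm x hx),
        A.rd.par x hx, A'.rd.par x hx]; simp
  have k : ∀ {ξ ξ' : M → c.m.A}, Ab B G Ω c ξ → Ab B G Ω c ξ' → (∀ x ∈ Ω, ⟪ξ x, ξ' x⟫_ℝ = t) →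
      fm G.F c.m c.W ξ' = (t / 16) • fm G.F c.m c.W ξ := fun {ξ ξ'} A A' h => funext fun x => by
    by_cases hx : x ∈ Ω
    · have : ∀ a b, fF G.F c.m c.W ξ' a b x = t / 16 * fF G.F c.m c.W ξ a b x := fun a b => by
        rw [fF, A.rd.Fg_eq hB hG A.adm.ok A.adm.conn hx, real_inner_smul_left, h x hx]; ring
      simp only [fm, Pi.smul_apply, Num57.fm2_apply, this, Finset.smul_sum, smul_smul,
        mul_left_comm (t / 16)]
    · rw [Pi.smul_apply, A.rd.fm_off hx, A'.rd.fm_off hx, smul_zero]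
  have k1 := k A A' ht
  have k2 := k A' A fun x hx => (real_inner_comm _ _).trans (ht x hx)
  rw [k1, smul_smul] at k2
  rw [k1]
  by_cases z : fm G.F c.m c.W ξ = 0
  · simp [z]
  · rcases mul_self_eq_one_iff.1 (smul_left_injective ℝ z (k2.symm.trans (one_smul _ _).symm))
      with e | e <;> simp [e]

end gauge

section job
variable {Wi : Type} {X : Mf 4} {A κ lam : Type} [Fintype A] [Fintype κ] [Fintype lam]
  [DecidableEq lam] {M : Mark X A κ} {W : World M} {N : ML M lam} {Λ : Lns W N}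
  {A' h : Type} [Fintype A'] [DecidableEq A'] [Fintype h] {r n : ℕ}
  {J : Job Wi Λ A' h r n} {c : M.Cl} {δ : ℝ} {σ : Cel A'} {sh : Set A'} {n₀ : ℤ} {R : A}
  {Adm : (Wi →₀ ℝ) → Prop} {q : Wi →₀ ℝ} {y y' : J.Obc c} {s : A' → ℝ}

/-- a row whose kernel is a line -/
theorem eqv_line (hJ : J.OK) (hσ : σ ∈ J.𝒦) (hs : J.Ov σ c s) {x x' : Cg' W c lam r} {u ζ}
    (a : x.Adm (J.B c) (J.G c s)) (a' : x'.Adm (J.B c) (J.G c s))
    (e : CEq (J.G c s).F x x' univ id (fun x b a => (J.B c).P b a x) (J.B c).l u ζ) {l : h}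
    (hl : l ∈ J.unc c) {ψ ψ'} (k : Row J c q s x l ψ) (k' : Row J c q s x' l ψ')
    (L : Line J c q s x' l) : (J.cut c l).Eqv (J.cut c l) (J.B c) (J.B c) u ψ ψ' := by
  have g := hJ.kt hσ hs isClopen_univ
  have ok := hJ.ct σ hσ _ hs.1 c hs.2 l hl
  have ρ := Cnt93.rel_refl (k := J.cut c l) g.hB (subset_univ _)
  have E := (Cnt93.eqv_iff (g.toLG.of_ceq (ad0 a) (ad0 a') e) ρ).2
    ⟨1, rfl (a := Cnt93.Rh _ _ _ _ u 1 ψ)⟩
  obtain ⟨η, hη⟩ := L _ _ ((Eqv71.PcRel0.sol (hJ.σc_nat hσ hs isClopen_univ hl (subset_univ _) q)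
    g.toLG ok ok ρ (Eqv71.cr0_univ (ad0 a) (ad0 a') e) E).2 k) k'
  have cp := Hol14.cp_pp g.hB a'.ok (J.cut c l).x0
  exact Cnt93.eqv_trans (φ := id) (u' := fun _ => ContinuousLinearMap.id ℝ _) rfl rfl a'.ok.Jsq E
    ⟨η, by
      rw [hη, ContinuousLinearMap.comp_id]
      exact Hol14.It.rH_coe ⟨cp, cp, Hol14.csE_comm rfl _, Hol14.csE_comm cp.comm _⟩ _⟩

theorem U_hp {b : Bool} : M.sys.U (hp R b) = (M.sys.w R).sd b :=
  Set.ext fun _ => ⟨fun k => k R b (hp_some.2 ⟨rfl, rfl⟩), fun k _ _ e => by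
    obtain ⟨rfl, rfl⟩ := hp_some.1 e; exact k⟩

/-- a cut lies inside or outside -/
theorem side (hn : ∀ i, IsPreconnected (J.nb i)) (e : c.1 = {R}) {l : h} (hl : l ∈ J.unc c) :
    Inn J R l ∨ J.nb l ⊆ ⋃ ρ ∈ ({hp R true} : Set _), M.sys.U ρ := by
  rw [Inn, biUnion_singleton, U_hp, U_hp]
  refine ((hn l).subset_or_subset ((M.sys.w R).op_sd _) ((M.sys.w R).op_sd _) (M.sys.w R).dj.symm
    fun z hz => ((M.sys.w R).mem_cases false z).imp_right fun k => k.resolve_left fun k => ?_)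
  exact disjoint_left.1 hl hz (mem_biUnion (e.ge rfl) k)

variable (H : H1 J c δ sh σ Adm n₀) (ha : Adm q) (hy : Job.Sol σ q y) (f : FA J c σ n₀ y R)
include H ha hy f

open Classical in
/-- isomorphic outside, isomorphic inside, lines at the inner cuts -/
theorem iso_of (cl : IsClopen (oI W c R)) (hy' : Job.Sol σ q y') (f' : FA J c σ n₀ y' R)
    (e : y.s = y'.s) (o : EqP (pO J c sh σ R) y y') {u} (p : PI (J.G c y.s).F y.x y'.x (oI W c R) u)
    (L : ∀ l, Inn J R l → Line J c q y'.s y'.x l) : Job.Iso y y' := by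
  obtain ⟨_, x, Hz, ψ, β, ζ, k', j', l'⟩ := y'
  obtain rfl : y.s = _ := e
  obtain ⟨-, u', ζ', e', g⟩ := o
  have a := hy.sol.toAdm
  have a' := hy'.sol.toAdm
  have E := Lns95.ceq_glue (Λ.B_ok _ _) cl (ad0 a) (ad0 a') (fun _ => Obc.zero f.2.1)
    (fun _ => Obc.zero f'.2.1) p (Pat85.un_out (W := W) f.1.2.1 ▸ e')
  refine ⟨rfl, _, _, E, fun ⟨l, hl⟩ => (side H.loc.nb f.1.2.1 hl).elim (fun k => ?_) fun k => ?_⟩
  · exact eqv_line H.ok H.mem hy.ov a a' E hl (hy.cut l ((Pat85.fc_H H ha hy f.1).1.ge trivial))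
      (hy'.cut l ((Pat85.fc_H H ha hy' f'.1).1.ge trivial)) (L l k)
  · exact Lns95.eqv_congr (piecewise_eq_of_notMem _ _ _
      (Pat85.un_out (W := W) f.1.2.1 ▸ H.ok.cut_sub (c := c) k ⟨(0, 0), rfl⟩ :)) (g l ⟨trivial, k⟩)

omit ha f in
theorem ai_of {ξ} (a : Ab (J.B c) (J.G c y.s) (oI W c R) y.x ξ) :
    AI J c R q y.s y.x (y.kap (oI W c R)) ξ :=
  ⟨⟨σ, H.mem, hy.cell, hy.inf⟩, a, fun z _ => hy.sol.C z, hy.int.integrableOn, rfl⟩

omit ha in
/-- face objects are abelian inside -/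
theorem ab_of (cl : IsClopen (oI W c R)) (sc : SC (oI W c R)) :
    ∃ ξ, Ab (J.B c) (J.G c y.s) (oI W c R) y.x ξ := by
  refine Exists.imp (fun ξ k => ⟨hy.sol.toAdm, k, fun _ => Obc.zero f.2.1⟩) ?_
  rcases (oI W c R).eq_empty_or_nonempty with e | ⟨z, hz⟩
  · rw [e]
    exact ⟨0, ⟨nofun, nofun, nofun, nofun⟩, isOpen_empty, fun _ _ => rfl⟩
  · exact Loc8.exists_rd (Λ.B_ok _ _) (H.ok.G_ok H.mem hy.ov) hy.sol.toAdm cl.isOpen hz
      (sc.2 z hz) f.2.2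

omit ha in
theorem bs_of (b : Bool) : Rdc90.Bs (J.xs R).D (y.β R b) :=
  have w : R ∈ cylW c := ⟨f.1.2.1.ge rfl, f.1.2.2.1⟩
  let ⟨_, _, k, _⟩ := (wl H).num w; k _ (hy.crit _ w b)

variable {P : HD J c R} {e : Bool → A'} {k : ℝ} (O : P.OK Adm e k)
include O

/-- the holonomy of the limit -/
theorem cos_of {ξ m} (a : AI J c R q y.s y.x k ξ) (b : P.Cl y.s y.x ξ m) :
    Real.cos (2 * π * P.hl (y.β R true)) = Real.cos (2 * π * P.H m q y.s) := by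
  have t : Act J.m c R (some false) (J.Θ y.s) :=
    ⟨f.1.2.2.1, H.ok.memBr H.mem hy.ov, H.ok.memO H.mem hy.ov, f.1.2.1.ge rfl⟩
  rw [← bk hy R ((Pat85.fc_H H ha hy f.1).2.ge ⟨f.1.2.1.ge rfl, f.1.2.2.1⟩)]
  exact (O.lim q _ _ ξ m ha a b t _ _ (bs_of H hy f false)).1 (hy.lim R false t)

/-- non-central limits -/
theorem sin_of {ξ m} (a : AI J c R q y.s y.x k ξ) (b : P.Cl y.s y.x ξ m)
    (d : dz (J.xs R).D (y.β R true) = 1) : Real.sin (2 * π * P.H m q y.s) ≠ 0 := fun z => by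
  have β := bs_of H hy f true
  have := J.conn_xs R
  have k : ¬(P.hl (y.β R true) = 0 ∨ P.hl (y.β R true) = 1 / 2) := fun k => by
    have y₀ : (J.xs R).Y.M := Classical.arbitrary _
    simp [Clr59.dz_cen β.ok β.adm y₀ (O.clr.cen β k y₀)] at d
  have w := O.clr.mem (y.β R true)
  have p := Real.pi_pos
  have := Real.sin_pos_of_pos_of_lt_pi (x := 2 * π * P.hl (y.β R true))
    (mul_pos Real.two_pi_pos (w.1.lt_of_ne' (not_or.1 k).1))
    (by nlinarith [w.2.lt_of_ne (not_or.1 k).2])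
  have e1 := Real.sin_sq_add_cos_sq (2 * π * P.hl (y.β R true))
  have e2 := Real.sin_sq_add_cos_sq (2 * π * P.H m q y.s)
  rw [← cos_of H ha hy f O a b, z] at e2
  nlinarith

omit H ha hy f

/-- **simple roots of the matching equation** -/
theorem t_eq {m b} {q₀ : Wi →₀ ℝ} (a₀ : Adm q₀) (ov : Ovc J c σ s) (hb : σ (e b) = none)
    (h0 : s (e b) ∈ Ioo (0 : ℝ) 1)
    (hd : deriv (fun t => P.H m q₀ (update s (e b) t)) (s (e b)) ≠ 0)
    (hs : Real.sin (2 * π * P.H m q₀ s) ≠ 0) {α : Type} {l : Filter α} {q : α → Wi →₀ ℝ}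
    {t t' : α → ℝ} (cv : St.Cv l q q₀) (a : ∀ᶠ i in l, Adm (q i)) (ht : Tendsto t l (𝓝 (s (e b))))
    (ht' : Tendsto t' l (𝓝 (s (e b)))) : ∀ᶠ i in l,
      Real.cos (2 * π * P.H m (q i) (update s (e b) (t i))) =
        Real.cos (2 * π * P.H m (q i) (update s (e b) (t' i))) → t i = t' i := by
  classical
  obtain ⟨S, h1, h2⟩ := cv
  obtain ⟨η, η0, hη⟩ : ∃ η > 0, ∀ u ∈ Ioo (-1 : ℝ) 1, s (e b) + η * u ∈ Ico (0 : ℝ) 1 :=
    ⟨min (s (e b)) (1 - s (e b)), lt_min h0.1 (sub_pos.2 h0.2), fun u hu => by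
      have := min_le_left (s (e b)) (1 - s (e b))
      have := min_le_right (s (e b)) (1 - s (e b))
      have := lt_min h0.1 (sub_pos.2 h0.2)
      constructor <;> nlinarith [hu.1, hu.2]⟩
  obtain ⟨U, Φ, hU, hΦ, k⟩ := O.sm m (S ∪ q₀.support) (fun u => update s (e b) (s (e b) + η * u))
    ((contDiff_update _ _ _).comp (by fun_prop)) fun u hu => ⟨σ, O.line σ s b ov hb _ (hη u hu)⟩
  have v : ∀ᶠ u in 𝓝 (s (e b)), (u - s (e b)) / η ∈ Ioo (-1 : ℝ) 1 :=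
    (by fun_prop : Continuous fun u => (u - s (e b)) / η).continuousAt.eventually_mem
      (Ioo_mem_nhds (by simp) (by simp))
  have g : ∀ q u, Adm q → q.support ⊆ S ∪ q₀.support → (u - s (e b)) / η ∈ Ioo (-1 : ℝ) 1 →
      Φ (fun w => q w, (u - s (e b)) / η) = P.H m q (update s (e b) u) := fun q u a1 a2 a3 => by
    rw [(k q a1 a2).2 _ a3, mul_div_cancel₀ _ η0.ne', add_sub_cancel]
  have s₀ : q₀.support ⊆ S ∪ q₀.support := Finset.subset_union_right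
  filter_upwards [inj_ev (Ψ := fun p => Real.cos (2 * π * Φ (p.1, (p.2 - s (e b)) / η)))
    (v := fun i w => q i w) ((contDiffAt_const.mul (((hΦ.contDiffAt ((hU.prod isOpen_Ioo).mem_nhds
      ⟨(k q₀ a₀ s₀).1, v.self_of_nhds⟩)).of_le (mod_cast le_top)).comp (_, s (e b))
      (by fun_prop))).cos) (by
      rw [EventuallyEq.deriv_eq (f := fun u => Real.cos (2 * π * P.H m q₀ (update s (e b) u)))
        (v.mono fun u hu => by simp only [g q₀ u a₀ s₀ hu]),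
        ((differentiableAt_of_deriv_ne_zero hd).hasDerivAt.const_mul _).cos.deriv, update_eq_self]
      exact mul_ne_zero (neg_ne_zero.2 hs) (mul_ne_zero Real.two_pi_pos.ne' hd))
    (tendsto_pi_nhds.2 fun w => h2 w) ht ht', a, ht.eventually v, ht'.eventually v]
    with i b1 b2 b3 b4 b5
  have s₁ : (q i).support ⊆ S ∪ q₀.support := fun w hw => Finset.mem_union.2
    ((em _).imp_right fun n => by rwa [Finsupp.mem_support_iff, ← h1 i w n, ← Finsupp.mem_support_iff])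
  exact b1 (by simp only [g _ _ b2 s₁ b3, g _ _ b2 s₁ b4, b5])

/-- **the class of nearby face objects** -/
theorem cls_ev (H : H1 J c δ sh σ Adm n₀) (hc : ClcL J c) {q₀ : Wi →₀ ℝ} {y₀ : J.Obc c}
    (h₀ : Job.Sol σ q₀ y₀) {ξ₀} (A₀ : Ab (J.B c) (J.G c y₀.s) (oI W c R) y₀.x ξ₀)
    (c₀ : P.Cl y₀.s y₀.x ξ₀ P.g) {α : Type} {𝒰 : Ultrafilter α} {q : α → Wi →₀ ℝ}
    {y : α → J.Obc c} (d : ∀ᶠ i in (𝒰 : Filter α), Adm (q i) ∧ Job.Sol σ (q i) (y i) ∧
      FA J c σ n₀ (y i) R ∧ (y i).kap (oI W c R) = k) (l : Str 𝒰 y y₀) :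
    ∀ᶠ i in (𝒰 : Filter α), ∃ ξ, AI J c R (q i) (y i).s (y i).x k ξ ∧ P.Cl (y i).s (y i).x ξ P.g := by
  obtain ⟨m, hm⟩ := Ultrafilter.eventually_exists_iff.1 (d.mono fun i a =>
    let ⟨ξ, b⟩ := ab_of H a.2.1 a.2.2.1 O.cl O.sc
    have b' := a.2.2.2 ▸ ai_of H a.2.1 b
    (O.cls _ _ _ ξ a.1 b').imp fun m t => (⟨ξ, b', t⟩ :
      ∃ ξ, AI J c R (q i) (y i).s (y i).x k ξ ∧ P.Cl (y i).s (y i).x ξ m))
  obtain ⟨ξ, A₁, c₁⟩ := hc H.ok σ H.mem _ _ P.ε (P.v m) O.cl O.cs α 𝒰 q y q₀ y₀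
    ((d.and hm).mono fun _ ⟨a, ξ, b, t⟩ => ⟨a.2.1, ξ, b.ab, t⟩) h₀ l
  rcases fm_pm (Λ.B_ok _ _) (H.ok.G_ok H.mem h₀.ov) O.sc.1 A₀ A₁ with z | z
  · exact hm.mono fun _ ⟨ξ', b, t⟩ => ⟨ξ', b, fun j => (t j).trans ((c₁ j).symm.trans (by
      rw [xf, z]; exact c₀ j))⟩
  · exact hm.mono fun _ ⟨ξ', b, t⟩ => ⟨fun x => -ξ' x, ⟨b.pm, Lns95.ab_neg b.ab, b.C, b.int, b.lev⟩,
      fun j => by
        rw [xf, Abel74.fm_neg, neg_mul, Int54.integ_neg, t j, ← c₁ j, xf, z, neg_mul,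
          Int54.integ_neg, neg_neg]
        exact c₀ j⟩

end job

end Crest.Agent.X212.Mp86.Uq
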