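import Crest.Agent.X212.Mp86.OuB
import Crest.Agent.X212.Mp86.UqA

/-! Row 212, **NT-OUT** (helper86). -/

set_option autoImplicit false
set_option linter.unusedSectionVars false
noncomputable section
open scoped Manifold ContDiff Topology
open Set Function Filter

namespace Crest.Agent.X212.Mp86.Ou
open An M Nd18 Rf65 Pte3 Nt66 G75 Ins26 Mp86.St
open An.Job (Obc)

variable {κ lam : Type} [Fintype κ] [Fintype lam] [DecidableEq lam] {Lm : LM κ lam}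

theorem nb_out' {S : Scene Lm} (h : S.OK) {l l' : S.ls} (e : l' ≠ l) :
    S.nb l' ⊆ (S.M.sys.w l).sd true := fun x hx =>
  have k := disjoint_left.1 (h.lsd l' l'.2 l l.2 (Subtype.coe_injective.ne e)) (.inl hx)
  (((S.M.sys.w l).mem_cases true x).resolve_right fun j =>
    j.elim (fun j => k (.inr ((S.M.sys.w l).core_subset j))) fun j => k (.inl j))

/-- **LEAF NT-OUT** -/
theorem out (hT : ∀ X : Mf 4, TrfStmt X.I X.M (Option κ) (lam ⊕ lam))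
    (hC : ∀ (S : Scene Lm) (D : S.Dat) i Wi r n (J : Job Wi (D.Λ i) (S.A ⊕ Unit) S.ls r n) c,
      CmpStmt J c) : NfStmt Lm Out := by
  intro S D i Wi r n J X a₀ j n₀ T c G _ _
  refine ⟨1, one_pos, fun δ _ => An.Sml.of fun Adm σ q y l b E x ψ C f hf => ?_⟩
  obtain ⟨b₀, E₀, x₀, ψ₀, g, rg⟩ := C.reg
  have c1 := C.fa.1.2.1
  have s : ({hp l.1 true} : Set _) ⊆ {hp l.1 true, hp l.1 false} := fun _ k => .inl k
  have H₀ : CS σ E₀ := ⟨⟨G.ok, C.cs.mem, G.loc.pok σ C.cs.mem c _ _ _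
    (fun _ k => C.cs.pok.pc _ (s k)) subset_rfl⟩, g.ch.ok, g.ch.ov, g.sm⟩
  have := C.emp
  have : IsEmpty (UU {hp l.1 true} (zw J c) (cylW c)) :=
    ⟨fun ⟨u, v, ⟨π, h1, h2⟩, k⟩ => C.emp.false ⟨u, v, ⟨π, s h1, h2⟩, k⟩⟩
  have cm := hC _ _ _ _ _ _ J c G.ok δ
  have u := Pat85.un_out (W := D.W) c1
  refine out_job C.cs H₀ (fun a k => ⟨k.1, k.2.1, k.2.2.imp_right fun ⟨π, h1, h2⟩ => ⟨π, s h1, h2⟩⟩)
    (fun a k => ⟨k.1, k.2.trans (biUnion_subset_biUnion_left s)⟩) (Eqv71.ad0 C.sol.sol.toAdm)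
    ⟨J.cl_dom C.sol.cell, C.sol.inf⟩ C.gd.ch.rep g.ch.rep (hT _) (cm.1 _ _ _ _ _ _) subset_rfl
    (biUnion_subset_biUnion_left s) C.gd.ch.z g.ch.z (cm.2 _ _ _ _ _ C.cs) (cm.2 _ _ _ _ _ H₀)
    (fun _ hz => Obc.zero C.fa.2.1 (not_not.1 (u ▸ hz :))) (fun z hz => ?_)
    (fun a k => ⟨trivial, ?_⟩) rg hf
  · exact u.ge fun k => hz ((un_one _ _ _).ge k)
  · rw [biUnion_singleton, Uq.U_hp, G.nb]
    exact nb_out' G.sc k

end Crest.Agent.X212.Mp86.Ou
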