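import Crest.Agent.X212.Mp86.St

/-!
# Row 212, RFACE: the strata of the second stage (`Rf65.Stra2`)
-/

set_option autoImplicit false
set_option linter.unusedSectionVars false
noncomputable section
open scoped Manifold ContDiff Topology
open Set Function Filter

namespace Crest.Agent.X212.Mp86.St
open An M Nd18 Mod61 Nk89 Cht98 Rdc90 Rf65
open An.Job (StrOn Str Obc)

/-! ### regularising isolated objects one by one -/

section cnt
variable {W Y : Type} {G : (W →₀ ℝ) → Prop} {e : Setoid Y} {S R : (W →₀ ℝ) → Y → Prop}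
  {L : ∀ α : Type, Ultrafilter α → (α → Y) → Y → Prop}

variable (G e S R L) in
/-- compactness, openness, uniqueness near a solution, and a regularising perturbation -/
structure Cnt : Prop where
  op : St.IsOp G
  cp : ∀ q₀, G q₀ → ∀ α (𝒰 : Ultrafilter α) q (y : α → Y), St.Cv (𝒰 : Filter α) q q₀ →
    (∀ᶠ k in (𝒰 : Filter α), G (q k) ∧ S (q k) (y k)) → ∃ y₀, S q₀ y₀ ∧ L α 𝒰 y y₀
  ev : ∀ q₀, G q₀ → ∀ α (𝒰 : Ultrafilter α) q (y : α → Y) y₀, St.Cv (𝒰 : Filter α) q q₀ →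
    (∀ᶠ k in (𝒰 : Filter α), G (q k) ∧ S (q k) (y k)) → S q₀ y₀ → L α 𝒰 y y₀ → R q₀ y₀ →
    ∀ᶠ k in (𝒰 : Filter α), R (q k) (y k)
  uq : ∀ q₀, G q₀ → ∀ α (𝒰 : Ultrafilter α) q (y y' : α → Y) y₀, St.Cv (𝒰 : Filter α) q q₀ →
    (∀ᶠ k in (𝒰 : Filter α), G (q k) ∧ S (q k) (y k) ∧ S (q k) (y' k)) → S q₀ y₀ → L α 𝒰 y y₀ →
    L α 𝒰 y' y₀ → ∀ᶠ k in (𝒰 : Filter α), e (y k) (y' k)
  rf : ∀ q y α 𝒰, S q y → L α 𝒰 (fun _ => y) y
  tr : ∀ q y y' α (𝒰 : Ultrafilter α) z, S q y → S q y' → e y y' →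
    (∀ᶠ k in (𝒰 : Filter α), ∃ q', S q' (z k)) → L α 𝒰 z y → L α 𝒰 z y'
  nt : ∀ q y, G q → S q y → ∃ qq : ℕ → W →₀ ℝ, St.Cv atTop qq q ∧
    ∀ᶠ k in atTop, S (qq k) y ∧ (G (qq k) → R (qq k) y)

theorem cv_mono {α : Type} {l l' : Filter α} {q : α → W →₀ ℝ} {q₀ : W →₀ ℝ} (h : St.Cv l q q₀)
    (k : l' ≤ l) : St.Cv l' q q₀ := h.imp fun _ h => ⟨h.1, fun w => (h.2 w).mono_left k⟩

variable (e S R) in
/-- the classes of singular solutions -/
def Bad (q : W →₀ ℝ) : Set (Quotient e) := Quotient.mk e '' {y | S q y ∧ ¬R q y}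

namespace Cnt
variable (H : Cnt G e S R L) {q : W →₀ ℝ} {y y' : Y}
include H

theorem inv (hq : G q) (a : S q y) (b : S q y') (k : e y' y) (r : R q y) : R q y' :=
  (H.ev q hq Unit (pure ()) _ (fun _ => y') y (St.cv_const _ q) (.of_forall fun _ => ⟨hq, b⟩) a
    (H.tr q y' y _ _ _ b a k (.of_forall fun _ => ⟨q, b⟩) (H.rf q y' _ _ b)) r).exists.choose_spec

theorem fin (hq : G q) : (Bad e S R q).Finite := by
  by_contra hn
  let f := Set.Infinite.natEmbedding _ hn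
  choose z h1 h2 using fun n => (f n).2
  obtain ⟨y₀, h3, h4⟩ := H.cp q hq ℕ (hyperfilter ℕ) _ z (St.cv_const _ q)
    (.of_forall fun n => ⟨hq, (h1 n).1⟩)
  have h5 := H.uq q hq ℕ (hyperfilter ℕ) _ z (fun _ => y₀) y₀ (St.cv_const _ q)
    (.of_forall fun n => ⟨hq, (h1 n).1, h3⟩) h3 h4 (H.rf q y₀ _ _ h3)
  obtain ⟨i, hi, j, hj, k⟩ :=
    (show Set.Infinite _ from fun hf => notMem_hyperfilter_of_finite hf h5).nontrivial
  exact k (f.injective (Subtype.ext ((h2 i).symm.trans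
    ((Quotient.sound (e.trans hi (e.symm hj))).trans (h2 j)))))

theorem step (hq : G q) (a : S q y) (b : ¬R q y) {O : (W →₀ ℝ) → Prop} (hO : St.IsOp O) (o : O q) :
    ∃ q', O q' ∧ G q' ∧ (Bad e S R q').encard < (Bad e S R q).encard := by
  by_contra! hn
  obtain ⟨qq, h1, h2⟩ := H.nt q y hq a
  have u := Nat.hyperfilter_le_atTop
  have h3 := cv_mono h1 u
  have h4 := (H.op q hq _ _ _ h3).and (h2.filter_mono u)
  have : Nonempty Y := ⟨y⟩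
  have : Nonempty (Quotient e) := ⟨.mk e y⟩
  obtain ⟨z, hz⟩ := (h4.and (hO q o _ _ _ h3)).mono (q := fun k => ∃ z : Quotient e → Y,
      (∀ j ∈ Bad e S R q, S (qq k) (z j) ∧ ¬R (qq k) (z j)) ∧
      InjOn (fun j => Quotient.mk e (z j)) (Bad e S R q)) (fun k hk => by
    obtain ⟨f, h5, h6⟩ := (H.fin hq).exists_injOn_of_encard_le (hn _ hk.2 hk.1.1)
    choose! z h7 h8 using fun j (hj : j ∈ Bad e S R q) => h5 hj
    exact ⟨z, h7, h6.congr fun j hj => (h8 j hj).symm⟩) |>.choice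
  have s := fun j (hj : j ∈ Bad e S R q) => (h4.and hz).mono fun k hk =>
    And.intro hk.1.1 (hk.2.1 j hj).1
  choose! w h5 h6 using fun j (hj : j ∈ Bad e S R q) =>
    H.cp q hq ℕ _ qq (fun k => z k j) h3 (s j hj)
  have t := fun j (hj : j ∈ Bad e S R q) y' (h : S q y') (k : e (w j) y') =>
    H.tr q _ y' _ _ _ (h5 j hj) h k ((s j hj).mono fun _ k => ⟨_, k.2⟩) (h6 j hj)
  have m : MapsTo (fun j => Quotient.mk e (w j)) (Bad e S R q) (Bad e S R q) := fun j hj =>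
    ⟨_, ⟨h5 j hj, fun r => let ⟨_, k⟩ := ((H.ev q hq ℕ _ qq _ _ h3 (s j hj) (h5 j hj) (h6 j hj)
      r).and hz).exists; (k.2.1 j hj).2 k.1⟩, rfl⟩
  obtain ⟨j, hj, h7⟩ := (((H.fin hq).injOn_iff_bijOn_of_mapsTo m).1 fun j hj j' hj' k =>
    let ⟨_, k⟩ := ((H.uq q hq ℕ _ qq _ _ _ h3 (((s j hj).and (s j' hj')).mono fun _ k =>
      ⟨k.1.1, k.1.2, k.2.2⟩) (h5 j' hj') (t j hj _ (h5 j' hj') (Quotient.exact k))
      (h6 j' hj')).and hz).exists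
    k.2.2 hj hj' (Quotient.sound k.1)).surjOn ⟨y, ⟨a, b⟩, rfl⟩
  obtain ⟨k, h8, h9, h10⟩ := ((H.uq q hq ℕ _ qq _ (fun _ => y) y h3 (((s j hj).and h4).mono
    fun _ k => ⟨k.1.1, k.1.2, k.2.2.1⟩) a (t j hj y a (Quotient.exact h7))
    (H.rf q y _ _ a)).and (h4.and hz)).exists
  exact (h10.1 j hj).2 (H.inv h9.1 h9.2.1 (h10.1 j hj).1 h8 (h9.2.2 h9.1))

theorem low : Low.Ax ⟨G, fun q => G q ∧ ∀ y, S q y → R q y⟩ where
  le _ := And.left
  op q₀ h α l q hq := (H.op q₀ h.1 α l q hq).and (mem_iff_ultrafilter.2 fun 𝒰 u => by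
    by_contra hn
    obtain ⟨y, hy⟩ := ((Ultrafilter.eventually_not.2 hn).mono
      (q := fun k => ∃ y, S (q k) y ∧ ¬R (q k) y) fun k hk => by simpa using hk).choice
    have c := cv_mono hq u
    have s := ((H.op q₀ h.1 _ _ _ c).and hy).mono fun _ k => And.intro k.1 k.2.1
    obtain ⟨y₀, h1, h2⟩ := H.cp q₀ h.1 α 𝒰 q y c s
    obtain ⟨k, h3⟩ := ((H.ev q₀ h.1 α 𝒰 q y y₀ c s h1 h2 (h.2 y₀ h1)).and hy).exists
    exact h3.2.2 h3.1)
  ex O hO q₀ h1 h2 := by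
    induction h : (Bad e S R q₀).encard using WellFoundedLT.induction generalizing q₀ with
    | ind n ih =>
      by_cases k : ∀ y, S q₀ y → R q₀ y
      · exact ⟨q₀, h2, h1, k⟩
      push Not at k
      obtain ⟨y, a, b⟩ := k
      obtain ⟨q', h3, h4, h5⟩ := H.step h1 a b hO h2
      exact ih _ (h ▸ h5) q' h4 h3 rfl

end Cnt
end cnt

variable {Wi : Type} {X : Mf 4} {A κ lam : Type} [Fintype A] [Fintype κ] [Fintype lam]
  [DecidableEq lam] {M : Mark X A κ} {W : World M} {N : ML M lam} {Λ : Lns W N}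
  {A' h : Type} [Fintype A'] [DecidableEq A'] [Fintype h] {r n : ℕ}
  {J : Job Wi Λ A' h r n} {c : M.Cl} {δ : ℝ} {σ : Cel A'} {sh : Set A'} {n₀ : ℤ}
  {q : Wi →₀ ℝ} {y : J.Obc c} {Adm G : (Wi →₀ ℝ) → Prop} {Tr : (Wi →₀ ℝ) → J.Obc c → Prop} {x : A}

/-- strata by the energy, when all ideal solutions are faces -/
theorem triv (hf : J.FinE σ c Adm) (hG : ∀ q, G q → Adm q) {Fa : Prop}
    {P : (Wi →₀ ℝ) → J.Obc c → Prop}
    (k : ∀ q y, G q → Job.Sol σ q y → ¬y.Top → (Fa ∧ y.Tight) ∧ P q y) :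
    ∃ T : J.Stra c, ∀ B : (Wi →₀ ℝ) → Prop, (∀ q, B q → G q) → T.Ax B σ Obc.Top Fa ∧
      ∀ s q y, T.face s → B q → Job.Sol σ q y → T.mem s y → P q y :=
  ⟨⟨J.En c σ Adm, Subtype.val, fun _ => 0, fun s y => y.en = s ∧ ¬y.Top, fun _ => True,
    fun _ => Empty, fun _ _ => Empty, fun _ j => j.elim, fun {_ j} => j.elim⟩, fun _ hB =>
    ⟨⟨hf.to_subtype, fun _ => inferInstanceAs (Finite Empty), fun _ j => j.elim,
      fun q y a b e => ⟨⟨_, q, y, hG q (hB q a), b, rfl⟩, rfl, e⟩, fun _ _ _ _ _ e => e.2,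
      fun _ _ _ _ _ e => e.1, fun _ j => j.elim, fun _ j => j.elim, fun _ _ _ f => (f trivial).elim,
      fun _ q y _ a b e => (k q y (hB q a) b e.2).1, fun _ _ _ _ _ _ _ _ _ d _ f => .inl
        ⟨⟨tendsto_nhds_unique f.en (tendsto_const_nhds.congr' (d.mono fun _ k => k.2.2.1.symm)),
          fun t => let ⟨_, k⟩ := (d.and (f.top t)).exists; k.1.2.2.2 k.2⟩, fun j => j.elim⟩⟩,
      fun _ q y _ a b e => (k q y (hB q a) b e.2).2⟩⟩

theorem hp_ne : hp x false ≠ hp x true := fun e => by simpa [hp] using congrFun e x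

/-- both sides -/
abbrev PP (x : A) : Set (Reg A) := {hp x true, hp x false}

/-- the types of face objects: abelian, irreducible or with spinor inside -/
abbrev Ty (c : M.Cl) : Type := Option (Option (Set (Ed c)))

variable (x) in
/-- membership -/
def Ty.mem : Ty c → J.Obc c → Prop
  | none, y => ¬y.TF (hp x false) ∧ y.TA (hp x false)
  | some none, y => ¬y.TF (hp x false) ∧ ¬y.TA (hp x false)
  | some (some Z), y => y.TF (hp x false) ∧ cz y = Z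

variable (x) in
/-- the spinor pieces -/
def Ty.P : Ty c → Set (Reg A)
  | some none => {hp x true}
  | _ => PP x

variable (J) in
/-- the fixed ends -/
def Ty.Z : Ty c → Set (Ed c)
  | some (some Z) => Z
  | _ => zw J c

/-- the rank -/
def Ty.rk : Ty c → ℕ
  | none => 0
  | some none => 1
  | some (some Z) => Zᶜ.ncard + 2

theorem Ty.ex (y : J.Obc c) : ∃ s : Ty c, s.mem x y := by
  by_cases a : y.TF (hp x false)
  · exact ⟨some (some _), a, rfl⟩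
  · exact (em _).elim (fun b => ⟨none, a, b⟩) fun b => ⟨some none, a, b⟩

variable (J δ sh σ x) in
/-- the models -/
abbrev Ty.mo (s : Ty c) : Mo Wi (J.Obc c) :=
  St.mo J c δ σ (J.prt sh σ c (PP x) (s.P x) univ) (s.Z J) (cylW c)

variable (J c δ sh σ x G) in
/-- the strata of face objects -/
@[reducible] def idr : Idr Wi where
  S := Ty c
  X _ := J.Obc c
  Sol s q y := Job.Sol σ q y ∧ s.mem x y
  J s := PLift (s ≠ none)
  I s _ := (s.mo J δ σ sh x).Ic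
  P s _ := (s.mo J δ σ sh x).Pb
  rep {s _} i := (s.mo J δ σ sh x).rep i
  rank := Ty.rk
  Adm := G
  face s := s = none

variable (J c δ sh σ Adm n₀ Tr G x) in
/-- the situation after the first stage -/
structure Cx : Prop extends H2 J c δ sh σ Adm n₀ Tr where
  le : ∀ q, G q → Adm q
  op : St.IsOp G
  cx : c.1 = {x}
  np : ¬M.pin x
  g1 : ∀ q, G q → ∀ y, Job.Sol σ q y → Fc J c σ n₀ y x ∧
    (¬y.TF (hp x false) → Ok δ y (pO J c sh σ x) ∧ RegO J c δ sh σ q y x)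
  cg : ∀ q, G q → Cg J c σ Adm q
  t1 : ∀ q, G q → ∀ y, Job.Sol σ q y → FA J c σ n₀ y x → n₀ + Job.dim σ = 1 ∧ Tr q y

namespace Cx
variable (H : Cx J c δ σ sh n₀ Adm G Tr x)
include H

theorem mono {G' : (Wi →₀ ℝ) → Prop} (k : ∀ q, G' q → G q) (o : St.IsOp G') :
    Cx J c δ σ sh n₀ Adm G' Tr x :=
  ⟨H.toH2, fun q a => H.le q (k q a), o, H.cx, H.np, fun q a => H.g1 q (k q a),
    fun q a => H.cg q (k q a), fun q a => H.t1 q (k q a)⟩

theorem cw : x ∈ cylW c := ⟨H.cx.ge rfl, H.np⟩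

theorem pm (s : Ty c) : Pm J c δ σ (J.prt sh σ c (PP x) (s.P x) univ) :=
  pmP H.toH1 (insert_subset (hp_mem H.cx _) (singleton_subset_iff.2 (hp_mem H.cx _)))
    (by rcases s with _ | _ | _ <;> simp [Ty.P]) univ

theorem yH (hq : G q) (hy : Job.Sol σ q y) : y.H = univ ∧ jz y = cylW c :=
  have k := (H.g1 q hq y hy).1
  ⟨(hy.H_eq k.2.2.2.1.1).trans (H.num q y x (H.le q hq) hy k).1,
    sep_eq_self_iff_mem_true.2 k.2.2.2.1.2⟩

theorem dz1 (hq : G q) (hy : Job.Sol σ q y) (k : ¬y.TF (hp x false)) (b : Bool) :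
    dz (J.xs x).D (y.β x b) = 1 := by
  have a := H.g1 q hq y hy
  have := ((H.num q y x (H.le q hq) hy a.1).2.2 k (a.2 k).1).1
  cases b
  exacts [bk hy x ((H.yH hq hy).2.ge H.cw) ▸ this, this]

theorem zz (hq : G q) (hy : Job.Sol σ q y) (k : ¬y.TF (hp x false)) (i : Ed c) :
    i ∈ zw J c ↔ i ∈ cz y := by
  refine ⟨fun e => zw_cz H.toH1 hy e, fun e β hβ => ?_⟩
  obtain ⟨⟨a, ha⟩, b⟩ := i
  obtain rfl : a = x := H.cx.le ha.1
  have h6 := H.dz1 hq hy k b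
  obtain ⟨m, -, h7, h8⟩ := (wl H.toH1).num ha
  have h9 := (h8 _ (h7 _ (hy.crit _ ha b))).1
  have h10 : dh (J.xs a).D (y.β a b) = 0 := e.resolve_right fun e' =>
    absurd (h6.symm.trans e') (by decide)
  rw [h10, h6, mul_one] at h9
  rw [(h8 β hβ).1, ← h9, zero_mul]

theorem sE (hq : G q) (hy : Job.Sol σ q y) {P' : Set (Reg A)} {Z : Set (Ed c)}
    (k : ∀ π ∈ PP x, y.TF π → π ∈ P') (z : ∀ i, i ∈ Z ↔ i ∈ cz y) :
    SolE (J.prt sh σ c (PP x) P' univ) (mu (PP x) Z (cylW c)) σ q y :=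
  solE0 (p := J.prt sh σ c (PP x) P' univ) (wl H.toH1) ⟨hy.cell, hy.inf, hy.sol.toAdm, fun z hz => by
      obtain ⟨π, h1, h2⟩ := Cyl58.exists_pc W.toCaps z
      exact Obc.zero (fun t => hz (mem_un.2 ⟨π, k π (eq_hp (H.cx ▸ h1)) t, h2⟩)) h2,
    fun z _ => hy.sol.D z, fun z _ => hy.sol.C z, hy.sol.S,
    fun i _ => hy.cut i ((H.yH hq hy).1.ge trivial), fun a b ha _ => hy.lim a b ha,
    fun a ha b _ => hy.crit a ha b, hy.int.integrableOn⟩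
    (fun π hπ => .inl ⟨x, H.cw, by rcases hπ with rfl | rfl <;> simp [hp]⟩) (fun i _ => z i)
    (H.yH hq hy).2 (bk hy)

theorem z (hq : G q) (hy : Job.Sol σ q y) {s : Ty c} (m : s.mem x y) (i : Ed c) :
    i ∈ s.Z J ↔ i ∈ cz y := by
  rcases s with _ | _ | Z
  exacts [H.zz hq hy m.1 i, H.zz hq hy m.1 i, m.2 ▸ .rfl]

theorem sT (hq : G q) (hy : Job.Sol σ q y) {s : Ty c} (m : s.mem x y) :
    SolE (J.prt sh σ c (PP x) (s.P x) univ) (mu (PP x) (s.Z J) (cylW c)) σ q y :=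
  H.sE hq hy (by
    rcases s with _ | _ | Z
    exacts [fun _ k _ => k, fun _ k t => k.resolve_right fun e => m.1 (e ▸ t), fun _ k _ => k])
    (H.z hq hy m)

theorem ir (hq : G q) (hy : Job.Sol σ q y) {s : Ty c} (m : s.mem x y) (e : s ≠ none) :
    ∀ π ∈ PP x, y.TF π ∨ ¬y.TA π := by
  rintro _ (rfl | rfl)
  · exact .inl (H.g1 q hq y hy).1.2.2.2.2
  rcases s with _ | _ | Z
  exacts [(e rfl).elim, .inr m.2, .inl m.1]

variable {α : Type} {𝒰 : Ultrafilter α} {u : α → Wi →₀ ℝ} {z : α → J.Obc c}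

theorem son (hq : G q) (hy : Job.Sol σ q y) (f : Str 𝒰 z y) (P' : Set (Reg A)) :
    StrOn (J.prt sh σ c (PP x) P' univ) 𝒰 z y := (H.yH hq hy).1 ▸ f.on _ _

theorem ta (hy : Job.Sol σ q y) (f : Str 𝒰 z y)
    (d : ∀ᶠ k in (𝒰 : Filter α), Job.Sol σ (u k) (z k) ∧ (z k).TA (hp x false)) :
    y.TA (hp x false) :=
  H.lin α 𝒰 z y _ (hp_mem H.cx _) (hy.ok H.ok H.mem)
    (d.mono fun _ k => ⟨k.1.ok H.ok H.mem, k.2⟩) f

/-- abelian face objects are regular on an open dense set -/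
theorem cnt : Cnt G (J.feq c) (fun q y => Job.Sol σ q y ∧ FA J c σ n₀ y x)
    (Ty.mo J δ σ sh x none).Reg fun _ 𝒰 y y₀ => Str 𝒰 y y₀ where
  op := H.op
  cp q₀ a α 𝒰 q y b d := by
    obtain ⟨y₀, h1, h2⟩ := H.cg q₀ a α 𝒰 q y b (d.mono fun _ k => ⟨H.le _ k.1, k.2.1⟩)
    exact ⟨y₀, ⟨h1, (H.g1 q₀ a y₀ h1).1,
      fun t => let ⟨_, k⟩ := (d.and (h2.tf t)).exists; k.1.2.2.2.1 k.2,
      H.ta h1 h2 (d.mono fun _ k => ⟨k.2.1, k.2.2.2.2⟩)⟩, h2⟩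
  ev q₀ a α 𝒰 q y y₀ b d e f := (H.pm none).ev b
    (d.mono fun _ k => H.sT (s := none) k.1 k.2.1 k.2.2.2) (H.sT (s := none) a e.1 e.2.2)
    (H.son a e.1 f _)
  uq q₀ a α 𝒰 q y y' y₀ b d e f f' :=
    have t := H.t1 q₀ a y₀ e.1 e.2
    ((H.uq q₀ y₀ x (H.le _ a) e.1 e.2 ((H.g1 q₀ a y₀ e.1).2 e.2.2.1).2 t.1 t.2 α 𝒰 q y y' b
      (d.mono fun _ k => ⟨H.le _ k.1, k.2⟩) f f').and d).mono fun _ k =>
      (Job.feq_iff (k.2.2.1.1.ok H.ok H.mem) (k.2.2.2.1.ok H.ok H.mem)).2 k.1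
  rf q y _ _ a := (H.iso H.ok σ H.mem q y a.1).1 _ _
  tr q y y' _ _ z a b e d := ((H.iso H.ok σ H.mem q y a.1).2 y' b.1 a.2.1.2.2.2.1 b.2.1.2.2.2.1
    ((Job.feq_iff (a.1.ok H.ok H.mem) (b.1.ok H.ok H.mem)).1 e)).2.2.2 _ _ z
    (d.mono fun _ k => k.imp fun _ => And.left)
  nt q y a b := by
    have t := H.t1 q a y b.1 b.2
    have s := H.sT (s := none) a b.1 b.2.2
    obtain ⟨i, x₀, r, -⟩ := (H.pm none).pm.dens q y s
    obtain ⟨_, E, x', ψ, f⟩ := (H.pm none).pm.sol i y x₀ r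
    obtain ⟨qq, h1, h2⟩ := H.nt q y x (H.le _ a) b.1 b.2 ((H.g1 q a y b.1).2 b.2.2.1).2 t.1 t.2 _ E
      x' ψ (f q s).2.1
    exact ⟨qq, h1, h2.mono fun k hk => ⟨⟨hk.1, b.2⟩, fun g =>
      ⟨i, x₀, r, (f _ (H.sT (s := none) g hk.1 b.2.2)).2.2.2 hk.2⟩⟩⟩

theorem rt (hq : G q) (hy : Job.Sol σ q y) {b : Bool} (t : y.TF (hp x b)) : RT J c σ (hp x b) :=
  (H.rch.T _ (hp_mem H.cx b)).resolve_right fun e => e q y (H.le q hq) hy t

theorem stb2 (hq : G q) (hy : Job.Sol σ q y) (k : ¬y.TF (hp x false)) : stb y (PP x) = 2 := by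
  have : {i : Ed c | ∃ π ∈ PP x, π i.1 = some i.2} = {(⟨x, H.cw⟩, true), (⟨x, H.cw⟩, false)} := by
    refine (eq_univ_of_forall ?_).trans (eq_univ_of_forall ?_).symm <;> rintro ⟨⟨a, ha⟩, b⟩ <;>
      obtain rfl : a = x := H.cx.le ha.1
    · exact ⟨hp a b, by cases b <;> simp, by simp [hp]⟩
    · cases b <;> simp
  rw [stb, this, finsum_mem_pair (by simp), H.dz1 hq hy k, H.dz1 hq hy k]

/-- the other face objects die -/
theorem ax (R : ∀ q, G q → ∀ y, Job.Sol σ q y ∧ FA J c σ n₀ y x → (Ty.mo J δ σ sh x none).Reg q y) :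
    (idr J c δ σ sh G x).Ax where
  fin := inferInstanceAs (Finite (Ty c))
  finJ _ := Finite.of_subsingleton
  ax s _ i := (H.pm s).pm.ax i G
  adm := H.op
  sol s _ _ _ _ _ a b := (H.pm s).sol (H.sT a b.1 b.2)
  dens s j q y a b := by
    obtain ⟨i, x₀, r, f⟩ := (H.pm s).pm.dens q y (H.sT a b.1 b.2)
    have t := (H.g1 q a y b.1).1
    refine ⟨i, x₀, r, .inr (f (H.pm s).ri ?_ ?_)⟩ <;> rcases s with _ | _ | Z
    · exact (j.1 rfl).elim
    · exact ⟨fun _ e => e ▸ t.2.2.2.2, fun _ e e' => e.resolve_left e' ▸ b.2.2⟩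
    · exact ⟨fun _ e => e.elim (· ▸ t.2.2.2.2) (· ▸ b.2.1), fun _ e e' => (e' e).elim⟩
    · exact (j.1 rfl).elim
    · rintro _ (rfl | rfl)
      exacts [.inl (H.rt a b.1 t.2.2.2.2), (H.cok q y x (H.le q a) b.1 t).imp id fun k => ⟨hp_ne, k⟩]
    · rintro _ (rfl | rfl)
      exacts [.inl (H.rt a b.1 t.2.2.2.2), .inl (H.rt a b.1 b.2.1)]
  kill s q y f a b e := by
    have k := (H.pm s).ok0 (H.sT a b.1 b.2) (e ⟨f⟩) (fun i _ => H.z a b.1 b.2 i) (H.yH a b.1).2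
      (H.ir a b.1 b.2 f)
    have g := H.g1 q a y b.1
    have t := H.num q y x (H.le q a) b.1 g.1
    rcases s with _ | _ | Z
    · exact f rfl
    · have h1 := k.trans (t.2.2 b.2.1 (g.2 b.2.1).1).2.2.2
      have h2 : stb y (J.prt sh σ c (PP x) (Ty.P x (some none : Ty c)) univ).P = 2 :=
        H.stb2 a b.1 b.2.1
      have := H.r0
      omega
    · exact t.2.1 k
  comp s q₀ a α 𝒰 q y b d := by
    obtain ⟨y₀, h1, h2⟩ := H.cg q₀ a α 𝒰 q y b (d.mono fun _ k => ⟨H.le _ k.1, k.2.1⟩)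
    obtain ⟨s₀, m⟩ := Ty.ex (x := x) y₀
    by_cases e : s₀ = s
    · subst e
      exact .inl ⟨y₀, ⟨h1, m⟩, fun _ => (H.pm s₀).pm.near q₀ α 𝒰 q y y₀ b
        (d.mono fun _ k => H.sT k.1 k.2.1 k.2.2) (H.sT a h1 m) (H.son a h1 h2 _)⟩
    have cc : ∀ Z, s = some (some Z) → Z ⊆ cz y₀ := fun Z e i hi =>
      H.ccl α 𝒰 q y q₀ y₀ (d.mono fun _ k => k.2.1) h1 h2 i (d.mono fun _ k => (e ▸ k.2.2).2.ge hi)
    refine .inr ⟨s₀, y₀, ?_, ⟨h1, m⟩, fun f _ => ?_⟩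
    · have tf := fun t => (d.and (h2.tf (π := hp x false) t)).exists
      rcases s₀ with _ | _ | Z₀ <;> rcases s with _ | _ | Z
      · exact (e rfl).elim
      · exact one_pos
      · exact Nat.succ_pos _
      · exact (m.2 (H.ta h1 h2 (d.mono fun _ k => ⟨k.2.1, k.2.2.2⟩))).elim
      · exact (e rfl).elim
      · exact Nat.lt_add_left _ one_lt_two
      · exact let ⟨_, k⟩ := tf m.1; (k.1.2.2.1 k.2).elim
      · exact let ⟨_, k⟩ := tf m.1; (k.1.2.2.1 k.2).elim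
      · exact Nat.add_lt_add_right (ncard_lt_ncard (compl_lt_compl_iff_lt.2
          ((m.2 ▸ cc Z rfl :).ssubset_of_ne fun k => e (k ▸ rfl)))) 2
    · obtain rfl : s₀ = none := f
      have z : ∀ᶠ k in (𝒰 : Filter α), ∀ i, i ∈ zw J c ↔ i ∈ cz (y k) := d.mono fun _ k i => by
        rcases s with _ | _ | Z
        exacts [(e rfl).elim, H.zz k.1 k.2.1 k.2.2.1 i, ⟨fun t => zw_cz H.toH1 k.2.1 t,
          fun t => (H.zz a h1 m.1 i).2 (cc Z rfl (k.2.2.2.le t))⟩]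
      have s1 := (d.and z).mono fun _ k => H.sE k.1.1 k.1.2.1 (fun _ t _ => t) k.2
      obtain ⟨k, h3, h4, h5, h6⟩ := (((H.pm none).ev b s1 (H.sT (s := none) a h1 m) (H.son a h1 h2 _)
        (R q₀ a y₀ ⟨h1, (H.g1 q₀ a y₀ h1).1, m⟩)).and (s1.and (d.and z))).exists
      exact ((H.num _ _ x (H.le _ h5.1) h5.2.1 (H.g1 _ h5.1 _ h5.2.1).1).2.1 ((H.pm none).ok0 h4 h3
        (fun i _ => h6 i) (H.yH h5.1 h5.2.1).2 (H.ir h5.1 h5.2.1 h5.2.2 (Ne.symm e)))).elim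

end Cx

/-- **the strata of the second stage** -/
theorem stra2 : Stra2 J c δ sh σ Adm n₀ Tr := fun H G lw g => by
  by_cases hx : ∃ x, c.1 = {x} ∧ ¬M.pin x
  swap
  · obtain ⟨T, k⟩ := triv H.fin lw.le fun q y a b e =>
      let ⟨x, t, _⟩ := (g q a).1 y b e; (hx ⟨x, t.2.1, t.2.2.1⟩).elim
    exact ⟨T, G, lw, k⟩
  obtain ⟨x, h1, h2⟩ := hx
  have h0 : c ≠ M.c0 := fun e => (singleton_nonempty x).ne_empty (h1.symm.trans (congrArg Subtype.val e))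
  obtain ⟨G₁, l1, t1⟩ := H.tr G lw fun q a => ⟨(g q a).1, (g q a).2 h0⟩
  have l2 := lw.and l1
  have C : Cx J c δ σ sh n₀ Adm _ Tr x := ⟨H, l2.le, l2.op, h1, h2, fun q a y b => by
    obtain ⟨x', t⟩ := (g q a.1).1 y b fun t => h0 t.1
    rwa [singleton_injective (h1.symm.trans t.1.2.1)], fun q a => (g q a.1).2 h0,
    fun q a y b => t1 q a.2 y x b⟩
  have l3 := C.cnt.low
  have ax := (C.mono l3.le l3.op).ax fun _ => And.right
  obtain ⟨T, k⟩ := triv (Fa := Fa J c σ n₀) (P := fun q y => ∃ x, FA J c σ n₀ y x ∧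
      Ok δ y (pO J c sh σ x) ∧ RegO J c δ sh σ q y x ∧ RegW J c δ sh σ q y x ∧ Tr q y)
    H.fin ((l2.trans l3).trans ax.low).le fun q y a b _ => by
    obtain ⟨s, m⟩ := Ty.ex (x := x) y
    obtain rfl : s = none := ax.face_of a ⟨b, m⟩
    have t := C.g1 q a.1.1 y b
    have f : FA J c σ n₀ y x := ⟨t.1, m⟩
    have t' := C.t1 q a.1.1 y b f
    exact ⟨⟨⟨t'.1, fa1 H.ok H.mem b h1 h2⟩, t.1.2.2.2.1⟩, x, f, (t.2 m.1).1, (t.2 m.1).2,
      regP (C.pm none).pm (C.sT (s := none) a.1.1 b m) (a.1.2 y ⟨b, f⟩), t'.2⟩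
  exact ⟨T, _, (l2.trans l3).trans ax.low, k⟩

end Crest.Agent.X212.Mp86.St
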