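import Crest.Agent.X212.Rf65.Pl

/-!
# Row 212, RFACE: the strata of the first stage (`Rf65.Stra1`)
-/

set_option autoImplicit false
set_option linter.unusedSectionVars false
noncomputable section
open scoped Manifold ContDiff Topology
open Set Function Filter

namespace Crest.Agent.X212.Mp86.St
open An M Nd18 Mod61 Nk89 Cht98 Rdc90 Rf65
open An.Job (StrOn Str Obc)

/-- regularity is open along represented families -/
theorem reg_ev {Wi X α : Type} {Q : Prob Wi} {Adm : (Wi →₀ ℝ) → Prop} (h : Q.Ax Adm)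
    {rep : X → Q.X → Prop} {l : Filter α} {q : α → Wi →₀ ℝ} {q₀ : Wi →₀ ℝ} {y : α → X} {x₀ : Q.X}
    (hq : St.Cv l q q₀) (h0 : Q.In x₀) (hr : Q.Reg q₀ x₀) (hn : RNear rep l y x₀)
    (hi : ∀ᶠ k in l, ∀ x, rep (y k) x → Q.In x) : ∀ᶠ k in l, ∃ x, rep (y k) x ∧ Q.Reg (q k) x := by
  classical
  obtain ⟨J, hJ, hl⟩ := hq
  have e' : ∀ i, q₀ + Fin93.ext0 J (fun w : J => q i w - q₀ w) = q i := fun i => by
    ext w
    by_cases hw : w ∈ J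
    · have := Fin93.ext0_mem (fun w : J => q i w - q₀ w) ⟨w, hw⟩
      simp only [Finsupp.add_apply, this]; ring
    · simp only [Finsupp.add_apply, Fin93.ext0_not_mem _ hw, hJ i w hw, add_zero]
  obtain ⟨B, hB, C, hC, e⟩ := mem_prod_iff.1
    (h.reg_open (q := q₀) (J := J) (p₀ := 0) h0 (by rw [Idl.add_ext0]; exact hr))
  have h2 : Tendsto (fun i => fun w : J => q i w - q₀ w) l (𝓝 0) :=
    tendsto_pi_nhds.2 fun w => tendsto_sub_nhds_zero_iff.2 (hl w)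
  filter_upwards [h2 hB, hn C hC, hi] with k a ⟨x, b, r⟩ d
  exact ⟨x, r, e' k ▸ e (mk_mem_prod a b) (d x r)⟩

/-! ### the two sides of a wall -/

section side
variable {X A : Type} [TopologicalSpace X] {S : Sys X A} {x : A}

theorem hp_some {a : A} {b b' : Bool} : hp x b a = some b' ↔ a = x ∧ b' = b := by
  by_cases e : a = x <;> simp [hp, e, eq_comm]

theorem piece_hp (b : Bool) : S.Piece {x} (hp x b) where
  cell := Set.Subsingleton.pairwise (fun _ h _ h' =>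
    let ⟨_, k⟩ := Sys.mem_bd.1 h; let ⟨_, k'⟩ := Sys.mem_bd.1 h'
    (hp_some.1 k).1.trans (hp_some.1 k').1.symm) _
  adj a b' k z hz a' b'' k' := by
    obtain ⟨rfl, rfl⟩ := hp_some.1 k
    obtain ⟨rfl, rfl⟩ := hp_some.1 k'
    exact hz.2
  bd_subset _ h := let ⟨_, k⟩ := Sys.mem_bd.1 h; (hp_some.1 k).1
  not_inn a h k := by
    obtain rfl : a = x := h
    simpa [hp] using k.1

theorem eq_hp {π : Reg A} (h : S.Piece {x} π) : π = hp x true ∨ π = hp x false := by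
  have k : ∀ a ≠ x, π a = none := fun a e => by_contra fun k => e (h.bd_subset k)
  have : ∀ b, π x = some b → π = hp x b := fun b e => funext fun a => by
    by_cases e' : a = x
    · subst e'; simpa [hp] using e
    · simpa [hp, e'] using k a e'
  rcases e : π x with _ | _ | _
  · obtain rfl : π = top A := funext fun a => (em (a = x)).elim (· ▸ e) (k a)
    exact (h.not_inn x rfl (by simp)).elim
  exacts [.inr (this _ e), .inl (this _ e)]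

end side

variable {Wi : Type} {X : Mf 4} {A κ lam : Type} [Fintype A] [Fintype κ] [Fintype lam]
  [DecidableEq lam]

theorem brk0 {S : Xs Wi κ lam} {q β ζ β' ζ' k j} (h : S.N.Brk S.D q β ζ β' ζ' k j) (e : j = 0) :
    β = β' := by
  cases h
  exacts [rfl, by omega, by omega]

variable {M : Mark X A κ} {W : World M} {N : ML M lam} {Λ : Lns W N}
  {A' h : Type} [Fintype A'] [DecidableEq A'] [Fintype h] {r n : ℕ}
  {J : Job Wi Λ A' h r n} {c : M.Cl} {δ : ℝ} {σ : Cel A'} {p : Prt A A' h} {Z : Set (Ed c)}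
  {j0 : Set A} {q : Wi →₀ ℝ} {y : J.Obc c} {Adm : (Wi →₀ ℝ) → Prop}

/-! ### the type of the limits -/

theorem mu_ne {P : Set (Reg A)} {i : Ed c} : mu P Z j0 i ≠ none ↔ i ∈ EdP c P ∧ i ∉ Z := by
  unfold mu; split_ifs with k <;> simp [k]

theorem mu_ky {P : Set (Reg A)} {i i' : Ed c} (e : mu P Z j0 i = mu P Z j0 i')
    (k : mu P Z j0 i ≠ none) : ky j0 i = ky j0 i' := by
  have k' := mu_ne.1 (e ▸ k)
  simp only [mu, dif_pos (mu_ne.1 k), dif_pos k'] at e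
  exact congrArg Subtype.val (Option.some.inj e)

theorem muOK (P : Set (Reg A)) : MuOK (mu P Z j0) P where
  off _ k := by_contra fun e => k (mu_ne.1 e).1
  inj i i' e k := by
    have : ∀ i : Ed c, (ky j0 i).1 = i.1 := fun i => by unfold ky; split_ifs <;> rfl
    rw [← this i, mu_ky e k, this]
  sur := by
    rintro ⟨_, i, a, b, rfl⟩
    exact ⟨i, dif_pos ⟨a, b⟩⟩

/-- the facts on the walls -/
structure Wl (J : Job Wi Λ A' h r n) (c : M.Cl) : Prop where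
  ok : J.OK
  pj : PJ J c
  wl : ∀ a, WlStmt (J.xs a).D

theorem Wl.noz (H : Wl J c) : Wl J.noz c := ⟨H.ok.noz, ⟨H.pj.nil, H.pj.py⟩, H.wl⟩

theorem Wl.num (H : Wl J c) {a : A} (ha : a ∈ cylW c) : ∃ b ≤ 1,
    (∀ β, (J.xs a).N.Crit (J.xs a).D β → Bs (J.xs a).D β) ∧ ∀ β, Bs (J.xs a).D β →
      dh (J.xs a).D β = b * dz (J.xs a).D β ∧
        (dz (J.xs a).D β = 0 ∨ dz (J.xs a).D β = 1 ∨ dz (J.xs a).D β = 3) :=
  let ⟨b, k⟩ := H.pj.py a ha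
  have := H.wl a _ b (H.ok.xs a).1.yd (H.pj.nil a ha).1 k
  ⟨b, k.b1, this.1, this.2.1⟩

variable (σ p Z j0 q y) in
/-- the part sees `y` with limits of the type `Z`, `j0` -/
structure Sn : Prop extends Job.SolOn p σ q y, Job.In p y where
  z : ∀ i ∈ EdP c p.P, (i ∈ Z ↔ i ∈ cz y)
  j : jz y = j0
  b : ∀ a ∈ jz y, y.β a false = y.β a true
  t : ∀ π ∈ p.P, RT J c σ π

theorem solE0 (H : Wl J c) (k : Job.SolOn p σ q y)
    (fr : ∀ π ∈ p.P, (∃ a ∈ cylW c, π a ≠ none) ∨ y.TF π ∨ π ∉ p.P' ∧ ¬y.TA π)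
    (z : ∀ i ∈ EdP c p.P, (i ∈ Z ↔ i ∈ cz y)) (j : jz y = j0)
    (bb : ∀ a ∈ jz y, y.β a false = y.β a true) : SolE p (mu p.P Z j0) σ q y where
  toSolOn := k
  fr := fr
  fx i hi e := (z i hi).1 (by_contra fun e' => mu_ne.2 ⟨hi, e'⟩ e)
  mv i e := by
    obtain ⟨hi, e⟩ := mu_ne.1 e
    obtain ⟨b, h1, h2, h3⟩ := H.num i.1.2
    obtain ⟨h4, h5⟩ := h3 _ (h2 _ (k.crit _ i.1.2 i.2 hi))
    obtain ⟨h6, h7⟩ := not_or.1 (mt (z i hi).2 e)
    obtain rfl : b = 1 := by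
      rcases Nat.le_one_iff_eq_zero_or_eq_one.1 h1 with rfl | rfl
      exacts [(h6 (by simpa using h4)).elim, rfl]
    omega
  mt a e e' := by
    have h1 := mu_ky e e'
    have h2 : a.1 ∈ j0 := by_contra fun h2 => by simp [ky, h2] at h1
    obtain ⟨-, -, h3, -⟩ := H.num a.2
    have h4 := h3 _ (k.crit _ a.2 false (mu_ne.1 e').1)
    rw [← bb a (j ▸ h2)]
    exact Eqv71.isoOn_refl h4.ok.B h4.ok.G isOpen_univ (Eqv71.ad0 h4.adm.adm)

theorem Sn.solE (H : Wl J c) (k : Sn σ p Z j0 q y) : SolE p (mu p.P Z j0) σ q y :=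
  solE0 H k.toSolOn (fun π hπ => .inr ((em (π ∈ p.P')).imp (k.sp π) fun e => ⟨e, k.ir π hπ e⟩))
    k.z k.j k.b

/-! ### models -/

instance {X : Type} : Nonempty (Mo Wi X) := ⟨⟨Empty, Empty.elim, fun i => i.elim⟩⟩

variable (J c δ σ p Z j0) in
/-- the model of a part -/
def mo : Mo Wi (J.Obc c) := Classical.epsilon (PM δ σ p (mu p.P Z j0))

theorem regP {U : Type} [Fintype U] {μ : Ed c → Option U} {D : Mo Wi (J.Obc c)}
    (H : PM δ σ p μ D) (k : SolE p μ σ q y) (e : D.Reg q y) : RegP δ σ p μ q y :=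
  let ⟨i, x, a, e⟩ := e; let ⟨b, E, x', ψ, f⟩ := H.sol i y x a
  ⟨b, E, x', ψ, (f q k).2.1, (f q k).2.2.1 e⟩

/-- what a model needs -/
structure Pm (J : Job Wi Λ A' h r n) (c : M.Cl) (δ : ℝ) (σ : Cel A') (p : Prt A A' h) : Prop
    extends Wl J c, An0 J c δ where
  mem : σ ∈ J.𝒦
  pok : J.POK σ c p
  ri : CRich J c σ p

namespace Pm
variable (H : Pm J c δ σ p)
include H

theorem ph : PH J σ c p (mu p.P Z j0) := ⟨H.ok, H.mem, H.pok, H.pj, muOK _⟩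

theorem pm : PM δ σ p (mu p.P Z j0) (mo J c δ σ p Z j0) :=
  Classical.epsilon_spec (H.pt σ p _ _ H.ph)

theorem reg (k : Sn σ p Z j0 q y) (e : (mo J c δ σ p Z j0).Reg q y) :
    RegP δ σ p (mu p.P Z j0) q y := regP H.pm (k.solE H.toWl) e

theorem ok0 (k : SolE p (mu p.P Z j0) σ q y) (e : (mo J c δ σ p Z j0).Reg q y)
    (z : ∀ i ∈ EdP c p.P, (i ∈ Z ↔ i ∈ cz y)) (j : jz y = j0) (ir : ∀ π ∈ p.P, y.TF π ∨ ¬y.TA π) :
    Ok δ y p := by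
  obtain ⟨b, E, x, ψ, g, f⟩ := regP H.pm k e
  have := (H.sym σ p _ _ b δ E q y x ψ p.P H.ph H.spl k g.ch g.sm f subset_rfl ir).1
  have e : UU p.P Z j0 ≃ UU p.P (cz y) (jz y) := Equiv.subtypeEquivRight fun u =>
    exists_congr fun i => and_congr_right fun hi => by rw [z i hi, j]
  rwa [Fintype.card_congr e] at this

theorem sol (k : SolE p (mu p.P Z j0) σ q y) {i x} (e : (mo J c δ σ p Z j0).rep i y x) :
    ((mo J c δ σ p Z j0).Pb i).Sol q x :=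
  let ⟨_, _, _, _, f⟩ := H.pm.sol i y x e; (f q k).1

/-- regularity is open -/
theorem ev {α : Type} {𝒰 : Ultrafilter α} {q : α → Wi →₀ ℝ} {y : α → J.Obc c} {q₀ y₀}
    (a : St.Cv (𝒰 : Filter α) q q₀)
    (b : ∀ᶠ k in (𝒰 : Filter α), SolE p (mu p.P Z j0) σ (q k) (y k))
    (d : SolE p (mu p.P Z j0) σ q₀ y₀) (e : StrOn p 𝒰 y y₀) (f : (mo J c δ σ p Z j0).Reg q₀ y₀) :
    ∀ᶠ k in (𝒰 : Filter α), (mo J c δ σ p Z j0).Reg (q k) (y k) :=
  let ⟨i, x₀, r, f⟩ := f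
  (reg_ev (H.pm.ax i fun _ => True) a (H.sol d r).1 f (H.pm.near q₀ α 𝒰 q y y₀ a b d e i x₀ r)
    (b.mono fun _ k _ r => (H.sol k r).1)).mono fun _ k => ⟨i, k⟩

theorem ax : (mo J c δ σ p Z j0).Ax Adm (Sn σ p Z j0) (fun _ 𝒰 y y₀ => StrOn p 𝒰 y y₀)
    fun y => Ok δ y p where
  ax i := H.pm.ax i Adm
  sol _ _ _ _ _ k e := H.sol (k.solE H.toWl) e
  dens q y _ k := let ⟨i, x, a, b⟩ := H.pm.dens q y (k.solE H.toWl)
    ⟨i, x, a, .inr (b H.ri k.toIn fun π hπ => .inl (k.t π hπ))⟩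
  near q₀ _ α 𝒰 q y y₀ a b d := H.pm.near q₀ α 𝒰 q y y₀ a (b.mono fun _ k => k.2.solE H.toWl)
    (d.solE H.toWl)
  ker _ _ _ k e := H.ok0 (k.solE H.toWl) e k.z k.j
    fun π hπ => (em (π ∈ p.P')).imp (k.sp π) (k.ir π hπ)

end Pm

/-! ### the strata -/

/-- the discrete data -/
structure Sd (c : M.Cl) (h : Type) (E : Set ℝ) extends Dt A h E where
  Z : Set (Ed c)
  j : Set A

variable {E : Set ℝ} {n₀ : ℤ} {sh : Set A'} {s : Sd c h E} {x : A}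

theorem Sd.finite (hE : E.Finite) : Finite (Sd c h E) :=
  have := Dt.finite (A := A) (h := h) hE
  .of_injective (fun d => (d.toDt, d.Z, d.j)) fun ⟨_, _, _⟩ ⟨_, _, _⟩ e => by simpa using e

/-- membership -/
structure Mem (s : Sd c h E) (y : J.Obc c) : Prop where
  F : y.F (Rf65.Pc c) = s.F
  I : y.I (Rf65.Pc c) = s.I
  H : y.H = s.H
  t : y.Tight ↔ s.t
  e : y.en = s.e
  nt : ¬y.Top
  Z : cz y = s.Z
  j : jz y = s.j

/-- the data of an object -/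
def sd (y : J.Obc c) (he : y.en ∈ E) : Sd c h E :=
  ⟨⟨y.F (Rf65.Pc c), y.I (Rf65.Pc c), y.H, y.Tight, _, he⟩, cz y, jz y⟩

theorem mem_sd (he : y.en ∈ E) (k : ¬y.Top) : Mem (sd y he) y :=
  ⟨rfl, rfl, rfl, .rfl, rfl, k, rfl, rfl⟩

variable (σ n₀ s x) in
/-- face strata -/
def Fs : Prop := n₀ + Job.dim σ ≤ 1 ∧ c.1 = {x} ∧ ¬M.pin x ∧ s.t ∧ hp x true ∈ s.F

theorem hp_mem (e : c.1 = {x}) (b : Bool) : hp x b ∈ Rf65.Pc c := by
  rw [Rf65.Pc, e]; exact piece_hp b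

theorem Mem.sub (m : Mem s y) : s.F ⊆ Rf65.Pc c := m.F ▸ sep_subset _ _

theorem Mem.tf (m : Mem s y) (e : c.1 = {x}) (b : Bool) : hp x b ∈ s.F ↔ y.TF (hp x b) :=
  m.F ▸ and_iff_right (hp_mem e b)

theorem Mem.fs (m : Mem s y) : Fs σ n₀ s x ↔ Fc J c σ n₀ y x :=
  and_congr_right fun _ => and_congr_right fun e => and_congr_right fun _ =>
    and_congr m.t.symm (m.tf e true)

theorem Fs.uq {x' : A} (a : Fs σ n₀ s x) (b : Fs σ n₀ s x') : x = x' :=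
  singleton_injective (a.2.1.symm.trans b.2.1)

theorem Fs.F (f : Fs σ n₀ s x) (k : s.F ⊆ Rf65.Pc c) (e : hp x false ∉ s.F) : s.F = {hp x true} :=
  eq_singleton_iff_unique_mem.2 ⟨f.2.2.2.2, fun π hπ =>
    (eq_hp (S := M.sys) (f.2.1 ▸ (k hπ : M.sys.Piece c.1 π))).resolve_right fun e' => e (e' ▸ hπ)⟩

variable (J s) in
/-- the fixed ends of the spinor part -/
def Zs : Set (Ed c) := {i | (i ∈ EdP c s.F → i ∈ s.Z) ∧ (i ∉ EdP c s.F → i ∈ zw J c)}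

variable (J δ sh σ s) in
/-- the models of the parts -/
def mS : Option (Reg A) → Mo Wi (J.Obc c)
  | none => mo J c δ σ (J.prt sh σ c s.F s.F s.H) (Zs J s) s.j
  | some π => (mo J.noz c δ σ (J.prt sh σ c {π} ∅ s.H) s.Z s.j).comap Obc.noz

variable (δ sh σ s) in
/-- what regularity gives -/
def okS : Option (Reg A) → J.Obc c → Prop
  | none => fun y => Ok δ y (J.prt sh σ c s.F s.F s.H)
  | some π => fun y => Ok δ y.noz (J.prt sh σ c {π} ∅ s.H)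

variable (J σ n₀ s) in
/-- the parts of a stratum -/
def Ac : Option (Reg A) → Prop
  | none => s.F.Nonempty ∧ s.F ⊆ Rf65.Pc c ∧ ∀ x, Fs σ n₀ s x → hp x false ∉ s.F
  | some π => π ∈ s.I ∧ π ∈ Rf65.Pc c ∧ RT J c σ π ∧ ∀ x, ¬Fs σ n₀ s x

variable (s) in
/-- the weight -/
def wt : ℕ := (Rf65.Pc c \ s.F).ncard + (Rf65.Pc c \ (s.F ∪ s.I)).ncard + s.Z.ncard

variable (J c δ sh σ n₀ E) in
/-- **the strata** -/
@[reducible] def stra : J.Stra c where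
  S := Sd c h E
  en s := s.e
  wt := wt
  mem := Mem
  face s := ∃ x, Fs σ n₀ s x
  Jp s := {j // Ac J σ n₀ s j}
  Ic s j := (mS J δ σ sh s j.1).Ic
  P s j := (mS J δ σ sh s j.1).Pb
  rep {s j} i := (mS J δ σ sh s j.1).rep i

theorem bk (hy : Job.Sol σ q y) : ∀ a ∈ jz y, y.β a false = y.β a true :=
  fun a ha => brk0 (hy.brk a ha.1) ha.2

theorem fa1 (hJ : J.OK) (hσ : σ ∈ J.𝒦) (hy : Job.Sol σ q y) (e : c.1 = {x}) (k : ¬M.pin x) :
    Fa1 J c σ := by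
  obtain ⟨a, h1, h2⟩ := hJ.inf σ hσ _ (J.cl_dom hy.cell) x (hy.inf.ge (e ▸ rfl))
  refine ⟨fun _ ha => ⟨ha, (show _ = x from e.le ha) ▸ k⟩, a, Job.mem_wa.2 ⟨?_, by simp [h1]⟩,
    Subtype.ext (e.trans (Set.ext fun z => ?_))⟩
  · rcases hb : σ a with _ | _ | _
    · rfl
    · simpa [h2, b01] using hy.cell.1 a _ hb
    · simpa [h1] using hJ.soft σ hσ a hb
  · simp [Job.cf, h1, eq_comm]

theorem regP_eq {P P₁ : Set (Reg A)} {L L₁ : Set h} {Z₁ : Set (Ed c)} {j₁ : Set A} (e1 : P = P₁)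
    (e2 : L = L₁) (e3 : Z = Z₁) (e4 : j0 = j₁) (k : RegP δ σ (J.prt sh σ c P P L) (mu P Z j0) q y) :
    RegP δ σ (J.prt sh σ c P₁ P₁ L₁) (mu P₁ Z₁ j₁) q y := by
  subst e1 e2 e3 e4; exact k

section main
variable (H : H1 J c δ sh σ Adm n₀)
include H

theorem wl : Wl J c := ⟨H.ok, H.pj, H.wl⟩

theorem pmP {F F' : Set (Reg A)} (hF : F ⊆ Rf65.Pc c) (h' : F' ⊆ F) (L : Set h) :
    Pm J c δ σ (J.prt sh σ c F F' L) :=
  ⟨wl H, H.toAn0, H.mem, H.loc.pok σ H.mem c _ _ _ hF h',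
    fun e => (H.r0 e).elim, H.rch.S, fun s a b π hπ i _ => H.rch.C s a b π (hF hπ) i⟩

theorem pmF {F : Set (Reg A)} (hF : F ⊆ Rf65.Pc c) (L : Set h) :
    Pm J c δ σ (J.prt sh σ c F F L) := pmP H hF subset_rfl L

theorem pmI {π : Reg A} (hπ : π ∈ Rf65.Pc c) (L : Set h) : Pm J.noz c δ σ (J.prt sh σ c {π} ∅ L) :=
  ⟨(wl H).noz, H.noz, H.mem,
    (H.loc.pok σ H.mem c _ _ _ (fun π' (e : π' = π) => e ▸ hπ) (empty_subset _)).noz,
    fun _ => ⟨rfl, rfl⟩, fun _ _ _ i => i.elim0,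
    fun s a b π' (e : π' = π) i _ k => (H.rch.C s a b π' (e ▸ hπ) i k).noz⟩

theorem snF (ha : Adm q) (hy : Job.Sol σ q y) (hF : y.F (Rf65.Pc c) = s.F) (hH : y.H = s.H)
    (hZ : ∀ i ∈ EdP c s.F, (i ∈ s.Z ↔ i ∈ cz y)) (hj : jz y = s.j) :
    Sn σ (J.prt sh σ c s.F s.F s.H) (Zs J s) s.j q y := by
  have k := hy.onF (sh := sh) (R := Rf65.Pc c) (Adm := Adm) (fun _ _ _ _ _ h1 h2 => (h2 h1).elim) ha
  rw [hF, hH] at k
  exact ⟨k.1, k.2, fun i hi => ⟨fun e => (hZ i hi).1 (e.1 hi),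
    fun e => ⟨fun _ => (hZ i hi).2 e, fun e' => (e' hi).elim⟩⟩, hj, bk hy, fun π hπ =>
    (H.rch.T π (hF.ge hπ).1).resolve_right fun e => e q y ha hy (hF.ge hπ).2⟩

theorem Mem.sn (m : Mem s y) (ha : Adm q) (hy : Job.Sol σ q y) :
    Sn σ (J.prt sh σ c s.F s.F s.H) (Zs J s) s.j q y :=
  snF H ha hy m.F m.H (fun _ _ => m.Z ▸ .rfl) m.j

/-- the models of the parts of a stratum -/
theorem part (s : Sd c h E) (j : {j // Ac J σ n₀ s j}) : (mS J δ σ sh s j.1).Ax Adm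
    (fun q y => Job.Sol σ q y ∧ Mem s y) (fun _ 𝒰 y y₀ => Str 𝒰 y y₀) (okS δ σ sh s j.1) := by
  obtain ⟨_ | π, hj⟩ := j
  · exact (pmF H hj.2.1 s.H).ax.comap id (fun q y a b => b.2.sn H a b.1)
      (fun _ _ _ _ _ ⟨_, _, b⟩ e => b.2.H ▸ e.on _ _) fun _ => id
  · have k : ∀ y : J.Obc c, Mem s y → π ∈ y.I (Rf65.Pc c) := fun y b => b.I ▸ hj.1
    exact (pmI H hj.2.1 s.H).ax.comap Obc.noz
      (fun q y a b => ⟨b.2.H ▸ b.1.onI H.ok H.mem H.dead hj.2.1 (k y b.2).2.1,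
        ⟨fun _ h => h.elim, fun _ h _ => h ▸ (k y b.2).2.2⟩, fun _ _ => b.2.Z ▸ .rfl, b.2.j, bk (y := y) b.1,
        fun π' (e : π' = π) s a b => e ▸ (hj.2.2.1 s a b).noz⟩)
      (fun _ _ _ _ a ⟨_, _, b⟩ e =>
        b.2.H ▸ e.onI H.ok hj.2.1 (a.mono fun _ ⟨_, _, a⟩ => (k _ a.2).2.1))
      fun _ => id

theorem zw_cz (hy : Job.Sol σ q y) : zw J c ⊆ cz y := fun i hi =>
  let ⟨_, _, k, _⟩ := (wl H).num i.1.2; .inl (hi _ (k _ (hy.crit _ i.1.2 i.2)))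

/-- the spinor part of an object of a face without spinor inside -/
theorem eqO (m : Mem s y) (ha : Adm q) (hy : Job.Sol σ q y) (f : Fs σ n₀ s x)
    (e : hp x false ∉ s.F) : s.F = {hp x true} ∧ s.H = univ ∧ s.j = cylW c :=
  have k := m.fs.1 f
  ⟨f.F m.sub e, m.H ▸ (hy.H_eq k.2.2.2.1.1).trans (H.num q y x ha hy k).1,
    m.j ▸ sep_eq_self_iff_mem_true.2 k.2.2.2.1.2⟩

/-- regular objects of a face -/
theorem regO (m : Mem s y) (ha : Adm q) (hy : Job.Sol σ q y) (f : Fs σ n₀ s x)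
    (e : hp x false ∉ s.F) (k : (stra J c δ σ E n₀ sh).Reg s q y) :
    (mS J δ σ sh s none).Reg q y ∧ Ok δ y (pO J c sh σ x) ∧ (∀ i ∈ EdP c s.F, i ∈ s.Z → i ∈ zw J c) := by
  have a : Ac J σ n₀ s none := ⟨⟨_, f.2.2.2.2⟩, m.sub, fun _ f' => f.uq f' ▸ e⟩
  have h1 : (mS J δ σ sh s none).Reg q y := k ⟨none, a⟩
  obtain ⟨e1, e2, -⟩ := eqO H m ha hy f e
  have h2 : Ok δ y (J.prt sh σ c s.F s.F s.H) := (part H s ⟨none, a⟩).ker q y ha ⟨hy, m⟩ h1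
  rw [e1, e2] at h2
  refine ⟨h1, h2, ?_⟩
  rintro ⟨⟨a, ha'⟩, b⟩ ⟨π, h3, h4⟩ h5 β hβ
  obtain rfl : π = hp x true := e1.le h3
  obtain ⟨rfl, rfl⟩ := hp_some.1 h4
  have h6 := ((H.num q y _ ha hy (m.fs.1 f)).2.2 (mt (m.tf f.2.1 false).2 e) h2).1
  obtain ⟨b, -, h7, h8⟩ := (wl H).num ha'
  have h9 := (h8 _ (h7 _ (hy.crit _ ha' true))).1
  have h10 : dh (J.xs a).D (y.β a true) = 0 := (m.Z.ge h5).resolve_right fun e' =>
    absurd (h6.symm.trans e') (by decide)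
  rw [h10, h6, mul_one] at h9
  rw [(h8 β hβ).1, ← h9, zero_mul]

variable {α : Type} {𝒰 : Ultrafilter α} {q₀ : Wi →₀ ℝ} {q : α → Wi →₀ ℝ} {y : α → J.Obc c}
  {y₀ : J.Obc c}

theorem slim (he : y₀.en ∈ E) (e : Job.Sol σ q₀ y₀)
    (d : ∀ᶠ i in (𝒰 : Filter α), Adm (q i) ∧ Job.Sol σ (q i) (y i) ∧ Mem s (y i)) (f : Str 𝒰 y y₀) :
    (¬y₀.Top ∧ y₀.F (Rf65.Pc c) ⊆ s.F ∧ s.Z ⊆ cz y₀ ∧ y₀.H = s.H ∧ (y₀.Tight ↔ s.t) ∧ jz y₀ = s.j) ∧
      (Mem s y₀ ∨ wt s < wt (sd y₀ he)) := by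
  have hm : ∀ᶠ i in (𝒰 : Filter α), Mem s (y i) := d.mono fun _ k => k.2.2
  have ex : ∀ {P : α → Prop} {Q : Prop}, (∀ᶠ i in (𝒰 : Filter α), P i) →
      (∀ i, Mem s (y i) → P i → Q) → Q := fun h1 h2 =>
    let ⟨i, k⟩ := (hm.and h1).exists; h2 i k.1 k.2
  have nt : ¬y₀.Top := fun k => ex (f.top k) fun _ k => k.nt
  have hF : y₀.F (Rf65.Pc c) ⊆ s.F := fun π k => ex (f.tf k.2) fun _ k1 k2 => k1.F.le ⟨k.1, k2⟩
  have hI : y₀.F (Rf65.Pc c) ∪ y₀.I (Rf65.Pc c) ⊆ s.F ∪ s.I := fun π k => by_contra fun k' => by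
    have k0 : π ∈ Rf65.Pc c := k.elim And.left And.left
    refine k.elim (fun k => k' (.inl (hF k))) fun k => k.2.2 (H.lin α 𝒰 y y₀ π k0
      (e.ok H.ok H.mem) (d.mono fun i hi => ⟨hi.2.1.ok H.ok H.mem, by_contra fun k1 => k' ?_⟩) f)
    exact (em _).imp (fun k2 => hi.2.2.F.le ⟨k0, k2⟩) fun k2 => hi.2.2.I.le ⟨k0, k2, k1⟩
  have hZ : s.Z ⊆ cz y₀ := fun i k => H.ccl α 𝒰 q y q₀ y₀ (d.mono fun _ k => k.2.1) e f i
    (hm.mono fun _ m => m.Z.ge k)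
  have hH : y₀.H = s.H := ex f.dis fun _ k1 k2 => k2.1.symm.trans k1.H
  have ht : y₀.Tight ↔ s.t := ex f.tight fun _ k1 k2 => k2.symm.trans k1.t
  have hj : jz y₀ = s.j := ex f.dis fun _ k1 k2 => k1.j ▸ Set.ext fun a =>
    and_congr_right fun ha => (k2.2.2 a ha).symm
  refine ⟨⟨nt, hF, hZ, hH, ht, hj⟩, or_iff_not_imp_right.2 fun hw => ?_⟩
  have l1 := sdiff_subset_sdiff_right (s := Rf65.Pc c) hF
  have l2 := sdiff_subset_sdiff_right (s := Rf65.Pc c) hI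
  have l3 := ncard_le_ncard l1
  have l4 := ncard_le_ncard l2
  have l5 := ncard_le_ncard hZ
  simp only [wt, sd] at hw
  obtain ⟨i, m1⟩ := hm.exists
  have e1 := eq_of_subset_of_ncard_le l1 (by omega)
  have e2 := eq_of_subset_of_ncard_le l2 (by omega)
  have e3 : y₀.F (Rf65.Pc c) = s.F := hF.antisymm fun π k => by_contra fun k' =>
    (e1.ge ⟨m1.sub k, k'⟩).2 k
  refine ⟨e3, Subset.antisymm
    (fun π k => (hI (.inr k)).resolve_left fun k' => k.2.1 (e3.ge k').2) fun π k => ?_, hH, ht,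
    tendsto_nhds_unique f.en (tendsto_const_nhds.congr' (hm.mono fun _ k => k.e.symm)), nt,
    (eq_of_subset_of_ncard_le hZ (by omega)).symm, hj⟩
  have k1 := m1.I.ge k
  have k2 : π ∈ y₀.F (Rf65.Pc c) ∪ y₀.I (Rf65.Pc c) := by_contra fun k' => (e2.ge ⟨k1.1, k'⟩).2 (.inr k)
  exact k2.resolve_left fun k' => k1.2.1 (m1.F.ge (hF k')).2

/-- regularity of a limit in a face stratum is inherited -/
theorem inh (he : y₀.en ∈ E) (a : Adm q₀) (b : St.Cv (𝒰 : Filter α) q q₀) (e : Job.Sol σ q₀ y₀)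
    (d : ∀ᶠ i in (𝒰 : Filter α), Adm (q i) ∧ Job.Sol σ (q i) (y i) ∧ Mem s (y i)) (f : Str 𝒰 y y₀)
    (f' : Fs σ n₀ (sd y₀ he) x) (k : (stra J c δ σ E n₀ sh).Reg (sd y₀ he) q₀ y₀) :
    ∀ᶠ i in (𝒰 : Filter α), (stra J c δ σ E n₀ sh).Reg s (q i) (y i) := by
  obtain ⟨nt, hF, hZ, hH, ht, hj⟩ := (slim H he e d f).1
  have fs : Fs σ n₀ s x := ⟨f'.1, f'.2.1, f'.2.2.1, ht.1 f'.2.2.2.1, hF f'.2.2.2.2⟩
  by_cases hi : hp x false ∈ s.F
  · refine .of_forall fun _ => ?_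
    rintro ⟨_ | π, hj⟩
    exacts [(hj.2.2 x fs hi).elim, (hj.2.2.2 x fs).elim]
  obtain ⟨i₀, -, s₀, m₀⟩ := d.exists
  have m := mem_sd he nt
  obtain ⟨h1, -, h2⟩ := regO H m a e f' (fun e' => hi (hF e')) k
  have e1 : y₀.F (Rf65.Pc c) = s.F := (f'.F m.sub fun e' => hi (hF e')).trans (fs.F m₀.sub hi).symm
  have e2 : ∀ i ∈ EdP c s.F, (i ∈ s.Z ↔ i ∈ cz y₀) := fun i hi =>
    ⟨fun e' => hZ e', fun e' => m₀.Z.le (zw_cz H s₀ (h2 i ((congrArg (EdP c) e1).ge hi) e'))⟩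
  have e3 : Zs J (sd y₀ he) = Zs J s := Set.ext fun i => by
    simp only [Zs, sd, e1, mem_ofPred_eq]
    exact and_congr_left' (forall_congr' fun hi => (e2 i hi).symm)
  have e4 : mS J δ σ sh (sd y₀ he) none = mS J δ σ sh s none := by
    simp only [mS, e3]; simp only [sd, e1, hH, hj]
  filter_upwards [(pmF H m₀.sub s.H).ev b (d.mono fun _ k => (k.2.2.sn H k.1 k.2.1).solE (wl H))
    ((snF H a e e1 hH e2 hj).solE (wl H)) (hH ▸ f.on _ _) (show (mS J δ σ sh s none).Reg _ _ from e4 ▸ h1)]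
    with n hn
  rintro ⟨_ | π, hj⟩
  exacts [hn, (hj.2.2.2 x fs).elim]

theorem ax : (stra J c δ σ (J.En c σ Adm) n₀ sh).Ax Adm σ Obc.Top (Fa1 J c σ) where
  fin := Sd.finite H.fin
  finJ _ := Subtype.finite
  ax s j := (part H s j).ax
  cover q y a b e := ⟨_, mem_sd (E := J.En c σ Adm) ⟨q, y, a, b, rfl⟩ e⟩
  ntop _ _ _ _ _ e := e.nt
  en _ _ _ _ _ e := e.e
  sol s j i q y x a b e := (part H s j).sol i q y x a ⟨b, e⟩
  dens s j q y a b e := (part H s j).dens q y a ⟨b, e⟩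
  kill s q y f a b m e := by
    have k := fun j => (part H s j).ker q y a ⟨b, m⟩ (e j)
    exact f ((H.kill q y a b m.nt
      (fun hn => by
        have := k ⟨none, m.F ▸ hn, m.sub, fun x f' => (f ⟨x, f'⟩).elim⟩
        rw [pF, m.F, m.H]; exact this)
      fun π hπ t => by
        have := k ⟨some π, m.I ▸ hπ, hπ.1, t, not_exists.1 f⟩
        rw [pI, m.H]; exact this).imp fun _ => m.fs.2)
  face _ _ _ f _ b m := let ⟨_, f⟩ := f; ⟨fa1 H.ok H.mem b f.2.1 f.2.2.1, m.t.2 f.2.2.2.1⟩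
  fine s q₀ a α 𝒰 q y y₀ b d e f :=
    have he : y₀.en ∈ J.En c σ Adm := ⟨q₀, y₀, a, e, rfl⟩
    have k := slim H he e d f
    k.2.imp (fun m => ⟨m, fun j => (part H s j).near q₀ a α 𝒰 q y y₀ b d ⟨e, m⟩ f⟩)
      fun w => ⟨_, w, mem_sd he k.1.1, fun ⟨_, f'⟩ => inh H he a b e d f f'⟩

end main

/-- **the strata of the first stage** -/
theorem stra1 : Stra1 J c δ sh σ Adm n₀ := fun H => ⟨_, ax H, fun s q y ⟨x, f⟩ a b m =>
  ⟨x, m.fs.1 f, fun k e => by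
    have e' := mt (m.tf f.2.1 false).1 e
    obtain ⟨h1, h2, h3⟩ := regO H m a b f e' k
    obtain ⟨e1, e2, e3⟩ := eqO H m a b f e'
    refine ⟨h2, regP_eq e1 e2 (Set.ext fun i => ?_) e3 ((pmF H m.sub s.H).reg (m.sn H a b) h1)⟩
    exact ⟨fun k => (em _).elim (fun hi => h3 i hi (k.1 hi)) k.2,
      fun k => ⟨fun _ => m.Z.le (zw_cz H b k), fun _ => k⟩⟩⟩⟩

end Crest.Agent.X212.Mp86.St
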