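import Crest.Agent.X212.Mp86.NkE
import Crest.Agent.X212.Cyc79.Ub

/-!
# Row 212, NK-BD (helper86): densities, seeds and the delay gradient
-/

set_option autoImplicit false
set_option linter.unusedSectionVars false
open Set Filter Topology Module MeasureTheory
open scoped Manifold ContDiff InnerProductSpace

noncomputable section

namespace Crest.Agent.X212.Mp86
open An Wz78 Wrd81 Dgr80

variable {E : Type} [NormedAddCommGroup E] [NormedSpace ℝ E] [FiniteDimensional ℝ E]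
  [MeasurableSpace E] [BorelSpace E]
  {HM : Type} [TopologicalSpace HM] {I : ModelWithCorners ℝ E HM}
  {M : Type} [TopologicalSpace M] [ChartedSpace HM M] [IsManifold I ∞ M]
  [MeasurableSpace M] {ι : Type} [Fintype ι] {lam : Type} [Fintype lam] {r n : ℕ}
  {B : Base M ι lam} {G : Geo I M ι lam} {c : Cfg M ι lam r} {N : ℕ} {σ K K' C k S : ℝ}
  {γ : M → ℝ}

/-- perturbations with a controlled Dirac part and a dominated curvature part -/
structure B0 (B : Base M ι lam) (G : Geo I M ι lam) (τ : Pt M ι lam r n) (K : ℝ) : Prop where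
  K0 : 0 ≤ K
  D : ∀ (c : Cfg M ι lam r) σ, c.Adm B G → 1 ≤ σ → (∀ x, ‖c.Φ x‖ ^ 2 ≤ σ) →
    Ctl G.F (gr2 I G.F.e c.W c.Φ) σ K c.W (τ.D c)
  C : ∀ c : Cfg M ι lam r, c.Adm B G → Dom G.F K fun x => ‖τ.C c x‖ ^ 2

theorem B0.bd {τ : Pt M ι lam r n} (h : B0 B G τ K) (w : M → M → ℝ) : τ.Bd B G w K 0 K :=
  ⟨h.K0, le_rfl, h.K0, fun c σ a b => h.D c σ a b.one b.Φ, fun c σ a _ =>
    ⟨_, by simpa using h.C c a, fun _ => le_add_of_nonneg_left (sq_nonneg _)⟩⟩

theorem B0.mono {τ : Pt M ι lam r n} (h : B0 B G τ K) (hK : K ≤ K') : B0 B G τ K' :=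
  ⟨h.K0.trans hK, fun c σ a b d => (h.D c σ a b d).mono (by linarith) (fun _ => gr2_nonneg) hK,
    fun c a => (h.C c a).mono hK fun _ => le_rfl⟩

theorem B0.add {τ τ' : Pt M ι lam r n} (h : B0 B G τ K) (k : B0 B G τ' K') :
    B0 B G (τ.add τ') (2 * K + 2 * K') :=
  ⟨by linarith [h.K0, k.K0], fun c σ a b d => (h.D c σ a b d).add (k.D c σ a b d),
    fun c a => (h.C c a).sq_add (k.C c a)⟩

/-- bounded densities -/
structure DB (B : Base M ι lam) (G : Geo I M ι lam) (d : Den M ι lam r) (k : ℝ) : Prop where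
  one : 1 ≤ k
  ct : ∀ c, c.Adm B G → Continuous (d.h c)
  le : ∀ c, c.Adm B G → ∀ x, |d.h c x| ≤ k
  P : ∀ c, c.Adm B G → ∀ f C, 1 ≤ C → Fn G.F C f →
    Ctl G.F (gr2 I G.F.e c.W c.Φ) 1 (k * C) c.W (d.gP c f)
  A : ∀ c, c.Adm B G → ∀ f C, (∀ x, |f x| ≤ C) → Dom G.F (k * C ^ 2) fun x => ‖d.gA c f x‖ ^ 2

theorem DB.mono {d : Den M ι lam r} (h : DB B G d k) (hk : k ≤ K) : DB B G d K :=
  ⟨h.one.trans hk, h.ct, fun c a x => (h.le c a x).trans hk, fun c a f C h1 h2 =>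
    (h.P c a f C h1 h2).mono zero_le_one (fun _ => gr2_nonneg) (by gcongr), fun c a f C h1 =>
    (h.A c a f C h1).mono (by gcongr) fun _ => le_rfl⟩

/-- bounded seeds -/
structure SB (B : Base M ι lam) (G : Geo I M ι lam) (S : Sed M ι lam r) (k : ℝ) : Prop where
  one : 1 ≤ k
  ct : ∀ c, c.Adm B G → Continuous (S.s c)
  le : ∀ c, c.Adm B G → ∀ x, ‖S.s c x‖ ≤ k
  P : ∀ c l, S.sP c l = 0
  A : ∀ c, c.Adm B G → ∀ l C, (∀ x, ‖l x‖ ≤ C) → Dom G.F (k * C ^ 2) fun x => ‖S.sA c l x‖ ^ 2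

theorem SB.den {S S' : Sed M ι lam r} (h : SB B G S k) (h' : SB B G S' k) :
    DB B G (Den.sed S S') (4 * k ^ 3) := by
  have k1 := h.one
  have k2 : 1 ≤ k ^ 2 := one_le_pow₀ k1
  have b : ∀ {S : Sed M ι lam r} (_ : SB B G S k) {c} (_ : c.Adm B G) {f : M → ℝ} {C : ℝ},
      (∀ x, |f x| ≤ C) → ∀ x, ‖f x • S.s c x‖ ≤ C * k := fun h c a f C hf x =>
    (norm_smul _ _).trans_le (mul_le_mul (hf x) (h.le c a x) (norm_nonneg _)
      ((abs_nonneg _).trans (hf x)))
  refine ⟨by nlinarith, fun c a => (h.ct c a).inner (h'.ct c a), fun c a x =>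
    (abs_real_inner_le_norm _ _).trans ((mul_le_mul (h.le c a x) (h'.le c a x) (norm_nonneg _)
      (by linarith)).trans (by nlinarith)), fun c a f C h1 _ => ?_, fun c a f C h1 =>
    ((h.A c a _ _ (b h' a h1)).sq_add (h'.A c a _ _ (b h a h1))).mono (le_of_eq (by ring))
      fun _ => le_rfl⟩
  simp only [Den.sed, h.P, h'.P, Pi.zero_apply, add_zero]
  exact Ctl.zero zero_le_one (fun _ => gr2_nonneg) (by positivity)

/-- the size of a pairing -/
def PkSz (G : Geo I M ι lam) (N : ℕ) : Pk M lam → Prop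
  | .one => True
  | .re s => Sc G N s
  | .im s => Sc G N s

/-- continuous letters -/
def LaC : La M → Prop
  | .mul f => Continuous f
  | .G => True

theorem opr_J {m : Md M ι lam} {W : m.Cn} (H : m.OK I B) (h : m.IsConn B G W) :
    Opr G.F W W 1 fun _ => m.J := by
  convert opr_cs (c := Complex.I) H h (by simp) using 2
  ext1 v
  simp only [add_apply, smul_apply, Complex.I_re, zero_smul, Complex.I_im, one_smul, zero_add]

theorem slo_lt (hB : B.OK I) (h : c.Adm B G) (hN : 1 ≤ N) {t : Lt M} (ht : LtSz G.F N t) :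
    SLo G.F c.W N (ltS G.F c t) := by
  have N1 : (1 : ℝ) ≤ N := by exact_mod_cast hN
  cases t with
  | mul f => exact ⟨ht.opr, by
      simpa only [map_smul, ContinuousLinearMap.one_def, ContinuousLinearMap.adjoint_id] using
        Fn.opr (A := c.W) ht⟩
  | cl g =>
    refine ⟨opr_cl hB h.ok h.conn ht, ?_⟩
    have e : ∀ x, Skw (∑ a, G.F.D a g x • c.m.ρ a x) := fun x v w => by
      simp only [_root_.sum_apply, smul_apply, sum_inner, inner_sum, real_inner_smul_left,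
        real_inner_smul_right, h.ok.ρsk _ x v, mul_neg, Finset.sum_neg_distrib]
    simp only [fun x => adj_skw (e x)]
    exact (opr_cl hB h.ok h.conn ht).neg
  | im => exact ⟨(opr_J h.ok h.conn).mono N1, by
      simp only [adj_skw h.ok.Jsk]; exact ((opr_J h.ok h.conn).mono N1).neg⟩
  | G => trivial

theorem ctl_pk (hB : B.OK I) (h : c.Adm B G) (hN : 1 ≤ N) {T : Pk M lam} (hT : PkSz G N T)
    {u : M → c.m.V} (hσ : 0 ≤ σ) (hγ : ∀ x, 0 ≤ γ x) (hK : 0 ≤ K) (hu : Ctl G.F γ σ K c.W u) :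
    Ctl G.F γ σ (16 * N * K) c.W fun x => pk c T x (u x) := by
  have N1 : (1 : ℝ) ≤ N := by exact_mod_cast hN
  cases T with
  | one => exact hu.mono hσ hγ (by nlinarith)
  | re s => exact (hu.app hσ hγ hK (by linarith) (opr_j hB h.ok h.conn hT)).mono hσ hγ (by nlinarith)
  | im s => exact ((hu.app hσ hγ hK (by linarith) (opr_j hB h.ok h.conn hT)).app hσ hγ
      (by positivity) zero_le_one (opr_J h.ok h.conn)).mono hσ hγ (le_of_eq (by ring))

theorem ctl_dn (h : c.Adm B G) {l : M → c.m.V} (hK : 0 ≤ K)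
    (hl : Ctl G.F (gr2 I G.F.e c.W c.Φ) 1 K c.W l) :
    Ctl G.F (gr2 I G.F.e c.W c.Φ) 1 (136 * K) c.W (dn c l) := by
  obtain ⟨a1, a2⟩ := ctl_nf (F := G.F) (mc_W h.conn) h.sm
  have := (a1.smul' hl zero_le_one hK).add (((a1.smul' (a2.inner (mc_W h.conn) hl zero_le_one hK)
    zero_le_one (by positivity)).smul' a2 (by positivity) zero_le_one).neg)
  convert this using 1
  · ring
  · funext x
    simp only [dn, nf, real_inner_smul_left, smul_smul, smul_eq_mul, sub_eq_add_neg]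
    congr 3; ring

variable [I.Boundaryless] [T2Space M] [BorelSpace M] [SecondCountableTopology M]
  (hb : Bumps I G.F.e G.F.dv) (hB : B.OK I)
include hb hB

theorem ctl_nw (h : c.Adm B G) (hN : 1 ≤ N) {u : SW M} (hu : SWSz G.F N u) :
    Ctl G.F (gr2 I G.F.e c.W c.Φ) 1 ((4 * N) ^ N) c.W (nw G.F c u) := by
  have N1 : (1 : ℝ) ≤ N := by exact_mod_cast hN
  rw [nw_eq]
  refine (ctl_wd hb (mc_W h.conn) zero_le_one (fun _ => gr2_nonneg) zero_le_one N1
    (ctl_nf (mc_W h.conn) h.sm).2 (List.forall_mem_map.2 fun t ht =>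
      slo_lt hB h hN (hu.2 t ht))).mono zero_le_one (fun _ => gr2_nonneg) ?_
  rw [mul_one, List.length_map]
  exact pow_le_pow_right₀ (by linarith) hu.1

theorem ctl_swP (h : c.Adm B G) (hN : 1 ≤ N) {u : SW M} (hu : SWSz G.F N u) {l : M → c.m.V}
    (hK : 0 ≤ K) (hl : Ctl G.F (gr2 I G.F.e c.W c.Φ) 1 K c.W l) :
    Ctl G.F (gr2 I G.F.e c.W c.Φ) 1 (136 * ((4 * N) ^ N * K)) c.W (swP G.F c u l) := by
  have N1 : (1 : ℝ) ≤ N := by exact_mod_cast hN
  refine ctl_dn h (by positivity) ((ctl_bk hb (mc_W h.conn) zero_le_one (fun _ => gr2_nonneg) N1 hK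
    (List.forall_mem_map.2 fun t ht => slo_lt hB h hN (hu.2 t ht)) hl).mono zero_le_one
      (fun _ => gr2_nonneg) ?_)
  rw [List.length_map]
  exact mul_le_mul_of_nonneg_right (pow_le_pow_right₀ (by linarith) hu.1) hK

theorem dom_swA (h : c.Adm B G) (hN : 1 ≤ N) {u : SW M} (hu : SWSz G.F N u) {l : M → c.m.V}
    (hl : ∀ x, ‖l x‖ ≤ C) :
    Dom G.F (32 * (3 * N ^ 2) ^ N * C ^ 2) fun x => ‖swA G.F c u l x‖ ^ 2 := by
  have N1 : (1 : ℝ) ≤ N := by exact_mod_cast hN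
  exact (dom_gc' hb (mc_W h.conn) norm_opL N1
    ((ctl_nf (F := G.F) (mc_W h.conn) h.sm).2.norm_le le_rfl) (n := N)
    (by rw [List.length_map]; exact hu.1)
    (List.forall_mem_map.2 fun t ht => (slo_lt hB h hN (hu.2 t ht)).le N1) hl).mono
    (le_of_eq (by ring)) fun _ => le_rfl

/-- the constant of spinor densities -/
def kS (N : ℕ) : ℝ := 2176 * ((4 * N) ^ N * (16 * N * (4 * N) ^ N)) +
  128 * (3 * N ^ 2) ^ N * (16 * N * (4 * N) ^ N) ^ 2

theorem db_sw (hN : 1 ≤ N) {T : Pk M lam} (hT : PkSz G N T) {u v : SW M} (hu : SWSz G.F N u)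
    (hv : SWSz G.F N v) : DB (r := r) B G (Den.sw G.F T u v) (kS N) := by
  have N1 : (1 : ℝ) ≤ N := by exact_mod_cast hN
  have a1 : (1 : ℝ) ≤ (4 * N) ^ N := one_le_pow₀ (by linarith)
  have a2 : (1 : ℝ) ≤ 16 * N * (4 * N) ^ N := by nlinarith
  have a3 : (0 : ℝ) ≤ 128 * (3 * N ^ 2) ^ N * (16 * N * (4 * N) ^ N) ^ 2 := by positivity
  have a4 := one_le_mul_of_one_le_of_one_le a1 a2
  have g0 : ∀ (c : Cfg M ι lam r) x, 0 ≤ gr2 I G.F.e c.W c.Φ x := fun _ _ => gr2_nonneg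
  have p := fun (c : Cfg M ι lam r) (a : c.Adm B G) {u} (hu : SWSz G.F N u) =>
    ctl_pk hB a hN hT zero_le_one (g0 c) (by positivity) (ctl_nw hb hB a hN hu)
  have b : ∀ c (a : c.Adm B G) {u} (_ : SWSz G.F N u) {f : M → ℝ} {C : ℝ}, (∀ x, |f x| ≤ C) →
      ∀ x, ‖f x • pk c T x (nw G.F c u x)‖ ≤ C * (16 * N * (4 * N) ^ N) := fun c a u hu f C hf x =>
    (norm_smul _ _).trans_le (mul_le_mul (hf x) ((p c a hu).norm_le a2 x) (norm_nonneg _)
      ((abs_nonneg _).trans (hf x)))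
  refine ⟨by unfold kS; linarith, fun c a => (p c a hu).sm.continuous.inner
    (ctl_nw hb hB a hN hv).sm.continuous, fun c a x => (abs_real_inner_le_norm _ _).trans
      ((mul_le_mul ((p c a hu).norm_le a2 x) ((ctl_nw hb hB a hN hv).norm_le a1 x) (norm_nonneg _)
        (by linarith)).trans (by unfold kS; linarith)), fun c a f C h1 h2 => ?_,
    fun c a f C h1 => ((dom_swA hb hB a hN hu (b c a hv h1)).sq_add
      (dom_swA hb hB a hN hv (b c a hu h1))).mono ?_ fun _ => le_rfl⟩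
  · have q := fun {u v} (hu : SWSz G.F N u) (hv : SWSz G.F N v) => ctl_swP hb hB a hN hu
      (by positivity) ((p c a hv).smul zero_le_one (g0 c) (by positivity) (by linarith) h2)
    refine ((q hu hv).add (q hv hu)).mono zero_le_one (g0 c) ?_
    unfold kS
    nlinarith [mul_nonneg a3 (zero_le_one.trans h1)]
  · unfold kS
    nlinarith [mul_nonneg (zero_le_one.trans a4) (sq_nonneg C)]

omit hB in
theorem SB.wd {S : Sed M ι lam r} (h : SB B G S k) (hN : 1 ≤ N) {w : List (La M)} (hw : LLSz N w)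
    (hc : ∀ t ∈ w, LaC t) :
    SB B G (S.wd G.F w) (64 * (3 * N ^ 2) ^ N * k ^ 2 + 2 * k * (N ^ N) ^ 2) := by
  have N1 : (1 : ℝ) ≤ N := by exact_mod_cast hN
  have a1 : (1 : ℝ) ≤ N ^ N := one_le_pow₀ N1
  have a2 : (0 : ℝ) ≤ 64 * (3 * N ^ 2) ^ N * k ^ 2 := by positivity
  have k1 := h.one
  have a3 := one_le_mul_of_one_le_of_one_le a1 k1
  have l : ∀ c : Cfg M ι lam r, Cyc79.WL (N : ℝ) N (w.map (laS c)) := fun c => by
    convert Cyc79.wl_sz (V := c.m.A) hw le_rfl le_rfl using 2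
    funext t; cases t <;> rfl
  refine ⟨by nlinarith, fun c a => ?_, fun c a x =>
    (norm_wd_la hb a.conn hN (h.le c a) hw x).trans (by nlinarith), fun c l => h.P c _,
    fun c a f C hf => ((dom_gc' hb (mc_adW a.conn) norm_adR N1 (h.le c a) (l c).1 (l c).2 hf).sq_add
      (h.A c a _ _ ((l c).bk hb (mc_adW a.conn) N1 hf))).mono (le_of_eq (by ring)) fun _ => le_rfl⟩
  clear l hw
  induction w with
  | nil => exact h.ct c a
  | cons t w ih =>
    cases t with
    | mul f => exact Continuous.smul (hc (.mul f) (by simp)) (ih fun s hs => hc s (by simp [hs]))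
    | G => exact (sm_res _ _ _).continuous

omit hb in
theorem sb_cy (hT : ∃ C, G.F.Tame C) (hS : L4 G.F.toPre S) (hS0 : 0 < S)
    {d : Cyc79.Cy M} (hd : d.Sz G.F N) (hc : ∀ t ∈ d.w, LaC t) (hc' : ∀ t ∈ d.w', LaC t) :
    SB (r := r) B G (d.sed G.F) (1 + 2 * (Cyc79.kB S N ^ (N + 3) * Cyc79.kB S N) ^ 2 +
      4 * Cyc79.kD (Cyc79.kB S N) N) := by
  have a1 : 0 ≤ Cyc79.kD (Cyc79.kB S N) N := by unfold Cyc79.kD; positivity
  have a2 := sq_nonneg (Cyc79.kB S N ^ (N + 3) * Cyc79.kB S N)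
  have p := fun (c : Cfg M ι lam r) (a : c.Adm B G) => Cyc79.pq_conn hB hT a.ok a.conn
  refine ⟨by linarith, fun c a => ?_, fun c a x => (hd.norm_s (p c a) hS hS0 x).trans (by linarith),
    fun _ _ => rfl, fun c a l C hl => (hd.dom_sA (p c a) hS hS0 hl).mono (by gcongr; linarith)
      fun _ => le_rfl⟩
  have e : ∀ w : List (La M), (∀ t ∈ w, LaC t) → Continuous
      (Cyc79.wv G.F c (Cyc79.bf G.F c d.f' d.f) (w ++ Cyc79.xw d.f d.f')) := fun w hw => by
    induction w with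
    | nil => exact hd.sep.c.smul (sm_res _ _ _).continuous
    | cons t w ih =>
      cases t with
      | mul f => exact Continuous.smul (hw (.mul f) (by simp)) (ih fun s hs => hw s (by simp [hs]))
      | G => exact (sm_res _ _ _).continuous
  exact (p c a).sm.continuous.clm_apply ((ContinuousLinearMap.adjoint.continuous.comp
    ((Cyc79.rr G.F c).flip.continuous.comp (e _ hc))).clm_apply (e _ hc'))

/-- **the delay gradient** -/
theorem dg_b0 {J : Type} [Fintype J] [DecidableEq J] {D : DG M ι lam r J} {L : ℝ} (hN : 1 ≤ N)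
    (hτ : Gd G.F N D.τ) (hd : ∀ j, DB B G (D.d j) k) (hk : 0 ≤ k) (hδ : ∀ j, 0 < D.δ j)
    (hcb : ∀ j, cb (D.δ j) 1 ≤ N) (hL : 1 ≤ L) (hc : ∀ c, c.Adm B G → ∀ j,
      Continuous (D.co G.F c j) ∧ ∀ t, |D.co G.F c j t| ≤ L) :
    B0 B G (D.q1 B G.F : Pt M ι lam r n)
      (64 * N * (2 ^ Fintype.card J * ∑ _j : J, k * ((N * L) ^ 2 * N))) := by
  have N1 : (1 : ℝ) ≤ N := by exact_mod_cast hN
  have a1 := one_le_mul_of_one_le_of_one_le N1 hL
  have a2 := one_le_mul_of_one_le_of_one_le (one_le_pow₀ (n := 2) a1) N1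
  have a3 : 0 ≤ 2 ^ Fintype.card J * ∑ _j : J, k * ((N * L) ^ 2 * N) := by positivity
  have β := fun c a j => cv_bounds (hδ j) (hc c a j).1.aestronglyMeasurable (hc c a j).2
  refine ⟨by positivity, fun c σ a h1 _ => ?_, fun c a => ?_⟩
  · have g0 : ∀ x, 0 ≤ gr2 I G.F.e c.W c.Φ x := fun _ => gr2_nonneg
    have := ((((Ctl.sum Finset.univ zero_le_one g0 (fun _ _ => by positivity) fun j _ =>
      (hd j).P c a _ _ a2 (fn_time hτ.sm hτ.le N1 (β c a j).1
        (fun t => ((β c a j).2.1 t).trans (le_mul_of_one_le_left (by linarith) N1)) fun t => by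
          rw [← iteratedDeriv_one]
          exact ((β c a j).2.2 1 t).trans (by gcongr; exact hcb j))).app zero_le_one g0 a3
      zero_le_one (opr_pp hB a.ok a.conn)).app zero_le_one g0 (by positivity) (by linarith)
      (opr_cl hB a.ok a.conn hτ)).neg.mono zero_le_one g0 
      (K' := 64 * N * (2 ^ Fintype.card J * ∑ _j : J, k * ((N * L) ^ 2 * N))) (by rw [Finset.card_univ]; nlinarith)).up (by positivity) h1
    simp only [_root_.sum_apply, smul_apply] at this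
    exact this
  · refine ((Dom.sq_sum Finset.univ (fun _ _ => by positivity) fun j _ => (hd j).A c a _ _
      fun x => (β c a j).2.1 (D.τ x)).mul (C := 64 * N) (by positivity)).mono ?_ fun x => ?_
    · rw [Finset.card_univ]
      gcongr
      nlinarith [mul_le_mul_of_nonneg_right (one_le_mul_of_one_le_of_one_le
        (one_le_pow₀ (n := 2) N1) N1) (sq_nonneg L)]
    · have e : ‖(WithLp.toLp 2 fun s : ι × ι => G.F.D s.1 D.τ x • D.gA G.F c x s.2 :
          Fm (ι × ι) c.m.A)‖ ^ 2 = (∑ a, G.F.D a D.τ x ^ 2) * ‖D.gA G.F c x‖ ^ 2 := by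
        simp [PiLp.norm_sq_eq_of_L2, norm_smul, mul_pow, Fintype.sum_prod_type, Finset.sum_mul_sum]
      have b := (pow_le_pow_left₀ (norm_nonneg _) (norm_p2 hB c.m x _) 2).trans
        (e.trans_le (mul_le_mul_of_nonneg_right (hτ.le x) (sq_nonneg _)))
      simp only [DG.q1, norm_smul, mul_pow, Real.norm_eq_abs, sq_abs]
      change _ ≤ 64 * N * ‖D.gA G.F c x‖ ^ 2
      linarith

end Crest.Agent.X212.Mp86
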