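import Crest.Agent.X212.Mp86.Wd
import Crest.Agent.X212.Cht98.Br
import Crest.Agent.X212.Wz78.Gw

/-!
# Row 212, layer AN (helper86): the class `Pt.Bd` of perturbations with a `C⁰` bound
-/

set_option autoImplicit false
set_option linter.unusedSectionVars false
open Set Filter Topology Module MeasureTheory
open scoped Manifold ContDiff InnerProductSpace

noncomputable section

namespace Crest.Agent.X212
open An Wz78 Wrd81 Mp86

variable {E : Type} [NormedAddCommGroup E] [NormedSpace ℝ E] [FiniteDimensional ℝ E]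
  [MeasurableSpace E] [BorelSpace E]
  {HM : Type} [TopologicalSpace HM] {I : ModelWithCorners ℝ E HM}
  {M : Type} [TopologicalSpace M] [ChartedSpace HM M] [IsManifold I ∞ M]
  [MeasurableSpace M] {ι : Type} [Fintype ι] {lam : Type} [Fintype lam] {r n : ℕ}

/-- `σ ≥ 1` bounds `‖Φ‖²` and the weighted `L²` norms of the curvature -/
structure An.Cfg.Le (c : Cfg M ι lam r) (F : Fr I M ι) (w : M → M → ℝ) (σ : ℝ) : Prop where
  one : 1 ≤ σ
  Φ : ∀ x, ‖c.Φ x‖ ^ 2 ≤ σ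
  int : ∀ x, Integrable (fun y => (w x y * ‖c.m.Fg F c.W y‖) ^ 2) F.μ
  F : ∀ x, ∫ y, (w x y * ‖c.m.Fg F c.W y‖) ^ 2 ∂F.μ ≤ σ ^ 2

/-- perturbations with a controlled Dirac part and a curvature part of size `ε σ + R` up to a
dominated function -/
structure An.Pt.Bd (τ : Pt M ι lam r n) (B : Base M ι lam) (G : Geo I M ι lam) (w : M → M → ℝ)
    (K ε R : ℝ) : Prop where
  K0 : 0 ≤ K
  e0 : 0 ≤ ε
  R0 : 0 ≤ R
  D : ∀ (c : Cfg M ι lam r) σ, c.Adm B G → c.Le G.F w σ →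
    Ctl G.F (gr2 I G.F.e c.W c.Φ) σ K c.W (τ.D c)
  C : ∀ (c : Cfg M ι lam r) σ, c.Adm B G → c.Le G.F w σ →
    ∃ g, Dom G.F (ε * σ + R) g ∧ ∀ x, ‖τ.C c x‖ ^ 2 ≤ (ε * σ + R) ^ 2 + g x

namespace Mp86

/-- the analytic data: bumps, Sobolev constant and weights centred at every point -/
structure Wts (F : Fr I M ι) (S : ℝ) (w : M → M → ℝ) : Prop where
  bp : Bumps I F.e F.dv
  l4 : L4 F.toPre S
  nn : 0 ≤ S
  wt : ∀ x, Wt F (w x)
  one : ∀ x, 1 ≤ w x x

theorem wts_one [CompactSpace M] {F : Fr I M ι} {S : ℝ} (h : L4 F.toPre S) (h0 : 0 ≤ S) :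
    Wts F S fun _ _ => 1 := ⟨bumps_of_compact, h, h0, fun _ => wt_one, fun _ => le_rfl⟩

variable {B : Base M ι lam} {G : Geo I M ι lam} {w : M → M → ℝ} {τ τ' : Pt M ι lam r n}
  {K K' ε ε' R R' σ S : ℝ} {c : Cfg M ι lam r} {N : ℕ}

theorem bd_mono (h : τ.Bd B G w K ε R) (h1 : K ≤ K') (h2 : ε ≤ ε') (h3 : R ≤ R') :
    τ.Bd B G w K' ε' R' := by
  refine ⟨h.K0.trans h1, h.e0.trans h2, h.R0.trans h3, fun c σ a b =>
    (h.D c σ a b).mono (by linarith [b.one]) (fun _ => gr2_nonneg) h1, fun c σ a b => ?_⟩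
  obtain ⟨g, g1, g2⟩ := h.C c σ a b
  have σ0 : 0 ≤ σ := by linarith [b.one]
  have := add_le_add (mul_le_mul_of_nonneg_right h2 σ0) h3
  exact ⟨g, g1.mono this fun _ => le_rfl, fun x => (g2 x).trans (add_le_add_left
    (pow_le_pow_left₀ (add_nonneg (mul_nonneg h.e0 σ0) h.R0) this 2) _)⟩

theorem bd_add (h : τ.Bd B G w K ε R) (k : τ'.Bd B G w K' ε' R') :
    (τ.add τ').Bd B G w (2 * K + 2 * K') (2 * ε + 2 * ε') (2 * R + 2 * R') := by
  refine ⟨by linarith [h.K0, k.K0], by linarith [h.e0, k.e0], by linarith [h.R0, k.R0],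
    fun c σ a b => (h.D c σ a b).add (k.D c σ a b), fun c σ a b => ?_⟩
  obtain ⟨g, g1, g2⟩ := h.C c σ a b
  obtain ⟨g', k1, k2⟩ := k.C c σ a b
  have σ0 : 0 ≤ σ := by linarith [b.one]
  refine ⟨_, ((g1.mul zero_le_two).add (k1.mul zero_le_two)).mono (le_of_eq (by ring))
    fun _ => le_rfl, fun x => (normSq_add_le _ _).trans ?_⟩
  nlinarith [g2 x, k2 x, sq_nonneg (ε * σ + R), sq_nonneg (ε' * σ + R'), mul_nonneg
    (add_nonneg (mul_nonneg h.e0 σ0) h.R0) (add_nonneg (mul_nonneg k.e0 σ0) k.R0)]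

/-- the curvature part is bounded in the sup norm -/
theorem bd_of_sup (K0 : 0 ≤ K) (e0 : 0 ≤ ε) (R0 : 0 ≤ R)
    (hD : ∀ (c : Cfg M ι lam r) σ, c.Adm B G → c.Le G.F w σ →
      Ctl G.F (gr2 I G.F.e c.W c.Φ) σ K c.W (τ.D c))
    (hC : ∀ (c : Cfg M ι lam r) σ, c.Adm B G → c.Le G.F w σ → ∀ x, ‖τ.C c x‖ ≤ ε * σ + R) :
    τ.Bd B G w K ε R :=
  ⟨K0, e0, R0, hD, fun c σ a b => ⟨_, .zero (add_nonneg (mul_nonneg e0 (by linarith [b.one])) R0),
    fun x => by simpa using pow_le_pow_left₀ (norm_nonneg _) (hC c σ a b x) 2⟩⟩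

theorem norm_co (hz : r = 0 ∨ ‖c.z‖ = 1) (F : Fr I M ι) (d : Co M lam r) : ‖c.co F d‖ ≤ 1 := by
  cases d with
  | z i =>
    rcases hz with rfl | h
    · exact i.elim0
    · exact h ▸ PiLp.norm_apply_le c.z i
  | s g L =>
    have h : 0 ≤ (L.map fun g' => ‖c.sg F g'‖ ^ 2).sum :=
      List.sum_nonneg fun _ h => by obtain ⟨_, -, rfl⟩ := List.mem_map.1 h; positivity
    rw [Cfg.co, norm_div, Complex.norm_real, Real.norm_of_nonneg (Real.sqrt_nonneg _)]
    exact div_le_one_of_le₀ (Real.le_sqrt_of_sq_le (by linarith)) (Real.sqrt_nonneg _)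

theorem opr_pm (hB : B.OK I) {m : Md M ι lam} {W : m.Cn} (H : m.OK I B) (h : m.IsConn B G W) :
    Opr G.F W W 1 (m.pm B) :=
  Opr.par (sm_pm H hB) (fun x v => (proj_le (pm_sym hB H x) (pm_pm hB H x) v).2.2)
    fun a x => pm_par hB H h a x

theorem opr_pp (hB : B.OK I) {m : Md M ι lam} {W : m.Cn} (H : m.OK I B) (h : m.IsConn B G W) :
    Opr G.F W W 1 (m.pp B) :=
  Opr.par (sm_pp H hB) (fun _ v => norm_pp hB H v) fun a x => pp_par hB H h a x

theorem norm_p2 (hB : B.OK I) (m : Md M ι lam) (x : M) (η : Fm (ι × ι) m.A) :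
    ‖m.p2 B x η‖ ≤ ‖η‖ :=
  (proj_le (inner_p2 hB) (ContinuousLinearMap.ext (p2_p2 hB)) η).2.2

theorem norm_p2_le (hB : B.OK I) (m : Md M ι lam) {g h : M → ℝ}
    (hg : G1 G.F N g) (hh : G1 G.F N h) (x : M) (ξ : m.A) :
    ‖m.p2 B x (WithLp.toLp 2 fun s => (G.F.D s.1 g x * G.F.D s.2 h x) • ξ)‖ ≤ N * ‖ξ‖ := by
  refine (norm_p2 hB m x _).trans (abs_le_of_sq_le_sq' ?_ (by positivity)).2
  rw [normSq_toLp, sum_sq_prod (fun a => G.F.D a g x) fun a => G.F.D a h x, mul_pow, sq (N : ℝ)]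
  exact mul_le_mul_of_nonneg_right (mul_le_mul (hg x) (hh x)
    (Finset.sum_nonneg fun _ _ => sq_nonneg _) (by positivity)) (sq_nonneg _)

variable [I.Boundaryless] [T2Space M]

/-- spinor words are controlled -/
theorem ctl_sw (hb : Bumps I G.F.e G.F.dv) (hB : B.OK I) (h : c.Adm B G) (hN : 1 ≤ N)
    (hσ : ∀ x, ‖c.Φ x‖ ^ 2 ≤ σ) (hσ0 : 0 ≤ σ) {u : SW M} (hu : SWSz G.F N u) :
    Ctl G.F (gr2 I G.F.e c.W c.Φ) σ ((4 * N) ^ N) c.W (c.sw G.F u) := by
  have N1 : (1 : ℝ) ≤ N := by exact_mod_cast hN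
  have g0 : ∀ x, 0 ≤ gr2 I G.F.e c.W c.Φ x := fun _ => gr2_nonneg
  refine Ctl.mono ?_ hσ0 g0 (pow_le_pow_right₀ (by linarith) hu.1)
  obtain ⟨-, hu⟩ := hu
  induction u with
  | nil => simpa [Cfg.sw] using Ctl.self h.sm hσ0 hσ
  | cons t u ih =>
    have ih := ih fun s hs => hu s (by simp [hs])
    have ht := hu t (by simp)
    have k0 : (0 : ℝ) ≤ (4 * N) ^ u.length := by positivity
    rw [List.length_cons, pow_succ']
    cases t with
    | mul f => exact ih.smul hσ0 g0 k0 (by linarith) ht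
    | cl g =>
      have := ih.app hσ0 g0 k0 (by linarith) (opr_cl hB h.ok h.conn ht)
      simp only [_root_.sum_apply, smul_apply] at this
      exact this
    | im =>
      have := ih.app hσ0 g0 k0 (by linarith)
        ((opr_cs (c := Complex.I) h.ok h.conn (by simp)).mono N1)
      simp only [add_apply, smul_apply, Complex.I_re, zero_smul, Complex.I_im, one_smul,
        zero_add] at this
      exact this
    | G => exact (Ctl.res hb (mc_W h.conn) hσ0 g0 k0 ih.le).mono hσ0 g0 (by nlinarith)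

theorem norm_sw_mul (hb : Bumps I G.F.e G.F.dv) (hB : B.OK I) (h : c.Adm B G) (hN : 1 ≤ N)
    (hσ : ∀ x, ‖c.Φ x‖ ^ 2 ≤ σ) (hσ0 : 0 ≤ σ) {u v : SW M} (hu : SWSz G.F N u)
    (hv : SWSz G.F N v) (x : M) : ‖c.sw G.F u x‖ * ‖c.sw G.F v x‖ ≤ (4 * N) ^ N * σ := by
  nlinarith [(ctl_sw hb hB h hN hσ hσ0 hu).le x, (ctl_sw hb hB h hN hσ hσ0 hv).le x,
    sq_nonneg (‖c.sw G.F u x‖ - ‖c.sw G.F v x‖)]

/-- adjoint words on an arbitrary bounded seed -/
theorem norm_wd_la (hb : Bumps I G.F.e G.F.dv) (h : c.m.IsConn B G c.W) (hN : 1 ≤ N)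
    {s : M → c.m.A} {β : ℝ} (hs : ∀ x, ‖s x‖ ≤ β) {l : List (La M)} (hl : LLSz N l) (x : M) :
    ‖wd (c.la G.F) s l x‖ ≤ N ^ N * β := by
  have N1 : (1 : ℝ) ≤ N := by exact_mod_cast hN
  have β0 : 0 ≤ β := (norm_nonneg _).trans (hs x)
  refine le_trans ?_ (mul_le_mul_of_nonneg_right (pow_le_pow_right₀ N1 hl.1) β0)
  obtain ⟨-, hl⟩ := hl
  induction l generalizing x with
  | nil => simpa using hs x
  | cons t l ih =>
    have ih := fun x => ih x fun s hs => hl s (by simp [hs])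
    have ht := hl t (by simp)
    rw [List.length_cons, pow_succ', mul_assoc, wd_cons]
    cases t with
    | mul f => exact (norm_smul _ _).trans_le (mul_le_mul (ht x) (ih x) (norm_nonneg _) (by linarith))
    | G => exact (norm_res_le hb (mc_adW h) ih x).trans (le_mul_of_one_le_left (by positivity) N1)

variable [BorelSpace M]

/-- the curvature seed -/
theorem norm_cv (hw : Wts G.F S w) (h : c.m.IsConn B G c.W) (hσ : c.Le G.F w σ) {f : M → ι × ι → ℝ}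
    {C : ℝ} (hC : 0 ≤ C) (hf : ∀ x, ∑ s, f x s ^ 2 ≤ C ^ 2) (x : M) :
    ‖G.F.res (c.m.adW c.W) (G.F.res (c.m.adW c.W) fun y => ∑ s, f y s • c.m.Fg G.F c.W y s) x‖ ≤
      4 * (3 + 8 * S ^ 2) * √S * (C * σ) := by
  have σ0 : 0 ≤ σ := by linarith [hσ.one]
  have := Cht98.openPos G.F.toPre
  rcases res_cases G.F (c.m.adW c.W) fun y => ∑ s, f y s • c.m.Fg G.F c.W y s with k | k
  swap
  · rw [k.2, res_zero hw.bp (mc_adW h)]; simp only [Pi.zero_apply, norm_zero]; positivity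
  have le : ∀ y, (w x y * ‖∑ s, f y s • c.m.Fg G.F c.W y s‖) ^ 2 ≤
      C ^ 2 * (w x y * ‖c.m.Fg G.F c.W y‖) ^ 2 := fun y => by
    rw [mul_pow, mul_pow, mul_left_comm]
    exact mul_le_mul_of_nonneg_left ((norm_sum_smul_sq _ _).trans
      (mul_le_mul_of_nonneg_right (hf y) (sq_nonneg _))) (sq_nonneg _)
  have i1 := (hσ.int x).const_mul (C ^ 2)
  have i2 := i1.mono' (((hw.wt x).sm.continuous.mul
    (sm_isRes (mc_adW h).sm k).continuous.norm).pow 2).aestronglyMeasurable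
    (.of_forall fun y => (Real.norm_of_nonneg (sq_nonneg _)).trans_le (le y))
  refine (le_mul_of_one_le_left (norm_nonneg _) (hw.one x)).trans ((hw.wt x).sup_GG (mc_adW h)
    hw.l4 hw.nn (by positivity) i2 ((integral_mono i2 i1 le).trans ?_) x)
  rw [integral_const_mul, mul_pow]
  exact mul_le_mul_of_nonneg_left (hσ.F x) (sq_nonneg _)

/-- `1` for the terms of quadratic growth -/
def qd : Tm M lam r n → ℝ
  | .ad _ _ _ => 1
  | .adj _ _ _ _ _ _ _ => 1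
  | _ => 0

theorem qd_nonneg (T : Tm M lam r n) : 0 ≤ qd T := by
  unfold qd; split <;> norm_num

/-- the constant of the curvature terms -/
def kC (N : ℕ) (S : ℝ) : ℝ := N * N ^ N * (N * (4 * N) ^ N + 4 * (3 + 8 * S ^ 2) * √S * N ^ 2)

theorem norm_tC (hw : Wts G.F S w) (hB : B.OK I) (h : c.Adm B G) (hN : 1 ≤ N)
    (hσ : c.Le G.F w σ) {T : Tm M lam r n} (hT : TmSz G N T) (x : M) :
    ‖c.tC B G.F T x‖ ≤ kC N S * (qd T * σ + 1) := by
  have N1 : (1 : ℝ) ≤ N := by exact_mod_cast hN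
  have σ0 : 0 ≤ σ := by linarith [hσ.one]
  have S0 := hw.nn
  have k1 : (1 : ℝ) ≤ (4 * N) ^ N := one_le_pow₀ (by linarith)
  have k2 : 0 ≤ 4 * (3 + 8 * S ^ 2) * √S * N ^ 2 := by positivity
  have key : ∀ {g h' : M → ℝ} {s : M → c.m.A} {l : List (La M)} {q : ℝ}, G1 G.F N g → G1 G.F N h' →
      LLSz N l → (∀ y, ‖s y‖ ≤ (N * (4 * N) ^ N + 4 * (3 + 8 * S ^ 2) * √S * N ^ 2) * (q * σ + 1)) →
      ‖c.m.p2 B x (WithLp.toLp 2 fun t => (G.F.D t.1 g x * G.F.D t.2 h' x) •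
        wd (c.la G.F) s l x)‖ ≤ kC N S * (q * σ + 1) := fun a1 a2 a3 a4 =>
    (norm_p2_le hB _ a1 a2 x _).trans ((mul_le_mul_of_nonneg_left
      (norm_wd_la hw.bp h.conn hN a4 a3 x) (by linarith)).trans_eq (by rw [kC]; ring))
  have z : ∀ q, 0 ≤ q → ‖(0 : M → Fm (ι × ι) c.m.A) x‖ ≤ kC N S * (q * σ + 1) := fun q hq => by
    rw [Pi.zero_apply, norm_zero, kC]; positivity
  have sw := fun {u v : SW M} => norm_sw_mul (u := u) (v := v) hw.bp hB h hN hσ.Φ σ0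
  cases T with
  | lin u => exact z _ (qd_nonneg _)
  | anti d s u => exact z _ (qd_nonneg _)
  | cut i w g => exact z _ (qd_nonneg _)
  | cz i w k => exact z _ (qd_nonneg _)
  | adj d s g h' u v l =>
    obtain ⟨a1, a2, a3, a4, a5, a6⟩ := hT
    refine key a2 a3 a6 fun y => (norm_q _ _).trans ?_
    rw [norm_cs h.ok.Jsq h.ok.Jsk]
    have b1 := (mul_le_of_le_one_left (norm_nonneg _) (norm_co h.z G.F d)).trans
      ((norm_j hB h.ok y (s y) (c.sw G.F u y)).trans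
        (mul_le_mul_of_nonneg_right (a1 y) (norm_nonneg _)))
    have b2 := mul_le_mul_of_nonneg_right b1 (norm_nonneg (c.sw G.F v y))
    have b3 := mul_le_mul_of_nonneg_left (sw a4 a5 y) (show (0 : ℝ) ≤ N by linarith)
    simp only [qd, one_mul]
    nlinarith [mul_nonneg k2 σ0]
  | ad g h' ξ =>
    obtain ⟨s, l⟩ := ξ
    obtain ⟨a1, a2, a3, a4⟩ := hT
    refine key a1 a2 a4 fun y => ?_
    cases s with
    | q u v =>
      refine (norm_q _ _).trans ((sw a3.1 a3.2 y).trans ?_)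
      simp only [qd, one_mul]
      nlinarith [mul_nonneg k2 σ0, mul_le_mul_of_nonneg_right N1 (mul_nonneg (zero_le_one.trans k1) σ0)]
    | cv f g' h'' =>
      refine (norm_cv (C := N ^ 2) hw h.conn hσ (by positivity) (fun y => ?_) y).trans ?_
      · simp only [mul_assoc (f y), mul_pow (f y), ← Finset.mul_sum]
        rw [sum_sq_prod (fun a => G.F.D a g' y) fun a => G.F.D a h'' y]
        refine (mul_le_mul (a3.1 y) (mul_le_mul (a3.2.1 y) (a3.2.2 y)
          (Finset.sum_nonneg fun _ _ => sq_nonneg _) (by positivity)) (mul_nonneg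
          (Finset.sum_nonneg fun _ _ => sq_nonneg _) (Finset.sum_nonneg fun _ _ => sq_nonneg _))
          (by positivity)).trans ?_
        nlinarith [mul_le_mul_of_nonneg_left N1 (show (0 : ℝ) ≤ N ^ 3 by positivity)]
      · simp only [qd, one_mul]
        nlinarith [mul_nonneg (mul_nonneg (zero_le_one.trans N1) (zero_le_one.trans k1)) σ0]
  | adn f g h' φ L =>
    obtain ⟨a1, a2, a3, a4⟩ := hT
    have b1 : ‖φ (‖c.aws G.F L x‖ ^ 2) • c.aws G.F L x‖ ≤ N := by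
      refine (abs_le_of_sq_le_sq' ?_ (by positivity)).2
      rw [norm_smul, mul_pow, Real.norm_eq_abs, sq_abs]
      nlinarith [a4 _ (sq_nonneg ‖c.aws G.F L x‖)]
    have b2 := norm_p2_le hB c.m a2 a3 x (f x • φ (‖c.aws G.F L x‖ ^ 2) • c.aws G.F L x)
    simp only [smul_smul, ← mul_assoc, mul_comm _ (f x)] at b2
    refine b2.trans ?_
    rw [mul_smul, norm_smul, kC]
    simp only [qd, zero_mul, zero_add, mul_one, mul_assoc]
    refine mul_le_mul_of_nonneg_left ((mul_le_mul (a1 x) b1 (norm_nonneg _) (by positivity)).trans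
      (mul_le_mul (le_self_pow₀ N1 (by omega)) ?_ (by positivity) (by positivity))) (by positivity)
    nlinarith

theorem ctl_tD (hb : Bumps I G.F.e G.F.dv) (hB : B.OK I) (h : c.Adm B G)
    (hN : 1 ≤ N) (hσ : ∀ x, ‖c.Φ x‖ ^ 2 ≤ σ) (hσ0 : 0 ≤ σ) {T : Tm M lam r n} (hT : TmSz G N T) :
    Ctl G.F (gr2 I G.F.e c.W c.Φ) σ (64 * N * (4 * N) ^ N) c.W (c.tD B G.F T) := by
  have N1 : (1 : ℝ) ≤ N := by exact_mod_cast hN
  have g0 : ∀ x, 0 ≤ gr2 I G.F.e c.W c.Φ x := fun _ => gr2_nonneg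
  have k0 : (0 : ℝ) ≤ (4 * N) ^ N := by positivity
  have z := Ctl.zero (F := G.F) (A := c.W) (K := 64 * N * (4 * N) ^ N) hσ0 g0 (by positivity)
  cases T with
  | lin u =>
    exact ((ctl_sw hb hB h hN hσ hσ0 hT).app hσ0 g0 k0 zero_le_one (opr_pm hB h.ok h.conn)).mono hσ0 g0
      (by nlinarith)
  | anti d s u =>
    exact ((((ctl_sw hb hB h hN hσ hσ0 hT.2).app hσ0 g0 k0 (by linarith)
      (opr_j hB h.ok h.conn hT.1)).app hσ0 g0 (by positivity) zero_le_one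
      (opr_cs h.ok h.conn (norm_co h.z G.F d))).app hσ0 g0 (by positivity) zero_le_one (opr_pm hB h.ok h.conn)).mono
      hσ0 g0 (le_of_eq (by ring))
  | _ => exact z

theorem norm_wpt_C {κ : Type} [Fintype κ] (hw : Wts G.F S w) (hB : B.OK I) (hN : 1 ≤ N)
    {T : κ → Tm M lam r n} (hT : ∀ k, TmSz G N (T k)) (v : κ → ℝ) (a : c.Adm B G)
    (b : c.Le G.F w σ) (x : M) : ‖(wpt B G.F T v).C c x‖ ≤
      (kC N S * ∑ k, |v k| * qd (T k)) * σ + kC N S * ∑ k, |v k| := by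
  refine (norm_sum_le _ _).trans ((Finset.sum_le_sum fun k _ => (norm_smul _ _).trans_le
    (mul_le_mul_of_nonneg_left (norm_tC hw hB a hN b (hT k) x) (norm_nonneg _))).trans_eq ?_)
  simp only [Finset.mul_sum, Finset.sum_mul, ← Finset.sum_add_distrib, Real.norm_eq_abs]
  exact Finset.sum_congr rfl fun k _ => by ring

/-- **finite sums of words are in the class `Bd`** -/
theorem bd_wpt {κ : Type} [Fintype κ] (hw : Wts G.F S w) (hB : B.OK I) (hN : 1 ≤ N)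
    {T : κ → Tm M lam r n} (hT : ∀ k, TmSz G N (T k)) (v : κ → ℝ) :
    (wpt B G.F T v).Bd B G w (2 ^ Fintype.card κ * ∑ k, 4 * v k ^ 2 * (64 * N * (4 * N) ^ N))
      (kC N S * ∑ k, |v k| * qd (T k)) (kC N S * ∑ k, |v k|) := by
  have k0 : 0 ≤ kC N S := by rw [kC]; positivity
  refine bd_of_sup (by positivity) (mul_nonneg k0 (Finset.sum_nonneg fun k _ =>
    mul_nonneg (abs_nonneg _) (qd_nonneg _))) (by positivity) (fun c σ a b => ?_)
    fun c σ a b => norm_wpt_C hw hB hN hT v a b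
  have σ0 : 0 ≤ σ := by linarith [b.one]
  exact Ctl.sum Finset.univ σ0 (fun _ => gr2_nonneg) (fun k _ => by positivity) fun k _ =>
    (ctl_tD hw.bp hB a hN b.Φ σ0 (hT k)).smul σ0 (fun _ => gr2_nonneg) (by positivity)
      (sq_nonneg _) (Fn.const (v k))

end Mp86

end Crest.Agent.X212

end
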