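import Crest.Agent.X212.Mp86.Bd
import Crest.Agent.X212.Dgr80.Rs
import Crest.Agent.X212.Cyc79.Fld
import Crest.Agent.X212.Wz78.Kat

/-!
# Row 212, NK-BD (helper86): bounds of the engine of the neck terms
-/

set_option autoImplicit false
set_option linter.unusedSectionVars false
open Set Filter Topology Module MeasureTheory
open scoped Manifold ContDiff InnerProductSpace

noncomputable section

namespace Crest.Agent.X212.Mp86
open An Wz78 Wrd81 Dgr80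

variable {E : Type} [NormedAddCommGroup E] [NormedSpace ℝ E] [FiniteDimensional ℝ E]
  [MeasurableSpace E] [BorelSpace E]
  {HM : Type} [TopologicalSpace HM] {I : ModelWithCorners ℝ E HM}
  {M : Type} [TopologicalSpace M] [ChartedSpace HM M] [IsManifold I ∞ M]
  [MeasurableSpace M] {ι : Type} [Fintype ι]

section gen
variable {V V' V'' U : Type} [NormedAddCommGroup V] [InnerProductSpace ℝ V]
  [NormedAddCommGroup V'] [InnerProductSpace ℝ V'] [NormedAddCommGroup V''] [InnerProductSpace ℝ V'']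
  [NormedAddCommGroup U] [InnerProductSpace ℝ U]
  {F : Fr I M ι} {A : ι → M → CL V V} {A' : ι → M → CL V' V'} {A'' : ι → M → CL V'' V''}
  {ψ : M → V} {φ : M → V'} {σ K K' C β R S : ℝ} {γ g f : M → ℝ}

theorem Dom.const (hC : 0 ≤ C) : Dom F (2 * C) fun _ => C :=
  ⟨fun _ => 0, contMDiff_const, fun x => ⟨le_rfl, by linarith, by rw [Lop_const]; linarith⟩⟩

theorem Dom.sq_add {u v : M → V} (h : Dom F K fun x => ‖u x‖ ^ 2) (k : Dom F K' fun x => ‖v x‖ ^ 2) :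
    Dom F (2 * K + 2 * K') fun x => ‖u x + v x‖ ^ 2 :=
  ((h.mul zero_le_two).add (k.mul zero_le_two)).mono le_rfl fun _ => normSq_add_le _ _

theorem Dom.sq_sub {u v : M → V} (h : Dom F K fun x => ‖u x‖ ^ 2) (k : Dom F K' fun x => ‖v x‖ ^ 2) :
    Dom F (2 * K + 2 * K') fun x => ‖u x - v x‖ ^ 2 := by
  simpa only [sub_eq_add_neg] using h.sq_add (v := fun x => -v x) (by simpa only [norm_neg] using k)

theorem Dom.sq_sum {κ : Type*} (S : Finset κ) {u : κ → M → V} {K : κ → ℝ} (hK : ∀ k ∈ S, 0 ≤ K k)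
    (h : ∀ k ∈ S, Dom F (K k) fun x => ‖u k x‖ ^ 2) :
    Dom F (2 ^ S.card * ∑ k ∈ S, K k) fun x => ‖∑ k ∈ S, u k x‖ ^ 2 := by
  classical
  induction S using Finset.induction_on with
  | empty => simpa using Dom.zero le_rfl
  | insert k S hk ih =>
    simp only [Finset.sum_insert hk, Finset.card_insert_of_notMem hk]
    refine ((h k (by simp)).sq_add (ih (fun j hj => hK j (by simp [hj]))
      fun j hj => h j (by simp [hj]))).mono ?_ fun _ => le_rfl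
    have h1 : (1 : ℝ) ≤ 2 ^ S.card := one_le_pow₀ one_le_two
    rw [pow_succ]
    nlinarith [hK k (by simp)]

theorem Ctl.up (h : Ctl F γ 1 K A ψ) (hK : 0 ≤ K) (hσ : 1 ≤ σ) : Ctl F γ σ K A ψ := by
  obtain ⟨h1, h2, g, h3, h4⟩ := h
  have := mul_le_mul_of_nonneg_left hσ hK
  exact ⟨h1, fun x => (h2 x).trans this, g, h3.mono this fun _ => le_rfl,
    fun x => by nlinarith [h4 x]⟩

theorem Ctl.neg (h : Ctl F γ σ K A ψ) : Ctl F γ σ K A fun x => -ψ x :=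
  ⟨h.sm.neg, by simpa only [norm_neg] using h.le, by simpa only [gr2_eq, nab_neg, norm_neg] using h.gr⟩

theorem Ctl.norm_le (h : Ctl F γ 1 K A ψ) (hK : 1 ≤ K) (x : M) : ‖ψ x‖ ≤ K :=
  (abs_le_of_sq_le_sq' ((h.le x).trans (by nlinarith)) (by linarith)).2

/-- products of bounded controlled sections -/
theorem Ctl.bil (h : Ctl F γ 1 K A ψ) (k : Ctl F γ 1 K' A' φ) (hK : 0 ≤ K) (hK' : 0 ≤ K')
    {u : M → V''} (hu : Sm I u) (h0 : ∀ x, ‖u x‖ ≤ ‖ψ x‖ * ‖φ x‖)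
    (h1 : ∀ a x, ‖nab I F.e A'' a u x‖ ≤
      ‖nab I F.e A a ψ x‖ * ‖φ x‖ + ‖ψ x‖ * ‖nab I F.e A' a φ x‖) :
    Ctl F γ 1 (4 * K * K') A'' u := by
  obtain ⟨-, h2, g, h3, h4⟩ := h
  obtain ⟨-, k2, g', k3, k4⟩ := k
  simp only [mul_one] at h2 k2 h3 k3
  refine ⟨hu, fun x => ?_, _, ((h3.mul (C := 2 * K') (by positivity)).add
    (k3.mul (C := 2 * K) (by positivity))).mono (le_of_eq (by ring)) fun _ => le_rfl, fun x => ?_⟩
  · nlinarith [pow_le_pow_left₀ (norm_nonneg _) (h0 x) 2,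
      mul_le_mul (h2 x) (k2 x) (sq_nonneg _) hK, mul_nonneg hK hK']
  have : gr2 I F.e A'' u x ≤ 2 * K' * gr2 I F.e A ψ x + 2 * K * gr2 I F.e A' φ x := by
    simp only [gr2_eq, Finset.mul_sum, ← Finset.sum_add_distrib]
    refine Finset.sum_le_sum fun a _ => (pow_le_pow_left₀ (norm_nonneg _) (h1 a x) 2).trans ?_
    nlinarith [mul_le_mul_of_nonneg_left (k2 x) (sq_nonneg ‖nab I F.e A a ψ x‖),
      mul_le_mul_of_nonneg_left (h2 x) (sq_nonneg ‖nab I F.e A' a φ x‖),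
      sq_nonneg (‖nab I F.e A a ψ x‖ * ‖φ x‖ - ‖ψ x‖ * ‖nab I F.e A' a φ x‖)]
  nlinarith [mul_le_mul_of_nonneg_left (h4 x) hK', mul_le_mul_of_nonneg_left (k4 x) hK]

theorem nab_zero' (a : ι) (x : M) : nab I F.e (fun _ _ => 0) a f x = dv I (F.e a) f x := by
  simp [nab]

theorem Ctl.smul' (h : Ctl F γ 1 K (fun _ _ => 0) f) (k : Ctl F γ 1 K' A ψ) (hK : 0 ≤ K)
    (hK' : 0 ≤ K') : Ctl F γ 1 (4 * K * K') A fun x => f x • ψ x :=
  h.bil k hK hK' (h.sm.smul k.sm) (fun _ => (norm_smul _ _).le) fun a x => by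
    rw [nab_smul a (h.sm x) (k.sm x), nab_zero', ← norm_smul, ← norm_smul]
    exact norm_add_le _ _

theorem Ctl.inner (hA : Mc I A) {φ : M → V} (h : Ctl F γ 1 K A ψ) (k : Ctl F γ 1 K' A φ)
    (hK : 0 ≤ K) (hK' : 0 ≤ K') :
    Ctl F γ 1 (4 * K * K') (fun _ _ => 0) fun x => ⟪ψ x, φ x⟫_ℝ :=
  h.bil k hK hK' (fun x => SA.inner (h.sm x) (k.sm x)) (fun _ => norm_inner_le_norm _ _)
    fun a x => by
      rw [nab_zero', Wz78.dv_inner a (hA.sk a x) (h.sm x) (k.sm x)]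
      exact (norm_add_le _ _).trans (add_le_add (norm_inner_le_norm _ _) (norm_inner_le_norm _ _))

theorem Fn.mono (h : Fn F C f) (hC : C ≤ K) : Fn F K f :=
  ⟨h.sm, fun x => (h.le x).trans hC, fun x => (h.gr x).trans hC⟩

theorem Fn.mul (h : Fn F C f) (k : Fn F K g) (hC : 0 ≤ C) (hK : 0 ≤ K) :
    Fn F (4 * C * K) fun x => f x * g x := by
  refine ⟨h.sm.mul k.sm, fun x => ?_, fun x => ?_⟩
  · nlinarith [mul_le_mul (h.le x) (k.le x) (sq_nonneg _) hC, mul_nonneg hC hK]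
  have : ∑ a, F.D a (fun x => f x * g x) x ^ 2 ≤
      2 * K * ∑ a, F.D a f x ^ 2 + 2 * C * ∑ a, F.D a g x ^ 2 := by
    simp only [Finset.mul_sum, ← Finset.sum_add_distrib, Pre.D_def]
    refine Finset.sum_le_sum fun a _ => ?_
    rw [Wz78.dv_mul (h.sm x) (k.sm x)]
    nlinarith [mul_le_mul_of_nonneg_left (k.le x) (sq_nonneg (dv I (F.e a) f x)),
      mul_le_mul_of_nonneg_left (h.le x) (sq_nonneg (dv I (F.e a) g x)),
      sq_nonneg (dv I (F.e a) f x * g x - f x * dv I (F.e a) g x)]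
  nlinarith [mul_le_mul_of_nonneg_left (h.gr x) hK, mul_le_mul_of_nonneg_left (k.gr x) hC]

theorem Fn.abs_le (h : Fn F C f) (hC : 1 ≤ C) (x : M) : |f x| ≤ C :=
  abs_le_of_sq_le_sq ((h.le x).trans (by nlinarith)) (by linarith)

/-- functions of time -/
theorem fn_time {τ : M → ℝ} {k : ℝ → ℝ} (hτ : Sm I τ) (h1 : G1 F C τ) (hC : 1 ≤ C)
    (hk : ContDiff ℝ ∞ k) (h0 : ∀ t, |k t| ≤ K) (h' : ∀ t, |deriv k t| ≤ K) :
    Fn F (K ^ 2 * C) fun x => k (τ x) := by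
  have b : ∀ {s : ℝ}, |s| ≤ K → s ^ 2 ≤ K ^ 2 := fun h =>
    (sq_abs _).symm.trans_le (pow_le_pow_left₀ (abs_nonneg _) h 2)
  refine ⟨hk.contMDiff.comp hτ, fun x => (b (h0 _)).trans (le_mul_of_one_le_right (sq_nonneg _) hC),
    fun x => ?_⟩
  have e : ∀ a, F.D a (fun x => k (τ x)) x = deriv k (τ x) * F.D a τ x := fun a => by
    rw [Pre.D_def, Mp86.dv_comp (hk.differentiable (by simp) _).hasDerivAt.hasFDerivAt
      (SA.md (hτ x))]
    simp [mul_comm, Pre.D_def]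
  simp only [e, mul_pow, ← Finset.mul_sum]
  exact mul_le_mul (b (h' _)) (h1 x) (Finset.sum_nonneg fun _ _ => sq_nonneg _) (sq_nonneg _)

/-- the normalising factor -/
def nf (v : V) : ℝ := (√(1 + ‖v‖ ^ 2))⁻¹

theorem nf_pos (v : V) : 0 < nf v := by unfold nf; positivity

theorem nf_sq (v : V) : nf v ^ 2 * (1 + ‖v‖ ^ 2) = 1 := by
  rw [nf, inv_pow, Real.sq_sqrt (by positivity), inv_mul_cancel₀ (by positivity)]

theorem norm_nf_sq (v : V) : ‖nf v • v‖ ^ 2 ≤ 1 ∧ ‖nf v • v‖ ^ 2 ≤ ‖v‖ ^ 2 := by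
  rw [norm_smul, mul_pow, Real.norm_eq_abs, sq_abs]
  constructor <;> nlinarith [nf_sq v, sq_nonneg (nf v), sq_nonneg ‖v‖, sq_nonneg (nf v * ‖v‖),
    sq_nonneg (nf v * ‖v‖ ^ 2)]

theorem sm_nf (h : Sm I ψ) : Sm I fun x => nf (ψ x) := fun x => by
  have k : ContDiffAt ℝ ∞ (fun t : ℝ => (√t)⁻¹) (1 + ‖ψ x‖ ^ 2) :=
    (contDiffAt_id.sqrt (by simp only [id]; positivity)).inv (by simp only [id]; positivity)
  exact k.contMDiffAt.comp x (f := fun y => 1 + ‖ψ y‖ ^ 2)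
    (contMDiffAt_const.add (cm_normSq (h x)))

theorem dv_nf (hA : Mc I A) (h : Sm I ψ) (a : ι) (x : M) : dv I (F.e a) (fun x => nf (ψ x)) x =
    -(nf (ψ x) ^ 3 * ⟪ψ x, nab I F.e A a ψ x⟫_ℝ) := by
  have p : 0 < 1 + ‖ψ x‖ ^ 2 := by positivity
  have s := Real.sqrt_pos.2 p
  have d : HasDerivAt (fun t : ℝ => (√(1 + t))⁻¹) (-(nf (ψ x) ^ 3 / 2)) ⟪ψ x, ψ x⟫_ℝ := by
    rw [real_inner_self_eq_norm_sq]
    refine ((((hasDerivAt_id (‖ψ x‖ ^ 2)).const_add 1).sqrt p.ne').inv s.ne').congr_deriv ?_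
    simp only [id, nf]; field_simp
  simp only [nf, ← real_inner_self_eq_norm_sq]
  rw [Mp86.dv_comp (u := fun y => ⟪ψ y, ψ y⟫_ℝ) d.hasFDerivAt (SA.md (SA.inner (h x) (h x))),
    Wz78.dv_inner a (hA.sk a x) (h x) (h x), real_inner_comm]
  simp only [nf, real_inner_self_eq_norm_sq, ContinuousLinearMap.toSpanSingleton_apply, smul_eq_mul]
  ring

theorem gr2_nf (hA : Mc I A) (h : Sm I ψ) (x : M) :
    gr2 I F.e (fun _ _ => 0) (fun x => nf (ψ x)) x ≤ gr2 I F.e A ψ x ∧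
      gr2 I F.e A (fun x => nf (ψ x) • ψ x) x ≤ gr2 I F.e A ψ x := by
  have e := nf_sq (ψ x)
  have p := nf_pos (ψ x)
  have s1 : nf (ψ x) ^ 2 ≤ 1 := by nlinarith [sq_nonneg (nf (ψ x) * ‖ψ x‖)]
  have s2 : nf (ψ x) ^ 2 * ‖ψ x‖ ^ 2 ≤ 1 := by nlinarith [sq_nonneg (nf (ψ x))]
  constructor <;> refine Finset.sum_le_sum fun a _ => ?_
  · change ‖nab I F.e (fun _ _ => 0) a (fun x => nf (ψ x)) x‖ ^ 2 ≤ ‖nab I F.e A a ψ x‖ ^ 2
    rw [nab_zero', dv_nf hA h, norm_neg, Real.norm_eq_abs, sq_abs]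
    have b := real_inner_mul_inner_self_le (ψ x) (nab I F.e A a ψ x)
    simp only [real_inner_self_eq_norm_sq] at b
    set t := ⟪ψ x, nab I F.e A a ψ x⟫_ℝ
    set s := nf (ψ x)
    calc (s ^ 3 * t) ^ 2 = s ^ 2 * s ^ 2 * (s ^ 2 * (t * t)) := by ring
      _ ≤ 1 * 1 * (s ^ 2 * (‖ψ x‖ ^ 2 * ‖nab I F.e A a ψ x‖ ^ 2)) := by
          gcongr; exact mul_nonneg (sq_nonneg _) (mul_self_nonneg _)
      _ ≤ _ := by nlinarith [sq_nonneg ‖nab I F.e A a ψ x‖]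
  · change ‖nab I F.e A a _ x‖ ^ 2 ≤ ‖nab I F.e A a ψ x‖ ^ 2
    rw [nab_smul a (sm_nf h x) (h x), dv_nf hA h, norm_add_sq_real, norm_smul, norm_smul,
      real_inner_smul_left, real_inner_smul_right]
    simp only [mul_pow, Real.norm_eq_abs, sq_abs, neg_sq]
    set t := ⟪ψ x, nab I F.e A a ψ x⟫_ℝ
    set s := nf (ψ x)
    nlinarith [mul_le_mul_of_nonneg_left s2 (sq_nonneg (s ^ 2 * t)), sq_nonneg (s ^ 2 * t),
      mul_le_mul_of_nonneg_left s1 (sq_nonneg ‖nab I F.e A a ψ x‖)]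

/-- the normalisation of a controlled section -/
theorem Ctl.nrm (hA : Mc I A) (h : Ctl F γ σ K A ψ) : Ctl F γ σ K A fun x => nf (ψ x) • ψ x :=
  ⟨(sm_nf h.sm).smul h.sm, fun x => (norm_nf_sq _).2.trans (h.le x),
    h.gr.imp fun _ k => ⟨k.1, fun x => (gr2_nf hA h.sm x).2.trans (k.2 x)⟩⟩

theorem ctl_nf (hA : Mc I A) (h : Sm I ψ) :
    Ctl F (gr2 I F.e A ψ) 1 1 (fun _ _ => 0) (fun x => nf (ψ x)) ∧
      Ctl F (gr2 I F.e A ψ) 1 1 A fun x => nf (ψ x) • ψ x :=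
  ⟨⟨sm_nf h, fun x => by
      rw [Real.norm_eq_abs, sq_abs]; nlinarith [nf_sq (ψ x), sq_nonneg (nf (ψ x) * ‖ψ x‖)], _,
      .zero (by norm_num), fun x => by linarith [(gr2_nf (F := F) hA h x).1]⟩,
    ⟨(sm_nf h).smul h, fun x => by linarith [(norm_nf_sq (ψ x)).1], _, .zero (by norm_num),
      fun x => by linarith [(gr2_nf (F := F) hA h x).2]⟩⟩

theorem Opr.neg {T : M → CL V V'} (h : Opr F A A' C T) : Opr F A A' C fun x => -T x :=
  ⟨h.sm.neg, by simpa using h.le, fun x v => by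
    have : ∀ a, nabH F A A' a (fun x => -T x) x = -nabH F A A' a T x := fun a => by
      simp only [nabH, Pre.D_def]
      rw [show dv I (F.e a) (fun y => -T y) x = _ from Sob92.dv_neg T x]
      simp only [ContinuousLinearMap.comp_neg, ContinuousLinearMap.neg_comp]; abel
    simpa [this] using h.gr x v⟩

theorem Opr.norm_le {T : M → CL V V'} (h : Opr F A A' C T) (hC : 1 ≤ C) (x : M) : ‖T x‖ ≤ C :=
  (T x).opNorm_le_bound (by linarith) fun v => (abs_le_of_sq_le_sq' ((h.le x v).trans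
    (by nlinarith [mul_nonneg (by nlinarith : 0 ≤ C ^ 2 - C) (sq_nonneg ‖v‖)])) (by positivity)).2

variable [CompleteSpace V] [CompleteSpace U] {r : CL U (CL V V)} {s l : M → V}

variable (F A) in
/-- letters of size `C` in `C¹` -/
def SLo (C : ℝ) : SL M V → Prop
  | .op T => Opr F A A C T ∧ Opr F A A C fun x => ContinuousLinearMap.adjoint (T x)
  | .G => True

theorem SLo.le {t : SL M V} (h : SLo F A C t) (hC : 1 ≤ C) : t.Le C := by
  cases t with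
  | op T => exact h.1.norm_le hC
  | G => trivial

variable [BoundarylessManifold I M] [T2Space M] [BorelSpace M] (hB : Bumps I F.e F.dv) (hA : Mc I A)
include hB hA

theorem ctl_sl (hσ : 0 ≤ σ) (hγ : ∀ x, 0 ≤ γ x) (hK : 0 ≤ K) (hC : 1 ≤ C) {t : SL M V}
    (ht : SLo F A C t) (h : Ctl F γ σ K A l) :
    Ctl F γ σ (4 * C * K) A (sl F A t l) ∧ Ctl F γ σ (4 * C * K) A (slT F A t l) := by
  cases t with
  | op T => exact ⟨h.app hσ hγ hK (by linarith) ht.1, h.app hσ hγ hK (by linarith) ht.2⟩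
  | G =>
    have := (Ctl.res hB hA hσ hγ hK h.le).mono hσ hγ (show K ≤ 4 * C * K by nlinarith)
    exact ⟨this, this⟩

theorem ctl_wd (hσ : 0 ≤ σ) (hγ : ∀ x, 0 ≤ γ x) (hK : 0 ≤ K) (hC : 1 ≤ C) (h : Ctl F γ σ K A s) :
    ∀ {w : List (SL M V)}, (∀ t ∈ w, SLo F A C t) →
      Ctl F γ σ ((4 * C) ^ w.length * K) A (wd (sl F A) s w)
  | [], _ => by simpa using h
  | t :: w, hw => by
    rw [List.length_cons, pow_succ', mul_assoc]
    exact (ctl_sl hB hA hσ hγ (by positivity) hC (hw t (by simp))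
      (ctl_wd hσ hγ hK hC h fun t ht => hw t (by simp [ht]))).1

theorem ctl_bk (hσ : 0 ≤ σ) (hγ : ∀ x, 0 ≤ γ x) (hC : 1 ≤ C) :
    ∀ {w : List (SL M V)} {l : M → V} {K : ℝ}, 0 ≤ K → (∀ t ∈ w, SLo F A C t) →
      Ctl F γ σ K A l → Ctl F γ σ ((4 * C) ^ w.length * K) A (bk F A w l)
  | [], _, _, _, _, h => by simpa [bk] using h
  | t :: w, _, _, hK, hw, h => by
    rw [List.length_cons, pow_succ, mul_assoc]
    exact ctl_bk hσ hγ hC (w := w) (by positivity) (fun t ht => hw t (by simp [ht]))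
      (ctl_sl hB hA hσ hγ hK hC (hw t (by simp)) h).2

theorem dom_cur (hr : ‖r‖ ≤ 2) (hs : ∀ x, ‖s x‖ ≤ R) (hl : ∀ x, ‖l x‖ ≤ S) :
    Dom F (16 * (R ^ 2 * S ^ 2)) fun x => ‖cur F A r (F.res A s) (F.res A l) x‖ ^ 2 := by
  obtain ⟨a1, a2⟩ := Dom.res hB hA fun x => pow_le_pow_left₀ (norm_nonneg _) (hs x) 2
  obtain ⟨b1, b2⟩ := Dom.res hB hA fun x => pow_le_pow_left₀ (norm_nonneg _) (hl x) 2
  refine ((b2.mul (C := 8 * R ^ 2) (by positivity)).add
    (a2.mul (C := 8 * S ^ 2) (by positivity))).mono (le_of_eq (by ring)) fun x => ?_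
  have t : ∀ v w : V, ‖tp r v w‖ ^ 2 ≤ 4 * (‖v‖ ^ 2 * ‖w‖ ^ 2) := fun v w =>
    (pow_le_pow_left₀ (norm_nonneg _) ((norm_tp r v w).trans (by gcongr)) 2).trans_eq
      (show (2 * ‖v‖ * ‖w‖) ^ 2 = _ by ring)
  simp only [cur, PiLp.norm_sq_eq_of_L2, gr2_eq, Finset.mul_sum, ← Finset.sum_add_distrib]
  refine Finset.sum_le_sum fun a _ => (normSq_add_le _ _).trans ?_
  nlinarith [t (F.res A s x) (nab I F.e A a (F.res A l) x),
    t (F.res A l x) (nab I F.e A a (F.res A s) x),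
    mul_le_mul_of_nonneg_right (a1 x) (sq_nonneg ‖nab I F.e A a (F.res A l) x‖),
    mul_le_mul_of_nonneg_right (b1 x) (sq_nonneg ‖nab I F.e A a (F.res A s) x‖)]

/-- the gradient of a word is dominated -/
theorem dom_gc (hr : ‖r‖ ≤ 2) (hK : 1 ≤ K) (hs : ∀ x, ‖s x‖ ≤ R) :
    ∀ {w : List (SL M V)} {l : M → V} {S : ℝ}, (∀ t ∈ w, t.Le K) → (∀ x, ‖l x‖ ≤ S) →
      Dom F (32 * (3 * K ^ 2) ^ w.length * (R ^ 2 * S ^ 2)) fun x => ‖gc F A r s w l x‖ ^ 2
  | [], _, _, _, _ => (Dom.zero (by positivity)).mono le_rfl fun x => by simp [gc]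
  | .op T :: w, l, S, hw, hl => by
    refine (dom_gc hr hK hs (w := w) (fun t ht => hw t (by simp [ht])) fun y =>
      (sl_le hB hA hK (hw (.op T) (by simp)) hl y).2).mono ?_ fun _ => le_rfl
    rw [List.length_cons, pow_succ _ w.length]
    nlinarith [show 0 ≤ (3 * K ^ 2) ^ w.length * (K ^ 2 * (R ^ 2 * S ^ 2)) by positivity]
  | .G :: w, l, S, hw, hl => by
    have hw' : ∀ t ∈ w, t.Le K := fun t ht => hw t (by simp [ht])
    refine ((dom_gc hr hK hs hw' (norm_res_le hB hA hl)).sq_sub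
      (dom_cur hB hA hr (wd_le hB hA hK hs hw') hl)).mono ?_ fun _ => le_rfl
    have h1 : (K ^ w.length) ^ 2 ≤ (3 * K ^ 2) ^ w.length := by
      rw [← pow_mul, mul_comm, pow_mul]; gcongr; nlinarith [sq_nonneg K]
    have h2 : 1 ≤ K ^ 2 := one_le_pow₀ hK
    rw [List.length_cons, pow_succ _ w.length, mul_pow (K ^ w.length)]
    nlinarith [mul_le_mul_of_nonneg_right h1 (show 0 ≤ R ^ 2 * S ^ 2 by positivity),
      mul_le_mul_of_nonneg_right h2
        (show 0 ≤ (3 * K ^ 2) ^ w.length * (R ^ 2 * S ^ 2) by positivity)]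

theorem dom_gc' (hr : ‖r‖ ≤ 2) (hK : 1 ≤ K) (hs : ∀ x, ‖s x‖ ≤ R) {w : List (SL M V)} {n : ℕ}
    (hn : w.length ≤ n) (hw : ∀ t ∈ w, t.Le K) (hl : ∀ x, ‖l x‖ ≤ S) :
    Dom F (32 * (3 * K ^ 2) ^ n * (R ^ 2 * S ^ 2)) fun x => ‖gc F A r s w l x‖ ^ 2 :=
  (dom_gc hB hA hr hK hs hw hl).mono (by gcongr; nlinarith) fun _ => le_rfl

theorem wd_le' (hK : 1 ≤ K) (hs : ∀ x, ‖s x‖ ≤ R) {w : List (SL M V)} {n : ℕ}
    (hn : w.length ≤ n) (hw : ∀ t ∈ w, t.Le K) (x : M) :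
    ‖wd (sl F A) s w x‖ ≤ K ^ n * R ∧ ‖bk F A w s x‖ ≤ K ^ n * R := by
  have := mul_le_mul_of_nonneg_right (pow_le_pow_right₀ hK hn) ((norm_nonneg _).trans (hs x))
  exact ⟨(wd_le hB hA hK hs hw x).trans this, (bk_le hB hA hK hw hs x).trans this⟩

end gen

section lin
open Cyc79
variable {κ : Type} [Fintype κ] [DecidableEq κ] {K : Type} [NormedAddCommGroup K]
  [InnerProductSpace ℝ K]

theorem norm_opL : ‖(opL : CL (HS κ) (En κ))‖ ≤ 2 :=
  ContinuousLinearMap.opNorm_le_bound₂ _ zero_le_two fun ξ v => by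
    nlinarith [norm_opL_apply ξ v, mul_nonneg (norm_nonneg ξ) (norm_nonneg v)]

theorem norm_adR : ‖adR κ‖ ≤ 2 :=
  ContinuousLinearMap.opNorm_le_bound₂ _ zero_le_two fun ξ v =>
    (norm_adc ξ v).trans_eq (mul_assoc _ _ _).symm

theorem norm_amp (T : En κ) (v : Fm κ K) : ‖amp K T v‖ ≤ ‖T‖ * ‖v‖ := by
  let W := Submodule.span ℝ (Set.range v)
  have : FiniteDimensional ℝ W := FiniteDimensional.span_of_finite ℝ (finite_range _)
  let b := stdOrthonormalBasis ℝ W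
  have key : ∀ u : Fm κ K, (∀ i, u i ∈ W) → ‖u‖ ^ 2 = ∑ j, ‖ct (b j : K) u‖ ^ 2 := fun u hu => by
    simp only [PiLp.norm_sq_eq_of_L2, ct_apply]
    rw [Finset.sum_comm]
    exact Finset.sum_congr rfl fun i _ => (b.sum_sq_norm_inner_right ⟨u i, hu i⟩).symm
  have h1 : ∀ i, v i ∈ W := fun i => Submodule.subset_span ⟨i, rfl⟩
  refine (abs_le_of_sq_le_sq' ?_ (by positivity)).2
  rw [mul_pow, key v h1, key _ fun i => by
    rw [amp_apply]; exact Submodule.sum_mem _ fun j _ => Submodule.smul_mem _ _ (h1 j),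
    Finset.mul_sum]
  exact Finset.sum_le_sum fun j _ => by
    rw [ct_amp, ← mul_pow]; exact pow_le_pow_left₀ (norm_nonneg _) (T.le_opNorm _) 2

theorem adj_skw {T : En κ} (h : Skw T) : ContinuousLinearMap.adjoint T = -T :=
  ((ContinuousLinearMap.eq_adjoint_iff _ _).2 fun v w => by
    rw [neg_apply, inner_neg_left, h, neg_neg]).symm

end lin

/-- all derivatives of a normalised window integral are bounded -/
theorem wn_nf {μ : Measure M} {τ h : M → ℝ} {δ : ℝ} (hδ : 0 < δ) (hτ : AEStronglyMeasurable τ μ)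
    (hh : AEStronglyMeasurable h μ) (h0 : ∀ x, 0 ≤ h x) :
    ContDiff ℝ ∞ (fun t => wn μ τ δ h t / √(1 + wn μ τ δ h t ^ 2)) ∧
      ∀ t, |deriv (fun t => wn μ τ δ h t / √(1 + wn μ τ δ h t ^ 2)) t| ≤ cb δ 1 := by
  by_cases hw : WI μ τ δ h
  · have s : ∀ t, 0 < √(1 + wn μ τ δ h t ^ 2) := fun t => by positivity
    refine ⟨(hw.contDiff_wn hδ).div ((contDiff_const.add ((hw.contDiff_wn hδ).pow 2)).sqrt
      fun t => by positivity) fun t => (s t).ne', fun t => ?_⟩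
    have d := hw.hasDerivAt_wn hδ t
    have b := hw.norm_wnd_le hδ 1 t
    have e0 := wn_nonneg (μ := μ) (τ := τ) hδ h0 t
    simp only [Real.norm_eq_abs, fun x => abs_of_nonneg (h0 x)] at b
    have q := Real.sq_sqrt (show 0 ≤ 1 + wn μ τ δ h t ^ 2 by positivity)
    rw [((d.fun_div (((d.fun_pow 2).const_add 1).sqrt (by positivity)) (s t).ne').congr_deriv
      (show _ = wnd μ τ δ 1 h t / √(1 + wn μ τ δ h t ^ 2) ^ 3 from ?_)).deriv]
    · have s1 : wn μ τ δ h t ≤ √(1 + wn μ τ δ h t ^ 2) := Real.le_sqrt_of_sq_le (by linarith)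
      rw [abs_div, abs_of_pos (pow_pos (s t) 3), div_le_iff₀ (pow_pos (s t) 3)]
      refine b.trans (mul_le_mul_of_nonneg_left ?_ (cb_nonneg _ _))
      nlinarith [mul_nonneg (s t).le (sq_nonneg (wn μ τ δ h t))]
    · have := (s t).ne'
      field_simp
      rw [q]; push_cast; ring
  · have e : wn μ τ δ h = fun _ => 0 := funext fun t => integral_undef fun i => hw ⟨hτ, hh,
      (i.norm.const_mul (Real.exp (δ * |t|))).mono'
        (((continuous_b δ).comp_aestronglyMeasurable hτ).mul hh.norm) (.of_forall fun x => by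
          have := b_add_le hδ (τ x - t) t
          rw [sub_add_cancel] at this
          rw [norm_smul, norm_mul, norm_norm, Real.norm_of_nonneg (b_pos hδ _).le,
            Real.norm_of_nonneg (b_pos hδ _).le, ← mul_assoc]
          exact mul_le_mul_of_nonneg_right this (norm_nonneg _))⟩
    simp only [e, zero_div, deriv_const', abs_zero]
    exact ⟨contDiff_const, fun _ => cb_nonneg _ _⟩

/-- smooth functions of finitely many bounded functions of time -/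
theorem time_comp {m : ℕ} {k : (Fin m → ℝ) → ℝ} {e : Fin m → ℝ → ℝ} {a b : ℝ}
    (hk : ContDiff ℝ ∞ k) (k0 : ∀ x, ‖x‖ ≤ 1 → |k x| ≤ a) (k1 : ∀ x, ‖x‖ ≤ 1 → ‖fderiv ℝ k x‖ ≤ a)
    (he : ∀ i, ContDiff ℝ ∞ (e i)) (e0 : ∀ i t, |e i t| ≤ 1) (hb : 1 ≤ b)
    (e1 : ∀ i t, |deriv (e i) t| ≤ b) : ContDiff ℝ ∞ (fun t => k fun i => e i t) ∧
      (∀ t, |k fun i => e i t| ≤ a * b) ∧ ∀ t, |deriv (fun t => k fun i => e i t) t| ≤ a * b := by
  have n : ∀ t, ‖fun i => e i t‖ ≤ 1 := fun t => (pi_norm_le_iff_of_nonneg zero_le_one).2 fun i => e0 i t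
  have a0 : 0 ≤ a := (abs_nonneg _).trans (k0 0 (by simp))
  refine ⟨hk.comp (contDiff_pi.2 he), fun t => (k0 _ (n t)).trans (le_mul_of_one_le_right a0 hb),
    fun t => ?_⟩
  have d := (hk.differentiable (by simp) _).hasFDerivAt.comp_hasDerivAt t
    (hasDerivAt_pi.2 fun i => ((he i).differentiable (by simp) t).hasDerivAt)
  rw [show deriv (fun t => k fun i => e i t) t = _ from d.deriv]
  exact (ContinuousLinearMap.le_opNorm _ _).trans (mul_le_mul (k1 _ (n t))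
    ((pi_norm_le_iff_of_nonneg (by linarith)).2 fun i => e1 i t) (norm_nonneg _) a0)

end Crest.Agent.X212.Mp86
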