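import Crest.Agent.X212.Mp86.NkD
import Crest.Agent.X212.Nka63.B

/-!
# Row 212, NK-BD (helper86): the neck perturbation is in the class `Bd`, uniformly in the neck
-/

set_option autoImplicit false
set_option linter.unusedSectionVars false
open Set Filter Topology Module MeasureTheory
open scoped Manifold ContDiff InnerProductSpace

noncomputable section

namespace Crest.Agent.X212.Mp86
open An Wz78 Wrd81 Dgr80 Nd18 Nka63 Cyf70
open Cyc79 (Cy Cu SepN)

section gen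
variable {E : Type} [NormedAddCommGroup E] [NormedSpace ℝ E] [FiniteDimensional ℝ E]
  [MeasurableSpace E] [BorelSpace E]
  {HM : Type} [TopologicalSpace HM] {I : ModelWithCorners ℝ E HM}
  {M : Type} [TopologicalSpace M] [ChartedSpace HM M] [IsManifold I ∞ M]
  [MeasurableSpace M] {ι : Type} [Fintype ι] {lam : Type} [Fintype lam] {r n : ℕ}
  {B : Base M ι lam} {G : Geo I M ι lam} {F : Fr I M ι} {C L k : ℝ} {A : ℕ → ℝ}

theorem sum_sq_le {α : Type} [Fintype α] {f : α → ℝ} (h : ∀ a, |f a| ≤ C) :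
    ∑ a, f a ^ 2 ≤ Fintype.card α * C ^ 2 :=
  (Finset.sum_le_card_nsmul _ _ _ fun a _ => (sq_abs _).symm.trans_le
    (pow_le_pow_left₀ (abs_nonneg _) (h a) 2)).trans_eq (by rw [nsmul_eq_mul, Finset.card_univ])

theorem fn_cbs {f : M → ℝ} (h : F.CBs f A) : Fn F (A 1 ^ 2 + Fintype.card ι * A 1 ^ 2) f :=
  ⟨h.1, fun x => le_add_of_le_of_nonneg ((sq_abs _).symm.trans_le (pow_le_pow_left₀ (abs_nonneg _)
    (h.2 1 [] zero_le_one x) 2)) (by positivity), fun x => le_add_of_nonneg_of_le (sq_nonneg _)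
      (sum_sq_le fun a => h.2 1 [a] le_rfl x)⟩

theorem mul_le_of {a b : ℝ} (ha : |a| ≤ C) (hb : a = 0 ∨ |b| ≤ L) (hL : 0 ≤ L) :
    |a * b| ≤ C * L := by
  rcases hb with rfl | hb
  · simpa using mul_nonneg ((abs_nonneg _).trans ha) hL
  · exact (abs_mul _ _).trans_le (mul_le_mul ha hb (abs_nonneg _) ((abs_nonneg _).trans ha))

theorem gd_cbs {g : M → ℝ} (hg : Sm I g) (h : ∀ a, F.CBs (F.D a g) A) (hL : 0 ≤ L)
    (hΓ : ∀ x a b k, F.D b g x = 0 ∨ |F.Gam a b k x| ≤ L) :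
    Gd F (Fintype.card ι * A 1 ^ 2 +
      Fintype.card (ι × ι) * (A 1 + Fintype.card ι * (A 1 * L)) ^ 2) g := by
  refine ⟨hg, fun x => le_add_of_le_of_nonneg (sum_sq_le fun a => (h a).2 1 [] zero_le_one x)
    (by positivity), fun x => le_add_of_nonneg_of_le (by positivity) ?_⟩
  rw [← Fintype.sum_prod_type' (f := fun a k => Hs F g a k x ^ 2)]
  refine sum_sq_le fun s => (abs_add_le _ _).trans (add_le_add ((h s.2).2 1 [s.1] le_rfl x)
    ((Finset.abs_sum_le_sum_abs _ _).trans ?_))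
  exact (Finset.sum_le_card_nsmul _ _ _ fun b _ => mul_le_of ((h b).2 1 [] zero_le_one x)
    (hΓ x _ b _) hL).trans_eq (by rw [nsmul_eq_mul, Finset.card_univ])

theorem sc_cbs {s : M → Eu lam} (h : G.F.CBs s A) (hL : 0 ≤ L)
    (ha : ∀ x a, s x = 0 ∨ ‖G.a a x‖ ≤ L) :
    Sc G (A 1 ^ 2 + Fintype.card ι * (A 1 + L * A 1) ^ 2) s := by
  have h0 : ∀ x, ‖s x‖ ≤ A 1 := h.2 1 [] zero_le_one
  refine ⟨h.1, fun x => le_add_of_le_of_nonneg (pow_le_pow_left₀ (norm_nonneg _) (h0 x) 2)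
    (by positivity), fun x => le_add_of_nonneg_of_le (sq_nonneg _) (sum_sq_le fun a => ?_)⟩
  refine (abs_norm _).trans_le ((norm_add_le _ _).trans (add_le_add (h.2 1 [a] le_rfl x) ?_))
  rcases ha x a with e | e
  · simpa [e] using mul_nonneg hL ((norm_nonneg _).trans (h0 x))
  · exact (ContinuousLinearMap.le_opNorm _ _).trans (mul_le_mul e (h0 x) (norm_nonneg _) hL)

theorem cu_cbs {φ : M → ℝ} (h : F.CBs φ A) (hL : 0 ≤ L)
    (hd : ∀ x a, F.D a φ x = 0 ∨ |F.dv a x| ≤ L) :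
    Cu F (Fintype.card ι * A 2 ^ 2 + Fintype.card ι * (|A 2| + |A 2| * L)) φ := by
  have h2 : ∀ a y, |F.D a φ y| ≤ A 2 := fun a y => h.2 2 [a] one_le_two y
  refine ⟨h.1, fun x => le_add_of_le_of_nonneg (sum_sq_le fun a => h2 a x) (by positivity),
    fun x => le_add_of_nonneg_of_le (by positivity) ((Finset.abs_sum_le_sum_abs _ _).trans
      ((Finset.sum_le_card_nsmul _ _ _ fun a _ => ?_).trans_eq
        (by rw [nsmul_eq_mul, Finset.card_univ])))⟩
  refine (abs_add_le _ _).trans (add_le_add ((h.2 2 [a, a] le_rfl x).trans (le_abs_self _)) ?_)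
  rw [smul_eq_mul, mul_comm]
  exact mul_le_of ((h2 a x).trans (le_abs_self _)) (hd x a) hL

theorem Gd.mono {g : M → ℝ} (h : Gd F C g) (hC : C ≤ L) : Gd F L g :=
  ⟨h.sm, fun x => (h.le x).trans hC, fun x => (h.gr x).trans hC⟩

theorem Sc.mono {s : M → Eu lam} (h : Sc G C s) (hC : C ≤ L) : Sc G L s :=
  ⟨h.sm, fun x => (h.le x).trans hC, fun x => (h.gr x).trans hC⟩

theorem DB.cut {d : Den M ι lam r} (h : DB B G d k) {χ : M → ℝ} (hχ : Fn G.F C χ) (hC : 1 ≤ C)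
    (h1 : ∀ x, |χ x| ≤ 1) : DB B G (dcut χ d) (4 * C * k) := by
  have k1 := h.one
  have k2 : k ≤ 4 * C * k := by nlinarith
  refine ⟨k1.trans k2, fun c a => hχ.sm.continuous.mul (h.ct c a), fun c a x =>
    (abs_mul _ _).trans_le ((mul_le_of_le_one_left (abs_nonneg _) (h1 x)).trans
      ((h.le c a x).trans k2)), fun c a f L hL hf => ?_, fun c a f L hf => (h.A c a _ L fun x =>
        (abs_mul _ _).trans_le ((mul_le_of_le_one_right (abs_nonneg _) (h1 x)).trans (hf x))).mono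
          (by gcongr) fun _ => le_rfl⟩
  exact (h.P c a _ _ (by nlinarith) (hf.mul hχ (by linarith) (by linarith))).mono zero_le_one
    (fun _ => gr2_nonneg) (le_of_eq (by ring))

theorem b0_fsum {W : Type} {τ : W → Pt M ι lam r n} {k : W → ℝ} (h : ∀ w, B0 B G (τ w) (k w))
    (q : W →₀ ℝ) : B0 B G (fsum τ q) (2 ^ q.support.card * ∑ w ∈ q.support, 4 * q w ^ 2 * k w) := by
  have p : ∀ w, 0 ≤ q w ^ 2 * k w := fun w => mul_nonneg (sq_nonneg _) (h w).K0
  have p' : ∀ w ∈ q.support, 0 ≤ 4 * q w ^ 2 * k w := fun w _ => by linarith [p w]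
  exact ⟨mul_nonneg (by positivity) (Finset.sum_nonneg p'), fun c σ a h1 h2 =>
    Ctl.sum q.support (by linarith) (fun _ => gr2_nonneg) p' fun w _ => ((h w).D c σ a h1 h2).smul
      (by linarith) (fun _ => gr2_nonneg) (h w).K0 (sq_nonneg _) (Fn.const (q w)),
    fun c a => Dom.sq_sum q.support p' fun w _ => (((h w).C c a).mul (sq_nonneg (q w))).mono
      (by linarith [p w]) fun x => by rw [norm_smul, mul_pow, Real.norm_eq_abs, sq_abs]⟩

theorem ev_nat (C : ℝ) : ∀ᶠ n : ℕ in atTop, C ≤ n :=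
  tendsto_natCast_atTop_atTop.eventually_ge_atTop C

theorem ev_cb {N : Type} [NormedAddCommGroup N] [NormedSpace ℝ N] {F : Pre I M ι} {f : M → N}
    (h : F.Cb f) : ∀ᶠ L in atTop, ∀ x, ‖f x‖ ≤ L :=
  (eventually_ge_atTop _).mono fun _ k x => (h.choose_spec.2 0 [] le_rfl x).trans k

theorem ev_list {α : Type*} {w : List α} {P : α → ℕ → Prop} (h : ∀ t ∈ w, ∀ᶠ n in atTop, P t n) :
    ∀ᶠ n in atTop, w.length ≤ n ∧ ∀ t ∈ w, P t n :=
  (eventually_ge_atTop _).and ((eventually_all_finite w.finite_toSet).2 h)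

theorem ball_bd {α : Type} [Fintype α] {φ : (α → ℝ) → ℝ} (h : ContDiff ℝ ∞ φ) (R : ℝ) :
    ∃ a, 1 ≤ a ∧ ∀ x, ‖x‖ ≤ R → |φ x| ≤ a ∧ ‖fderiv ℝ φ x‖ ≤ a := by
  obtain ⟨a, ha⟩ := (isCompact_closedBall (0 : α → ℝ) R).exists_bound_of_continuousOn
    (h.continuous.prodMk (h.continuous_fderiv (by simp))).continuousOn
  exact ⟨max 1 a, le_max_left _ _, fun x hx => by
    have := norm_prod_le_iff.1 (ha x (mem_closedBall_zero_iff.2 hx))
    exact ⟨le_max_of_le_right this.1, le_max_of_le_right this.2⟩⟩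

end gen

variable {E3 : Type} [NormedAddCommGroup E3] [NormedSpace ℝ E3] [FiniteDimensional ℝ E3]
  [MeasurableSpace E3] [BorelSpace E3]
  {H3 : Type} [TopologicalSpace H3] {I3 : ModelWithCorners ℝ E3 H3} [I3.Boundaryless]
  {Y : Type} [TopologicalSpace Y] [ChartedSpace H3 Y] [IsManifold I3 ∞ Y] [T2Space Y]
  [MeasurableSpace Y] [BorelSpace Y] [SecondCountableTopology Y] [CompactSpace Y]
  {κ : Type} [Fintype κ] {lam : Type} [Fintype lam]

/-- a neck in a tame manifold with the Sobolev constant `S` -/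
structure NK (D : YD I3 Y κ lam) (S : ℝ) : Type 1 where
  {E : Type}
  [i1 : NormedAddCommGroup E]
  [i2 : NormedSpace ℝ E]
  [i3 : FiniteDimensional ℝ E]
  [i4 : MeasurableSpace E]
  [i5 : BorelSpace E]
  {HM : Type}
  [i6 : TopologicalSpace HM]
  {I : ModelWithCorners ℝ E HM}
  {M : Type}
  [j1 : TopologicalSpace M]
  [j2 : ChartedSpace HM M]
  [j3 : IsManifold I ∞ M]
  [j4 : MeasurableSpace M]
  [j5 : T2Space M]
  [j6 : BorelSpace M]
  {B : Base M (Option κ) lam}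
  {G : Geo I M (Option κ) lam}
  K : Nk D B G
  [j7 : I.Boundaryless]
  [j8 : SecondCountableTopology M]
  hB : B.OK I
  hG : G.OK B
  hT : ∃ C, G.F.Tame C
  l4 : L4 G.F.toPre S

attribute [instance] NK.i1 NK.i2 NK.i3 NK.i4 NK.i5 NK.i6 NK.j1 NK.j2 NK.j3 NK.j4 NK.j5 NK.j6 NK.j7
  NK.j8

variable {D : YD I3 Y κ lam} {S : ℝ} {r m : ℕ}

theorem NK.hb (X : NK D S) : Bumps X.I X.G.F.e X.G.F.dv := bumps_of_tame _ X.hT.choose_spec

theorem NK.D_off (X : NK D S) {u : X.M → ℝ} (h : ∀ x ∉ X.K.dp (1 / 2), u x = 0) {x : X.M}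
    (hx : x ∉ X.K.ψ.target) (a : Option κ) : X.G.F.D a u x = 0 := by
  rw [Pre.D_def, Mp86.dv_congr (w := fun _ => 0) ((X.K.isClosed_dp.isOpen_compl.eventually_mem
    fun e => hx (X.K.dp_sub one_half_pos e)).mono h), Mp86.dv_const]

theorem fn_χ : ∀ᶠ n : ℕ in atTop, ∀ X : NK D S, Fn X.G.F n X.K.χ :=
  let ⟨_, h⟩ := cbs_χ D
  (ev_nat _).mono fun _ hn X => (fn_cbs (h X.K)).mono hn

theorem fn_ext {f : Y → ℝ} (hf : Sm I3 f) :
    ∀ᶠ n : ℕ in atTop, ∀ X : NK D S, Fn X.G.F n (X.K.ext f) :=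
  let ⟨_, h⟩ := cbs_ext D hf
  (ev_nat _).mono fun _ hn X => (fn_cbs (h X.K)).mono hn

theorem la_sz {t : La Y} (ht : laOK I3 t) :
    ∀ᶠ n : ℕ in atTop, ∀ X : NK D S, LaSz n (X.K.la t) ∧ LaC (X.K.la t) := by
  cases t with
  | mul f => exact ((ev_nat 1).and (fn_ext ht)).mono fun n h X =>
      ⟨(h.2 X).abs_le h.1, (h.2 X).sm.continuous⟩
  | G => exact .of_forall fun _ _ => ⟨trivial, trivial⟩

theorem ll_sz {w : List (La Y)} (h : ∀ t ∈ w, laOK I3 t) : ∀ᶠ n : ℕ in atTop, ∀ X : NK D S,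
    LLSz n (w.map X.K.la) ∧ ∀ t ∈ w.map X.K.la, LaC t :=
  (ev_list fun t ht => la_sz (D := D) (S := S) (h t ht)).mono fun _ k X =>
    ⟨⟨by simpa using k.1, List.forall_mem_map.2 fun t ht => (k.2 t ht X).1⟩,
      List.forall_mem_map.2 fun t ht => (k.2 t ht X).2⟩

variable (hD : D.OK)
include hD

/-- the geometry of the neck is bounded -/
theorem nk_geo : ∃ L, 0 ≤ L ∧ ∀ X : NK D S, ∀ x ∈ X.K.ψ.target,
    (∀ a b k, |X.G.F.Gam a b k x| ≤ L) ∧ (∀ a, |X.G.F.dv a x| ≤ L) ∧ ∀ a, ‖X.G.a a x‖ ≤ L := by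
  have f : ∀ {N : Type} [NormedAddCommGroup N] [NormedSpace ℝ N] {f : Y → N}, Sm I3 f →
      D.Z.Cb fun x => f x.1 := fun h => Cht98.Cb_fst _ (Sob92.Cb_of_compact h)
  have p : ∀ a b, D.Z.Cb (D.Z.P a b) := fun a b => by
    cases a <;> cases b
    exacts [Sob92.Cb_const _, Sob92.Cb_const _, Sob92.Cb_const _, f (D.F.P_sm _ _)]
  have c : ∀ a b l, D.Z.Cb (D.Z.c a b l) := fun a b l => by
    cases a <;> cases b <;> cases l <;> first | exact Sob92.Cb_const _ | exact f (D.F.c_sm _ _ _)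
  have d : ∀ a, D.Z.Cb (D.Z.dv a) := fun a => by
    cases a
    exacts [Sob92.Cb_const _, f (D.F.dv_sm _)]
  have e : ∀ a, D.Z.Cb (D.G.a a) := fun a => by
    cases a
    exacts [Sob92.Cb_const _, f (sm_a hD _)]
  obtain ⟨L, h0, h1, h2, h3, h4⟩ := ((eventually_ge_atTop (0 : ℝ)).and
    ((eventually_all.2 fun a => eventually_all.2 fun b => eventually_all.2 fun l =>
      ev_cb (Sob92.Cb_D (p b l) a)).and ((eventually_all.2 fun a => eventually_all.2 fun b =>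
        eventually_all.2 fun l => ev_cb (c a b l)).and ((eventually_all.2 fun a => ev_cb (d a)).and
          (eventually_all.2 fun a => ev_cb (e a)))))).exists
  refine ⟨3 * L, by linarith, fun X x hx => ⟨fun a b k => ?_, fun a => ?_, fun a => ?_⟩⟩
  · rw [X.K.rel'.Gam hx, Fr.Gam, abs_le]
    simp only [Real.norm_eq_abs, abs_le] at h1 h2
    constructor <;> linarith [h1 a b k (X.K.ψ.symm x), h1 b a k (X.K.ψ.symm x),
      h1 k a b (X.K.ψ.symm x), h2 a b k (X.K.ψ.symm x), h2 a k b (X.K.ψ.symm x),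
      h2 b k a (X.K.ψ.symm x), (h1 a b k (X.K.ψ.symm x)).1]
  · rw [X.K.rel'.dv hx X.hG.vol hD.G.vol]; exact (h3 a _).trans (by linarith)
  · rw [← X.K.ψ.right_inv hx, X.K.a a _ (X.K.ψ.map_target hx)]; exact (h4 a _).trans (by linarith)

theorem gd_fn {g : Option (Y → ℝ)} (hg : OF I3 g) :
    ∀ᶠ n : ℕ in atTop, ∀ X : NK D S, Gd X.G.F n (X.K.fn g) := by
  obtain ⟨L, h0, hL⟩ := nk_geo (S := S) hD
  obtain ⟨C, hC⟩ := cbs_D_fn D hg
  refine (ev_nat _).mono fun n hn X => (gd_cbs (X.K.cd_fn hg).1 (hC X.K) h0 fun x a b k =>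
    (em _).symm.imp (fun hx => ?_) fun hx => (hL X x hx).1 a b k).mono hn
  cases g with
  | some g => exact X.D_off (fun y hy => X.K.ext_zero g fun e => hy (dp_mono _ (by norm_num) e)) hx b
  | none =>
    cases b with
    | none => exact (congrFun X.K.D_τ_none x).trans (dtf_zero X.K.len fun e =>
        hx (X.K.dp_sub one_half_pos e))
    | some b => exact congrFun (X.K.D_τ_some b) x

theorem sc_ext {s : Y → Eu lam} (hs : Sm I3 s) :
    ∀ᶠ n : ℕ in atTop, ∀ X : NK D S, Sc X.G n (X.K.ext s) := by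
  obtain ⟨L, h0, hL⟩ := nk_geo (S := S) hD
  obtain ⟨C, hC⟩ := cbs_ext D hs
  exact (ev_nat _).mono fun n hn X => (sc_cbs (hC X.K) h0 fun x a => (em _).symm.imp
    (fun hx => X.K.ext_zero s fun e => hx (X.K.dp_sub one_pos e))
    fun hx => (hL X x hx).2.2 a).mono hn

theorem lt_sz {t : YL Y} (ht : t.OK I3) :
    ∀ᶠ n : ℕ in atTop, ∀ X : NK D S, LtSz X.G.F n (X.K.lt t) := by
  cases t with
  | mul f => exact fn_ext ht
  | cl g => exact gd_fn hD ht
  | im => exact .of_forall fun _ _ => trivial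
  | G => exact .of_forall fun _ _ => trivial

theorem sw_sz {u : List (YL Y)} (h : ∀ t ∈ u, YL.OK I3 t) :
    ∀ᶠ n : ℕ in atTop, ∀ X : NK D S, SWSz X.G.F n (u.map X.K.lt) :=
  (ev_list fun t ht => lt_sz (S := S) hD (h t ht)).mono fun _ k X =>
    ⟨by simpa using k.1, List.forall_mem_map.2 fun t ht => k.2 t ht X⟩

theorem sep_sz {f f' : Y → ℝ} (h : Cyc79.Sep D.F.toPre f f') :
    ∀ᶠ n : ℕ in atTop, ∀ X : NK D S, SepN X.G.F n (X.K.ext f) (X.K.ext f') := by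
  obtain ⟨⟨_, a, -⟩, ⟨_, b, -⟩, φ, ⟨_, h1, -⟩, h2, h3⟩ := h
  obtain ⟨L, h0, hL⟩ := nk_geo (S := S) hD
  obtain ⟨C, hC⟩ := cbs_ex2 D h1
  filter_upwards [ev_nat 1, fn_ext (D := D) (S := S) a, fn_ext (D := D) (S := S) b, ev_nat _]
    with n n1 a b hn X
  refine ⟨n1, (a X).sm.continuous, (b X).sm.continuous, (a X).abs_le n1, (b X).abs_le n1,
    ex2 X.K φ, (cu_cbs (hC X.K) h0 fun x a => (em _).symm.imp (fun hx => X.D_off (fun y hy => ?_)
      hx a) fun hx => (hL X x hx).2.1 a).mono hn, fun x hx => ?_, fun x hx => ?_⟩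
  · by_cases e : y ∈ X.K.ψ.target
    · rw [ex2, push_of_mem _ _ e, X.K.snd_symm e, dtf_zero X.K.len hy, zero_smul]
    · exact push_of_notMem _ _ e
  · rw [ex2_eq _ φ (mem_O_of_χ _ (left_ne_zero_of_smul hx))]
    exact h2 _ (right_ne_zero_of_smul hx)
  · rw [ex2_eq _ φ (mem_O_of_χ _ (left_ne_zero_of_smul hx))]
    exact h3 _ (right_ne_zero_of_smul hx)

theorem sb_cyc (hS : 0 < S) {d : Cy Y} (hd : d.OK D.F) {w : List (La Y)} (hw : ∀ t ∈ w, laOK I3 t) :
    ∃ k, ∀ X : NK D S, SB (r := r) X.B X.G (((X.K.cyc d).sed X.G.F).wd X.G.F (w.map X.K.la)) k := by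
  obtain ⟨n, n1, a, b, c, e⟩ := ((eventually_ge_atTop 1).and ((sep_sz (S := S) hD hd.sep).and
    ((ll_sz (D := D) (S := S) fun t ht => laOK_of (hd.w t ht)).and ((ll_sz (D := D) (S := S)
      fun t ht => laOK_of (hd.w' t ht)).and (ll_sz (D := D) (S := S) hw))))).exists
  exact ⟨_, fun X => (sb_cy X.hB X.hT X.l4 hS (d := X.K.cyc d) ⟨a X, (b X).1, (c X).1⟩ (b X).2 (c X).2).wd X.hb n1
    (e X).1 (e X).2⟩

omit hD in
theorem db_cut {d : ∀ X : NK D S, Den X.M (Option κ) lam r} (h : ∃ k, ∀ X, DB X.B X.G (d X) k) :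
    ∀ᶠ k in atTop, ∀ X : NK D S, DB X.B X.G (dcut X.K.χ (d X)) k := by
  obtain ⟨k, h⟩ := h
  obtain ⟨n, n1, a⟩ := ((ev_nat 1).and (fn_χ (D := D) (S := S))).exists
  exact (eventually_ge_atTop _).mono fun _ hk X => ((h X).cut (a X) n1 fun x =>
    (abs_of_nonneg (χ_mem X.K x).1).trans_le (χ_mem X.K x).2).mono hk

theorem db_pk {T : ∀ X : NK D S, Pk X.M lam} (hT : ∀ᶠ n : ℕ in atTop, ∀ X, PkSz X.G n (T X))
    {u v : List (YL Y)} (hu : ∀ t ∈ u, YL.OK I3 t) (hv : ∀ t ∈ v, YL.OK I3 t) :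
    ∀ᶠ k in atTop, ∀ X : NK D S, DB (r := r) X.B X.G
      (dcut X.K.χ (Den.sw X.G.F (T X) (u.map X.K.lt) (v.map X.K.lt))) k := by
  obtain ⟨n, n1, a, b, c⟩ := ((eventually_ge_atTop 1).and (hT.and ((sw_sz hD hu).and
    (sw_sz (S := S) hD hv)))).exists
  exact db_cut ⟨_, fun X => db_sw X.hb X.hB n1 (a X) (b X) (c X)⟩

omit hD in
theorem SB.mono {X : NK D S} {s : Sed X.M (Option κ) lam r} {k K : ℝ} (h : SB X.B X.G s k)
    (hk : k ≤ K) : SB X.B X.G s K :=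
  ⟨h.one.trans hk, h.ct, fun c a x => (h.le c a x).trans hk, h.P, fun c a l C hl =>
    (h.A c a l C hl).mono (by gcongr) fun _ => le_rfl⟩

variable {N : ND Y lam} (hN : N.OK D)
include hN

theorem db_dg (hS : 0 < S) (j : N.J) : ∀ᶠ k in atTop, ∀ X : NK D S,
    DB (r := r) X.B X.G ((N.dg X.K).d j) k := by
  rcases j with j | j | j
  · have := hN.d0 j
    simp only [ND.dg, Sum.elim_inl]
    generalize N.d0 j = d at this
    cases d with
    | sw a b => exact db_pk hD (T := fun _ => .one) (.of_forall fun _ _ => trivial) this.1 this.2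
    | cy d w d' w' =>
      obtain ⟨k, a⟩ := sb_cyc (r := r) hD hS this.1 this.2.1
      obtain ⟨k', b⟩ := sb_cyc (r := r) hD hS this.2.2.1 this.2.2.2
      exact db_cut ⟨_, fun X => ((a X).mono (le_max_left k k')).den ((b X).mono (le_max_right k k'))⟩
  · exact db_pk hD (T := fun X => .re (X.K.ext (N.d2 j).s)) (sc_ext hD (hN.d2 j).1)
      (hN.d2 j).2.1 (hN.d2 j).2.2
  · exact db_pk hD (T := fun X => .im (X.K.ext (N.d2 j).s)) (sc_ext hD (hN.d2 j).1)
      (hN.d2 j).2.1 (hN.d2 j).2.2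

omit hD hN in
theorem den_off (X : NK D S) (j : N.J) (c : Cfg X.M (Option κ) lam r) :
    ∀ x ∉ X.K.dp 1, ((N.dg X.K).d j).h c x = 0 := fun x hx => by
  have e : ∀ d : Den X.M (Option κ) lam r, (dcut X.K.χ d).h c x = 0 := fun d =>
    mul_eq_zero_of_left (X.K.χ_zero hx) _
  rcases j with j | j | j
  · simp only [ND.dg, Sum.elim_inl]
    cases N.d0 j <;> exact e _
  exacts [e _, e _]

omit hD hN in
theorem cd_cx : ContDiff ℝ ∞ N.cx :=
  (contDiff_pi.2 fun _ => contDiff_apply _ _ _).prodMk (contDiff_pi.2 fun j =>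
    Complex.equivRealProdCLM.symm.contDiff.comp
      ((contDiff_apply ℝ ℝ (Sum.inr (Sum.inl j) : N.J)).prodMk
        (contDiff_apply ℝ ℝ (Sum.inr (Sum.inr j) : N.J))))

/-- the gradient term -/
theorem b0_q1 (hS : 0 < S) :
    ∃ K, ∀ X : NK D S, B0 X.B X.G (N.q1 X.K : Pt X.M (Option κ) lam r m) K := by
  obtain ⟨k, k0, hk⟩ := ((eventually_ge_atTop (0 : ℝ)).and
    (eventually_all.2 (db_dg (r := r) hD hN hS))).exists
  obtain ⟨n, n1, a, b⟩ := ((eventually_ge_atTop 1).and ((gd_fn (S := S) (g := none) hD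
    (by simp [OF])).and (ev_nat (cb N.δ 1)))).exists
  have hφ := hN.sm.comp (cd_cx (N := N))
  obtain ⟨L, L1, hL⟩ := ball_bd hφ (|k| * vY D)
  refine ⟨_, fun X => dg_b0 X.hb X.hB n1 (a X) (fun j => hk j X) k0 (fun _ => hN.δ0) (fun _ => b) L1
    fun c h j => ⟨contDiff_ct.continuous.mul (((hφ.continuous_fderiv (by simp)).comp
      (continuous_pi fun i => ((wi X.K hN.δ0 ((hk i X).ct c h).aestronglyMeasurable (den_off X i c)
        fun x _ => (hk i X).le c h x).contDiff_wn hN.δ0).continuous)).clm_apply continuous_const),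
      fun t => ?_⟩⟩
  have e := (hL ((N.dg X.K).Iv X.G.F c t) ((pi_norm_le_iff_of_nonneg (mul_nonneg (abs_nonneg _)
    (vY_nonneg D))).2 fun i => norm_wn_le X.K hN.δ0 (den_off X i c)
      (fun x _ => (hk i X).le c h x) t)).2
  refine (abs_mul _ _).trans_le ((mul_le_of_le_one_left (abs_nonneg _)
    ((abs_of_nonneg ct_mem.1).trans_le ct_mem.2)).trans
      ((Real.norm_eq_abs _).symm.trans_le ((ContinuousLinearMap.le_opNorm _ _).trans ?_)))
  rw [Pi.norm_single, norm_one, mul_one]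
  exact e

omit hD hN in
theorem ct_ew (X : NK D S) {c : Cfg X.M (Option κ) lam r} (h : c.Adm X.B X.G) :
    Continuous (N.ew X.K c) ∧ ∀ x, 0 ≤ N.ew X.K c x := by
  have e : Continuous X.K.χ4 := contDiff_ct.continuous.comp X.K.cont
  refine ⟨e.mul ((continuous_finsetSum _ fun i _ => (sm_res _ _ _).continuous.norm.pow 2).add
    ((e.smul (continuous_finsetSum _ fun a _ => (X.G.F.sm_D X.K.sm_τ a).continuous.smul
      (sm_nab (mc_W h.conn).sm a h.sm).continuous)).norm.pow 2)), fun x => mul_nonneg ct_mem.1 ?_⟩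
  unfold Dgr80.ew
  positivity

/-- coefficient functions of time -/
theorem fn_tc {C : YTC} (hC : ContDiff ℝ ∞ C.k) : ∀ᶠ n : ℕ in atTop, ∀ X : NK D S,
    ∀ c : Cfg X.M (Option κ) lam r, c.Adm X.B X.G →
      Fn X.G.F n fun x => (N.tc X.K C).val X.G.F X.K.τ N.δ c (X.K.τ x) := by
  obtain ⟨a, -, ha⟩ := ball_bd hC 1
  obtain ⟨n, n1, b⟩ := ((ev_nat 1).and (gd_fn (S := S) (g := none) hD (by simp [OF]))).exists
  refine (ev_nat ((a * max 1 (cb N.δ 1)) ^ 2 * n)).mono fun _ hn X c h => ?_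
  have w := wn_nf (μ := X.G.F.μ) hN.δ0 X.K.sm_τ.continuous.aestronglyMeasurable
    (ct_ew (N := N) X h).1.aestronglyMeasurable (ct_ew X h).2
  have := time_comp hC (fun x hx => (ha x hx).1) (fun x hx => (ha x hx).2)
    (fun i => w.1.comp (contDiff_id.add (contDiff_const (c := C.s i))))
    (fun i t => (abs_div _ _).trans_le (div_le_one_of_le₀ ((Real.abs_le_sqrt (le_add_of_nonneg_left
      zero_le_one)).trans (le_abs_self _)) (abs_nonneg _))) (le_max_left 1 (cb N.δ 1))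
    fun i t => le_max_of_le_right ((congrArg _ (deriv_comp_add_const _ _ _)).trans_le (w.2 _))
  exact (fn_time X.K.sm_τ (b X).le n1 this.1 this.2.1 this.2.2).mono hn

theorem tl_sz {t : YL Y ⊕ YTC} (ht : Sum.elim (YL.OK I3) YTC.OK t) : ∀ᶠ n : ℕ in atTop,
    ∀ X : NK D S, ∀ c : Cfg X.M (Option κ) lam r, c.Adm X.B X.G →
      LtSz X.G.F n (tl X.G.F X.K.τ N.δ c (N.tl X.K t)) := by
  cases t with
  | inl t => exact (lt_sz hD ht).mono fun _ h X _ _ => h X
  | inr C =>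
    obtain ⟨n, a, b⟩ := ((fn_χ (D := D) (S := S)).and (fn_tc (r := r) hD hN ht.1)).exists
    exact (ev_nat _).mono fun _ hn X c h =>
      ((a X).mul (b X c h) n.cast_nonneg n.cast_nonneg).mono hn

theorem ctl_tm {T : YT Y} (hT : T.OK I3) : ∃ K, 0 ≤ K ∧ ∀ X : NK D S,
    ∀ (c : Cfg X.M (Option κ) lam r) σ, c.Adm X.B X.G → 1 ≤ σ → (∀ x, ‖c.Φ x‖ ^ 2 ≤ σ) →
      Ctl X.G.F (gr2 X.I X.G.F.e c.W c.Φ) σ K c.W (c.tD X.B X.G.F (N.tm X.K c m T)) := by
  cases T with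
  | lin C u =>
    obtain ⟨n, n1, a, b⟩ := ((eventually_ge_atTop 1).and (ev_list fun t ht =>
      tl_sz (r := r) (S := S) hD hN (hT.2 t ht))).exists
    exact ⟨_, by positivity, fun X c σ h h1 h2 => ctl_tD X.hb X.hB h n1 h2 (by linarith)
      ⟨by simpa using a, List.forall_mem_map.2 (List.forall_mem_map.2 fun t ht => b t ht X c h)⟩⟩
  | ad C f a b l => exact ⟨0, le_rfl, fun X c σ h h1 _ =>
      Ctl.zero (by linarith) (fun _ => gr2_nonneg) le_rfl⟩
  | cv C f f' a b l => exact ⟨0, le_rfl, fun X c σ h h1 _ =>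
      Ctl.zero (by linarith) (fun _ => gr2_nonneg) le_rfl⟩

/-- the non-gradient terms -/
theorem b0_q2 {T : YT Y} (hT : T.OK I3) :
    ∃ K, ∀ X : NK D S, B0 X.B X.G (N.q2 X.K T : Pt X.M (Option κ) lam r m) K := by
  have hC : ContDiff ℝ ∞ T.C.k := by cases T <;> exact hT.1.1
  have x0 := contDiff_apply (n := ∞) ℝ ℝ (0 : Fin (T.C.m + 1))
  have ho : ContDiff ℝ ∞ T.C.out.k := (x0.div ((contDiff_const.add (x0.pow 2)).sqrt
    fun _ => by positivity) fun _ => by positivity).mul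
      (hC.comp (contDiff_pi.2 fun i => contDiff_apply _ _ _))
  obtain ⟨A, hA⟩ := cbs_cut_τ D
  obtain ⟨n, a, b⟩ := ((ev_nat _).and (fn_tc (r := r) (S := S) hD hN ho)).exists
  obtain ⟨K, K0, hK⟩ := ctl_tm (r := r) (m := m) (S := S) hD hN hT
  have o := fun (X : NK D S) c h => ((fn_cbs (hA X.K 3)).mono a).mul (b X c h) n.cast_nonneg
    n.cast_nonneg
  have p : (0 : ℝ) ≤ 4 * n * n := by positivity
  refine ⟨4 * (4 * n * n) * (K + 1), fun X => ⟨by positivity, fun c σ h h1 h2 =>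
    (((hK X c σ h h1 h2).nrm (mc_W h.conn)).mono (by linarith) (fun _ => gr2_nonneg)
      (by linarith)).smul (by linarith) (fun _ => gr2_nonneg) (by linarith) p (o X c h),
    fun c h => (Dom.const p).mono (by nlinarith) fun x => ?_⟩⟩
  refine ((congrArg (· ^ 2) (norm_smul _ _)).trans (mul_pow _ _ _)).trans_le
    ((mul_le_of_le_one_right (sq_nonneg _) (norm_nf_sq _).1).trans ?_)
  exact (sq_abs _).trans_le ((o X c h).le x)

theorem b0_pt (hS : 0 < S) (q : YW I3 Y →₀ ℝ) :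
    ∃ K, ∀ X : NK D S, B0 X.B X.G (N.pt X.K q : Pt X.M (Option κ) lam r m) K := by
  obtain ⟨K, h⟩ := b0_q1 (r := r) (m := m) hD hN hS
  choose k hk using fun T : YW I3 Y => b0_q2 (r := r) (m := m) (S := S) hD hN T.2
  exact ⟨_, fun X => (h X).add (b0_fsum (fun T => hk T X) q)⟩

/-- **NK-BD**: the neck perturbation is in the class `Bd` with `ε = 0`, uniformly in the neck -/
theorem nk_bd (S : ℝ) (q : YW I3 Y →₀ ℝ) (r m : ℕ) : ∃ R, AllNk D
    fun {_ _ _ _ _ _ _ _ I M _ _ _ _ _ _ B G} K => ∀ [I.Boundaryless] [SecondCountableTopology M],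
      B.OK I → G.OK B → (∃ C, G.F.Tame C) → L4 G.F.toPre S →
        B0 B G (N.pt K q : Pt M (Option κ) lam r m) R ∧
        ∀ w, (N.pt K q : Pt M (Option κ) lam r m).Bd B G w R 0 R :=
  let ⟨R, h⟩ := b0_pt (r := r) (m := m) hD hN (lt_max_of_lt_left one_pos : 0 < max 1 S) q
  ⟨R, fun K _ _ a b c d => have := h ⟨K, a, b, c, d.mono (le_max_right _ _)⟩; ⟨this, this.bd⟩⟩

end Crest.Agent.X212.Mp86
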