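import Crest.Agent.X212.Mp86.C0G
import Crest.Agent.X212.Mod61.Fmt

/-!
# Row 212, layer AN (helper86): bounds that are uniform in smooth families of backgrounds
-/

set_option autoImplicit false
set_option linter.unusedSectionVars false
open Set Filter Topology Module MeasureTheory
open scoped Manifold ContDiff InnerProductSpace

noncomputable section

namespace Crest.Agent.X212.Mp86
open An Wz78 Prm93 Mod61

variable {E : Type} [NormedAddCommGroup E] [NormedSpace ℝ E] [FiniteDimensional ℝ E]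
  [MeasurableSpace E] [BorelSpace E]
  {HM : Type} [TopologicalSpace HM] {I : ModelWithCorners ℝ E HM}
  {M : Type} [TopologicalSpace M] [ChartedSpace HM M] [IsManifold I ∞ M]
  [MeasurableSpace M] {ι : Type} [Fintype ι] {lam : Type} [Fintype lam] {r n : ℕ}
  {T : Type} {F₀ F₁ : Fr I M ι} {G : T → Geo I M ι lam} {K : Set T}

/-! ### sizes of terms -/

/-- functions that are `Cb` for `F₀` have uniform sizes for the geometries `G t`, `t ∈ K` -/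
structure Un (F₀ : Fr I M ι) (G : T → Geo I M ι lam) (K : Set T) : Prop where
  gd : ∀ g, F₀.Cd g → ∃ C, ∀ t ∈ K, Gd (G t).F C g
  sc : ∀ s, F₀.Cb s → ∃ C, ∀ t ∈ K, Sc (G t) C s

theorem Un.of_compact [CompactSpace M] (h : Un F₀ G K) (F₁ : Fr I M ι) : Un F₁ G K :=
  ⟨fun g hg => h.gd g ⟨hg.1, fun a => Sob92.Cb_of_compact (F₀.sm_D hg.1 a)⟩,
    fun s hs => h.sc s (Sob92.Cb_of_compact (Cb.sm hs))⟩

theorem ev_ge (C : ℝ) : ∀ᶠ N : ℕ in atTop, C ≤ N :=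
  tendsto_natCast_atTop_atTop.eventually_ge_atTop C

theorem ev_norm {V : Type} [NormedAddCommGroup V] [NormedSpace ℝ V] {f : M → V} (h : F₀.Cb f) :
    ∀ᶠ N : ℕ in atTop, ∀ x, ‖f x‖ ≤ N ∧ ‖f x‖ ^ 2 ≤ N := by
  obtain ⟨C, -, hC⟩ := h
  filter_upwards [ev_ge (C 0), ev_ge (C 0 ^ 2)] with N h1 h2 x
  have := hC 0 [] le_rfl x
  exact ⟨this.trans h1, (pow_le_pow_left₀ (norm_nonneg _) this 2).trans h2⟩

theorem ev_ll {l : List (La M)} (hl : ∀ t ∈ l, La.OK F₀ t) : ∀ᶠ N : ℕ in atTop, LLSz N l := by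
  refine (eventually_ge_atTop _).and ((eventually_all_finite l.finite_toSet).2 fun t ht => ?_)
  cases t with
  | mul f => exact (ev_norm (hl _ ht)).mono fun N h x => (h x).1
  | G => exact .of_forall fun _ => trivial

namespace Un
variable (h : Un F₀ G K)
include h

theorem ev_gd {g : M → ℝ} (hg : F₀.Cd g) : ∀ᶠ N : ℕ in atTop, ∀ t ∈ K, Gd (G t).F N g := by
  obtain ⟨C, hC⟩ := h.gd g hg
  exact (ev_ge C).mono fun N k t ht => ⟨hg.1, fun x => ((hC t ht).le x).trans k,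
    fun x => ((hC t ht).gr x).trans k⟩

theorem ev_g1 {g : M → ℝ} (hg : F₀.Cd g) : ∀ᶠ N : ℕ in atTop, ∀ t ∈ K, G1 (G t).F N g :=
  (h.ev_gd hg).mono fun _ k t ht => (k t ht).le

theorem ev_sc {s : M → Eu lam} (hs : F₀.Cb s) : ∀ᶠ N : ℕ in atTop, ∀ t ∈ K, Sc (G t) N s := by
  obtain ⟨C, hC⟩ := h.sc s hs
  exact (ev_ge C).mono fun N k t ht => ⟨Cb.sm hs, fun x => ((hC t ht).le x).trans k,
    fun x => ((hC t ht).gr x).trans k⟩

theorem ev_fn {f : M → ℝ} (hf : F₀.Cb f) : ∀ᶠ N : ℕ in atTop, ∀ t ∈ K, Fn (G t).F N f := by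
  filter_upwards [ev_norm hf, h.ev_g1 ⟨Cb.sm hf, Sob92.Cb_D hf⟩] with N h1 h2 t ht
  exact ⟨Cb.sm hf, fun x => by simpa using (h1 x).2, h2 t ht⟩

theorem ev_sw {u : SW M} (hu : SW.OK F₀ u) : ∀ᶠ N : ℕ in atTop, ∀ t ∈ K, SWSz (G t).F N u := by
  have : ∀ᶠ N : ℕ in atTop, ∀ l ∈ u, ∀ t ∈ K, LtSz (G t).F N l :=
    (eventually_all_finite u.finite_toSet).2 fun l hl => by
      cases l with
      | mul f => exact h.ev_fn (hu _ hl)
      | cl g => exact h.ev_gd (hu _ hl)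
      | _ => exact .of_forall fun _ _ _ => trivial
  filter_upwards [this, eventually_ge_atTop u.length] with N h1 h2 t ht
  exact ⟨h2, fun l hl => h1 l hl t ht⟩

theorem ev_sd {s : Sd M} (hs : s.OK F₀) : ∀ᶠ N : ℕ in atTop, ∀ t ∈ K, SdSz (G t).F N s := by
  cases s with
  | q u v =>
    filter_upwards [h.ev_sw hs.1, h.ev_sw hs.2] with N h1 h2 t ht using ⟨h1 t ht, h2 t ht⟩
  | cv f g g' =>
    filter_upwards [ev_norm hs.1, h.ev_g1 hs.2.1, h.ev_g1 hs.2.2] with N h1 h2 h3 t ht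
    exact ⟨fun x => by simpa using (h1 x).2, h2 t ht, h3 t ht⟩

/-- **admissible terms have uniform sizes** -/
theorem ev_tm {X : Tm M lam r n} (hX : X.OK F₀) :
    ∀ᶠ N : ℕ in atTop, ∀ t ∈ K, TmSz (G t) N X := by
  cases X with
  | lin u => exact h.ev_sw hX
  | anti d s u =>
    filter_upwards [h.ev_sc hX.2.1, h.ev_sw hX.2.2] with N h1 h2 t ht using ⟨h1 t ht, h2 t ht⟩
  | ad g g' ξ =>
    filter_upwards [h.ev_g1 hX.1, h.ev_g1 hX.2.1, h.ev_sd hX.2.2.1, ev_ll hX.2.2.2]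
      with N h1 h2 h3 h4 t ht using ⟨h1 t ht, h2 t ht, h3 t ht, h4⟩
  | adj d s g g' u v l =>
    obtain ⟨-, a1, a2, a3, a4, a5, a6⟩ := hX
    filter_upwards [ev_norm a1, h.ev_g1 a2, h.ev_g1 a3, h.ev_sw a4, h.ev_sw a5, ev_ll a6]
      with N h1 h2 h3 h4 h5 h6 t ht
      using ⟨fun x => (h1 x).1, h2 t ht, h3 t ht, h4 t ht, h5 t ht, h6⟩
  | adn f g g' φ L =>
    obtain ⟨a1, a2, a3, -, ⟨C, a4⟩, -⟩ := hX
    filter_upwards [ev_norm a1, h.ev_g1 a2, h.ev_g1 a3, ev_ge C] with N h1 h2 h3 h4 t ht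
      using ⟨fun x => (h1 x).1, h2 t ht, h3 t ht, fun s hs => (a4 s hs).trans h4⟩
  | _ => exact .of_forall fun _ _ _ => trivial

theorem exists_tm {κ : Type} (J : Finset κ) {X : κ → Tm M lam r n} (hX : ∀ k ∈ J, (X k).OK F₀) :
    ∃ N : ℕ, 1 ≤ N ∧ ∀ k ∈ J, ∀ t ∈ K, TmSz (G t) N (X k) :=
  ((eventually_ge_atTop 1).and ((eventually_all_finset J).2 fun k hk => h.ev_tm (hX k hk))).exists

end Un

/-! ### smooth families -/

section fam
variable [NormedAddCommGroup T] [NormedSpace ℝ T] {F : Pre I M ι} {O : Set T} {B : Base M ι lam}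
  {S : ι → ι → T → M → ℝ} {N : Type} [NormedAddCommGroup N] [NormedSpace ℝ N]

theorem sb_bdd {f : T → M → N} (h : SB F O f) (hK : IsCompact K) (hO : K ⊆ O) :
    ∃ C, 0 ≤ C ∧ ∀ t ∈ K, ∀ x, ‖f t x‖ ≤ C := by
  obtain ⟨C, hC⟩ := hK.exists_bound_of_continuousOn ((h.sm 0).continuousOn.mono hO)
  refine ⟨|C|, abs_nonneg _, fun t ht x => ?_⟩
  rw [← fn_toB (k := 0) (h.cb t (hO ht))]
  exact (B.norm_le (abs_nonneg _)).1 ((hC t ht).trans (le_abs_self C)) [] le_rfl x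

theorem sb_le {f : T → M → ℝ} (h : SB F O f) (hK : IsCompact K) (hO : K ⊆ O) :
    ∃ C, 0 ≤ C ∧ ∀ t ∈ K, ∀ x, f t x ≤ C :=
  let ⟨C, h0, hC⟩ := sb_bdd h hK hO; ⟨C, h0, fun t ht x => (le_abs_self _).trans (hC t ht x)⟩

theorem sb_sq {f : T → M → ℝ} (h : SB F O f) : SB F O fun t x => f t x ^ 2 :=
  (h.mul h).congr fun _ _ => funext fun _ => sq _

theorem sb_half {f : T → M → ℝ} (h : SB F O f) : SB F O fun t x => f t x / 2 :=
  (h.mul (.fixed (Sob92.Cb_const 2⁻¹))).congr fun _ _ => funext fun _ => div_eq_mul_inv _ _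

/-- a smooth family of geometries -/
structure Sf (F : Pre I M ι) (O : Set T) (B : Base M ι lam) (G : T → Geo I M ι lam)
    (S : ι → ι → T → M → ℝ) : Prop where
  P : ∀ t ∈ O, (G t).F.P = B.P
  mix : ∀ t ∈ O, Mix F (G t).F.toPre fun a b => S a b t
  sS : ∀ a b, SB F O (S a b)
  cP : ∀ a b, F.Cb (B.P a b)
  co : ∀ a b c d, F.Cb (B.o a b c d)
  cl : F.Cb B.l
  c : ∀ a b k, SB F O fun t => (G t).F.c a b k
  a : ∀ a, SB F O fun t => (G t).a a

theorem sf_fam {𝔉 : Mod61.Fam I M ι lam T} (h : 𝔉.OK) :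
    Sf 𝔉.F0.toPre 𝔉.Q 𝔉.B 𝔉.G fun a b t x => 𝔉.S t x a b :=
  ⟨fun t ht => (h.G t ht).P, h.mix, h.sS, fun a b => h.P0 ▸ ⟨_, h.tame.choose_spec.P a b⟩, h.co,
    h.cl, h.sc, h.sa⟩

theorem sf_const [CompactSpace M] {G : Geo I M ι lam} (hB : B.OK I) (hG : G.OK B) :
    Sf G.F.toPre (univ : Set ℝ) B (fun _ => G) fun a b _ => G.F.P a b :=
  ⟨fun _ _ => hG.P, fun _ _ a x => (G.F.P_e a x).symm,
    fun a b => .fixed (Sob92.Cb_of_compact (G.F.P_sm a b)),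
    fun a b => Sob92.Cb_of_compact (hB.sP a b), fun a b c d => Sob92.Cb_of_compact (hB.so a b c d),
    Sob92.Cb_of_compact hB.sl, fun a b k => .fixed (Sob92.Cb_of_compact (G.F.c_sm a b k)),
    fun a => .fixed (Sob92.Cb_of_compact (hG.con.sm a))⟩

namespace Sf
variable (h : Sf F O B G S)
include h

theorem D {f : T → M → N} (hf : SB F O f) (a : ι) : SB F O fun t => (G t).F.D a (f t) :=
  SB.D' h.mix h.sS hf a

theorem Gam (a b k : ι) : SB F O fun t => (G t).F.Gam a b k :=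
  have p := fun a b k => h.D (.fixed (h.cP b k)) a
  (sb_half ((((((p a b k).add (p b a k)).sub (p k a b)).add (h.c a b k)).sub (h.c a k b)).sub
    (h.c b k a))).congr fun t ht => by funext x; rw [Fr.Gam, h.P t ht]

theorem Rm (a b m l : ι) : SB F O fun t => Rm I (G t).F.e (G t).F.c (G t).F.Gam a b m l :=
  (((h.D (h.Gam b m l) a).sub (h.D (h.Gam a m l) b)).add (.sum fun k =>
    ((h.Gam a m k).mul (h.Gam b l k)).sub ((h.Gam b m k).mul (h.Gam a l k)))).sub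
    (.sum fun k => (h.c a b k).mul (h.Gam k m l))

theorem sc : SB F O fun t => sc (G t) := .sum fun a => .sum fun b => h.Rm a b b a

theorem curv (a b : ι) : SB F O fun t => curv I (G t).F.e (G t).F.c (G t).a a b :=
  (((h.D (h.a b) a).sub (h.D (h.a a) b)).add (((h.a a).mul (h.a b)).sub ((h.a b).mul (h.a a)))).sub
    (.sum fun k => (h.c a b k).smul (h.a k))

theorem fL (s : ι × ι) : SB F O fun t x => fL B (G t) x s := by
  classical
  exact (SB.fixed (Sob92.Cb_const _)).mul ((((SB.fixed (Sob92.Cb_const _)).mul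
    (h.curv s.1 s.2)).mul (.fixed h.cl)).clm _)

theorem fP (s : ι × ι) : SB F O fun t x => fP B (G t) x s :=
  have p := fun a b => SB.fixed (O := O) (h.cP a b)
  .sum fun u => (sb_half ((sb_half (((p _ _).mul (p _ _)).sub ((p _ _).mul (p _ _)))).add
    (sb_half (.fixed (h.co _ _ _ _))))).mul (h.fL u)

variable (hK : IsCompact K) (hO : K ⊆ O)
include hK hO

/-- the zeroth order term of the Weitzenboeck formula -/
theorem pscal : ∃ a, 0 ≤ a ∧ ∀ t ∈ K, ∀ x,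
    √(∑ s, Wz78.fP B (G t) x s ^ 2) - Wz78.sc (G t) x / 4 ≤ a := by
  obtain ⟨C, -, hC⟩ := sb_le (SB.sum fun s => sb_sq (h.fP s)) hK hO
  obtain ⟨C', h0, hC'⟩ := sb_le h.sc.neg hK hO
  exact ⟨√C + C' / 4, by positivity, fun t ht x => by
    linarith [Real.sqrt_le_sqrt (hC t ht x), hC' t ht x]⟩

theorem un (e : F = F₀.toPre) : Un F₀ G K := by
  subst e
  refine ⟨fun g hg => ?_, fun s hs => ?_⟩
  · have d : ∀ a, SB F₀.toPre O fun t => (G t).F.D a g := fun a =>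
      (SB.sum fun b => (h.sS a b).smul (.fixed (hg.2 b))).congr fun t ht => (h.mix t ht).D a g
    obtain ⟨C, -, hC⟩ := sb_le (SB.sum fun a => sb_sq (d a)) hK hO
    obtain ⟨C', -, hC'⟩ := sb_le (SB.sum fun a => SB.sum fun k => sb_sq ((h.D (d k) a).add
      (.sum fun b => (d b).mul (h.Gam a b k)))) hK hO
    exact ⟨max C C', fun t ht => ⟨hg.1, fun x => le_max_of_le_left (hC t ht x),
      fun x => le_max_of_le_right (hC' t ht x)⟩⟩
  · have d := fun a => (h.D (.fixed hs) a).add ((h.a a).app (.fixed hs))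
    obtain ⟨N, hN⟩ := (ev_norm hs).exists
    obtain ⟨C, -, hC⟩ := sb_le (SB.sum fun a => (d a).bil (innerSL ℝ) (d a)) hK hO
    refine ⟨max N C, fun t ht => ⟨Cb.sm hs, fun x => le_max_of_le_left (hN x).2,
      fun x => le_max_of_le_right (le_trans (le_of_eq ?_) (hC t ht x))⟩⟩
    exact Finset.sum_congr rfl fun a _ => (real_inner_self_eq_norm_sq _).symm

end Sf

theorem fam_vol [CompactSpace M] {𝔉 : Mod61.Fam I M ι lam T} (h : 𝔉.OK) (hK : IsCompact K)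
    (hO : K ⊆ 𝔉.Q) : ∃ v, 0 ≤ v ∧ ∀ t ∈ K, (𝔉.G t).F.μ.real univ ≤ v := by
  obtain ⟨d, h1, h2⟩ := h.dens
  obtain ⟨C, h0, hC⟩ := sb_le h1 hK hO
  have := 𝔉.F0.fin
  refine ⟨C * 𝔉.F0.μ.real univ, mul_nonneg h0 measureReal_nonneg, fun t ht => ?_⟩
  rw [(h2 t (hO ht)).2, measureReal_def, withDensity_apply _ MeasurableSet.univ,
    Measure.restrict_univ]
  refine ENNReal.toReal_le_of_le_ofReal (mul_nonneg h0 measureReal_nonneg)
    ((lintegral_mono fun x => ENNReal.ofReal_le_ofReal (hC t ht x)).trans_eq ?_)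
  rw [lintegral_const, ENNReal.ofReal_mul h0, ofReal_measureReal isCompact_univ.measure_lt_top.ne]

end fam

/-! ### terms without curvature seeds -/

section vz
variable [I.Boundaryless] [T2Space M] {B : Base M ι lam} {G : Geo I M ι lam} {c : Cfg M ι lam r}
  {N : ℕ} {σ : ℝ}

theorem norm_z_le (h : c.Adm B G) : ‖c.z‖ ≤ 1 := by
  rcases h.z with rfl | h
  · simp [Subsingleton.elim c.z 0]
  · exact h.le

theorem adm0 (h : c.Adm B G) : Adm0 c B G := ⟨h.ok, h.conn, h.sm, h.pos⟩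

theorem norm_co' (hz : ‖c.z‖ ≤ 1) (F : Fr I M ι) (d : Co M lam r) : ‖c.co F d‖ ≤ 1 := by
  cases d with
  | z i => exact (PiLp.norm_apply_le c.z i).trans hz
  | s g L =>
    have h : 0 ≤ (L.map fun g' => ‖c.sg F g'‖ ^ 2).sum :=
      List.sum_nonneg fun _ h => by obtain ⟨_, -, rfl⟩ := List.mem_map.1 h; positivity
    rw [Cfg.co, norm_div, Complex.norm_real, Real.norm_of_nonneg (Real.sqrt_nonneg _)]
    exact div_le_one_of_le₀ (Real.le_sqrt_of_sq_le (by linarith)) (Real.sqrt_nonneg _)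

theorem sw_z0 (F : Fr I M ι) (u : SW M) :
    c.sw F u = (⟨c.m, c.W, c.Φ, 0⟩ : Cfg M ι lam 0).sw F u :=
  congrArg (fun l => Wrd81.wd l c.Φ u) (funext fun t => by cases t <;> rfl)

/-- the curvature part of a term that is quadratic in the spinor -/
theorem norm_tC_q (hb : Bumps I G.F.e G.F.dv) (hB : B.OK I) (h : Adm0 c B G) (hz : ‖c.z‖ ≤ 1)
    (hN : 1 ≤ N) (hσ : ∀ x, ‖c.Φ x‖ ^ 2 ≤ σ) {X : Tm M lam r n} (hX : TmSz G N X)
    (h1 : ∀ g g' f k k' l, X ≠ .ad g g' ⟨.cv f k k', l⟩) (h2 : ∀ f g g' φ L, X ≠ .adn f g g' φ L)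
    (x : M) : ‖c.tC B G.F X x‖ ≤ N * N ^ N * (N * (4 * N) ^ N) * σ := by
  have N1 : (1 : ℝ) ≤ N := by exact_mod_cast hN
  have σ0 : 0 ≤ σ := (sq_nonneg _).trans (hσ x)
  have key : ∀ {g g' : M → ℝ} {s : M → c.m.A} {l : List (La M)}, G1 G.F N g → G1 G.F N g' →
      LLSz N l → (∀ y, ‖s y‖ ≤ N * (4 * N) ^ N * σ) →
      ‖c.m.p2 B x (WithLp.toLp 2 fun t => (G.F.D t.1 g x * G.F.D t.2 g' x) •
        Wrd81.wd (c.la G.F) s l x)‖ ≤ N * N ^ N * (N * (4 * N) ^ N) * σ := fun a1 a2 a3 a4 =>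
    (norm_p2_le hB _ a1 a2 x _).trans ((mul_le_mul_of_nonneg_left
      (norm_wd_la hb h.conn hN a4 a3 x) (by linarith)).trans_eq (by ring))
  have z : ‖(0 : M → Fm (ι × ι) c.m.A) x‖ ≤ N * N ^ N * (N * (4 * N) ^ N) * σ := by
    rw [Pi.zero_apply, norm_zero]; positivity
  have sw : ∀ {u v : SW M}, SWSz G.F N u → SWSz G.F N v → ∀ y,
      ‖c.sw G.F u y‖ * ‖c.sw G.F v y‖ ≤ (4 * N) ^ N * σ := fun a1 a2 y => by
    simp only [sw_z0 (c := c)]
    exact norm_sw_mul (c := (⟨c.m, c.W, c.Φ, 0⟩ : Cfg M ι lam 0)) hb hB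
      ⟨h.ok, h.conn, h.sm, h.pos, .inl rfl⟩ hN hσ σ0 a1 a2 y
  cases X with
  | adj d s g g' u v l =>
    obtain ⟨a1, a2, a3, a4, a5, a6⟩ := hX
    refine key a2 a3 a6 fun y => (norm_q _ _).trans ?_
    rw [norm_cs h.ok.Jsq h.ok.Jsk]
    have b1 := (mul_le_of_le_one_left (norm_nonneg _) (norm_co' hz G.F d)).trans
      ((norm_j hB h.ok y (s y) (c.sw G.F u y)).trans
        (mul_le_mul_of_nonneg_right (a1 y) (norm_nonneg _)))
    have b2 := mul_le_mul_of_nonneg_right b1 (norm_nonneg (c.sw G.F v y))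
    have b3 := mul_le_mul_of_nonneg_left (sw a4 a5 y) (show (0 : ℝ) ≤ N by linarith)
    linarith
  | ad g g' ξ =>
    obtain ⟨s, l⟩ := ξ
    obtain ⟨a1, a2, a3, a4⟩ := hX
    cases s with
    | q u v =>
      refine key a1 a2 a4 fun y => (norm_q _ _).trans ((sw a3.1 a3.2 y).trans ?_)
      rw [mul_assoc]
      exact le_mul_of_one_le_left (by positivity) N1
    | cv f k k' => exact (h1 _ _ _ _ _ _ rfl).elim
  | adn f g g' φ L => exact (h2 _ _ _ _ _ rfl).elim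
  | _ => exact z

theorem norm_tC_adn (hB : B.OK I) {f g g' : M → ℝ} {φ : ℝ → ℝ} {L : List (AW M)} (hN : 1 ≤ N)
    (hX : TmSz G N (.adn f g g' φ L : Tm M lam r n)) (x : M) :
    ‖c.tC B G.F (.adn f g g' φ L : Tm M lam r n) x‖ ≤ N ^ 3 := by
  have N1 : (1 : ℝ) ≤ N := by exact_mod_cast hN
  obtain ⟨a1, a2, a3, a4⟩ := hX
  have b1 : ‖φ (‖c.aws G.F L x‖ ^ 2) • c.aws G.F L x‖ ≤ N := by
    refine (abs_le_of_sq_le_sq' ?_ (by positivity)).2
    rw [norm_smul, mul_pow, Real.norm_eq_abs, sq_abs]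
    nlinarith [a4 _ (sq_nonneg ‖c.aws G.F L x‖)]
  have b2 := norm_p2_le hB c.m a2 a3 x (f x • φ (‖c.aws G.F L x‖ ^ 2) • c.aws G.F L x)
  simp only [smul_smul, ← mul_assoc, mul_comm _ (f x)] at b2
  refine b2.trans ?_
  rw [mul_smul, norm_smul, pow_succ' (N : ℝ), sq (N : ℝ)]
  exact mul_le_mul_of_nonneg_left (mul_le_mul (a1 x) b1 (norm_nonneg _) (by positivity))
    (by positivity)

variable [BorelSpace M] [CompactSpace M] {τ : Pt M ι lam r n} {K ε R a : ℝ}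

/-- **`C⁰` bound that does not depend on the level** -/
theorem c0_phi (hB : B.OK I) (hG : G.OK B) (h : c.Sol B G τ) (hK : 0 ≤ K) (hR : 0 ≤ R)
    (hε0 : 0 ≤ ε) (hε : 48 * ε ≤ 1) (hD : ∀ σ, 0 ≤ σ → (∀ x, ‖c.Φ x‖ ^ 2 ≤ σ) →
      Ctl G.F (gr2 I G.F.e c.W c.Φ) σ K c.W (τ.D c))
    (hC : ∀ σ, (∀ x, ‖c.Φ x‖ ^ 2 ≤ σ) → ∀ x, ‖τ.C c x‖ ≤ ε * σ + R) (ha0 : 0 ≤ a)
    (ha : ∀ x, √(∑ s, fP B G x s ^ 2) - sc G x / 4 ≤ a) (x : M) :
    ‖c.Φ x‖ ^ 2 ≤ 2 * (12 * R + 576 * (a + 12 * (K + 1)) + 216) := by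
  obtain ⟨y, -, hy⟩ := isCompact_univ.exists_isMaxOn ⟨x, trivial⟩
    (h.sm.continuous.norm.pow 2).continuousOn
  have hσ : ∀ x, ‖c.Φ x‖ ^ 2 ≤ ‖c.Φ y‖ ^ 2 := fun x => hy trivial
  have := (solOn_of_sol h).step bumps_of_compact hB hG hσ hK (hD _ (sq_nonneg _) hσ)
    (γ := ε * ‖c.Φ y‖ ^ 2 + R) (by positivity) (Dom.zero le_rfl) (fun x => by
      simpa using pow_le_pow_left₀ (norm_nonneg _) (hC _ hσ x) 2) ha0 ha (η := 1 / 12)
    (by norm_num) (by norm_num) y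
  nlinarith [hσ x, mul_le_mul_of_nonneg_right hε (sq_nonneg ‖c.Φ y‖)]

/-- the self-dual energy -/
theorem sd_le (hB : B.OK I) (hG : G.OK B) (h : c.Sol B G τ) {γ v : ℝ}
    (hσ : ∀ x, ‖c.Φ x‖ ^ 2 ≤ σ) (hC : ∀ x, ‖τ.C c x‖ ≤ γ) (hv : G.F.μ.real univ ≤ v) :
    ∫ x, ‖c.m.p2 B x (c.m.Fg G.F c.W x)‖ ^ 2 ∂G.F.μ ≤ v * (32 * σ ^ 2 + 2 * γ ^ 2) := by
  have := G.F.fin
  refine (integral_mono (integral_Fg_sq hB hG h.toAdm).1
    (integrable_const (32 * σ ^ 2 + 2 * γ ^ 2)) fun x => ?_).trans ?_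
  · linarith [(solOn_of_sol h).norm_p2_sq hB (mem_univ x), pow_le_pow_left₀ (sq_nonneg _) (hσ x) 2,
      pow_le_pow_left₀ (norm_nonneg _) (hC x) 2]
  · rw [integral_const, smul_eq_mul]
    exact mul_le_mul_of_nonneg_right hv (by positivity)

end vz

end Crest.Agent.X212.Mp86
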