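import Crest.Agent.X212.Mp86.Res

/-!
# Row 212, layer AN (helper86): controlled sections and the abstract `C⁰` bound

`Dom F β g`: `g` is dominated by a bounded subsolution.  `Ctl F γ σ K A ψ`: `‖ψ‖² ≤ K σ` and
`‖∇ψ‖² ≤ K (σ + γ) +` a dominated function.
-/

set_option autoImplicit false
set_option linter.unusedSectionVars false
open Set Filter Topology Module MeasureTheory
open scoped Manifold ContDiff InnerProductSpace

noncomputable section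

namespace Crest.Agent.X212.Mp86
open An Wz78 Eqv71 Sob92

variable {E : Type} [NormedAddCommGroup E] [NormedSpace ℝ E] [FiniteDimensional ℝ E]
  [MeasurableSpace E] [BorelSpace E]
  {HM : Type} [TopologicalSpace HM] {I : ModelWithCorners ℝ E HM}
  {M : Type} [TopologicalSpace M] [ChartedSpace HM M] [IsManifold I ∞ M]
  [MeasurableSpace M] {ι : Type} [Fintype ι]
  {V : Type} [NormedAddCommGroup V] [InnerProductSpace ℝ V]
  {V' : Type} [NormedAddCommGroup V'] [InnerProductSpace ℝ V']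
  {F : Fr I M ι} {A : ι → M → V →L[ℝ] V} {A' : ι → M → V' →L[ℝ] V'} {Φ ψ ψ' : M → V}
  {β β' σ K K' C : ℝ} {g g' γ : M → ℝ}

theorem gr2_eq (u : M → V) (x : M) : gr2 I F.e A u x = ∑ a, ‖nab I F.e A a u x‖ ^ 2 := rfl

theorem normSq_add_le (a b : V) : ‖a + b‖ ^ 2 ≤ 2 * ‖a‖ ^ 2 + 2 * ‖b‖ ^ 2 := by
  nlinarith [pow_le_pow_left₀ (norm_nonneg _) (norm_add_le a b) 2, sq_nonneg (‖a‖ - ‖b‖)]

/-- `g` is dominated by a subsolution with values in `[0, β]` -/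
def Dom (F : Fr I M ι) (β : ℝ) (g : M → ℝ) : Prop :=
  ∃ h : M → ℝ, Sm I h ∧ ∀ x, 0 ≤ h x ∧ h x ≤ β ∧ 2 * g x - β ≤ Lop I F.e F.dv h x

theorem Dom.zero (hβ : 0 ≤ β) : Dom F β fun _ => 0 :=
  ⟨fun _ => 0, contMDiff_const, fun x => ⟨le_rfl, hβ, by rw [Lop_const]; linarith⟩⟩

theorem Dom.mono (h : Dom F β g) (hβ : β ≤ β') (hg : ∀ x, g' x ≤ g x) : Dom F β' g' := by
  obtain ⟨h, h1, h2⟩ := h
  exact ⟨h, h1, fun x => ⟨(h2 x).1, (h2 x).2.1.trans hβ, by linarith [(h2 x).2.2, hg x]⟩⟩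

theorem Dom.add (h : Dom F β g) (k : Dom F β' g') : Dom F (β + β') fun x => g x + g' x := by
  obtain ⟨h, h1, h2⟩ := h
  obtain ⟨k, k1, k2⟩ := k
  refine ⟨fun x => h x + k x, h1.add k1, fun x => ?_⟩
  rw [Lop_add (vf F.toPre x) (cm2 h1 x) (cm2 k1 x)]
  obtain ⟨a1, a2, a3⟩ := h2 x
  obtain ⟨b1, b2, b3⟩ := k2 x
  exact ⟨by linarith, by linarith, by linarith⟩

theorem Dom.mul (h : Dom F β g) (hC : 0 ≤ C) : Dom F (C * β) fun x => C * g x := by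
  obtain ⟨h, h1, h2⟩ := h
  refine ⟨fun x => C * h x, contMDiff_const.mul h1, fun x => ?_⟩
  rw [Lop_mul _ (vf F.toPre x) (cm2 h1 x)]
  obtain ⟨a1, a2, a3⟩ := h2 x
  exact ⟨mul_nonneg hC a1, mul_le_mul_of_nonneg_left a2 hC,
    by nlinarith [mul_le_mul_of_nonneg_left a3 hC]⟩

/-- controlled sections -/
structure Ctl (F : Fr I M ι) (γ : M → ℝ) (σ K : ℝ) (A : ι → M → V →L[ℝ] V) (ψ : M → V) :
    Prop where
  sm : Sm I ψ
  le : ∀ x, ‖ψ x‖ ^ 2 ≤ K * σ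
  gr : ∃ g, Dom F (K * σ) g ∧ ∀ x, gr2 I F.e A ψ x ≤ K * (σ + γ x) + g x

theorem Ctl.self (hΦ : Sm I Φ) (hσ0 : 0 ≤ σ) (hσ : ∀ x, ‖Φ x‖ ^ 2 ≤ σ) :
    Ctl F (gr2 I F.e A Φ) σ 1 A Φ :=
  ⟨hΦ, fun x => by linarith [hσ x], _, .zero (by linarith), fun x => by linarith⟩

theorem Ctl.mono (h : Ctl F γ σ K A ψ) (hσ : 0 ≤ σ) (hγ : ∀ x, 0 ≤ γ x) (hK : K ≤ K') :
    Ctl F γ σ K' A ψ := by
  obtain ⟨h1, h2, g, h3, h4⟩ := h
  have := mul_le_mul_of_nonneg_right hK hσ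
  exact ⟨h1, fun x => (h2 x).trans this, g, h3.mono this fun _ => le_rfl, fun x => by
    nlinarith [h4 x, mul_le_mul_of_nonneg_right hK (hγ x)]⟩

theorem Ctl.zero (hσ : 0 ≤ σ) (hγ : ∀ x, 0 ≤ γ x) (hK : 0 ≤ K) : Ctl F γ σ K A fun _ => 0 :=
  ⟨contMDiff_const, fun _ => by simp; positivity, _, .zero (by positivity), fun x => by
    have := hγ x
    simp only [gr2_eq, nab, Mp86.dv_const, map_zero, add_zero, norm_zero]; simp; positivity⟩

theorem Ctl.add (h : Ctl F γ σ K A ψ) (k : Ctl F γ σ K' A ψ') :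
    Ctl F γ σ (2 * K + 2 * K') A fun x => ψ x + ψ' x := by
  obtain ⟨h1, h2, g, h3, h4⟩ := h
  obtain ⟨k1, k2, g', k3, k4⟩ := k
  refine ⟨h1.add k1, fun x => by nlinarith [normSq_add_le (ψ x) (ψ' x), h2 x, k2 x], _,
    ((h3.mul zero_le_two).add (k3.mul zero_le_two)).mono (le_of_eq (by ring)) fun _ => le_rfl,
    fun x => ?_⟩
  have : gr2 I F.e A (fun x => ψ x + ψ' x) x ≤ 2 * gr2 I F.e A ψ x + 2 * gr2 I F.e A ψ' x := by
    simp only [gr2_eq, Finset.mul_sum, ← Finset.sum_add_distrib]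
    exact Finset.sum_le_sum fun a _ => by rw [nab_add a (h1 x) (k1 x)]; exact normSq_add_le _ _
  nlinarith [h4 x, k4 x]

/-- covariant derivative of a homomorphism field -/
def nabH (F : Fr I M ι) (A : ι → M → V →L[ℝ] V) (A' : ι → M → V' →L[ℝ] V') (a : ι)
    (T : M → V →L[ℝ] V') (x : M) : V →L[ℝ] V' := F.D a T x + (A' a x ∘L T x - T x ∘L A a x)

theorem nab_appH {T : M → V →L[ℝ] V'} (a : ι) {x : M} (hT : SA I T x) (hψ : SA I ψ x) :
    nab I F.e A' a (fun y => T y (ψ y)) x = nabH F A A' a T x (ψ x) + T x (nab I F.e A a ψ x) := by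
  simp only [nab, nabH, Sob92.dv_app hT.md hψ.md, map_add, add_apply, sub_apply,
    ContinuousLinearMap.comp_apply, Pre.D]
  abel

/-- homomorphism fields of size `√C` in `C¹` -/
structure Opr (F : Fr I M ι) (A : ι → M → V →L[ℝ] V) (A' : ι → M → V' →L[ℝ] V') (C : ℝ)
    (T : M → V →L[ℝ] V') : Prop where
  sm : Sm I T
  le : ∀ x v, ‖T x v‖ ^ 2 ≤ C * ‖v‖ ^ 2
  gr : ∀ x v, ∑ a, ‖nabH F A A' a T x v‖ ^ 2 ≤ C * ‖v‖ ^ 2

theorem Ctl.app {T : M → V →L[ℝ] V'} (h : Ctl F γ σ K A ψ) (hσ : 0 ≤ σ) (hγ : ∀ x, 0 ≤ γ x)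
    (hK : 0 ≤ K) (hC : 0 ≤ C) (hT : Opr F A A' C T) :
    Ctl F γ σ (4 * C * K) A' fun x => T x (ψ x) := by
  obtain ⟨h1, h2, g, h3, h4⟩ := h
  have p0 : 0 ≤ C * (K * σ) := by positivity
  have p1 : ∀ x, C * ‖ψ x‖ ^ 2 ≤ C * (K * σ) := fun x => mul_le_mul_of_nonneg_left (h2 x) hC
  refine ⟨hT.sm.clm_apply h1, fun x => by nlinarith [hT.le x (ψ x), p1 x], _,
    (h3.mul (C := 2 * C) (by positivity)).mono (by nlinarith) fun _ => le_rfl, fun x => ?_⟩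
  have : gr2 I F.e A' (fun x => T x (ψ x)) x ≤
      2 * ∑ a, ‖nabH F A A' a T x (ψ x)‖ ^ 2 + 2 * C * gr2 I F.e A ψ x := by
    simp only [gr2_eq, Finset.mul_sum, ← Finset.sum_add_distrib]
    refine Finset.sum_le_sum fun a _ => ?_
    rw [nab_appH (A := A) a (hT.sm x) (h1 x)]
    nlinarith [normSq_add_le (nabH F A A' a T x (ψ x)) (T x (nab I F.e A a ψ x)),
      hT.le x (nab I F.e A a ψ x)]
  nlinarith [hT.gr x (ψ x), p1 x, mul_le_mul_of_nonneg_left (h4 x) hC,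
    mul_nonneg (mul_nonneg hC hK) (hγ x)]

/-- a bounded section and a coefficient depending on `Φ` -/
theorem Ctl.app_nem {T : M → V →L[ℝ] V'} (h : Ctl F γ σ K A ψ) (hσ : 0 ≤ σ) (hγ : ∀ x, 0 ≤ γ x)
    (hC : 0 ≤ C) (hb : ∀ x, ‖ψ x‖ ^ 2 ≤ K) (hT : Sm I T)
    (hT1 : ∀ x v, ‖T x v‖ ^ 2 ≤ C * ‖v‖ ^ 2)
    (hT2 : ∀ x v, ∑ a, ‖nabH F A A' a T x v‖ ^ 2 ≤ C * (σ + γ x) * ‖v‖ ^ 2) :
    Ctl F γ σ (4 * C * K) A' fun x => T x (ψ x) := by
  obtain ⟨h1, h2, k, h3, h4⟩ := h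
  have p0 : ∀ x : M, 0 ≤ C * (K * σ) := fun x => mul_nonneg hC ((sq_nonneg _).trans (h2 x))
  refine ⟨hT.clm_apply h1, fun x => by
    nlinarith [hT1 x (ψ x), mul_le_mul_of_nonneg_left (h2 x) hC, p0 x], ?_⟩
  rcases isEmpty_or_nonempty M with hM | ⟨⟨x₀⟩⟩
  · exact ⟨k, ⟨k, fun x => hM.elim x, fun x => hM.elim x⟩, fun x => hM.elim x⟩
  refine ⟨_, (h3.mul (C := 2 * C) (by positivity)).mono (by nlinarith [p0 x₀]) fun _ => le_rfl,
    fun x => ?_⟩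
  have : gr2 I F.e A' (fun x => T x (ψ x)) x ≤
      2 * ∑ a, ‖nabH F A A' a T x (ψ x)‖ ^ 2 + 2 * C * gr2 I F.e A ψ x := by
    simp only [gr2_eq, Finset.mul_sum, ← Finset.sum_add_distrib]
    refine Finset.sum_le_sum fun a _ => ?_
    rw [nab_appH (A := A) a (hT x) (h1 x)]
    nlinarith [normSq_add_le (nabH F A A' a T x (ψ x)) (T x (nab I F.e A a ψ x)),
      hT1 x (nab I F.e A a ψ x)]
  nlinarith [hT2 x (ψ x), mul_le_mul_of_nonneg_left (h4 x) hC,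
    mul_le_mul_of_nonneg_left (hb x) (mul_nonneg hC (add_nonneg hσ (hγ x)))]

theorem Opr.mono {T : M → V →L[ℝ] V'} {C' : ℝ} (h : Opr F A A' C T) (hC : C ≤ C') :
    Opr F A A' C' T :=
  ⟨h.sm, fun x v => (h.le x v).trans (mul_le_mul_of_nonneg_right hC (sq_nonneg _)),
    fun x v => (h.gr x v).trans (mul_le_mul_of_nonneg_right hC (sq_nonneg _))⟩

/-- parallel contractions -/
theorem Opr.par {T : M → V →L[ℝ] V'} (hT : Sm I T) (h1 : ∀ x v, ‖T x v‖ ≤ ‖v‖)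
    (h2 : ∀ a x, nabH F A A' a T x = 0) : Opr F A A' 1 T :=
  ⟨hT, fun x v => by rw [one_mul]; exact pow_le_pow_left₀ (norm_nonneg _) (h1 x v) 2,
    fun x v => by simp [h2]⟩

/-- functions of size `√C` in `C¹` -/
structure Fn (F : Fr I M ι) (C : ℝ) (f : M → ℝ) : Prop where
  sm : Sm I f
  le : ∀ x, f x ^ 2 ≤ C
  gr : ∀ x, ∑ a, F.D a f x ^ 2 ≤ C

theorem Fn.opr {f : M → ℝ} (h : Fn F C f) :
    Opr F A A C fun x => f x • ContinuousLinearMap.id ℝ V := by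
  refine ⟨h.sm.smul contMDiff_const, fun x v => ?_, fun x v => ?_⟩
  · simp only [smul_apply, ContinuousLinearMap.id_apply, norm_smul, mul_pow, Real.norm_eq_abs,
      sq_abs]
    exact mul_le_mul_of_nonneg_right (h.le x) (sq_nonneg _)
  · have : ∀ a, nabH F A A a (fun x => f x • ContinuousLinearMap.id ℝ V) x v = F.D a f x • v :=
      fun a => by
        simp only [nabH, Pre.D]
        rw [Mp86.dv_smul ((cm1 h.sm x).md le_rfl) mdifferentiableAt_const, Mp86.dv_const]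
        simp
    simp only [this, norm_smul, mul_pow, Real.norm_eq_abs, sq_abs, ← Finset.sum_mul]
    exact mul_le_mul_of_nonneg_right (h.gr x) (sq_nonneg _)

theorem Ctl.smul {f : M → ℝ} (h : Ctl F γ σ K A ψ) (hσ : 0 ≤ σ) (hγ : ∀ x, 0 ≤ γ x)
    (hK : 0 ≤ K) (hC : 0 ≤ C) (hf : Fn F C f) : Ctl F γ σ (4 * C * K) A fun x => f x • ψ x :=
  h.app hσ hγ hK hC hf.opr

theorem Fn.const (r : ℝ) : Fn F (r ^ 2) fun _ => r :=
  ⟨contMDiff_const, fun _ => le_rfl, fun x => by simp [Pre.D, Mp86.dv_const, sq_nonneg]⟩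

theorem Ctl.sum {κ : Type*} (S : Finset κ) {ψ : κ → M → V} {K : κ → ℝ} (hσ : 0 ≤ σ)
    (hγ : ∀ x, 0 ≤ γ x) (hK : ∀ k ∈ S, 0 ≤ K k) (h : ∀ k ∈ S, Ctl F γ σ (K k) A (ψ k)) :
    Ctl F γ σ (2 ^ S.card * ∑ k ∈ S, K k) A fun x => ∑ k ∈ S, ψ k x := by
  classical
  induction S using Finset.induction_on with
  | empty => simpa using Ctl.zero hσ hγ le_rfl
  | insert k S hk ih =>
    simp only [Finset.sum_insert hk, Finset.card_insert_of_notMem hk]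
    refine ((h k (by simp)).add (ih (fun j hj => hK j (by simp [hj]))
      fun j hj => h j (by simp [hj]))).mono hσ hγ ?_
    have h1 : (1 : ℝ) ≤ 2 ^ S.card := one_le_pow₀ one_le_two
    rw [pow_succ]
    nlinarith [hK k (by simp)]

variable [BoundarylessManifold I M] [T2Space M]

theorem Dom.res (hB : Bumps I F.e F.dv) (hA : Mc I A) (h : ∀ x, ‖ψ x‖ ^ 2 ≤ β) :
    (∀ x, ‖F.res A ψ x‖ ^ 2 ≤ β) ∧ Dom F β (gr2 I F.e A (F.res A ψ)) := by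
  obtain ⟨t, h1, h2⟩ := res_rhs F A ψ
  have h3 : ∀ x, ‖t x‖ ≤ √β := fun x => (h2 x).trans (Real.le_sqrt_of_sq_le (h x))
  have h4 : ∀ x, ‖F.res A ψ x‖ ^ 2 ≤ β := fun x =>
    (pow_le_pow_left₀ (norm_nonneg _) (isRes_norm_le hB hA h1 h3 x) 2).trans_eq
      (Real.sq_sqrt ((sq_nonneg _).trans (h x)))
  refine ⟨h4, fun x => ‖F.res A ψ x‖ ^ 2, fun x => cm_normSq (h1.1 x),
    fun x => ⟨sq_nonneg _, h4 x, ?_⟩⟩
  rw [Lop_normSq (vf F.toPre x) (hA.mc x).sm (hA.mc x).sk (cm2 h1.1 x),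
    show LA I F.e F.dv A (F.res A ψ) x = -lap I F.e F.dv A (F.res A ψ) x from (neg_neg _).symm,
    ← sub_eq_iff_eq_add'.2 (h1.2.2 x).symm, neg_sub, inner_sub_left, real_inner_self_eq_norm_sq]
  have h5 := real_inner_le_norm (t x) (F.res A ψ x)
  have h6 := (pow_le_pow_left₀ (norm_nonneg _) (h2 x) 2).trans (h x)
  unfold gr2
  nlinarith [sq_nonneg (‖t x‖ - ‖F.res A ψ x‖), sq_nonneg ‖F.res A ψ x‖]

/-- the resolvent of a bounded section is controlled -/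
theorem Ctl.res (hB : Bumps I F.e F.dv) (hA : Mc I A) (hσ : 0 ≤ σ) (hγ : ∀ x, 0 ≤ γ x)
    (hK : 0 ≤ K) (h : ∀ x, ‖ψ x‖ ^ 2 ≤ K * σ) : Ctl F γ σ K A (F.res A ψ) :=
  ⟨sm_res F A ψ, (Dom.res hB hA h).1, _, (Dom.res hB hA h).2, fun x => by
    have := hγ x
    exact le_add_of_nonneg_left (by positivity)⟩

/-- `C⁰` bound from a dominated error term -/
theorem c0_dom (hB : Bumps I F.e F.dv) (hA : Mc I A) (hΦ : Sm I Φ) (hσ : ∀ x, ‖Φ x‖ ^ 2 ≤ σ)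
    (hg : Dom F β g) {c a r : ℝ} (hc : 0 < c) (ha : 0 ≤ a) (hr : 0 ≤ r)
    (hW : ∀ x, c * (‖Φ x‖ ^ 2) ^ 2 - a * ‖Φ x‖ ^ 2 - r - gr2 I F.e A Φ x - g x ≤
      -⟪lap I F.e F.dv A Φ x, Φ x⟫_ℝ) (x : M) :
    ‖Φ x‖ ^ 2 ≤ a / c + √(r / c) + 2 * β + 1 / (8 * c) := by
  obtain ⟨h, h1, h2⟩ := hg
  have β0 : 0 ≤ β := (h2 x).1.trans (h2 x).2.1
  set T := a / c + √((r + β / 2) / c) with hT
  have s0 := Real.sqrt_nonneg ((r + β / 2) / c)
  have s1 : c * √((r + β / 2) / c) ^ 2 = r + β / 2 := by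
    rw [Real.sq_sqrt (by positivity)]; field_simp
  have a0 : 0 ≤ a / c := by positivity
  have a1 : c * (a / c) = a := by field_simp
  have key := maxp_bdd (f := fun y => ‖Φ y‖ ^ 2 + h y) (m := T + β) (C := σ + β) hB
    finite_empty (by simp) (vf F.toPre) (by simp) (by simp)
    (fun y _ => (cm_normSq (cm2 hΦ y)).add (cm2 h1 y)) (fun y _ => add_le_add (hσ y) (h2 y).2.1)
    (fun δ hδ => ⟨c * δ ^ 2, by positivity, fun y _ hy => ?_⟩) x (by simp)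
  · have s2 : √((r + β / 2) / c) ≤ √(r / c) + (β + 1 / (8 * c)) := by
      refine Real.sqrt_le_iff.2 ⟨by positivity, ?_⟩
      have b1 : (r + β / 2) / c = r / c + 4 * (β * (1 / (8 * c))) := by field_simp; ring
      have b2 := Real.sq_sqrt (show 0 ≤ r / c by positivity)
      have b3 : 0 ≤ √(r / c) * (β + 1 / (8 * c)) := by positivity
      nlinarith [sq_nonneg (β - 1 / (8 * c))]
    linarith [(h2 x).1]
  rw [Lop_add (vf F.toPre y) (cm_normSq (cm2 hΦ y)) (cm2 h1 y),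
    Lop_normSq (vf F.toPre y) (hA.mc y).sm (hA.mc y).sk (cm2 hΦ y),
    show LA I F.e F.dv A Φ y = -lap I F.e F.dv A Φ y from (neg_neg _).symm, inner_neg_left]
  have b1 := hW y
  have b3 := (h2 y).2.2
  have b5 : T + δ ≤ ‖Φ y‖ ^ 2 := by linarith [(h2 y).2.1]
  set t := ‖Φ y‖ ^ 2
  set s := √((r + β / 2) / c)
  have b6 : s + δ ≤ t := by linarith
  have b7 : c * (s + δ) ≤ c * t - a := by nlinarith
  have b8 : (s + δ) * (c * (s + δ)) ≤ t * (c * t - a) :=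
    mul_le_mul b6 b7 (by positivity) (by linarith)
  have b9 : 0 ≤ c * (s * δ) := by positivity
  have b10 : 0 ≤ c * δ ^ 2 := by positivity
  change _ ≤ 2 * -⟪lap I F.e F.dv A Φ y, Φ y⟫_ℝ + 2 * gr2 I F.e A Φ y + _
  nlinarith

/-- **abstract `C⁰` bound** -/
theorem c0_core (hB : Bumps I F.e F.dv) (hA : Mc I A) (hΦ : Sm I Φ) (hσ : ∀ x, ‖Φ x‖ ^ 2 ≤ σ)
    {ψ : M → V'} (hψ : Ctl F (gr2 I F.e A Φ) σ K A' ψ) (hg : Dom F β g) {c a r ε : ℝ} (hc : 0 < c)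
    (ha : 0 ≤ a) (hr : 0 ≤ r) (hε : 0 ≤ ε) (hK : 0 ≤ K) (hεK : ε * K ≤ 1)
    (hW : ∀ x, c * (‖Φ x‖ ^ 2) ^ 2 - a * ‖Φ x‖ ^ 2 - r - ε * gr2 I F.e A' ψ x - g x ≤
      -⟪lap I F.e F.dv A Φ x, Φ x⟫_ℝ) (x : M) :
    ‖Φ x‖ ^ 2 ≤ a / c + √(r / c) + 3 * (ε * K) * σ + 2 * β + 3 / (8 * c) := by
  obtain ⟨-, -, g', h3, h4⟩ := hψ
  have σ0 : 0 ≤ σ := (sq_nonneg _).trans (hσ x)
  have η0 : 0 ≤ ε * (K * σ) := by positivity
  have := c0_dom hB hA hΦ hσ (hg.add (h3.mul hε)) (r := r + ε * (K * σ)) hc ha (by positivity)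
    (fun y => by
      nlinarith [hW y, mul_le_mul_of_nonneg_left (h4 y) hε, mul_le_mul_of_nonneg_right hεK
        (gr2_nonneg (I := I) (e := F.e) (A := A) (Φ := Φ) (x := y))]) x
  have s2 : √((r + ε * (K * σ)) / c) ≤ √(r / c) + (ε * (K * σ) + 1 / (4 * c)) := by
    refine Real.sqrt_le_iff.2 ⟨by positivity, ?_⟩
    have b1 : (r + ε * (K * σ)) / c = r / c + 4 * (ε * (K * σ) * (1 / (4 * c))) := by field_simp
    have b2 := Real.sq_sqrt (show 0 ≤ r / c by positivity)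
    have b3 : 0 ≤ √(r / c) * (ε * (K * σ) + 1 / (4 * c)) := by positivity
    nlinarith [sq_nonneg (ε * (K * σ) - 1 / (4 * c))]
  have : 1 / (4 * c) + 1 / (8 * c) = 3 / (8 * c) := by field_simp; ring
  linarith

/-- on a closed manifold dominated functions have small integrals -/
theorem Dom.integral_le [BorelSpace M] [CompactSpace M] (hg : Dom F β g) {f : M → ℝ}
    (hf : Integrable f F.μ) (h : ∀ x, f x ≤ C + g x) :
    ∫ x, f x ∂F.μ ≤ (C + β / 2) * F.μ.real univ := by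
  obtain ⟨k, h1, h2⟩ := hg
  have hc := fun a => HasCompactSupport.of_compactSpace (F.D a k)
  have i1 : Integrable (Lop I F.e F.dv k) F.μ := integ_dvg (fun a => F.sm_D h1 a) hc
  have e1 : ∫ x, Lop I F.e F.dv k x ∂F.μ = 0 := integral_dvg (fun a => F.sm_D h1 a) hc
  refine (integral_mono hf ((integrable_const (C + β / 2)).add (i1.const_mul (1 / 2)))
    fun x => ?_).trans_eq ?_
  · simp only [Pi.add_apply]; linarith [h x, (h2 x).2.2]
  · simp only [Pi.add_apply]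
    rw [integral_add (integrable_const _) (i1.const_mul _), integral_const_mul, e1]
    simp [mul_comm]

end Crest.Agent.X212.Mp86

end
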