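import Crest.Agent.X212.Rf65.Imm

/-!
# Row 212 (helper86): hypersurfaces; the pinched neck `ds² + (s² + ε²) g_S` is scalar flat
-/

set_option autoImplicit false
set_option linter.unusedSectionVars false
open scoped Manifold ContDiff Topology InnerProductSpace
open Finset Filter

noncomputable section
namespace Crest.Agent.X212.Mp86
open Wz78 Sob92 Rf65

variable {E H : Type*} [NormedAddCommGroup E] [NormedSpace ℝ E] [TopologicalSpace H]
  {I : ModelWithCorners ℝ E H} {M : Type*} [TopologicalSpace M] [ChartedSpace H M]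
  {V : Type*} [NormedAddCommGroup V] [InnerProductSpace ℝ V] [FiniteDimensional ℝ V]
  {ι : Type*} [Fintype ι] [IsManifold I 1 M]
  {e : ι → (x : M) → TangentSpace I x} {P : ι → ι → M → ℝ} {c Γ : ι → ι → ι → M → ℝ}
  {Θ ν θ : M → V} {s : M → ℝ} {ε : ℝ} {x : M}

variable (I) in
/-- near `x`, `Θ` maps isometrically onto a hypersurface with the unit normal `ν` -/
structure Hyp (e : ι → (x : M) → TangentSpace I x) (Θ ν : M → V) (x : M) : Prop where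
  sm : ∀ᶠ y in 𝓝 x, SA I Θ y
  sn : SA I ν x
  nrm : ∀ᶠ y in 𝓝 x, ⟪ν y, ν y⟫_ℝ = 1
  gram : ∀ᶠ y in 𝓝 x, ∀ v w, ∑ a, ⟪v, dv I (e a) Θ y⟫_ℝ * ⟪w, dv I (e a) Θ y⟫_ℝ =
    ⟪v, w⟫_ℝ - ⟪v, ν y⟫_ℝ * ⟪w, ν y⟫_ℝ

theorem perp_of_gram {X : ι → V} {n : V} (h1 : ⟪n, n⟫_ℝ = 1)
    (h : ∀ v w, ∑ a, ⟪v, X a⟫_ℝ * ⟪w, X a⟫_ℝ = ⟪v, w⟫_ℝ - ⟪v, n⟫_ℝ * ⟪w, n⟫_ℝ) (a : ι) :
    ⟪X a, n⟫_ℝ = 0 := by
  have := h n n
  rw [h1, mul_one, sub_self] at this
  rw [real_inner_comm]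
  exact mul_self_eq_zero.1 ((sum_eq_zero_iff_of_nonneg fun a _ => mul_self_nonneg _).1 this a
    (mem_univ a))

theorem gram_eq_of {X : ι → V} {n : V} {Q : ι → ι → ℝ} (hQ : Pr Q) (h1 : ⟪n, n⟫_ℝ = 1)
    (h : ∀ v w, ∑ a, ⟪v, X a⟫_ℝ * ⟪w, X a⟫_ℝ = ⟪v, w⟫_ℝ - ⟪v, n⟫_ℝ * ⟪w, n⟫_ℝ)
    (hp : ∀ a, ∑ b, Q a b • X b = X a) (hd : ∑ a, Q a a = (Module.finrank ℝ V : ℝ) - 1)
    (a b : ι) : ⟪X a, X b⟫_ℝ = Q a b := by
  let o := stdOrthonormalBasis ℝ V
  have g1 : ∀ a b, ∑ k, ⟪X a, X k⟫_ℝ * ⟪X b, X k⟫_ℝ = ⟪X a, X b⟫_ℝ := fun a b => by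
    rw [h, perp_of_gram h1 h, zero_mul, sub_zero]
  have g2 : ∀ a b, ∑ k, Q b k * ⟪X a, X k⟫_ℝ = ⟪X a, X b⟫_ℝ := fun a b => by
    simp only [← real_inner_smul_right, ← inner_sum, hp]
  have g0 : ∀ v : V, ∑ i, ⟪o i, v⟫_ℝ * ⟪o i, v⟫_ℝ = ⟪v, v⟫_ℝ := fun v => by
    rw [← o.sum_inner_mul_inner]
    exact sum_congr rfl fun i _ => by rw [real_inner_comm]
  have g3 : ∑ a, ⟪X a, X a⟫_ℝ = ∑ a, Q a a := by
    simp only [← g0 (X _)]
    rw [sum_comm, hd, ← h1, ← g0 n]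
    simp only [h, sum_sub_distrib, real_inner_self_eq_norm_sq, o.orthonormal.1]
    simp
  have g4 : ∑ a, ∑ k, (⟪X a, X k⟫_ℝ - Q a k) ^ 2 = 0 := by
    have : ∀ a, ∑ k, (⟪X a, X k⟫_ℝ - Q a k) ^ 2 = Q a a - ⟪X a, X a⟫_ℝ := fun a => by
      have e : ∀ k, (⟪X a, X k⟫_ℝ - Q a k) ^ 2 =
          ⟪X a, X k⟫_ℝ * ⟪X a, X k⟫_ℝ - 2 * (Q a k * ⟪X a, X k⟫_ℝ) + Q a k * Q k a := fun k => by
        rw [hQ.symm k a]; ring
      simp only [e, sum_add_distrib, sum_sub_distrib, ← mul_sum, g1, g2, hQ.idem]; ring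
    simp only [this, sum_sub_distrib, g3, sub_self]
  have h1 := (sum_eq_zero_iff_of_nonneg fun a _ => sum_nonneg fun k _ => sq_nonneg _).1 g4 a
    (mem_univ a)
  have h2 := (sum_eq_zero_iff_of_nonneg fun k _ => sq_nonneg _).1 h1 b (mem_univ b)
  exact sub_eq_zero.1 (pow_eq_zero_iff two_ne_zero |>.1 h2)

namespace Hyp
variable (h : Hyp I e Θ ν x) (F : Frm I e P c)
  (hd : ∀ y, ∑ a, P a a y = (Module.finrank ℝ V : ℝ) - 1)
include h F hd

theorem imm : Imm I e P Θ x := ⟨h.sm, (h.nrm.and h.gram).mono fun y hy =>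
  gram_eq_of (F.pr y) hy.1 hy.2 (fun a => F.projD a Θ y) (hd y)⟩

variable (L : LC I e P c Γ)
include L

theorem sff_eq (a b : ι) :
    sff I e Γ Θ a b x = -⟪dv I (e b) Θ x, dv I (e a) ν x⟫_ℝ • ν x := by
  have hs := h.sm.self_of_nhds
  have ht := (h.nrm.and h.gram).mono fun y hy => perp_of_gram hy.1 hy.2
  have h1 : ⟪sff I e Γ Θ a b x, ν x⟫_ℝ = -⟪dv I (e b) Θ x, dv I (e a) ν x⟫_ℝ := by
    have := dv_ip (e a) (F.sD b hs) h.sn
    rw [dv_ev_const (ht.mono fun y hy => hy b)] at this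
    simp only [sff, inner_sub_left, sum_inner, real_inner_smul_left, ht.self_of_nhds, mul_zero,
      sum_const_zero]
    linarith
  refine ext_inner_right ℝ fun w => ?_
  have h2 := h.gram.self_of_nhds (sff I e Γ Θ a b x) w
  simp only [(h.imm F hd).perp L F, zero_mul, sum_const_zero, h1] at h2
  rw [real_inner_smul_left, real_inner_comm w (ν x)]
  linarith

theorem Rm_eq {B : ι → ι → ℝ} (hB : ∀ a b, ⟪dv I (e b) Θ x, dv I (e a) ν x⟫_ℝ = B a b)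
    (a b m l : ι) : Rm I e c Γ a b m l x = B b m * B a l - B a m * B b l := by
  simp only [(h.imm F hd).gauss L F, h.sff_eq F hd L, real_inner_smul_left, real_inner_smul_right,
    h.nrm.self_of_nhds, hB]
  ring

end Hyp

/-! ### the profile -/

/-- the radius of the neck -/
def rd (ε σ : ℝ) : ℝ := √(σ ^ 2 + ε ^ 2)

/-- the height of the neck -/
def hgt (ε σ : ℝ) : ℝ := ε * Real.arsinh (σ / ε)

section prof
variable {σ : ℝ}

theorem rd_sq (ε σ : ℝ) : rd ε σ ^ 2 = σ ^ 2 + ε ^ 2 := Real.sq_sqrt (by positivity)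

theorem cd_rd (h : 0 < rd ε σ) : ContDiffAt ℝ ∞ (rd ε) σ :=
  ContDiffAt.sqrt (by fun_prop) (Real.sqrt_pos.1 h).ne'

theorem cont_rd (ε : ℝ) : Continuous (rd ε) := by unfold rd; fun_prop

theorem der_rd (h : 0 < rd ε σ) : HasDerivAt (rd ε) (σ / rd ε σ) σ := by
  refine ((((hasDerivAt_id σ).fun_pow 2).add_const (ε ^ 2)).sqrt
    (Real.sqrt_pos.1 h).ne').congr_deriv ?_
  simp only [rd, id]; ring

theorem cd_hgt (ε : ℝ) : ContDiff ℝ ∞ (hgt ε) :=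
  contDiff_const.mul (Real.contDiff_arsinh.comp (contDiff_id.div_const ε))

theorem der_hgt (h0 : 0 ≤ ε) (σ : ℝ) : HasDerivAt (hgt ε) (ε / rd ε σ) σ := by
  rcases h0.eq_or_lt with rfl | h0
  · simpa [show hgt 0 = fun _ => 0 from funext fun _ => zero_mul _] using hasDerivAt_const σ (0 : ℝ)
  refine (((Real.hasDerivAt_arsinh (σ / ε)).comp σ ((hasDerivAt_id σ).div_const ε)).const_mul
    ε).congr_deriv ?_
  have : rd ε σ = ε * √(1 + (σ / ε) ^ 2) := by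
    rw [rd, ← Real.sqrt_sq h0.le, ← Real.sqrt_mul (sq_nonneg _), Real.sqrt_sq h0.le]
    congr 1; field_simp; ring
  rw [this]; field_simp

theorem der_rd' (h : 0 < rd ε σ) : HasDerivAt (fun σ => σ / rd ε σ) (ε ^ 2 / rd ε σ ^ 3) σ := by
  refine ((hasDerivAt_id σ).fun_div (der_rd h) h.ne').congr_deriv ?_
  have := rd_sq ε σ
  simp only [id]; field_simp; linarith

theorem der_hgt' (h : 0 < rd ε σ) :
    HasDerivAt (fun σ => -(ε / rd ε σ)) (ε * σ / rd ε σ ^ 3) σ := by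
  refine ((hasDerivAt_const σ ε).fun_div (der_rd h) h.ne').fun_neg.congr_deriv ?_
  field_simp; ring

end prof

theorem dv_der {v : (x : M) → TangentSpace I x} {g : ℝ → ℝ} {g' : ℝ} (hs : SA I s x)
    (hg : HasDerivAt g g' (s x)) : dv I v (fun y => g (s y)) x = g' * dv I v s x := by
  rw [Sob92.dv_comp hs.md hg.hasFDerivAt]; simp [mul_comm]

/-- the pair `(a, b • θ)` -/
def wp (a b : M → ℝ) (θ : M → V) (y : M) : WithLp 2 (ℝ × V) := WithLp.toLp 2 (a y, b y • θ y)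

theorem sa_wp {a b : M → ℝ} (ha : SA I a x) (hb : SA I b x) (hθ : SA I θ x) : SA I (wp a b θ) x :=
  SA.clm (WithLp.prodContinuousLinearEquiv 2 ℝ ℝ V).symm.toContinuousLinearMap
    (ha.prodMk_space (hb.smul hθ))

theorem dv_wp {v : (x : M) → TangentSpace I x} {a b : M → ℝ} (ha : SA I a x) (hb : SA I b x)
    (hθ : SA I θ x) : dv I v (wp a b θ) x =
      WithLp.toLp 2 (dv I v a x, dv I v b x • θ x + b x • dv I v θ x) := by
  rw [← Sob92.dv_smul hb.md hθ.md, ← Sob92.dv_prod ha.md (hb.smul hθ).md]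
  exact Sob92.dv_clm (WithLp.prodContinuousLinearEquiv 2 ℝ ℝ V).symm.toContinuousLinearMap
    (SA.md (ha.prodMk_space (hb.smul hθ)))

variable (I) in
/-- at `y` the metric is `ds² + r² g_S` in the coordinates `(s, θ)` -/
structure Wq (e : ι → (x : M) → TangentSpace I x) (s : M → ℝ) (θ : M → V) (r : ℝ) (y : M) :
    Prop where
  ss : SA I s y
  sθ : SA I θ y
  pos : 0 < r
  nrm : ‖θ y‖ = 1
  g11 : ∑ a, dv I (e a) s y ^ 2 = 1
  g12 : ∀ v, ∑ a, dv I (e a) s y * ⟪v, dv I (e a) θ y⟫_ℝ = 0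
  g22 : ∀ v w, r ^ 2 * ∑ a, ⟪v, dv I (e a) θ y⟫_ℝ * ⟪w, dv I (e a) θ y⟫_ℝ =
    ⟪v, w⟫_ℝ - ⟪v, θ y⟫_ℝ * ⟪w, θ y⟫_ℝ

theorem Wq.one {r : ℝ} (h : Wq I e s θ r x) : ⟪θ x, θ x⟫_ℝ = 1 := by
  rw [real_inner_self_eq_norm_sq, h.nrm, one_pow]

theorem Wq.perp {r : ℝ} (h : Wq I e s θ r x) (a : ι) : ⟪dv I (e a) θ x, θ x⟫_ℝ = 0 := by
  have := perp_of_gram (X := fun a => r • dv I (e a) θ x) h.one (fun v w => by
    rw [← h.g22, mul_sum]
    exact sum_congr rfl fun a _ => by simp only [real_inner_smul_right]; ring) a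
  rwa [real_inner_smul_left, mul_eq_zero, or_iff_right h.pos.ne'] at this

variable (h0 : 0 ≤ ε) (h : ∀ᶠ y in 𝓝 x, Wq I e s θ (rd ε (s y)) y)
include h0 h

theorem hyp_wq : Hyp I e (wp (fun y => hgt ε (s y)) (fun y => rd ε (s y)) θ)
    (wp (fun y => s y / rd ε (s y)) (fun y => -(ε / rd ε (s y))) θ) x := by
  have a1 : ∀ y, Wq I e s θ (rd ε (s y)) y → SA I (fun y => hgt ε (s y)) y ∧
      SA I (fun y => rd ε (s y)) y := fun y hy =>
    ⟨(cd_hgt ε).contDiffAt.comp_contMDiffAt hy.ss, (cd_rd hy.pos).comp_contMDiffAt hy.ss⟩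
  have k := h.self_of_nhds
  refine ⟨h.mono fun y hy => sa_wp (a1 y hy).1 (a1 y hy).2 hy.sθ,
    sa_wp ((contDiffAt_id.div (cd_rd k.pos) k.pos.ne').comp_contMDiffAt k.ss)
      ((contDiffAt_const.div (cd_rd k.pos) k.pos.ne').neg.comp_contMDiffAt k.ss) k.sθ,
    h.mono fun y hy => ?_, h.mono fun y hy v w => ?_⟩
  · have := rd_sq ε (s y)
    have := hy.pos
    simp only [wp, WithLp.prod_inner_apply, real_inner_smul_left, real_inner_smul_right, hy.one,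
      Real.inner_apply]
    field_simp; linarith
  · have b1 := rd_sq ε (s y)
    have b2 := hy.pos
    have b3 : ∀ a, ⟪v, dv I (e a) (wp (fun y => hgt ε (s y)) (fun y => rd ε (s y)) θ) y⟫_ℝ *
        ⟪w, dv I (e a) (wp (fun y => hgt ε (s y)) (fun y => rd ε (s y)) θ) y⟫_ℝ =
        (ε * v.ofLp.1 + s y * ⟪v.ofLp.2, θ y⟫_ℝ) * (ε * w.ofLp.1 + s y * ⟪w.ofLp.2, θ y⟫_ℝ) /
          rd ε (s y) ^ 2 * dv I (e a) s y ^ 2
        + (ε * v.ofLp.1 + s y * ⟪v.ofLp.2, θ y⟫_ℝ) * (dv I (e a) s y * ⟪w.ofLp.2, dv I (e a) θ y⟫_ℝ)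
        + (ε * w.ofLp.1 + s y * ⟪w.ofLp.2, θ y⟫_ℝ) * (dv I (e a) s y * ⟪v.ofLp.2, dv I (e a) θ y⟫_ℝ)
        + rd ε (s y) ^ 2 * (⟪v.ofLp.2, dv I (e a) θ y⟫_ℝ * ⟪w.ofLp.2, dv I (e a) θ y⟫_ℝ) :=
      fun a => by
        simp only [dv_wp (a1 y hy).1 (a1 y hy).2 hy.sθ, dv_der hy.ss (der_hgt h0 _),
          dv_der hy.ss (der_rd b2), WithLp.prod_inner_apply, inner_add_right,
          real_inner_smul_right, Real.inner_apply]
        field_simp; ring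
    simp only [b3, sum_add_distrib, ← mul_sum, hy.g11, hy.g12, hy.g22]
    simp only [wp, WithLp.prod_inner_apply, real_inner_smul_right, Real.inner_apply]
    field_simp
    rw [b1]; ring

variable (F : Frm I e P c) (L : LC I e P c Γ) (hd : ∀ y, ∑ a, P a a y = Module.finrank ℝ V)
include F L hd

/-- the curvature tensor of the pinched neck -/
theorem Rm_wq (a b m l : ι) : Rm I e c Γ a b m l x = (ε / rd ε (s x) ^ 2) ^ 2 *
    ((2 * dv I (e b) s x * dv I (e m) s x - P b m x) * (2 * dv I (e a) s x * dv I (e l) s x - P a l x)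
    - (2 * dv I (e a) s x * dv I (e m) s x - P a m x) *
      (2 * dv I (e b) s x * dv I (e l) s x - P b l x)) := by
  have hd' : ∀ y, ∑ a, P a a y = (Module.finrank ℝ (WithLp 2 (ℝ × V)) : ℝ) - 1 := fun y => by
    rw [hd, (WithLp.linearEquiv 2 ℝ (ℝ × V)).finrank_eq, Module.finrank_prod]; simp
  have H := hyp_wq h0 h
  have k := h.self_of_nhds
  have b1 := rd_sq ε (s x)
  have b2 := k.pos
  have a1 : SA I (fun y => hgt ε (s y)) x := (cd_hgt ε).contDiffAt.comp_contMDiffAt k.ss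
  have a2 : SA I (fun y => rd ε (s y)) x := (cd_rd b2).comp_contMDiffAt k.ss
  have a3 : SA I (fun y => s y / rd ε (s y)) x :=
    (contDiffAt_id.div (cd_rd b2) b2.ne').comp_contMDiffAt k.ss
  have a4 : SA I (fun y => -(ε / rd ε (s y))) x :=
    (contDiffAt_const.div (cd_rd b2) b2.ne').neg.comp_contMDiffAt k.ss
  rw [H.Rm_eq F hd' L (B := fun a b => ε / rd ε (s x) ^ 2 *
    (2 * dv I (e a) s x * dv I (e b) s x - P a b x)) fun a b => ?_]
  · ring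
  rw [← (H.imm F hd').iso.self_of_nhds]
  simp only [dv_wp a1 a2 k.sθ, dv_wp a3 a4 k.sθ, dv_der k.ss (der_hgt h0 _), dv_der k.ss (der_rd b2),
    dv_der k.ss (der_rd' b2), dv_der k.ss (der_hgt' b2), WithLp.prod_inner_apply, inner_add_right,
    inner_add_left, real_inner_smul_right, real_inner_smul_left, Real.inner_apply, k.one, k.perp,
    real_inner_comm _ (θ x), real_inner_comm (dv I (e a) θ x) (dv I (e b) θ x)]
  field_simp
  rw [b1]; ring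

/-- **the pinched neck is scalar flat** -/
theorem scal_wq (h4 : Module.finrank ℝ V = 4) : scal I e c Γ x = 0 := by
  have k := h.self_of_nhds
  have b1 : ∀ a, ∑ b, P a b x * dv I (e b) s x = dv I (e a) s x := fun a => F.projD a s x
  have b2 : ∑ a, (2 * dv I (e a) s x * dv I (e a) s x - P a a x) = -2 := by
    simp only [sum_sub_distrib, mul_assoc, ← sq, ← mul_sum, k.g11, hd, h4]; norm_num
  have b3 : ∀ a, ∑ b, (2 * dv I (e a) s x * dv I (e b) s x - P a b x) *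
      (2 * dv I (e b) s x * dv I (e a) s x - P b a x) = P a a x := fun a => by
    have : ∀ b, (2 * dv I (e a) s x * dv I (e b) s x - P a b x) *
      (2 * dv I (e b) s x * dv I (e a) s x - P b a x) = 4 * dv I (e a) s x ^ 2 * dv I (e b) s x ^ 2
        - 4 * dv I (e a) s x * (P a b x * dv I (e b) s x) + P a b x * P b a x := fun b => by
      rw [(F.pr x).symm b a]; ring
    simp only [this, sum_add_distrib, sum_sub_distrib, ← mul_sum, k.g11, b1, (F.pr x).idem]; ring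
  simp only [scal, Rm_wq h0 h F L hd, ← mul_sum, sum_sub_distrib, ← sum_mul, b2, b3, hd, h4]
  norm_num

end Crest.Agent.X212.Mp86
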