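import Crest.Agent.X212.Mp86.TrgA
import Crest.Agent.X212.Cht98.TrI
import Crest.Agent.X212.Cht98.TrC
import Crest.Agent.X212.Eqv71.Nat

/-! Row 212, IX-TRG (helper86): rotation, invariance and splitting of the index from IX-TRN. -/

set_option autoImplicit false
set_option linter.unusedSectionVars false
noncomputable section
open scoped Manifold ContDiff Topology InnerProductSpace
open Set Function Filter

namespace Crest.Agent.X212.Mp86.Trg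
open An M Nd18 Nk89 Map77 Mod61 Cyf70 Fred93 Cht98 Eqv71 Sob92
open Cht98 (IC)

variable {κ lam : Type} [Fintype κ] [Fintype lam] {Z Z' Z₁ Z₂ Z₃ Z₄ : Mf 4}
  {b : BG κ lam Z} {b' : BG κ lam Z'} {O : Set Z.M} {O' : Set Z'.M} {k : ℕ} {δ : ℝ}
  {c : C0 Z κ lam} {c' : C0 Z' κ lam}

theorem ceq_cg {F : Fr Z.I Z.M (Option κ)} {S S' : Set Z.M} {φ : Z.M → Z'.M} {U U' v v' u ζ}
    (e : CEq F c c' S φ U v u ζ) (h : S' ⊆ S) (hU : ∀ x ∈ S', U x = U' x)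
    (hv : ∀ x ∈ S', v x = v' x) : CEq F c c' S' φ U' v' u ζ :=
  ⟨⟨e.m.su.mono h, fun x k => e.m.uu x (h k), fun x k => e.m.uu' x (h k), fun x k => e.m.J x (h k),
    fun x k => hU x k ▸ e.m.ρ x (h k), fun x k => hv x k ▸ e.m.j x (h k)⟩,
    fun x k => hU x k ▸ e.W x (h k), fun x k => e.Φ x (h k), e.z⟩

theorem sm_ind {N : Type} [NormedAddCommGroup N] [NormedSpace ℝ N] {f : Z.M → N} (h : IsClopen O)
    (hf : Sm Z.I f) : Sm Z.I (O.indicator f) := fun x => by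
  by_cases k : x ∈ O
  · exact (hf x).congr_of_eventuallyEq ((h.2.eventually_mem k).mono fun _ k => indicator_of_mem k _)
  · exact contMDiffAt_const.congr_of_eventuallyEq ((h.1.isOpen_compl.eventually_mem k).mono
      fun _ k => indicator_of_notMem k _)

variable (O c) in
/-- the configuration with the spinor cut off -/
abbrev ct : C0 Z κ lam := ⟨c.m, c.W, O.indicator c.Φ, 0⟩

theorem ad_ct (h : IsClopen O) (a : c.Adm b.B b.G) : Ad0 (ct O c) b.B b.G :=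
  ⟨a.ok, a.conn, sm_ind h a.sm, fun x => by
    by_cases k : x ∈ O <;> simp [k, a.pos x]⟩

theorem ad_c0 (h : IC b O k δ) : Ad0 h.c0 b.B b.G :=
  have a := (pt0 h.o h.r h.g.ht).ad0 h.g.X.ok
  h.g.hB ▸ h.g.hG ▸ ⟨a.ok, a.conn, a.sm, a.pos⟩

/-! ### inverse links -/

section sy
variable (hb : b.OK O) (hb' : b'.OK O')

/-- the inverse patch -/
@[reducible] def gs (p : GP b b') : GP b' b :=
  ⟨p.φ.symm, _, _, geq_symm p.g hb.B hb.G hb'.B hb'.G, p.sub', p.sub⟩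

include hb hb' in
theorem lg (p : GP b b') : LG b.B b.G b'.B b'.G p.φ.source p.φ p.U p.v :=
  lg_of_geq p.g hb.B hb.G hb'.B hb'.G p.φ.open_source subset_rfl

theorem mt_symm {p : GP b b'} {a a'} (h : p.Mt a a') : (gs hb hb' p).Mt a' a := by
  obtain ⟨X, K, K', o, e1, e2, s, l, H⟩ := h
  have ok : X.OK := by simpa only [e1] using hb.X a
  refine ⟨X, K', K, o, e2, e1, s + |l|, -l, fun z hz => ?_⟩
  obtain ⟨h1, h2, h3, h4⟩ := H (z.1, z.2 + -l) ⟨trivial, by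
    have := hz.2
    have := le_abs_self l
    have := neg_abs_le l
    cases o <;> simp only [En.ht, mem_ofPred_eq, cond] at * <;> linarith⟩
  simp only [neg_add_cancel_right, Prod.mk.eta] at h2
  have h5 : p.φ.symm (K'.ψ z) = K.ψ (z.1, z.2 + -l) := h2 ▸ p.φ.left_inv h1
  refine ⟨h2 ▸ p.φ.map_source h1, h5, ?_, ?_⟩
  · funext i j
    simp only [h5, h3, (ok.ok.B.pr z).symm i j]
    cases i <;> cases j <;> rfl
  · simp only [h5, h4]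
    exact trn_of_sym (ok.ok.B.lsym z)

theorem mt_src {p : GP b b'} {a a'} (h : p.Mt a a') : ∃ s, (b.E a).U s ⊆ p.φ.source := by
  obtain ⟨X, K, K', o, e1, -, s, l, H⟩ := h
  rw [e1]
  exact ⟨s, fun _ ⟨z, hz, e⟩ => e ▸ (H z hz).1⟩

/-- the inverse link -/
@[reducible] def sy (A : Lnk b b' O O' c c') (a : Ad0 c b.B b.G) (a' : Ad0 c' b'.B b'.G) :
    Lnk b' b O' O c' c where
  p := gs hb hb' A.p
  u y := trn (A.u (A.p.φ.symm y))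
  ζ := A.ζ⁻¹
  f := A.f'
  f' := A.f
  sp y hy := ((A.sp _ (A.p.φ.map_target hy)).symm.trans (by rw [A.p.φ.right_inv hy]) :)
  ce := ceq_symm (lg hb hb' A.p) (inv_of_geq' A.p.g) a a' A.ce
  sm := A.sm'
  sm' := A.sm
  s := A.s'
  s' := A.s
  eq y hy := ((A.eq _ (A.p.φ.map_target hy)).trans (by rw [A.p.φ.right_inv hy])).symm
  en a := (A.en' a).imp fun _ => Or.imp id (And.imp id (Exists.imp fun _ => mt_symm hb hb'))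
  en' a := (A.en a).imp fun _ => Or.imp id (And.imp id (Exists.imp fun _ => mt_symm hb hb'))

/-- the link of the charts -/
@[reducible] def cht (A : Lnk b b' O O' c c') (a : c.Adm b.B b.G) (a' : c'.Adm b'.B b'.G)
    {h : IC b O k δ} {h' : IC b' O' k δ} {u ζ u' ζ'} (e : EqOn b.B b.G.F b.O (ct O c) h.c0 u ζ)
    (e' : EqOn b'.B b'.G.F b'.O (ct O' c') h'.c0 u' ζ') : Lnk b b' O O' h.c0 h'.c0 :=
  { A with
    u x := u' (A.p.φ x) ∘L A.u x ∘L trn (u x)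
    ζ := ζ' * (A.ζ * ζ⁻¹)
    ce := by
      have g := lg hb hb' A.p
      have a0 := ad_ct hb.cl' a
      have a0' := ad_ct hb'.cl' a'
      have e0 : A.p.Ce (ct O c) (ct O' c') A.u A.ζ := ⟨A.ce.m, A.ce.W, fun x hx => by
        by_cases k : x ∈ O <;> simp [k, A.sp x hx, A.ce.Φ x hx, cs], Subsingleton.elim _ _⟩
      have e1 := ceq_cg (ceq_trans (lg_refl hb.B hb.G A.p.φ.open_source) g (mapsTo_id _) (ad_c0 h)
        a0 a0' (ceq_symm_id hb.B hb.G A.p.φ.open_source a0 (ad_c0 h)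
          (ceq_cg e A.p.sub (fun _ _ => rfl) fun _ _ => rfl)) e0) subset_rfl
        (fun x hx => funext₂ ((g.be x hx).UP hb.B)) fun x hx => (g.be x hx).vl hb.B
      exact ceq_cg (ceq_trans g (lg_refl hb'.B hb'.G A.p.φ.open_target) A.p.φ.mapsTo (ad_c0 h) a0'
        (ad_c0 h') e1 (ceq_cg e' A.p.sub' (fun _ _ => rfl) fun _ _ => rfl)) subset_rfl
        (fun x hx => funext₂ ((g.be x hx).PU hb'.B)) fun x hx => (g.be x hx).lv hb.B }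

/-- the link with indicator functions -/
@[reducible] def ind (p : GP b b') {u ζ} (cl : IsClosed p.φ.source) (cl' : IsClosed p.φ.target)
    (sp : p.Sp O O') (ce : p.Ce c c' u ζ)
    (en : ∀ a, (∃ s, Disjoint ((b.E a).U s) p.φ.source) ∨ ∃ a', p.Mt a a')
    (en' : ∀ a', ∃ a, p.Mt a a') : Lnk b b' O O' c c' where
  p := p
  u := u
  ζ := ζ
  f := p.φ.source.indicator 1
  f' := p.φ.target.indicator 1
  sp := sp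
  ce := ce
  sm := sm_ind ⟨cl, p.φ.open_source⟩ contMDiff_const
  sm' := sm_ind ⟨cl', p.φ.open_target⟩ contMDiff_const
  s := closure_minimal support_indicator_subset cl
  s' := closure_minimal support_indicator_subset cl'
  eq x hx := by simp [hx, p.φ.map_source hx]
  en a := (en a).elim (Exists.imp fun _ k => .inl fun _ hx =>
      indicator_of_notMem (disjoint_left.1 k hx) _) fun ⟨a', k⟩ =>
    (mt_src k).imp fun _ k' => .inr ⟨fun _ hx => indicator_of_mem (k' hx) _, a', k⟩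
  en' a' := let ⟨a, k⟩ := en' a'
    (mt_src (mt_symm hb hb' k)).imp fun _ k' => .inr ⟨fun _ hx => indicator_of_mem (k' hx) _, a, k⟩

end sy

/-! ### the spaces and the transports -/

/-- the fibres of the fields -/
abbrev NC (h : IC b O k δ) : Type := Cf (Option κ) (Fin h.o.m.N)

/-- the fibres of the equations -/
abbrev NF (h : IC b O k δ) : Type := P2 (HS (Fin h.o.m.N)) (Ef (Option κ) (Fin h.o.m.N))

/-- fields -/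
@[reducible] def sC (h : IC b O k δ) : SD Z.M (NC h) h.V :=
  ⟨h.g.𝔉.F0.val (k + 1) _, fun x v => (bd h.o).pC x v = v, b.O⟩

/-- equations -/
@[reducible] def sF (h : IC b O k δ) : SD Z.M (NF h) h.W :=
  ⟨h.g.𝔉.F0.val k _, fun x v => ps h.o.Pg (bd h.o).pE x v = v, b.O⟩

theorem sC_ok (hk : 7 ≤ k) (h : IC b O k δ) : (sC h).OK :=
  have p := val_proj (k := k + 1) (p := (bd h.o).pC) h.g.X.ok.sup (by omega)
  ⟨val_injective h.g.X.ok.sup (by omega), val_add, val_zero, p, fun u x hx =>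
    (p u x).symm.trans (by rw [off_pC h.g.X.ok.sub (h.g.hO ▸ hx)]; rfl)⟩

theorem sF_ok (hk : 7 ≤ k) (h : IC b O k δ) : (sF h).OK :=
  have p := val_proj (k := k) (p := ps h.o.Pg (bd h.o).pE) h.g.X.ok.sup (by omega)
  ⟨val_injective h.g.X.ok.sup (by omega), val_add, val_zero, p, fun u x hx =>
    (p u x).symm.trans (by rw [off_pF h.g.X.ok.sub (h.g.hO ▸ hx)]; rfl)⟩

section tr
variable {h : IC b O k δ} {h' : IC b' O' k δ} (hb : b.OK O) (hb' : b'.OK O')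
  (A : Lnk b b' O O' h.c0 h'.c0)
include hb hb'

theorem pr {x : Z.M} (hx : x ∈ A.p.φ.source) :
    PR (A.p.U x) (A.w x) (bd h.o) (bd h'.o) x (A.p.φ x) :=
  pr_of h.g.X.ok.B h'.g.X.ok.B
    (h.g.hB ▸ h'.g.hB ▸ ((lg hb hb' A.p).be x hx).phase hb'.B (A.ζ * A.ζ))
    (h'.g.hB ▸ (me_of_meq A.ce.m hx).phase (ad_c0 h').ok A.ζ) (h.g.hO ▸ A.p.sub hx)
    (h'.g.hO ▸ A.p.sub' (A.p.φ.map_source hx)) (by rw [h.g.hO', h'.g.hO']; exact A.sp x hx)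

/-- the inverse link of charts -/
abbrev sc : Lnk b' b O' O h'.c0 h.c0 := sy hb hb' A (ad_c0 h) (ad_c0 h')

theorem sc_w {y : Z'.M} (hy : y ∈ A.p.φ.target) :
    (sc hb hb' A).w y = trn (A.w (A.p.φ.symm y)) := by
  have := ((sc hb hb' A).ce.m.J y hy)
  rw [Lnk.w, Lnk.w, trn_comp, trn_csL h'.o.ok.Jsk, ← Circle.coe_inv_eq_conj]
  exact ContinuousLinearMap.ext fun a => (map_cs this _ a).symm

/-- the link of the fields -/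
@[reducible] def lC (a : h.V →L[ℝ] h'.V) (a' : h'.V →L[ℝ] h.V) :
    LD Z.M Z'.M (NC h) (NC h') h.V h'.V :=
  ⟨A.p.φ.toPartialEquiv, A.f, A.f', A.LC, (sc hb hb' A).LC, a, a'⟩

/-- the link of the equations -/
@[reducible] def lF (a : h.W →L[ℝ] h'.W) (a' : h'.W →L[ℝ] h.W) :
    LD Z.M Z'.M (NF h) (NF h') h.W h'.W :=
  ⟨A.p.φ.toPartialEquiv, A.f, A.f', A.LF, (sc hb hb' A).LF, a, a'⟩

theorem ld (hT : TrnStmt κ lam k) : ∃ a a' e e', (lC hb hb' A a a').OK (sC h) (sC h') ∧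
    (lF hb hb' A e e').OK (sF h) (sF h') ∧ Cq (h'.T ∘L a) (e ∘L h.T) ∧
    Cq (h.T ∘L a') (e' ∘L h'.T) := by
  obtain ⟨a, e, h1, h2, h3⟩ := hT _ _ _ _ _ _ _ h h' A hb hb'
  obtain ⟨a', e', h4, h5, h6⟩ := hT _ _ _ _ _ _ _ h' h (sc hb hb' A) hb' hb
  have s := fun x (k : A.f x ≠ 0) => A.s (subset_tsupport _ k)
  have s' := fun x (k : A.f' x ≠ 0) => A.s' (subset_tsupport _ k)
  have o := ok_bd (o := h.o) h.g.X.ok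
  have o' := ok_bd (o := h'.o) h'.g.X.ok
  have w : ∀ x ∈ A.p.φ.source, (sc hb hb' A).w (A.p.φ x) = trn (A.w x) ∧
      (sc hb hb' A).p.U (A.p.φ x) = fun i j => A.p.U x j i := fun x hx => by
    rw [sc_w hb hb' A (A.p.φ.map_source hx)]
    simp only [A.p.φ.left_inv hx, and_self]
  have w' : ∀ y ∈ A.p.φ.target, A.w (A.p.φ.symm y) = trn ((sc hb hb' A).w y) := fun y hy => by
    rw [sc_w hb hb' A hy, trn_trn]
  refine ⟨a, a', e, e', ⟨⟨s, A.p.sub, A.eq, h4, fun x hx v hv => ?_⟩,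
    s', A.p.sub', (sc hb hb' A).eq, h1, fun y hy v hv => ?_⟩,
    ⟨⟨s, A.p.sub, A.eq, h5, fun x hx v hv => ?_⟩,
    s', A.p.sub', (sc hb hb' A).eq, h2, fun y hy v hv => ?_⟩, h3, h6⟩
  · have p := pr hb hb' A hx
    exact ⟨(p.pC v).trans (congrArg _ hv), (congrArg₂ (ΛC · · _) (w x hx).2 (w x hx).1).trans
      (p.iC o hv)⟩
  · have p := pr hb' hb (sc hb hb' A) hy
    exact ⟨(p.pC v).trans (congrArg _ hv), (congrArg (ΛC _ · _) (w' y hy)).trans (p.iC o' hv)⟩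
  · have p := pr hb hb' A hx
    exact ⟨(p.pF v).trans (congrArg _ hv), (congrArg₂ (ΛF · · _) (w x hx).2 (w x hx).1).trans
      (p.iF o hv)⟩
  · have p := pr hb' hb (sc hb hb' A) hy
    exact ⟨(p.pF v).trans (congrArg _ hv), (congrArg (ΛF _ · _) (w' y hy)).trans (p.iF o' hv)⟩

end tr

/-! ### the three statements -/

section main
variable (hk : 7 ≤ k) (hT : TrnStmt κ lam k) {b₁ : BG κ lam Z₁} {b₂ : BG κ lam Z₂}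
  {b₃ : BG κ lam Z₃} {b₄ : BG κ lam Z₄} {O₁ : Set Z₁.M} {O₂ : Set Z₂.M} {O₃ : Set Z₃.M}
  {O₄ : Set Z₄.M} {h₁ : IC b₁ O₁ k δ} {h₂ : IC b₂ O₂ k δ} {h₃ : IC b₃ O₃ k δ} {h₄ : IC b₄ O₄ k δ}

theorem w_w (A : Lnk b₁ b₃ O₁ O₃ h₁.c0 h₃.c0) (B : Lnk b₃ b₂ O₃ O₂ h₃.c0 h₂.c0) {x : Z₁.M}
    {y : Z₃.M} (hy : y ∈ B.p.φ.source) :
    B.w y ∘L A.w x = csL h₂.o.m.J (B.ζ * A.ζ : Circle) ∘L B.u y ∘L A.u x :=
  ContinuousLinearMap.ext fun a => ((congrArg _ (map_cs (B.ce.m.J y hy) _ _)).trans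
    (cs_mul h₂.o.ok.Jsq _ _ _)).trans (by rw [Circle.coe_mul]; rfl)

theorem u_u {c₁ : C0 Z₁ κ lam} {c₃ : C0 Z₃ κ lam} (A : Lnk b₁ b₃ O₁ O₃ c₁ c₃)
    (a : c₁.Adm b₁.B b₁.G) {u ζ} (e : EqOn b₃.B b₃.G.F b₃.O (ct O₃ c₃) h₃.c0 u ζ) {x : Z₁.M}
    (hx : x ∈ A.p.φ.source) (v : c₁.m.V) : trn (u (A.p.φ x)) (u (A.p.φ x) (A.u x v)) = A.u x v :=
  (DFunLike.congr_fun (e.m.uu _ (A.p.sub' (A.p.φ.map_source hx))) _).trans
    ((me_of_meq A.ce.m hx).pu_apply a.ok v)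

theorem Λ_sq {ι₁ ι₂ ι₃ ι₄ μ₁ μ₂ μ₃ μ₄ : Type} [Fintype ι₁] [Fintype ι₂] [Fintype ι₃] [Fintype ι₄]
    [Fintype μ₁] [Fintype μ₂] [Fintype μ₃] [Fintype μ₄] [DecidableEq μ₁] [DecidableEq μ₂]
    [DecidableEq μ₃] [DecidableEq μ₄] {U₁ : ι₃ → ι₁ → ℝ} {U₂ : ι₂ → ι₃ → ℝ} {U₃ : ι₄ → ι₁ → ℝ}
    {U₄ : ι₂ → ι₄ → ℝ} {w₁ : CL (An.Eu μ₁) (An.Eu μ₃)} {w₂ : CL (An.Eu μ₃) (An.Eu μ₂)}
    {w₃ : CL (An.Eu μ₁) (An.Eu μ₄)} {w₄ : CL (An.Eu μ₄) (An.Eu μ₂)}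
    (h : ∀ i j, ∑ l, U₂ i l * U₁ l j = ∑ l, U₄ i l * U₃ l j) (e : w₂ ∘L w₁ = w₄ ∘L w₃) :
    (∀ v, ΛC U₂ w₂ (ΛC U₁ w₁ v) = ΛC U₄ w₄ (ΛC U₃ w₃ v)) ∧
      ∀ v, ΛF U₂ w₂ (ΛF U₁ w₁ v) = ΛF U₄ w₄ (ΛF U₃ w₃ v) :=
  ⟨fun v => by rw [ΛC_ΛC, ΛC_ΛC, funext₂ h, e], fun v => by rw [ΛF_ΛF, ΛF_ΛF, funext₂ h, e]⟩

include hk hT

theorem rot0 (o₁ : b₁.OK O₁) (o₂ : b₂.OK O₂) (o₃ : b₃.OK O₃) (o₄ : b₄.OK O₄)
    (A : Lnk b₁ b₃ O₁ O₃ h₁.c0 h₃.c0) (B : Lnk b₃ b₂ O₃ O₂ h₃.c0 h₂.c0)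
    (C : Lnk b₁ b₄ O₁ O₄ h₁.c0 h₄.c0) (D : Lnk b₄ b₂ O₄ O₂ h₄.c0 h₂.c0)
    (s₁ : ∀ x ∈ b₁.O, A.f x ^ 2 + C.f x ^ 2 = 1) (s₂ : ∀ x ∈ b₂.O, B.f' x ^ 2 + D.f' x ^ 2 = 1)
    (s₃ : ∀ x ∈ b₃.O, A.f' x ^ 2 + B.f x ^ 2 = 1) (s₄ : ∀ x ∈ b₄.O, C.f' x ^ 2 + D.f x ^ 2 = 1)
    (gl : ∀ x, A.f x ≠ 0 → C.f x ≠ 0 → B.p.φ (A.p.φ x) = D.p.φ (C.p.φ x) ∧ B.f (A.p.φ x) = C.f x ∧
      D.f (C.p.φ x) = A.f x ∧ (∀ i j, ∑ l, B.p.U (A.p.φ x) i l * A.p.U x l j =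
        ∑ l, D.p.U (C.p.φ x) i l * C.p.U x l j) ∧
      B.w (A.p.φ x) ∘L A.w x = D.w (C.p.φ x) ∘L C.w x) {d₁ d₂ d₃ d₄ : ℤ}
    (f₁ : Fr h₁.T d₁) (f₂ : Fr h₂.T d₂) (f₃ : Fr h₃.T d₃) (f₄ : Fr h₄.T d₄) :
    d₁ + d₂ = d₃ + d₄ := by
  obtain ⟨_, _, _, _, A1, A2, A3, -⟩ := ld o₁ o₃ A hT
  obtain ⟨_, _, _, _, B1, B2, -, B3⟩ := ld o₃ o₂ B hT
  obtain ⟨_, _, _, _, C1, C2, C3, -⟩ := ld o₁ o₄ C hT
  obtain ⟨_, _, _, _, D1, D2, -, D3⟩ := ld o₄ o₂ D hT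
  exact (Add68.exc_alg
    (rot (sC_ok hk _) (sC_ok hk _) (sC_ok hk _) (sC_ok hk _) A1 B1 C1 D1 s₁ s₂ s₃ s₄ fun x a c =>
      let ⟨k1, k2, k3, k4, k5⟩ := gl x a c
      ⟨k1, k2, k3, fun v _ => (Λ_sq k4 k5).1 v⟩)
    (rot (sF_ok hk _) (sF_ok hk _) (sF_ok hk _) (sF_ok hk _) A2 B2 C2 D2 s₁ s₂ s₃ s₄ fun x a c =>
      let ⟨k1, k2, k3, k4, k5⟩ := gl x a c
      ⟨k1, k2, k3, fun v _ => (Λ_sq k4 k5).2 v⟩)
    f₁ f₂ f₃ f₄ A3 B3 C3 D3).symm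

theorem rotS : RotStmt κ lam k := by
  intro Z₁ Z₂ Z₃ Z₄ b₁ b₂ b₃ b₄ O₁ O₂ O₃ O₄ c₁ c₂ c₃ c₄ A B C D δ d₁ d₂ d₃ d₄ o₁ o₂ o₃ o₄ a₁ a₂ a₃ a₄
    s₁ s₂ s₃ s₄ gl i₁ i₂ i₃ i₄
  obtain ⟨h₁, ⟨u₁, ζ₁, e₁⟩, f₁⟩ := (IC.ix_iff hk).1 i₁
  obtain ⟨h₂, ⟨u₂, ζ₂, e₂⟩, f₂⟩ := (IC.ix_iff hk).1 i₂
  obtain ⟨h₃, ⟨u₃, ζ₃, e₃⟩, f₃⟩ := (IC.ix_iff hk).1 i₃
  obtain ⟨h₄, ⟨u₄, ζ₄, e₄⟩, f₄⟩ := (IC.ix_iff hk).1 i₄
  refine rot0 hk hT o₁ o₂ o₃ o₄ (cht o₁ o₃ A a₁ a₃ e₁ e₃) (cht o₃ o₂ B a₃ a₂ e₃ e₂)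
    (cht o₁ o₄ C a₁ a₄ e₁ e₄) (cht o₄ o₂ D a₄ a₂ e₄ e₂) s₁ s₂ s₃ s₄ (fun x a c => ?_) f₁ f₂ f₃ f₄
  obtain ⟨k1, k2, k3, k6, k7, k8, k4, k5⟩ := gl x a c
  refine ⟨k3, k6, k7, k8, (w_w _ _ k1).trans (.trans ?_ (w_w _ _ k2).symm)⟩
  refine congrArg₂ (fun (ζ : Circle) u => csL h₂.o.m.J ζ ∘L u) ?_ (ContinuousLinearMap.ext fun v => ?_)
  · show ζ₂ * (B.ζ * ζ₃⁻¹) * (ζ₃ * (A.ζ * ζ₁⁻¹)) = ζ₂ * (D.ζ * ζ₄⁻¹) * (ζ₄ * (C.ζ * ζ₁⁻¹))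
    simp only [mul_assoc, inv_mul_cancel_left]
    rw [← mul_assoc B.ζ, k5, mul_assoc]
  · show u₂ (B.p.φ (A.p.φ x)) (B.u (A.p.φ x) (trn (u₃ (A.p.φ x))
        (u₃ (A.p.φ x) (A.u x (trn (u₁ x) v))))) = u₂ (D.p.φ (C.p.φ x)) (D.u (C.p.φ x)
        (trn (u₄ (C.p.φ x)) (u₄ (C.p.φ x) (C.u x (trn (u₁ x) v)))))
    rw [u_u A a₁ e₃ (A.s (subset_tsupport _ a)), u_u C a₁ e₄ (C.s (subset_tsupport _ c)), k3]
    exact congrArg _ (DFunLike.congr_fun k4 _)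

theorem geqS : GeqStmt κ lam k := by
  intro Z Z' b b' p f O O' c c' u ζ δ d d' o o' gl sp a a' ce i i'
  obtain ⟨h, ⟨_, _, e⟩, f₁⟩ := (IC.ix_iff hk).1 i
  obtain ⟨h', ⟨_, _, e'⟩, f₂⟩ := (IC.ix_iff hk).1 i'
  obtain ⟨x, x', y, y', A1, A2, A3, -⟩ := ld o o' (cht o o' (ind o o' p (gl.src ▸ o.cl.1)
    (gl.tgt ▸ o'.cl.1) sp ce (fun a => .inr ⟨_, gl.mt a⟩) fun a' =>
      ⟨_, f.apply_symm_apply a' ▸ gl.mt (f.symm a')⟩) a a' e e') hT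
  have s : ∀ x ∈ b.O, p.φ.source.indicator (1 : Z.M → ℝ) x ^ 2 = 1 := fun x k => by simp [gl.src, k]
  have s' : ∀ x ∈ b'.O, p.φ.target.indicator (1 : Z'.M → ℝ) x ^ 2 = 1 := fun x k => by
    simp [gl.tgt, k]
  have e1 := f₂.comp (Fred93.Fr.equiv (.equivOfInverse x x' (A1.one (sC_ok hk _) s)
    (A1.symm.one (sC_ok hk _) s')))
  have e2 := (Fred93.Fr.equiv (.equivOfInverse y y' (A2.one (sF_ok hk _) s)
    (A2.symm.one (sF_ok hk _) s'))).comp f₁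
  have := e1.unique (A3.fr e2)
  omega

theorem splS : Nd18.SplStmt κ lam k := by
  intro Z Z₃ Z₄ b b₃ b₄ p₃ p₄ f O O₃ O₄ c c₃ c₄ u₃ ζ₃ u₄ ζ₄ δ d d₃ d₄ o o₃ o₄ cov dj t₃ t₄ mt s₃ s₄
    a a₃ a₄ c3 c4 i i₃ i₄
  obtain ⟨h, ⟨_, _, e⟩, f₁⟩ := (IC.ix_iff hk).1 i
  obtain ⟨h₃, ⟨_, _, e₃⟩, f₃⟩ := (IC.ix_iff hk).1 i₃
  obtain ⟨h₄, ⟨_, _, e₄⟩, f₄⟩ := (IC.ix_iff hk).1 i₄
  have cl : ∀ {S T : Set Z.M}, S ∪ T = b.O → Disjoint S T → IsOpen T → IsClosed S :=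
    fun {S T} k1 k2 k3 => by
      rw [← k2.sdiff_eq_left, ← union_sdiff_right, k1]; exact o.cl.1.sdiff k3
  have m := fun a' => f.apply_symm_apply a' ▸ mt (f.symm a')
  obtain ⟨_, _, _, _, A1, A2, A3, -⟩ := ld o o₃ (cht o o₃ (ind o o₃ p₃ (cl cov dj p₄.φ.open_source)
    (t₃ ▸ o₃.cl.1) s₃ c3 (fun a => by
      have := mt a
      rcases k : f a with x | x <;> rw [k] at this
      exacts [.inr ⟨_, this⟩, .inl ((mt_src this).imp fun _ k => dj.symm.mono_left k)])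
    fun a' => ⟨_, m (.inl a')⟩) a a₃ e e₃) hT
  obtain ⟨_, _, _, _, C1, C2, C3, -⟩ := ld o o₄ (cht o o₄ (ind o o₄ p₄
    (cl ((union_comm _ _).trans cov) dj.symm p₃.φ.open_source) (t₄ ▸ o₄.cl.1) s₄ c4 (fun a => by
      have := mt a
      rcases k : f a with x | x <;> rw [k] at this
      exacts [.inl ((mt_src this).imp fun _ k => dj.mono_left k), .inr ⟨_, this⟩])
    fun a' => ⟨_, m (.inr a')⟩) a a₄ e e₄) hT
  have k0 : ∀ x, p₃.φ.source.indicator (1 : Z.M → ℝ) x * p₄.φ.source.indicator 1 x = 0 := fun x => by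
    by_cases k : x ∈ p₃.φ.source <;> simp [k, disjoint_left.1 dj]
  have k1 : ∀ x ∈ b.O, p₃.φ.source.indicator (1 : Z.M → ℝ) x ^ 2 +
      p₄.φ.source.indicator 1 x ^ 2 = 1 := fun x hx => by
    rcases cov.ge hx with k | k <;> simp [k, disjoint_left.1 dj, disjoint_right.1 dj]
  have k3 : ∀ x ∈ b₃.O, p₃.φ.target.indicator (1 : Z₃.M → ℝ) x ^ 2 = 1 := fun x k => by simp [t₃, k]
  have k4 : ∀ x ∈ b₄.O, p₄.φ.target.indicator (1 : Z₄.M → ℝ) x ^ 2 = 1 := fun x k => by simp [t₄, k]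
  have := Add68.exc_alg (split (sC_ok hk _) (sC_ok hk _) (sC_ok hk _) A1 C1 k1 k3 k4 k0)
    (split (sF_ok hk _) (sF_ok hk _) (sF_ok hk _) A2 C2 k1 k3 k4 k0) f₁
    (Fred93.Fr.equiv (.refl ℝ (Fin 0 → ℝ))) f₃ f₄ A3 (.of_eq (by simp)) C3 (.of_eq (by simp))
  omega

end main

end Crest.Agent.X212.Mp86.Trg
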