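import Crest.Agent.X212.Mp86.LabB
import Crest.Agent.X212.Cqn41.Nr0
import Crest.Agent.X212.Nt66.Ln

/-! X212 / NTR-LAB (helper86): abelian variations. -/

set_option autoImplicit false
set_option linter.unusedSectionVars false
noncomputable section
open scoped Manifold ContDiff Topology InnerProductSpace
open MeasureTheory Set Function Filter
open Crest.Agent.R208.F (Ext)

namespace Crest.Agent.X212.Mp86.Lab
open An M Nd18 Mod61 Nk89 Cht98 Rf65 Pte3 Qab60 Prm93 Num57 Nt66 Nr41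
open Dr59 (dM)
open Wrd81 (Bas)

theorem der_aff {Y : Type} [NormedAddCommGroup Y] [NormedSpace ℝ Y] (u v : Y) :
    HasDerivAt (fun t : ℝ => u + t • v) v 0 := by
  simpa using ((hasDerivAt_id' (0 : ℝ)).smul_const v).const_add u

section job
variable {Wi : Type} {X : Mf 4} {A κ lam : Type} [Fintype A] [Fintype κ] [Fintype lam]
  [DecidableEq lam] {M : Mark X A κ} {W : World M} {N : ML M lam} {Λ : Lns W N}
  {A' h : Type} [Fintype A'] [DecidableEq A'] [Fintype h] {r n : ℕ}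
  {J : Job Wi Λ A' h r n} {c : M.Cl} {σ : Cel A'} {p : Prt A A' h} {U : Type} [Fintype U] {δ : ℝ}
  {b : Bp J c} {E : EC b p U δ} {q : Wi →₀ ℝ} {f : E.C → E.Y} {z : (W.Z c).M}
  {α : (W.Z c).M → Fm (Option κ) E.o.m.A}

/-- the curvature row of the map -/
theorem vC_map (hf : E.Map q f) (x : Pnt E.o r) (ψ : E.K) (hz : z ∈ W.un c p.P) :
    vC (f (x.pt 8, ψ)) z =
      x.cfg.eC (J.B c) (J.G c (b.θ p U x.t)) (J.τ c q (b.θ p U x.t)) z :=
  (congrFun (hf.e x ψ).C z).trans ((indicator_of_mem hz _).trans ((tot_ev x.cfg).2.1 z))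

/-- inner variations are variations -/
theorem hs_rf (H : CS σ E) {t : Tq p U} {P P' : Set (Reg A)} {K : Set h} (k : P ⊆ p.P)
    (hα : α ∈ Mod61.Hs (b.F p U δ).F0.toPre (rf E t P P' K).P1) :
    α ∈ Mod61.Hs (b.F p U δ).F0.toPre E.o.P1 :=
  hs_ex H.F.sup (fun z v e => by
    by_cases hz : z ∈ W.un c P
    · exact Mod61.idx_of (o := E.o) (biUnion_subset_biUnion_left k hz)
        (Mod61.idx_mem (o := rf E t P P' K) e) (Mod61.idx_sum (o := rf E t P P' K) e)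
    · rw [Mod61.idx_off (o := rf E t P P' K) e hz, map_zero]) hα

variable {x : Pnt E.o r} {ξ : (W.Z c).M → E.o.m.A} {a : (W.Z c).M → Ext (W.Z c).E}
  (hα : α ∈ Mod61.Hs (b.F p U δ).F0.toPre E.o.P1)

theorem ln_ada {F : Fr (W.Z c).I (W.Z c).M (Option κ)}
    (e : ∀ z, fa E x.t α z = tn (c1 F a z) (ξ z)) (t : ℝ) :
    (ln x hα (zero_mem _) t).cfg = ada F x.cfg ξ (t • a) := by
  have h1 : (ln x hα (zero_mem _) t).cfg.W = (ada F x.cfg ξ (t • a)).W :=
    funext₂ fun i z => (ln_W x hα _ t i z).trans (congrArg (E.o.W x.t x.α i z + ·) (by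
      rw [show idx _ _ (α z) = _ from e z, Qab60.c1_smul, ← map_smul]
      exact congrArg _ (mul_smul t _ _).symm))
  have h2 : (ln x hα (zero_mem _) t).cfg.Φ = (ada F x.cfg ξ (t • a)).Φ :=
    funext fun z => (ln_Φ x hα _ t z).trans (congrArg _ (smul_zero t))
  exact congrArg₂ (fun w φ => (⟨E.o.m, w, φ, x.z⟩ : Cg' W c lam r)) h1 h2

include hα in
/-- **abelian variations** -/
theorem lab0 (H : CS σ E) (nl : ∀ a, Nl J a) (bas : ∀ w, Bas (J.tw w)) (hf : E.Map q f)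
    {s : A' → ℝ} (θ : b.θ p U x.t = s) {Ω : Set (W.Z c).M} (cl : IsClopen Ω)
    (hA : Ab (J.B c) (J.G c s) Ω x.cfg ξ) (fo : Fo (W.Z c).I 1 a) (o : Off Ω a)
    (e : ∀ z, fa E x.t α z = tn (c1 (J.G c s).F a z) (ξ z)) (ψ η : E.K) (hz : z ∈ Ω)
    (hz' : z ∈ W.un c p.P) :
    vC (Ld f x ψ (va E α η)) z = tn (aE J c q s (dM (W.Z c).I a) z) (ξ z) := by
  subst θ
  have d := der_lnC H.F x hα (zero_mem _) hf.sm ψ η
  rw [ofV_zero H.F.sup (by norm_num)] at d
  have d' := ((b.F p U δ).F0.ev 8 E.o.P2 z).hasFDerivAt.comp_hasDerivAt (0 : ℝ) d.fst.snd.fst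
  refine d'.unique ?_
  have k : ∀ t : ℝ, vC (f ((ln x hα (zero_mem _) t).pt 8, ψ + t • η)) z = _ := fun t =>
    (vC_map hf _ _ hz').trans ((congrArg (fun y : Cg' W c lam r => HEq (y.eC (J.B c) _ _ z) _)
      (ln_ada hα e t)).mpr (heq_of_eq (eC_ada (q := q) H.ok nl bas H.mem (H.ovx x) cl hA fo o t hz))).eq
  refine HasDerivAt.congr_of_eventuallyEq ?_ (.of_forall k)
  exact der_aff _ _

end job

open G75 Ins26 Jb7
variable {κ lam : Type} [Fintype κ] [Fintype lam] [DecidableEq lam] (Lm : LM κ lam)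

/-- **LEAF LAB** -/
theorem lab : All Lm Lab := fun S D i Wi r n J c _ _ => ⟨1, one_pos,
  fun δ _ σ R b E q y x ψ ξ C f hf a fo o α hα e η z hz =>
    let ⟨_, _, _, _, _, _, k⟩ := C.jr
    lab0 (hs_rf C.cs sub_in hα) C.cs (fun a => k.gx.nil a (by simp)) k.gx.loc.bas hf C.θ
      (Cyl58.isClopen_pc D.W.toCaps (C.one ▸ Mp86.St.piece_hp false)) C.ins.ab fo o e ψ η hz
      (mem_biUnion (sub_in rfl) hz)⟩

end Crest.Agent.X212.Mp86.Lab
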