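import Crest.Agent.X212.Mp86.Un
import Crest.Agent.X212.Eq82.Bas

/-!
# Row 212, AN5 (helper86): the leaves `SzL`, `AprL` and the a priori bounds of `CmpL`
-/

set_option autoImplicit false
set_option linter.unusedSectionVars false
noncomputable section
open scoped Manifold ContDiff Topology InnerProductSpace
open MeasureTheory Set Function Filter

namespace Crest.Agent.X212.Mp86
open An Mod61 Eq82 Wz78
open Line51 (Ln)

variable {E : Type} [NormedAddCommGroup E] [NormedSpace ℝ E] [FiniteDimensional ℝ E]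
  [MeasurableSpace E] [BorelSpace E]
  {HM : Type} [TopologicalSpace HM] {I : ModelWithCorners ℝ E HM} [I.Boundaryless]
  {M : Type} [TopologicalSpace M] [ChartedSpace HM M] [IsManifold I ∞ M]
  [MeasurableSpace M] [BorelSpace M] [SecondCountableTopology M] [T2Space M] [CompactSpace M]
  {ι : Type} [Fintype ι] [DecidableEq ι] {κ : Type} [Fintype κ] [DecidableEq κ] {r n : ℕ}
  {X : Bk I M ι} {L : Ln E M κ}

section gen
variable {lam : Type} [Fintype lam] {B : Base M ι lam} {G : Geo I M ι lam} {c : Cfg M ι lam r}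
  {N : ℕ} {σ C : ℝ} {F₀ : Fr I M ι}

theorem norm_tC_vz (hB : B.OK I) (h : Adm0 c B G) (hz : ‖c.z‖ ≤ 1) (hN : 1 ≤ N)
    (hσ : ∀ x, ‖c.Φ x‖ ^ 2 ≤ σ) {T : Tm M lam r n} (hT : TmSz G N T) (hv : Vz T) (x : M) :
    ‖c.tC B G.F T x‖ ≤ N * N ^ N * (N * (4 * N) ^ N) * σ :=
  norm_tC_q bumps_of_compact hB h hz hN hσ hT
    (by rintro g g' f k k' l rfl; obtain ⟨u, v, e⟩ := hv; cases e)
    (by rintro f g g' φ L rfl; exact hv) x

theorem ed_C (hB : B.OK I) (hN : 1 ≤ N) {D : Ed M} (hD : ∀ k, TmSz G N (D.tm lam r n k))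
    {w : Fin D.N → ℝ} (hw : ∀ k, |w k| ≤ C) (x : M) :
    ‖(D.pt B G.F w r n).C c x‖ ≤ D.N * (C * N ^ 3) := by
  refine (norm_sum_le _ _).trans ((Finset.sum_le_sum fun k _ => (norm_smul _ _).trans_le
    (mul_le_mul (hw k) (norm_tC_adn hB hN (hD k) x) (norm_nonneg _)
      ((abs_nonneg _).trans (hw k)))).trans_eq ?_)
  simp

theorem ed_D (D : Ed M) (w : Fin D.N → ℝ) (x : M) : (D.pt B F₀ w r n).D c x = 0 := by
  simp [Ed.pt, wpt, Ed.tm, Cfg.tD]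

theorem wq_D (hB : B.OK I) (h : c.Adm B G) (hN : 1 ≤ N) (hσ0 : 0 ≤ σ)
    (hσ : ∀ x, ‖c.Φ x‖ ^ 2 ≤ σ) {J : Finset (Eq82.Wt lam r n F₀)} (hJ : ∀ T ∈ J, TmSz G N T.1)
    {q : Eq82.Wt lam r n F₀ →₀ ℝ} (hq : q.support ⊆ J) (hC : ∀ T ∈ J, |q T| ≤ C) :
    Ctl G.F (gr2 I G.F.e c.W c.Φ) σ (2 ^ J.card * ∑ _T ∈ J, 4 * C ^ 2 * (64 * N * (4 * N) ^ N))
      c.W ((wq B G.F q).D c) := by
  have e : (wq B G.F q).D c = fun x => ∑ T ∈ J, q T • c.tD B G.F T.1 x :=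
    funext fun x => Finsupp.sum_of_support_subset _ hq (fun T a => a • c.tD B G.F T.1 x)
      fun _ _ => zero_smul _ _
  rw [e]
  refine Ctl.sum J hσ0 (fun _ => gr2_nonneg) (fun _ _ => by positivity) fun T hT =>
    (((ctl_tD bumps_of_compact hB h hN hσ hσ0 (hJ T hT)).smul hσ0 (fun _ => gr2_nonneg)
      (by positivity) (sq_nonneg _) (Fn.const (q T))).mono hσ0 (fun _ => gr2_nonneg) ?_)
  have := sq_le_sq' (neg_le_of_abs_le (hC T hT)) (le_of_abs_le (hC T hT))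
  gcongr

theorem ed_ok {D : Ed M} (h : D.OK F₀) (k : Fin D.N) : (D.tm lam r n k).OK F₀ := h k

end gen

theorem sf_pa (P : Pa X L) : ∃ S, Sf P.𝔉.F0.toPre univ (X.B L) (fun t => L.geo (P.F t)) S := by
  have h := sf_fam P.ok
  rw [P.B, P.Q, funext P.G] at h
  exact ⟨_, h⟩

theorem un_pa (P : Pa X L) : Un X.F (fun t => L.geo (P.F t)) (Icc 0 1) :=
  let ⟨_, h⟩ := sf_pa P; (h.un isCompact_Icc (subset_univ _) rfl).of_compact _

/-- **LEAF `SzL`** -/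
theorem szL : SzL X L := fun P r n T => by
  obtain ⟨N, h1, h2⟩ := ((eventually_ge_atTop 1).and ((un_pa P).ev_tm T.2.1)).exists
  refine ⟨N * N ^ N * (N * (4 * N) ^ N), fun t ht c hc hz σ hσ x => ?_⟩
  simp only [wq, zero_smul, Finsupp.sum_single_index, one_smul]
  exact norm_tC_vz P.hB hc hz h1 hσ (h2 t ht) T.2.2 x

/-- **LEAF `AprL`** -/
theorem aprL (hL : L.On I univ) : AprL X L := fun F hF N f g h φ C k => by
  have hB : (X.B L).OK I := hL.base_ok X.F.P_sm X.ok.sm (fun x => (X.ok.vo x).pr)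
    (fun x => (X.ok.vo x).tr) (fun a b c d x => (X.ok.vo x).a1 a b c d)
    (fun a b c d x => (X.ok.vo x).a2 a b c d) (fun a b c d x => (X.ok.vo x).a3 a b c d)
    (fun a b c d x => (X.ok.vo x).po a b c d) fun x => (X.ok.vo x).nm
  have hG : (L.geo F).OK (X.B L) := by
    have := hL.geo_ok hF.vol X.o
    rwa [hF.P] at this
  by_cases h0 : ∃ l, Ed.OK ⟨N, f, g, h, φ, l⟩ X.F
  swap
  · exact ⟨0, fun l _ hl => (h0 ⟨l, hl⟩).elim⟩
  obtain ⟨l₀, h0⟩ := h0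
  have s := sf_const hB hG
  obtain ⟨m, m1, m2⟩ := ((s.un isCompact_singleton (subset_univ {0}) rfl).of_compact X.F).exists_tm
    Finset.univ fun k _ => ed_ok (lam := κ ⊕ κ) (r := 0) (n := 0) h0 k
  obtain ⟨a, a0, a1⟩ := s.pscal isCompact_singleton (subset_univ {0})
  set R := N * (|C| * m ^ 3)
  set σ := 2 * (12 * R + 576 * (a + 12 * (0 + 1)) + 216)
  refine ⟨2 * (F.μ.real univ * (32 * σ ^ 2 + 2 * R ^ 2)) + 128 * Real.pi ^ 2 * k,
    fun l w _ hw c hc hk => ?_⟩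
  have hC : ∀ x, ‖(Ed.pt ⟨N, f, g, h, φ, l⟩ (X.B L) F w 0 0).C c x‖ ≤ R :=
    ed_C (G := L.geo F) (D := ⟨N, f, g, h, φ, l⟩) hB m1 (fun k => m2 k (Finset.mem_univ k) 0 rfl)
      fun k => (hw k).trans (le_abs_self C)
  have hΦ := c0_phi hB hG hc le_rfl (R := R) (by positivity) le_rfl (by norm_num) (fun σ h0 _ => by
    rw [show Pt.D _ c = fun _ => 0 from funext (ed_D _ _)]
    exact Ctl.zero h0 (fun _ => gr2_nonneg) le_rfl) (fun σ _ x => by simpa using hC x) a0 (a1 0 rfl)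
  have h1 := sd_le hB hG hc hΦ hC le_rfl
  have h2 := (integral_Fg_sq hB hG hc.toAdm).2
  have h3 := mul_le_mul_of_nonneg_left hk (show 0 ≤ 128 * Real.pi ^ 2 by positivity)
  exact h2.trans_le (add_le_add (mul_le_mul_of_nonneg_left h1 zero_le_two) h3)

variable (P : Pa X L) {D : Ed M} {w : ℝ → Fin D.N → ℝ} (hD : D.OK X.F) (hw : Continuous w)
  {e : ℝ} (he0 : 0 ≤ e) (he : 48 * e ≤ 1)
include hD hw he0 he

/-- **a priori bounds** along a convergent family of perturbations -/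
theorem apr_pa {α : Type} {l : Filter α} (t : α → ℝ) {q : α → WW X κ r n →₀ ℝ} {q₀ : _}
    (hq : St.Cv l q q₀) : ∃ C, 0 ≤ C ∧ ∀ᶠ i in l, t i ∈ Icc (0 : ℝ) 1 → P.bd (q i) (t i) e →
      ∀ c : Cfg M ι (κ ⊕ κ) r, c.Sol (X.B L) (L.geo (P.F (t i)))
        (pq X L (P.F (t i)) (D.pa P w r n (t i)) (q i)) → (∀ x, ‖c.Φ x‖ ^ 2 ≤ C) ∧
        (∀ x, ‖(pq X L (P.F (t i)) (D.pa P w r n (t i)) (q i)).C c x‖ ≤ C) ∧
        Ctl (P.F (t i)) (gr2 I (P.F (t i)).e c.W c.Φ) C C c.W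
          ((pq X L (P.F (t i)) (D.pa P w r n (t i)) (q i)).D c) ∧
        ∫ x, ‖c.m.p2 (X.B L) x (c.m.Fg (P.F (t i)) c.W x)‖ ^ 2 ∂(P.F (t i)).μ ≤ C := by
  classical
  obtain ⟨J, j1, j2⟩ := hq
  obtain ⟨S, s⟩ := sf_pa P
  obtain ⟨a, a0, a1⟩ := s.pscal isCompact_Icc (subset_univ (Icc 0 1))
  obtain ⟨v, v0, v1⟩ := fam_vol P.ok isCompact_Icc (P.Q ▸ subset_univ (Icc 0 1))
  obtain ⟨N, ⟨n1, n2⟩, n3⟩ := (((eventually_ge_atTop 1).and (eventually_all.2 fun k =>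
    (un_pa P).ev_tm (ed_ok (lam := κ ⊕ κ) (r := r) (n := n) hD k))).and
    ((eventually_all_finset (J ∪ q₀.support)).2 fun T _ => (un_pa P).ev_tm T.2.1)).exists
  obtain ⟨Cw, hCw⟩ := isCompact_Icc.exists_bound_of_continuousOn (s := Icc (0 : ℝ) 1) hw.continuousOn
  obtain ⟨Cq, hCq⟩ := ((J ∪ q₀.support).finite_toSet.image fun T => |q₀ T| + 1).bddAbove
  set R := D.N * (|Cw| * N ^ 3)
  set K := 2 ^ (J ∪ q₀.support).card * ∑ _T ∈ J ∪ q₀.support, 4 * Cq ^ 2 * (64 * N * (4 * N) ^ N)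
  set σ := 2 * (12 * R + 576 * (a + 12 * (K + 1)) + 216)
  have R0 : 0 ≤ R := by positivity
  have K0 : 0 ≤ K := by positivity
  have σ0 : 0 ≤ σ := by positivity
  have γ0 : 0 ≤ e * σ + R := by positivity
  have u0 : 0 ≤ v * (32 * σ ^ 2 + 2 * (e * σ + R) ^ 2) := by positivity
  refine ⟨σ + K + (e * σ + R) + v * (32 * σ ^ 2 + 2 * (e * σ + R) ^ 2), by positivity, ?_⟩
  filter_upwards [(eventually_all_finset (J ∪ q₀.support)).2 fun T _ =>
    (j2 T).abs.eventually_le_const (lt_add_one _)] with i hi ht hb c hc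
  have hC : ∀ σ, (∀ x, ‖c.Φ x‖ ^ 2 ≤ σ) → ∀ x,
      ‖(pq X L (P.F (t i)) (D.pa P w r n (t i)) (q i)).C c x‖ ≤ e * σ + R := fun σ hσ x =>
    (norm_add_le _ _).trans ((add_le_add (ed_C (G := L.geo (P.F (t i))) P.hB n1
      (fun k => n2 k _ ht) (fun k => (norm_le_pi_norm _ k).trans ((hCw _ ht).trans (le_abs_self _)))
      x) (hb c (adm0 hc.toAdm) (norm_z_le hc.toAdm) σ hσ x)).trans_eq (add_comm _ _))
  have hD : ∀ σ, 0 ≤ σ → (∀ x, ‖c.Φ x‖ ^ 2 ≤ σ) → Ctl (P.F (t i)) (gr2 I (P.F (t i)).e c.W c.Φ) σ K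
      c.W ((pq X L (P.F (t i)) (D.pa P w r n (t i)) (q i)).D c) := fun σ h0 hσ => by
    rw [show Pt.D _ c = (wq (X.B L) (P.F (t i)) (q i)).D c from funext fun x =>
      (congrArg (· + _) (ed_D D _ x)).trans (zero_add _)]
    refine wq_D (G := L.geo (P.F (t i))) P.hB hc.toAdm n1 h0 hσ (fun T hT => n3 T hT _ ht)
      (fun T hT => ?_) fun T hT => (hi T hT).trans (hCq ⟨T, hT, rfl⟩)
    by_contra hn
    rw [Finset.mem_union, not_or, Finsupp.notMem_support_iff] at hn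
    exact Finsupp.mem_support_iff.1 hT ((j1 i T hn.1).trans hn.2)
  have hΦ := c0_phi P.hB (P.hG _) hc K0 R0 he0 he hD hC a0 (a1 _ ht)
  have h1 := sd_le P.hB (P.hG _) hc hΦ (hC _ hΦ) (P.G _ ▸ v1 _ ht)
  exact ⟨fun x => (hΦ x).trans (by linarith), fun x => (hC _ hΦ x).trans (by linarith),
    (hD _ (by linarith) fun x => (hΦ x).trans (by linarith)).mono (by linarith)
      (fun _ => gr2_nonneg) (by linarith), h1.trans (by linarith)⟩

/-- **the field `Cmp.bdd`** -/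
theorem cmp_bdd (α : Type) (l : Filter α) (t : α → ℝ) (t₀ : ℝ) (q : α → WW X κ r n →₀ ℝ) (q₀ : _)
    (_ : Tendsto t l (𝓝 t₀)) (hq : St.Cv l q q₀) : ∃ C : ℝ, ∀ᶠ i in l, t i ∈ Icc (0 : ℝ) 1 →
      Bd (X.B L) (L.geo (P.F (t i))) (wq (X.B L) (P.F (t i)) (q i)) e → ∀ c : Cfg M ι (κ ⊕ κ) r,
      c.Sol (X.B L) (L.geo (P.F (t i))) (pq X L (P.F (t i)) (D.pa P w r n (t i)) (q i)) →
      -C ≤ c.kap (X.B L) (L.geo (P.F (t i))) := by
  obtain ⟨C, -, hC⟩ := apr_pa P hD hw he0 he t hq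
  refine ⟨2 * C / (128 * Real.pi ^ 2), hC.mono fun i hi h1 h2 c hc => ?_⟩
  have h3 := (hi h1 h2 c hc).2.2.2
  have h4 := (integral_Fg_sq P.hB (P.hG _) hc.toAdm).2
  have h5 := ((integral_nonneg fun _ => sq_nonneg _).trans_eq h4).trans
    (add_le_add_left (mul_le_mul_of_nonneg_left h3 zero_le_two) _)
  rw [← neg_div, div_le_iff₀ (by positivity)]
  linarith

end Crest.Agent.X212.Mp86
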