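import Crest.Agent.X212.Mp86.Pun

/-!
# Row 212, layer AN (helper86): abstract `C⁰` bounds

`Φ` satisfies a Weitzenboeck inequality in which the gradient of an auxiliary section `u` (all
resolvent words together) occurs; `f = ‖Φ‖² + m ‖u‖²` is then a subsolution.
-/

set_option autoImplicit false
open Set Filter Topology Module
open scoped Manifold ContDiff InnerProductSpace

noncomputable section

namespace Crest.Agent.X212.Mp86

variable {E H M : Type*} [NormedAddCommGroup E] [NormedSpace ℝ E]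
  [TopologicalSpace H] {I : ModelWithCorners ℝ E H} [TopologicalSpace M] [ChartedSpace H M]
  [IsManifold I ∞ M]
  {ι : Type*} [Fintype ι] {e : ι → Π x : M, TangentSpace I x} {b : ι → M → ℝ}
  {U U' : Type*} [NormedAddCommGroup U] [InnerProductSpace ℝ U]
  [NormedAddCommGroup U'] [InnerProductSpace ℝ U']
  {A : ι → M → U →L[ℝ] U} {A' : ι → M → U' →L[ℝ] U'} {Φ : M → U} {u : M → U'} {x : M}

/-- a metric connection near `x` -/
structure MC (I : ModelWithCorners ℝ E H) (A : ι → M → U →L[ℝ] U) (x : M) : Prop where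
  sm : ∀ a, CM I 1 (A a) x
  sk : ∀ a, ∀ᶠ y in 𝓝 x, ∀ s t, ⟪A a y s, t⟫_ℝ = -⟪s, A a y t⟫_ℝ

/-- squared norm of the covariant derivative -/
def gr2 (I : ModelWithCorners ℝ E H) (e : ι → Π x : M, TangentSpace I x) (A : ι → M → U →L[ℝ] U)
    (u : M → U) (x : M) : ℝ := ∑ a, ‖cd I (e a) (A a) u x‖ ^ 2

omit [IsManifold I ∞ M] in
theorem gr2_nonneg : 0 ≤ gr2 I e A Φ x := Finset.sum_nonneg fun _ _ => sq_nonneg _

omit [IsManifold I ∞ M] in
theorem cm_F {m : ℝ} (hΦ : CM I 2 Φ x) (hu : CM I 2 u x) :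
    CM I 2 (fun y => ‖Φ y‖ ^ 2 + m * ‖u y‖ ^ 2) x :=
  (cm_normSq hΦ).add (contMDiffAt_const.mul (cm_normSq hu))

/-- the combined subsolution -/
theorem Lop_F {m β q : ℝ} (he : ∀ a, VF I 1 (e a) x) (hA : MC I A x) (hA' : MC I A' x)
    (hΦ : CM I 2 Φ x) (hu : CM I 2 u x) (hm : 0 ≤ m) (hβ : ‖u x - LA I e b A' u x‖ ≤ β)
    (hW : q - gr2 I e A Φ x - m * gr2 I e A' u x ≤ ⟪LA I e b A Φ x, Φ x⟫_ℝ) :
    2 * q - m * β ^ 2 / 2 ≤ Lop I e b (fun y => ‖Φ y‖ ^ 2 + m * ‖u y‖ ^ 2) x := by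
  rw [Lop_add (w := fun y => m * ‖u y‖ ^ 2) he (cm_normSq hΦ)
    (contMDiffAt_const.mul (cm_normSq hu)), Lop_mul _ he (cm_normSq hu),
    Lop_normSq he hA.sm hA.sk hΦ, Lop_normSq he hA'.sm hA'.sk hu]
  have h2 := real_inner_le_norm (u x - LA I e b A' u x) (u x)
  rw [inner_sub_left, real_inner_self_eq_norm_sq] at h2
  have h3 : -(β ^ 2 / 4) ≤ ⟪LA I e b A' u x, u x⟫_ℝ := by
    nlinarith [mul_le_mul_of_nonneg_right hβ (norm_nonneg (u x)), sq_nonneg (‖u x‖ - β / 2)]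
  unfold gr2 at hW
  nlinarith [mul_le_mul_of_nonneg_left h3 hm]

variable [FiniteDimensional ℝ E] [BoundarylessManifold I M]

/-- `C⁰` bound at a maximum point of `‖Φ‖² + m ‖u‖²` -/
theorem c0_at_max {m β q : ℝ} (he : ∀ a, VF I 1 (e a) x) (hA : MC I A x) (hA' : MC I A' x)
    (hΦ : CM I 2 Φ x) (hu : CM I 2 u x) (hm : 0 ≤ m) (hβ : ‖u x - LA I e b A' u x‖ ≤ β)
    (hW : q - gr2 I e A Φ x - m * gr2 I e A' u x ≤ ⟪LA I e b A Φ x, Φ x⟫_ℝ)
    (hx : IsLocalMax (fun y => ‖Φ y‖ ^ 2 + m * ‖u y‖ ^ 2) x) : q ≤ m * β ^ 2 / 4 := by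
  have := FiniteDimensional.complete ℝ E
  have h1 := (Lop_F he hA hA' hΦ hu hm hβ hW).trans (Lop_nonpos he (cm_F hΦ hu) hx)
  linarith

/-- closed manifolds: `q x` is the good term (`c ‖Φ x‖⁴ - a ‖Φ x‖² - r`) -/
theorem c0_closed [CompactSpace M] [Nonempty M] {m β : ℝ} {q : M → ℝ} (he : ∀ x a, VF I 1 (e a) x)
    (hA : ∀ x, MC I A x) (hA' : ∀ x, MC I A' x) (hΦ : ∀ x, CM I 2 Φ x) (hu : ∀ x, CM I 2 u x)
    (hm : 0 ≤ m) (hβ : ∀ x, ‖u x - LA I e b A' u x‖ ≤ β)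
    (hW : ∀ x, q x - gr2 I e A Φ x - m * gr2 I e A' u x ≤ ⟪LA I e b A Φ x, Φ x⟫_ℝ) :
    ∃ z, q z ≤ m * β ^ 2 / 4 ∧ ∀ x, ‖Φ x‖ ^ 2 ≤ ‖Φ z‖ ^ 2 + m * β ^ 2 := by
  obtain ⟨z, -, hz⟩ := isCompact_univ.exists_isMaxOn univ_nonempty
    (f := fun y => ‖Φ y‖ ^ 2 + m * ‖u y‖ ^ 2) fun y _ =>
      (cm_F (hΦ y) (hu y)).continuousAt.continuousWithinAt
  refine ⟨z, c0_at_max (he z) (hA z) (hA' z) (hΦ z) (hu z) hm (hβ z) (hW z)
    (hz.isLocalMax univ_mem), fun x => ?_⟩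
  have h0 : 0 ≤ β := (norm_nonneg _).trans (hβ z)
  have h1 : ‖u z‖ ≤ β := norm_le_of_LA0 (b := b) isCompact_univ (fun y _ => he y)
    (fun y _ => (hA' y).sm) (fun y _ a => ((hA' y).sk a).self_of_nhds)
    (fun y _ => (hu y).continuousAt.continuousWithinAt) (fun y _ => hu y) h0 (fun y _ => hβ y)
    (fun y _ h => absurd (by simp) h) z trivial
  have h2 : ‖Φ x‖ ^ 2 + m * ‖u x‖ ^ 2 ≤ ‖Φ z‖ ^ 2 + m * ‖u z‖ ^ 2 := hz (mem_univ x)
  have h3 := mul_le_mul_of_nonneg_left (pow_le_pow_left₀ (norm_nonneg _) h1 2) hm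
  nlinarith [mul_nonneg hm (sq_nonneg ‖u x‖)]

/-- the numerical step: `s = sup ‖Φ‖²`, `t = ‖Φ z‖²`; the constants may grow with `s` -/
theorem num_bound {c a r d s t : ℝ} (hc : 0 < c) (ha : 0 ≤ a) (hr : 0 ≤ r) (hd : 0 ≤ d)
    (hts : t ≤ s) (h1 : c * t ^ 2 ≤ a * t + r + c / 8 * s ^ 2)
    (h2 : s ≤ t + d + s / 4) : s ≤ 8 * d + 16 * a / c + 16 * r / c + 1 := by
  by_contra h
  push Not at h
  have a1 : 0 ≤ 16 * a / c := by positivity
  have a2 : 0 ≤ 16 * r / c := by positivity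
  have s1 : 1 < s := by linarith
  have b1 : 5 * s / 8 ≤ t := by linarith
  have b2 : 16 * a < c * s := by
    have : 16 * a / c < s := by linarith
    rwa [div_lt_iff₀' hc] at this
  have b3 : 16 * r < c * s := by
    have : 16 * r / c < s := by linarith
    rwa [div_lt_iff₀' hc] at this
  have c1 : c * (5 * s / 8) ^ 2 ≤ c * t ^ 2 :=
    mul_le_mul_of_nonneg_left (pow_le_pow_left₀ (by linarith) b1 2) hc.le
  have c2 : a * t ≤ a * s := mul_le_mul_of_nonneg_left hts ha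
  have c3 : 16 * a * s ≤ c * s * s := mul_le_mul_of_nonneg_right b2.le (by linarith)
  have c4 : c * s * 1 ≤ c * s * s := mul_le_mul_of_nonneg_left s1.le (by positivity)
  have c5 : 0 < c * s * s := by positivity
  nlinarith

/-- Keller-Osserman bound with a cut-off: no information at infinity is needed -/
theorem ko {f χ : M → ℝ} {c R C : ℝ} (hc : 0 < c) (hR : 0 ≤ R) (hC : 0 ≤ C)
    (hK : HasCompactSupport χ) (h01 : ∀ x, 0 ≤ χ x ∧ χ x ≤ 1)
    (he : ∀ x ∈ tsupport χ, ∀ a, VF I 1 (e a) x) (hχ : ∀ x, CM I 2 χ x)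
    (hD : ∀ x, 6 * ∑ a, dv I (e a) χ x ^ 2 + 2 * |Lop I e b χ x| ≤ C)
    (hf : ∀ x ∈ tsupport χ, CM I 2 f x)
    (hL : ∀ x ∈ tsupport χ, 0 < f x → c * f x ^ 2 - R ≤ Lop I e b f x) (x : M) :
    χ x ^ 2 * f x ≤ C / c + √(R / c) := by
  have := FiniteDimensional.complete ℝ E
  have hpos : 0 ≤ C / c + √(R / c) := by positivity
  by_cases hx : x ∈ tsupport χ
  swap
  · rw [image_eq_zero_of_notMem_tsupport hx]; simpa using hpos
  have hg : ∀ y ∈ tsupport χ, CM I 2 (fun y => χ y * χ y * f y) y := fun y hy =>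
    ((hχ y).mul (hχ y)).mul (hf y hy)
  obtain ⟨z, hz, hm⟩ := hK.isCompact.exists_isMaxOn ⟨x, hx⟩
    fun y hy => (hg y hy).continuousAt.continuousWithinAt
  rw [sq]
  refine (hm hx).trans (le_of_not_gt fun h => ?_)
  have hg0 : 0 < χ z * χ z * f z := hpos.trans_lt h
  have hf0 : 0 < f z := (mul_pos_iff_of_pos_left (lt_of_le_of_ne (mul_self_nonneg _) fun h0 => by
    simp [← h0] at hg0)).1 hg0
  have hχ0 : 0 < χ z := (h01 z).1.lt_of_ne fun h0 => by simp [← h0] at hg0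
  have hm' : IsLocalMax (fun y => χ y * χ y * f y) z := hm.isLocalMax
    (mem_of_superset ((hχ z).continuousAt.eventually_ne hχ0.ne') fun y hy => subset_tsupport _ hy)
  have h1 := Lop_nonpos (b := b) (he z hz) (hg z hz) hm'
  have χ1 := (hχ z).md one_le_two
  have f1 := (hf z hz).md one_le_two
  have h2 : ∀ a, χ z * dv I (e a) f z = -2 * dv I (e a) χ z * f z := fun a => by
    have h3 := (dv_dv_nonpos (he z hz a) ((hg z hz).ev_md one_le_two) (md_dv (hg z hz) (he z hz a))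
      hm').1
    rw [dv_mul (md_mul χ1 χ1) f1, dv_mul χ1 χ1] at h3
    refine mul_left_cancel₀ hχ0.ne' ?_
    linarith
  rw [Lop_mul_fun (f := fun y => χ y * χ y) (he z hz) ((hχ z).mul (hχ z)) (hf z hz),
    Lop_mul_fun (he z hz) (hχ z) (hχ z)] at h1
  have h4 : ∑ a, dv I (e a) (fun y => χ y * χ y) z * dv I (e a) f z =
      -4 * (∑ a, dv I (e a) χ z ^ 2) * f z := by
    rw [Finset.mul_sum, Finset.sum_mul]
    refine Finset.sum_congr rfl fun a _ => ?_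
    rw [dv_mul χ1 χ1]
    linear_combination 2 * dv I (e a) χ z * h2 a
  have h5 : ∑ a, dv I (e a) χ z * dv I (e a) χ z = ∑ a, dv I (e a) χ z ^ 2 := by simp [sq]
  rw [h4, h5] at h1
  have h6 := hL z hz hf0
  have h7 := hD z
  set G := ∑ a, dv I (e a) χ z ^ 2
  set g := χ z * χ z * f z with hgz
  have h8 : -|Lop I e b χ z| ≤ Lop I e b χ z * χ z := by
    have := neg_abs_le (Lop I e b χ z * χ z)
    rw [abs_mul, abs_of_pos hχ0] at this
    nlinarith [abs_nonneg (Lop I e b χ z), (h01 z).2]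
  -- `χ² (c f² - R) ≤ C f`
  have h9 : χ z * χ z * (c * f z ^ 2 - R) ≤ C * f z := by
    nlinarith [mul_le_mul_of_nonneg_left h6 (mul_pos hχ0 hχ0).le,
      mul_le_mul_of_nonneg_right h8 hf0.le, mul_le_mul_of_nonneg_right h7 hf0.le]
  have h10 : χ z * χ z ≤ 1 := mul_le_one₀ (h01 z).2 (h01 z).1 (h01 z).2
  have h11 : c * g ^ 2 ≤ C * g + R := by
    have := mul_le_mul_of_nonneg_left h9 (mul_pos hχ0 hχ0).le
    have h12 : χ z * χ z * (χ z * χ z) * R ≤ R :=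
      mul_le_of_le_one_left hR (mul_le_one₀ h10 (mul_pos hχ0 hχ0).le h10)
    rw [hgz]; nlinarith
  have h13 : √(R / c) ^ 2 * c = R := by rw [Real.sq_sqrt (by positivity)]; field_simp
  have h14 : C / c * c = C := by field_simp
  have h15 := Real.sqrt_nonneg (R / c)
  have h16 : 0 ≤ C / c := by positivity
  set p := C / c
  set w := √(R / c)
  rw [← h13, ← h14] at h11
  have h17 : g ^ 2 ≤ p * g + w ^ 2 := le_of_mul_le_mul_left (by linarith) hc
  nlinarith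

end Crest.Agent.X212.Mp86

end
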