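import Crest.Agent.X212.Mp86.Calc

/-!
# Row 212, layer AN (helper86): the frame Laplacian, its covariant version, pointwise identities

`Lop e b u = ∑ a, (e a (e a u) + b a • e a u)` (analyst's sign), `cd v A u = v u + A u`,
`LA e b A u = ∑ a, (∇a ∇a u + b a • ∇a u)`.
-/

set_option autoImplicit false
open Set Filter Topology
open scoped Manifold ContDiff InnerProductSpace

noncomputable section

namespace Crest.Agent.X212.Mp86

variable {E H M : Type*} [NormedAddCommGroup E] [NormedSpace ℝ E] [TopologicalSpace H]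
  (I : ModelWithCorners ℝ E H) [TopologicalSpace M] [ChartedSpace H M]
  {V : Type*} [NormedAddCommGroup V] [NormedSpace ℝ V]
  {U : Type*} [NormedAddCommGroup U] [InnerProductSpace ℝ U] {ι : Type*} [Fintype ι]

/-- frame Laplacian with first order term -/
def Lop (e : ι → Π x : M, TangentSpace I x) (b : ι → M → ℝ) (u : M → V) (x : M) : V :=
  ∑ a, (dv I (e a) (dv I (e a) u) x + b a x • dv I (e a) u x)

/-- covariant derivative along `v` -/
def cd (v : Π x : M, TangentSpace I x) (A : M → V →L[ℝ] V) (u : M → V) (x : M) : V :=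
  dv I v u x + A x (u x)

/-- covariant Laplacian -/
def LA (e : ι → Π x : M, TangentSpace I x) (b : ι → M → ℝ) (A : ι → M → V →L[ℝ] V)
    (u : M → V) (x : M) : V :=
  ∑ a, (cd I (e a) (A a) (cd I (e a) (A a) u) x + b a x • cd I (e a) (A a) u x)

variable {I} {e : ι → Π x : M, TangentSpace I x} {b : ι → M → ℝ} {x : M}
  {v : Π x : M, TangentSpace I x}

theorem Lop_congr {u w : M → V} (h : u =ᶠ[𝓝 x] w) : Lop I e b u x = Lop I e b w x := by
  unfold Lop
  refine Finset.sum_congr rfl fun a _ => ?_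
  rw [dv_congr (dv_congr_ev h), dv_congr h]

theorem cd_congr {A : M → V →L[ℝ] V} {u w : M → V} (h : u =ᶠ[𝓝 x] w) :
    cd I v A u x = cd I v A w x := by
  unfold cd; rw [dv_congr h, h.eq_of_nhds]

theorem cd_congr_ev {A : M → V →L[ℝ] V} {u w : M → V} (h : u =ᶠ[𝓝 x] w) :
    cd I v A u =ᶠ[𝓝 x] cd I v A w := h.eventuallyEq_nhds.mono fun _ hy => cd_congr hy

theorem LA_congr {A : ι → M → V →L[ℝ] V} {u w : M → V} (h : u =ᶠ[𝓝 x] w) :
    LA I e b A u x = LA I e b A w x := by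
  unfold LA
  refine Finset.sum_congr rfl fun a _ => ?_
  rw [cd_congr (cd_congr_ev h), cd_congr h]

/-- a metric connection differentiates inner products -/
theorem dv_inner_cd {A : M → U →L[ℝ] U} (hA : ∀ s t, ⟪A x s, t⟫_ℝ = -⟪s, A x t⟫_ℝ) {u w : M → U}
    (hu : MD I u x) (hw : MD I w x) :
    dv I v (fun y => ⟪u y, w y⟫_ℝ) x = ⟪cd I v A u x, w x⟫_ℝ + ⟪u x, cd I v A w x⟫_ℝ := by
  rw [dv_inner hu hw]; unfold cd
  rw [inner_add_left, inner_add_right, hA]; ring

theorem cd_sub {A : M → V →L[ℝ] V} {u w : M → V} (hu : MD I u x) (hw : MD I w x) :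
    cd I v A (fun y => u y - w y) x = cd I v A u x - cd I v A w x := by
  unfold cd; rw [dv_sub hu hw, map_sub]; abel

theorem cd_add {A : M → V →L[ℝ] V} {u w : M → V} (hu : MD I u x) (hw : MD I w x) :
    cd I v A (fun y => u y + w y) x = cd I v A u x + cd I v A w x := by
  unfold cd; rw [dv_add hu hw, map_add]; abel

theorem cd_smul {A : M → V →L[ℝ] V} {c : M → ℝ} {u : M → V} (hc : MD I c x) (hu : MD I u x) :
    cd I v A (fun y => c y • u y) x = dv I v c x • u x + c x • cd I v A u x := by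
  unfold cd; rw [dv_smul hc hu, map_smul, smul_add]; abel

variable [IsManifold I ∞ M]

theorem cm_cd {m n : ℕ∞ω} {A : M → V →L[ℝ] V} {u : M → V} (hu : CM I n u x) (hv : VF I m v x)
    (hA : CM I m A x) (hmn : m + 1 ≤ n) : CM I m (cd I v A u) x :=
  (cm_dv hu hv hmn).add (hA.clm_apply (hu.of_le (le_self_add.trans hmn)))

theorem md_cd {A : M → V →L[ℝ] V} {u : M → V} (hu : CM I 2 u x) (hv : VF I 1 v x)
    (hA : CM I 1 A x) : MD I (cd I v A u) x := (cm_cd hu hv hA (by norm_num)).md le_rfl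

/-- weak maximum principle at a point -/
theorem Lop_nonpos [CompleteSpace E] [BoundarylessManifold I M] {f : M → ℝ}
    (he : ∀ a, VF I 1 (e a) x) (hf : CM I 2 f x) (hm : IsLocalMax f x) : Lop I e b f x ≤ 0 := by
  refine Finset.sum_nonpos fun a _ => ?_
  obtain ⟨h1, h2⟩ := dv_dv_nonpos (he a) (hf.ev_md one_le_two) (md_dv hf (he a)) hm
  rw [h1]; simpa using h2

theorem Lop_add {u w : M → V} (he : ∀ a, VF I 1 (e a) x) (hu : CM I 2 u x) (hw : CM I 2 w x) :
    Lop I e b (fun y => u y + w y) x = Lop I e b u x + Lop I e b w x := by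
  unfold Lop
  rw [← Finset.sum_add_distrib]
  refine Finset.sum_congr rfl fun a _ => ?_
  have h : dv I (e a) (fun y => u y + w y) =ᶠ[𝓝 x] fun y => dv I (e a) u y + dv I (e a) w y := by
    filter_upwards [hu.ev_md one_le_two, hw.ev_md one_le_two] with y h1 h2 using dv_add h1 h2
  rw [dv_congr h, h.eq_of_nhds, dv_add (md_dv hu (he a)) (md_dv hw (he a)), smul_add]; abel

theorem Lop_clm {W : Type*} [NormedAddCommGroup W] [NormedSpace ℝ W] (g : V →L[ℝ] W) {u : M → V}
    (he : ∀ a, VF I 1 (e a) x) (hu : CM I 2 u x) :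
    Lop I e b (fun y => g (u y)) x = g (Lop I e b u x) := by
  unfold Lop
  rw [map_sum]
  refine Finset.sum_congr rfl fun a _ => ?_
  have h : dv I (e a) (fun y => g (u y)) =ᶠ[𝓝 x] fun y => g (dv I (e a) u y) := by
    filter_upwards [hu.ev_md one_le_two] with y h1 using dv_clm g h1
  rw [dv_congr h, h.eq_of_nhds, dv_clm g (md_dv hu (he a)), map_add, map_smul]

theorem Lop_smul (c : ℝ) {u : M → V} (he : ∀ a, VF I 1 (e a) x) (hu : CM I 2 u x) :
    Lop I e b (fun y => c • u y) x = c • Lop I e b u x :=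
  Lop_clm (c • ContinuousLinearMap.id ℝ V) he hu

theorem Lop_mul (c : ℝ) {u : M → ℝ} (he : ∀ a, VF I 1 (e a) x) (hu : CM I 2 u x) :
    Lop I e b (fun y => c * u y) x = c * Lop I e b u x := Lop_smul c he hu

theorem Lop_sub {u w : M → V} (he : ∀ a, VF I 1 (e a) x) (hu : CM I 2 u x) (hw : CM I 2 w x) :
    Lop I e b (fun y => u y - w y) x = Lop I e b u x - Lop I e b w x := by
  have := Lop_add (b := b) he hu (w := fun y => (-1 : ℝ) • w y) ((contMDiffAt_const (c := (-1 : ℝ)) (I' := 𝓘(ℝ, ℝ))).smul hw)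
  rw [Lop_smul _ he hw] at this
  simpa [sub_eq_add_neg] using this

omit [IsManifold I ∞ M] in
theorem Lop_const (c : V) : Lop I e b (fun _ => c) x = 0 := by
  unfold Lop
  have : ∀ a, dv I (e a) (fun _ : M => c) = fun _ => 0 := fun a => funext fun _ => dv_const c
  simp [this, dv_const]

theorem Lop_sum {κ : Type*} (s : Finset κ) {u : κ → M → V} (he : ∀ a, VF I 1 (e a) x)
    (hu : ∀ i ∈ s, CM I 2 (u i) x) :
    Lop I e b (fun y => ∑ i ∈ s, u i y) x = ∑ i ∈ s, Lop I e b (u i) x := by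
  classical
  induction s using Finset.induction_on with
  | empty => simpa using Lop_const 0
  | insert a s ha ih =>
    simp only [Finset.sum_insert ha]
    rw [Lop_add he (hu a (by simp)) (contMDiffAt_finsetSum fun i hi => hu i (by simp [hi])),
      ih fun i hi => hu i (by simp [hi])]

/-- chain rule for a real function of a real function -/
theorem Lop_comp {Q : M → ℝ} {g g' : ℝ → ℝ} {g'' : ℝ} (he : ∀ a, VF I 1 (e a) x)
    (hQ : CM I 2 Q x) (hg : ∀ᶠ t in 𝓝 (Q x), HasDerivAt g (g' t) t)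
    (hg' : HasDerivAt g' g'' (Q x)) :
    Lop I e b (fun y => g (Q y)) x =
      g'' * ∑ a, dv I (e a) Q x ^ 2 + g' (Q x) * Lop I e b Q x := by
  unfold Lop
  rw [Finset.mul_sum, Finset.mul_sum, ← Finset.sum_add_distrib]
  refine Finset.sum_congr rfl fun a _ => ?_
  have h : dv I (e a) (fun y => g (Q y)) =ᶠ[𝓝 x] fun y => g' (Q y) * dv I (e a) Q y := by
    filter_upwards [hQ.ev_md one_le_two, hQ.continuousAt.eventually hg] with y h1 h2
    rw [dv_comp h2.hasFDerivAt h1]; simp [mul_comm]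
  have hm := hQ.md one_le_two
  rw [dv_congr h, h.eq_of_nhds, dv_mul (md_comp hg'.differentiableAt hm) (md_dv hQ (he a)),
    dv_comp hg'.hasFDerivAt hm]
  simp; ring

/-- product rule -/
theorem Lop_mul_fun {f g : M → ℝ} (he : ∀ a, VF I 1 (e a) x) (hf : CM I 2 f x) (hg : CM I 2 g x) :
    Lop I e b (fun y => f y * g y) x = Lop I e b f x * g x + f x * Lop I e b g x +
      2 * ∑ a, dv I (e a) f x * dv I (e a) g x := by
  unfold Lop
  rw [Finset.mul_sum, Finset.mul_sum, Finset.sum_mul, ← Finset.sum_add_distrib,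
    ← Finset.sum_add_distrib]
  refine Finset.sum_congr rfl fun a _ => ?_
  have h : dv I (e a) (fun y => f y * g y) =ᶠ[𝓝 x]
      fun y => dv I (e a) f y * g y + f y * dv I (e a) g y := by
    filter_upwards [hf.ev_md one_le_two, hg.ev_md one_le_two] with y h1 h2 using dv_mul h1 h2
  have f1 := hf.md one_le_two
  have g1 := hg.md one_le_two
  have f2 := md_dv hf (he a)
  have g2 := md_dv hg (he a)
  rw [dv_congr h, h.eq_of_nhds, dv_add (md_mul f2 g1) (md_mul f1 g2), dv_mul f2 g1, dv_mul f1 g2]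
  simp only [smul_eq_mul]; ring

/-- Bochner identity for a metric connection -/
theorem Lop_inner {A : ι → M → U →L[ℝ] U} {u w : M → U} (he : ∀ a, VF I 1 (e a) x)
    (hA : ∀ a, CM I 1 (A a) x) (hs : ∀ a, ∀ᶠ y in 𝓝 x, ∀ s t, ⟪A a y s, t⟫_ℝ = -⟪s, A a y t⟫_ℝ)
    (hu : CM I 2 u x) (hw : CM I 2 w x) :
    Lop I e b (fun y => ⟪u y, w y⟫_ℝ) x = ⟪LA I e b A u x, w x⟫_ℝ + ⟪u x, LA I e b A w x⟫_ℝ +
      2 * ∑ a, ⟪cd I (e a) (A a) u x, cd I (e a) (A a) w x⟫_ℝ := by
  unfold Lop LA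
  rw [sum_inner, inner_sum, Finset.mul_sum, ← Finset.sum_add_distrib, ← Finset.sum_add_distrib]
  refine Finset.sum_congr rfl fun a _ => ?_
  have h : dv I (e a) (fun y => ⟪u y, w y⟫_ℝ) =ᶠ[𝓝 x]
      fun y => ⟪cd I (e a) (A a) u y, w y⟫_ℝ + ⟪u y, cd I (e a) (A a) w y⟫_ℝ := by
    filter_upwards [hu.ev_md one_le_two, hw.ev_md one_le_two, hs a] with y h1 h2 h3
      using dv_inner_cd h3 h1 h2
  have u1 := hu.md one_le_two
  have w1 := hw.md one_le_two
  have u2 := md_cd hu (he a) (hA a)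
  have w2 := md_cd hw (he a) (hA a)
  have h0 := (hs a).self_of_nhds
  rw [dv_congr h, h.eq_of_nhds, dv_add (md_inner u2 w1) (md_inner u1 w2), dv_inner_cd h0 u2 w1,
    dv_inner_cd h0 u1 w2, inner_add_left, inner_add_right, real_inner_smul_left,
    real_inner_smul_right, smul_eq_mul]
  ring

theorem Lop_normSq {A : ι → M → U →L[ℝ] U} {u : M → U} (he : ∀ a, VF I 1 (e a) x)
    (hA : ∀ a, CM I 1 (A a) x) (hs : ∀ a, ∀ᶠ y in 𝓝 x, ∀ s t, ⟪A a y s, t⟫_ℝ = -⟪s, A a y t⟫_ℝ)
    (hu : CM I 2 u x) :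
    Lop I e b (fun y => ‖u y‖ ^ 2) x = 2 * ⟪LA I e b A u x, u x⟫_ℝ +
      2 * ∑ a, ‖cd I (e a) (A a) u x‖ ^ 2 := by
  have := Lop_inner (b := b) he hA hs hu hu
  simp only [real_inner_self_eq_norm_sq] at this
  rw [this, real_inner_comm (LA I e b A u x)]; ring

omit [IsManifold I ∞ M] in
theorem cm_normSq {n : ℕ∞ω} {u : M → U} (hu : CM I n u x) : CM I n (fun y => ‖u y‖ ^ 2) x :=
  (contDiff_norm_sq ℝ).contDiffAt.comp_contMDiffAt hu

theorem LA_sub {A : ι → M → V →L[ℝ] V} {u w : M → V} (he : ∀ a, VF I 1 (e a) x)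
    (hA : ∀ a, CM I 1 (A a) x) (hu : CM I 2 u x) (hw : CM I 2 w x) :
    LA I e b A (fun y => u y - w y) x = LA I e b A u x - LA I e b A w x := by
  unfold LA
  rw [← Finset.sum_sub_distrib]
  refine Finset.sum_congr rfl fun a _ => ?_
  have h : cd I (e a) (A a) (fun y => u y - w y) =ᶠ[𝓝 x]
      fun y => cd I (e a) (A a) u y - cd I (e a) (A a) w y := by
    filter_upwards [hu.ev_md one_le_two, hw.ev_md one_le_two] with y h1 h2 using cd_sub h1 h2
  rw [cd_congr h, h.eq_of_nhds, cd_sub (md_cd hu (he a) (hA a)) (md_cd hw (he a) (hA a)), smul_sub]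
  abel

end Crest.Agent.X212.Mp86

end
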