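import Crest.Agent.X212.Nt66.Defs
import Crest.Agent.X212.Wrd81.Loc2

/-! Row 212, NT-OUT (helper86), part A: surjectivity modulo a closed subspace, two charts at
related points. -/

set_option autoImplicit false
set_option linter.unusedSectionVars false
noncomputable section
open scoped Manifold ContDiff Topology InnerProductSpace
open MeasureTheory Set Function Filter

namespace Crest.Agent.X212.Mp86.Ou
open An M Nd18 Mod61 Nk89 Cht98 Rf65 Pte3 Eqv71 Wrd81 Nt66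
open Cnt93 (Rh)

theorem mod_surj {X Y X₀ Y₀ : Type} [NormedAddCommGroup X] [NormedSpace ℝ X] [NormedAddCommGroup Y]
    [NormedSpace ℝ Y] [NormedAddCommGroup X₀] [NormedSpace ℝ X₀] [NormedAddCommGroup Y₀]
    [NormedSpace ℝ Y₀] (K : Submodule ℝ Y) (hK : IsClosed (K : Set Y)) {f : X → Y} {g : X₀ → Y₀}
    {x : X} {x₀ : X₀} {U : Set X} {V D : Set X₀} (hU : IsOpen U) (hV : IsOpen V) (hx : x ∈ U)
    (hx₀ : x₀ ∈ V) (hD : V ⊆ closure D) (hf : ContDiffOn ℝ ∞ f U) (hg : ContDiffOn ℝ ∞ g V)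
    (A : X₀ →L[ℝ] X) (Ψ : Y₀ →L[ℝ] Y) (e : ∀ v ∈ V ∩ D, f (x + A (v - x₀)) - Ψ (g v) ∈ K)
    (s : Surjective (fderiv ℝ g x₀)) (hΨ : ∀ e, ∃ e', Ψ e' - e ∈ K) (y : Y) :
    ∃ v, fderiv ℝ f x v - y ∈ K := by
  have c : Continuous fun v => x + A (v - x₀) := by fun_prop
  have o : IsOpen (V ∩ (fun v => x + A (v - x₀)) ⁻¹' U) := hV.inter (hU.preimage c)
  have m : x₀ ∈ V ∩ (fun v => x + A (v - x₀)) ⁻¹' U := ⟨hx₀, by simpa using hx⟩
  have k : ∀ᶠ v in 𝓝 x₀, f (x + A (v - x₀)) - Ψ (g v) ∈ K :=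
    eventually_of_mem (o.mem_nhds m) fun v hv => hK.closure_subset <| ContinuousWithinAt.mem_closure
      (f := fun v => f (x + A (v - x₀)) - Ψ (g v)) (ContinuousAt.continuousWithinAt (((hf.continuousOn.continuousAt (hU.mem_nhds hv.2)).comp
        (f := fun v => x + A (v - x₀)) c.continuousAt).sub (Ψ.continuous.continuousAt.comp
          (hg.continuousOn.continuousAt (hV.mem_nhds hv.1)))))
      (hV.inter_closure ⟨hv.1, hD hv.1⟩) e
  have d1 : HasFDerivAt f (fderiv ℝ f x) (x + A (x₀ - x₀)) := by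
    simpa using ((hf.contDiffAt (hU.mem_nhds hx)).differentiableAt (by simp)).hasFDerivAt
  have d := (d1.comp x₀ (f := fun v => x + A (v - x₀)) ((A.hasFDerivAt.comp x₀
    ((hasFDerivAt_id x₀).sub_const x₀)).const_add x)).sub (Ψ.hasFDerivAt.comp x₀
      ((hg.contDiffAt (hV.mem_nhds hx₀)).differentiableAt (by simp)).hasFDerivAt)
  obtain ⟨e', h1⟩ := hΨ y
  obtain ⟨v, rfl⟩ := s e'
  have t : Tendsto (fun n : ℝ => x₀ + n⁻¹ • v) atTop (𝓝 x₀) := by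
    simpa using ((tendsto_inv_atTop_zero (𝕜 := ℝ)).smul_const v).const_add x₀
  have h2 := hK.mem_of_tendsto (d.lim v (c := fun n : ℝ => n) tendsto_norm_atTop_atTop)
    ((t.eventually k).mono fun n hn => K.smul_mem _ (K.sub_mem hn k.self_of_nhds))
  exact ⟨A v, by simpa using K.add_mem h2 h1⟩

theorem cl0 {Y Z : Type} [TopologicalSpace Y] [NormedAddCommGroup Z] {S : Set Y} {f : Y → Z}
    (hf : Continuous f) (k : ∀ e ∈ S, f e = 0) {e : Y} (he : e ∈ closure S) : f e = 0 :=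
  closure_minimal (t := {e | f e = 0}) k (isClosed_eq hf continuous_const) he

section gen
variable {E : Type} [NormedAddCommGroup E] [NormedSpace ℝ E] [FiniteDimensional ℝ E]
  [MeasurableSpace E] [BorelSpace E]
  {HM : Type} [TopologicalSpace HM] {I : ModelWithCorners ℝ E HM} [I.Boundaryless]
  {M : Type} [TopologicalSpace M] [ChartedSpace HM M] [IsManifold I ∞ M]
  [MeasurableSpace M] [BorelSpace M] [T2Space M] [SecondCountableTopology M]
  {ι : Type} [Fintype ι] {lam : Type} [Fintype lam] {B : Base M ι lam} {G G' G'' : Geo I M ι lam}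
  {O : Set M}

theorem sur_Rh {m m' : Md M ι lam} {W : m.Cn} {W' : m'.Cn} {u : M → CL m.V m'.V} {k : Cut M lam}
    (g : LM B G B G' O id (fun x b a => B.P b a x) B.l W W' u) (hO : IsOpen O) (hs : k.supp ⊆ O)
    (η : Circle) : Surjective (Rh k k B B u η) := fun a => by
  have R := Cnt93.rel_refl g.hB hs
  have R' : k.Rel k O id fun y => trn (B.l (id y)) := by
    rwa [show (fun y => trn (B.l (id y))) = _ from funext fun y => trn_of_sym (g.hB.lsym y)]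
  have e := g.me k.x0 (Cnt93.γ_mem R 0 0)
  refine ⟨Rh k k B B (fun y => trn (u (id y))) η⁻¹ a, Subtype.ext ?_⟩
  rw [Cnt93.coe_Rh g R, Cnt93.coe_Rh (g.symm (inv_refl hO)) R', Cnt93.LU_LU]
  refine (congrArg (fun T => Cnt93.LU T _) (ContinuousLinearMap.ext fun b => ?_)).trans
    (Cnt93.mem_p g.ok' a)
  have h2 : ∀ b, u k.x0 (trn (u k.x0) b) = m'.p k.x0 b := fun b =>
    congrArg (fun T : En _ => T b) e.uu'
  show cs m'.J _ (u k.x0 (cs m.J _ (trn (u k.x0) b))) = _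
  rw [map_cs e.J, h2, cs_mul g.ok'.Jsq]
  simp [cs]

theorem ceq_tr {r : ℕ} (g : LG B G B G' O id (fun x b a => B.P b a x) B.l)
    (g' : LG B G' B G'' O id (fun x b a => B.P b a x) B.l) {x x' x'' : Cfg M ι lam r} (a : Ad0 x B G)
    (a' : Ad0 x' B G') (a'' : Ad0 x'' B G'') {u u' ζ ζ'} (e : Mod61.EqOn B G.F O x x' u ζ)
    (e' : Mod61.EqOn B G'.F O x' x'' u' ζ') :
    Mod61.EqOn B G.F O x x'' (fun z => u' z ∘L u z) (ζ' * ζ) := by
  have := ceq_trans g g' (mapsTo_id O) a a' a'' e e'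
  rwa [show (fun x d a => ∑ b, B.P d b (id x) * B.P b a x) = fun x b a => B.P b a x from
    funext₃ fun y => (g.hB.pr y).idem, show (fun x => B.l (id x) ∘L B.l x) = B.l from
      funext g.hB.lidem] at this

end gen

variable {Wi : Type} {X : Mf 4} {A κ lam : Type} [Fintype A] [Fintype κ] [Fintype lam]
  [DecidableEq lam] {M : Mark X A κ} {W : World M} {N : ML M lam} {Λ : Lns W N}
  {A' h : Type} [Fintype A'] [DecidableEq A'] [Fintype h] {r n : ℕ}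
  {J : Job Wi Λ A' h r n} {c : M.Cl} {σ : Cel A'} {p p₀ : Prt A A' h} {U U₀ : Type} [Fintype U]
  [Fintype U₀] {δ : ℝ} {b b₀ : Bp J c} {E : EC b p U δ} {E₀ : EC b₀ p₀ U₀ δ} {q : Wi →₀ ℝ}

variable (E) in
/-- the rows inside -/
def inn (l : h) (Ω : Set (W.Z c).M) : Submodule ℝ E.Y where
  carrier := {e | Inn l Ω e}
  add_mem' a a' := ⟨fun z hz => (congrFun (Sob92.val_add _ _) z).trans
      ((congrArg₂ (· + ·) (a.D z hz) (a'.D z hz)).trans (add_zero _)),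
    fun z hz => (congrFun (Sob92.val_add _ _) z).trans
      ((congrArg₂ (· + ·) (a.C z hz) (a'.C z hz)).trans (add_zero _)),
    (congrArg₂ (· + ·) a.S a'.S).trans (add_zero _), fun i k =>
      ⟨(congrArg₂ (· + ·) (a.T i k).1 (a'.T i k).1).trans (add_zero _),
        (congrArg₂ (· + ·) (a.T i k).2 (a'.T i k).2).trans (add_zero _)⟩⟩
  zero_mem' := ⟨fun z _ => congrFun Sob92.val_zero z, fun z _ => congrFun Sob92.val_zero z, rfl,
    fun _ _ => ⟨rfl, rfl⟩⟩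
  smul_mem' s _ a := ⟨fun z hz => (congrFun (Sob92.val_smul _ _) z).trans
      ((congrArg (s • ·) (a.D z hz)).trans (smul_zero _)),
    fun z hz => (congrFun (Sob92.val_smul _ _) z).trans
      ((congrArg (s • ·) (a.C z hz)).trans (smul_zero _)),
    (congrArg (s • ·) a.S).trans (smul_zero _), fun i k =>
      ⟨(congrArg (s • ·) (a.T i k).1).trans (smul_zero _),
        (congrArg (s • ·) (a.T i k).2).trans (smul_zero _)⟩⟩

theorem inn_closed (l : h) (Ω : Set (W.Z c).M) : IsClosed (inn E l Ω : Set E.Y) :=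
  isClosed_of_closure_subset fun _ he =>
    ⟨fun z hz => cl0 (f := fun e : E.Y => (b.F p U δ).F0.val 8 E.o.Pm e.1.1 z)
      ((Sob92.continuous_val_apply z).comp continuous_fst.fst) (fun _ k => Inn.D k z hz) he,
    fun z hz => cl0 (f := fun e : E.Y => (b.F p U δ).F0.val 8 E.o.P2 e.1.2.1 z)
      ((Sob92.continuous_val_apply z).comp continuous_fst.snd.fst) (fun _ k => Inn.C k z hz) he,
    cl0 (f := fun e : E.Y => e.1.2.2) continuous_fst.snd.snd (fun _ k => Inn.S k) he, fun i hi =>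
    ⟨cl0 (f := fun e : E.Y => e.2.1 i) ((continuous_apply i).comp continuous_snd.fst)
      (fun _ k => (Inn.T k i hi).1) he,
    cl0 (f := fun e : E.Y => e.2.2 i) ((continuous_apply i).comp continuous_snd.snd)
      (fun _ k => (Inn.T k i hi).2) he⟩⟩

variable (H : CS σ E) (H₀ : CS σ E₀) {z : Pnt E₀.o r} {w : Pnt E.o r}
  {g : (W.Z c).M → CL E₀.o.m.V E.o.m.V} {ζ : Circle}
  (hV : ∀ a ∈ p₀.V, b₀.θ p₀ U₀ z.t a = b.θ p U w.t a)
  (e : EqOn (J.B c) (J.G c (b₀.θ p₀ U₀ z.t)).F (W.un c p₀.P) z.cfg w.cfg g ζ)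
include H H₀ hV e

theorem lm : LM (J.B c) (J.G c (b₀.θ p₀ U₀ z.t)) (J.B c) (J.G c (b.θ p U w.t)) (W.un c p₀.P) id
    (fun x b a => (J.B c).P b a x) (J.B c).l z.cfg.W w.cfg.W g :=
  (H₀.pok.kt2 H.ok H.mem (H₀.ovx z) (H.ovx w) hV).toLG.of_ceq (z.ad0 H₀.F) (w.ad0 H.F) e

variable (o : ∀ x ∉ W.un c p₀.P, w.cfg.Φ x = 0)
include o

theorem cr : CR0 (J.B c) (J.G c (b₀.θ p₀ U₀ z.t)) (J.B c) (J.G c (b.θ p U w.t)) (W.un c p₀.P)
    (W.un c p₀.P) id (fun x b a => (J.B c).P b a x) (J.B c).l z.cfg w.cfg g ζ :=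
  ⟨z.ad0 H₀.F, w.ad0 H.F, fun x hx => z.off H₀.F x fun k => hx (H₀.F.sub k), o, e⟩

theorem pw : (∀ x ∈ W.un c p₀.P, (EC.tot b p U δ q w.t).D w.cfg x =
      cs E.o.m.J ζ (g x ((EC.tot b₀ p₀ U₀ δ q z.t).D z.cfg x))) ∧
    (∀ x ∈ W.un c p₀.P, ∀ s, (EC.tot b p U δ q w.t).C w.cfg x s =
      cj (g x) ((EC.tot b₀ p₀ U₀ δ q z.t).C z.cfg x s)) ∧
    (EC.tot b p U δ q w.t).S w.cfg = (ζ : ℂ) ^ 2 • (EC.tot b₀ p₀ U₀ δ q z.t).S z.cfg ∧
    (EC.tot b p U δ q w.t).R w.cfg = (EC.tot b₀ p₀ U₀ δ q z.t).R z.cfg := by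
  have a := (H₀.pok.kt2 H.ok H.mem (H₀.ovx z) (H.ovx w) hV).toLG
  have t := H₀.pok.t_rel H.ok H.mem (H₀.ovx z) (H.ovx w) hV q
  have t₀ := H₀.pok.t_rel H.ok H.mem (H₀.ovx z) (H₀.ovx z) (fun _ _ => rfl) q
  have k := cr H H₀ hV e o
  obtain ⟨h1, h2, h3, h4⟩ := tot_ev (b := b) (U := U) (δ := δ) (t := w.t) (q := q) w.cfg
  obtain ⟨k1, k2, k3, k4⟩ := tot_ev (b := b₀) (U := U₀) (δ := δ) (t := z.t) (q := q) z.cfg
  refine ⟨fun x hx => ?_, fun x hx s => ?_, funext fun i => ?_, ?_⟩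
  · rw [h1, k1]; exact t.eD a k hx
  · rw [h2, k2]
    exact (congrArg (· s) (t.eC a k hx)).trans (ridx_P (a.hB.pr x) (t₀.eC
      (lg_refl a.hB a.hG H₀.cl.2) (cr0_refl a.hB a.hG H₀.cl.2 k.adm k.off) hx) _ s)
  · rw [h3, Pi.smul_apply, k3, t.S k, smul_eq_mul, mul_neg]
  · rw [h4, k4, ceq_norm_z e]

theorem row_nat (i : p₀.H) (hi : i.1 ∈ p.H) (η : Circle) (a : (J.cut c i).H (J.B c) E₀.o.m) :
    E.row q w ⟨i, hi⟩ (Rh (J.cut c i) (J.cut c i) (J.B c) (J.B c) g η a) =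
      Rh (J.cut c i) (J.cut c i) (J.B c) (J.B c) g η (E₀.row q z i a) :=
  (congrArg₂ (· - ·) (Cnt93.T_nat (lm H H₀ hV e) (Cnt93.rel_refl H.F.B (H₀.cut_sub i)) η
    (H₀.cut_ok H₀.hb z.ht i) (H.cut_ok H.hb w.ht ⟨i, hi⟩) a)
    (H₀.pok.sc_rel H.ok H.mem (H₀.ovx z) (H.ovx w) hV i.2 q (cr H H₀ hV e o) η a)).trans
    (map_sub _ _ _).symm

end Crest.Agent.X212.Mp86.Ou
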