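import Crest.Agent.X212.Ix82.Dir
import Crest.Agent.X212.Num57.Es

/-!
# Row 212, D-CLO and D-LOC (helper86): the index theorem and the densities of graded modules
-/

set_option autoImplicit false
set_option linter.unusedSectionVars false
noncomputable section
open scoped Manifold ContDiff Topology InnerProductSpace
open MeasureTheory Set Filter

namespace Crest.Agent.X212.Mp86.Dl
open An Wz78 Sob92 Ix82 Idg99 Ind95 Map77 Ell97

variable {κ U : Type} [Fintype κ] [NormedAddCommGroup U] [InnerProductSpace ℝ U]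
  [FiniteDimensional ℝ U] {M : DM κ U} (h : M.Loc) {x : M.X.M}
include h

theorem gr' : Gr M.F M.p M.ρ M.A M.p₁ M.p₀ := h.gr.symm h.dm.cc

theorem tr_σ (a : Option κ) (x : M.X.M) : Op.tr (M.op.σ a x) = -(M.ρ a x * M.p₁ x) :=
  ContinuousLinearMap.ext fun w => ext_inner_left ℝ fun v => by
    rw [inner_tr, (gr' h).sw, neg_apply, inner_neg_right, mul_apply_eq_comp, ← h.gr.sym0,
      ← h.dm.skρ]
    rfl

theorem alg : Alg M.F.P M.op where
  p := ⟨fun x v => DFunLike.congr_fun (h.gr.id0 x) v, h.gr.sym0⟩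
  q := ⟨fun x v => DFunLike.congr_fun (h.gr.id1 x) v, h.gr.sym1⟩
  σp a x v := congrArg (M.ρ a x) (DFunLike.congr_fun (h.gr.id0 x) v)
  qσ a x v := by
    simp only [DM.op, h.gr.sw]
    exact DFunLike.congr_fun (h.gr.id1 x) _
  qB := h.pB
  Pσ a x := by simp only [DM.op, ← smul_mul_assoc, ← Finset.sum_mul, (h.dm.cc.cl x).proj]

omit h in
theorem cl_gr {p₀ p₁ : M.X.M → U →L[ℝ] U} (D : Dm M.F M.F.Gam M.p M.ρ M.A)
    (G : Gr M.F M.p M.ρ M.A p₀ p₁) (a b : Option κ) (x : M.X.M) (v w : U) :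
    ⟪M.ρ a x (p₀ x v), M.ρ b x (p₀ x w)⟫_ℝ + ⟪M.ρ b x (p₀ x v), M.ρ a x (p₀ x w)⟫_ℝ =
      2 * M.F.P a b x * ⟪p₀ x v, w⟫_ℝ := by
  have h1 := congrArg (fun T : U →L[ℝ] U => ⟪p₀ x v, T (p₀ x w)⟫_ℝ) ((D.cc.cl x).rel a b)
  have h2 : M.p x * p₀ x = p₀ x := by rw [← G.add, add_mul, G.id0, G.o10, add_zero]
  simp only [add_apply, inner_add_right, smul_apply, real_inner_smul_right, mul_apply_eq_comp,
    show M.p x (p₀ x w) = p₀ x w from DFunLike.congr_fun h2 w, ← G.sym0,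
    show p₀ x (p₀ x v) = p₀ x v from DFunLike.congr_fun (G.id0 x) v] at h1
  rw [D.skρ, D.skρ]
  linarith

theorem cliff : M.op.Cliff M.F := ⟨cl_gr h.dm h.gr, fun a b x v w => by
  simp only [Op.adj, tr_σ h, neg_neg]
  exact cl_gr h.dm (gr' h) a b x v w⟩

theorem sm_σ (a : Option κ) : Sm M.X.I (M.op.σ a) := fun x => SA.mul (h.dm.cc.sρ a x) (h.gr.s0 x)

omit h in
theorem dir_gr {p₀ p₁ : M.X.M → U →L[ℝ] U} (G : Gr M.F M.p M.ρ M.A p₀ p₁) {u : M.X.M → U}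
    (hu : Sm M.X.I u) (hp : ∀ x, p₀ x (u x) = u x) (x : M.X.M) :
    ∑ a, M.ρ a x (p₀ x (nab M.X.I M.F.e M.A a u x)) = dir M.X.I M.F.e M.ρ M.A u x :=
  Finset.sum_congr rfl fun a _ => by
    have h1 := nab_app' (e := M.F.e) (A := M.A) a (G.s0 x) (hu x)
    simp only [hp, G.par0, zero_apply, zero_add] at h1
    rw [← h1]

theorem pa (hg : ∃ C, M.op.Good M.F C) : Pa M.F M.op M.A M.A :=
  ⟨hg, cliff h, h.dm.cc.toCon, h.dm.cc.toCon, h.dm.skA, h.dm.skA, h.gr.par0, (gr' h).par0,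
    fun a => sm_σ h a, fun a b x => by
      have := nabE_mul (e := M.F.e) (A := M.A) a (h.dm.cc.sρ b x) (h.gr.s0 x)
      rw [h.gr.par0, mul_zero, add_zero, show nabE _ _ _ _ (M.ρ b) x = _ from h.dm.cc.comp a b x,
        Finset.sum_mul] at this
      simp only [smul_mul_assoc] at this
      exact this⟩

omit h
variable (κ U)

/-- **D-CLO** -/
theorem dClo : DClo κ U := fun M _ h n hn => by
  obtain ⟨C, hC⟩ := Cht98.exists_tame M.F h.ok.h4.le
  obtain ⟨C', -, hA⟩ := good_of (A := M.op) hC (Cb_of_compact h.gr.s0) (Cb_of_compact (gr' h).s0)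
    (fun a => Cb_of_compact (sm_σ h a)) (Cb_of_compact h.sB) (alg h)
  have D := pa h ⟨_, hA⟩
  obtain ⟨C'', h1⟩ := D.good0 hC
  have k0 : (kerS M.F (Pa.op0 M.op M.A)).map (Submodule.subtype _) = K M.F M.ρ M.A M.p₀ := by
    have e : ∀ {u}, Sm M.X.I u → (∀ x, M.p₀ x (u x) = u x) →
        (Pa.op0 M.op M.A).app M.F u = dir M.X.I M.F.e M.ρ M.A u := fun hu hp => funext fun x => by
      rw [← dir_gr h.gr hu hp]
      simp [Pa.op0, DM.op, Op.app, Pre.op, nab, Pre.D_def, Finset.sum_add_distrib]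
    ext u
    exact ⟨fun ⟨v, hv, k⟩ => k ▸ ⟨v.2.1, v.2.2.2, (e v.2.1 v.2.2.2).symm.trans hv⟩, fun hu =>
      ⟨⟨u, hu.1, .of_compactSpace _, hu.2.1⟩, (e hu.1 hu.2.1).trans hu.2.2, rfl⟩⟩
  have k1 : (kerS M.F ((Pa.op0 M.op M.A).adj M.F)).map (Submodule.subtype _) =
      K M.F M.ρ M.A M.p₁ := by
    have e : ∀ {u}, Sm M.X.I u → (∀ x, M.p₁ x (u x) = u x) → ((Pa.op0 M.op M.A).adj M.F).app M.F u =
        dir M.X.I M.F.e M.ρ M.A u := fun hu hp => funext fun x => by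
      rw [← dir_gr (gr' h) hu hp]
      refine (congrArg (f2 U U) (D.dir_i2 h.ok.isv hu x)).symm.trans ?_
      simp [dir, nab, dv_clm _ (SA.md (hu x)), sA, tr_σ h]
    ext u
    exact ⟨fun ⟨v, hv, k⟩ => k ▸ ⟨v.2.1, v.2.2.2, (e v.2.1 v.2.2.2).symm.trans hv⟩, fun hu =>
      ⟨⟨u, hu.1, .of_compactSpace _, hu.2.1⟩, (e hu.1 hu.2.1).trans hu.2.2, rfl⟩⟩
  have h2 := (index_gr h.dm h.gr fun x => ori_of (h.ok.vo x)).2.2
  rw [← k0, ← k1, Submodule.finrank_map_subtype_eq, Submodule.finrank_map_subtype_eq] at h2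
  rw [Fred93.Fr.unique hn (fr_ind hC hA D.cl 7), ← ind_congr hC hA D.cl h1, ind, Int.cast_sub,
    Int.cast_natCast, Int.cast_natCast]
  exact h2

/-- **D-LOC** -/
theorem dLoc : DLoc κ U where
  sm M h := ⟨sm_dn h.ok (fun x => (SA.mul (sm_omF h.ok.sm h.dm.cc.sρ x)
    ((h.gr.s0 x).sub ((gr' h).s0 x))).neg) h.dm.cc.sm, sm_sgd h.ok, sm_eud h.ok⟩
  nat M M' φ h _ l x hx := by
    have r := Pj41.fRel_of_iso (F := M.F) (F' := M'.F) l.iso
    have o : ∀ a b c d, ∀ x ∈ φ.source, M'.o a b c d (φ x) = M.o a b c d x := fun a b c d x hx => by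
      rw [DM.o, l.d x hx]
    have k := Num57.ro_of_frel r (fun x _ => h.ok.vo x) o
    have s : M'.sg (φ x) = M.sg x := by simpa only [Num57.sgd99] using k.sgd hx
    refine ⟨?_, s, by simpa only [Num57.eud99] using k.eud hx⟩
    rw [DM.dn, DM.dn, dn_eq, dn_eq, Num57.cwd99, Num57.cwd99, show sgd _ _ _ = _ from s,
      Num57.frel_cwd r hx (fun a b c d => o a b c d x hx) (A := M.A) (fun a y hy => by
        rw [DM.A, l.d y hy]) (T := fun x => -(omC (M.d x).o (M.d x).ρ * (M.p₀ x - M.p₁ x)))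
        (by simp only [DM.p₀, DM.p₁, l.d x hx])]
    simp only [DM.p₀, DM.p₁, l.d x hx]
  cyl e h x := by
    have v := h.loc.ok.vo x
    have s : e.cyl.sg x = 0 := by simpa only [Num57.sgd99] using Num57.sgd_cyl v
    refine ⟨?_, s, by simpa only [Num57.eud99] using Num57.eud_cyl v⟩
    rw [DM.dn, dn_eq, Num57.cwd99, show sgd _ _ _ = _ from s, Num57.cwd_cyl v
      (fun a => h.loc.dm.cc.sm a x) (funext fun z => h.tmp z.1) fun _ _ => rfl]
    simp

end Crest.Agent.X212.Mp86.Dl
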