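import Crest.Agent.X212.Mp86.En1
import Crest.Agent.X212.Sw88.Cut

/-!
# Row 212, SW-EN (helper86), part 2: slices of configurations, the formula for the functional
-/

set_option autoImplicit false
set_option linter.unusedSectionVars false
noncomputable section
open scoped Manifold ContDiff Topology InnerProductSpace
open MeasureTheory Finset Filter

namespace Crest.Agent.X212.Mp86.En
open An Wz78 Sob92 Sw88 Cyf70
open Sw (Bg F2 En3)
open Sw.En3

variable {κ lam ν : Type} [Fintype κ] [Fintype lam] [Fintype ν] [DecidableEq ν]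

section gen
variable {E : Type} [NormedAddCommGroup E] [NormedSpace ℝ E] [FiniteDimensional ℝ E]
  [MeasurableSpace E] [BorelSpace E]
  {HM : Type} [TopologicalSpace HM] {I : ModelWithCorners ℝ E HM}
  {M : Type} [TopologicalSpace M] [ChartedSpace HM M] [IsManifold I ∞ M] [MeasurableSpace M]
  {nc : ℕ} {b : Bg I M κ lam ν nc} {c : Sw.Cfg M κ ν} {x : M}

theorem sum_sq_le (η : F2 κ) : ∑ k, η (none, some k) ^ 2 ≤ ‖η‖ ^ 2 := by
  rw [← real_inner_self_eq_norm_sq, inner_F2, Fintype.sum_option, Fintype.sum_option]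
  simp only [← sq]
  have : 0 ≤ ∑ i : κ, ∑ j, η (some i, j) ^ 2 := by positivity
  linarith [sq_nonneg (η (none, none))]

theorem norm_le_of {η ζ : F2 κ} (h : ∀ s, η s = 0 ∨ η s = ζ s) : ‖η‖ ≤ ‖ζ‖ := by
  rw [EuclideanSpace.norm_eq, EuclideanSpace.norm_eq]
  exact Real.sqrt_le_sqrt (sum_le_sum fun s _ => (h s).elim (fun k => by rw [k]; simp [sq_nonneg])
    fun k => by rw [k])

variable (b c) in
/-- the term of the Dirac equation of degree two -/
def X2 (x : M) : Eu ν := ∑ i, c.a i x • b.m.ρ i x (b.jp x (c.Φ x))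

theorem eD_eq : b.eD c x = dir I b.F.e b.m.ρ b.A c.Φ x + b.ms x (c.Φ x) + X2 b c x := by
  rw [Bg.eD, show b.W c = b.A + fun a y => c.a a y • b.jp y from rfl, dir_addA]
  simp only [X2, smul_apply, map_smul]
  abel

variable (hb : b.OK)
include hb

theorem sm_p2 {η : M → F2 κ} (h : SA I η x) : SA I (fun y => b.p2 y (η y)) x := by
  have P := fun i j => hb.B.sP i j x
  have : ∀ s, SA I (fun y => b.p2 y (η y) s) x := fun s => by
    simp only [p2_apply, Base.sd, Base.a2, Base.st]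
    exact SA.sum _ fun t _ => SA.mul (((((SA.mul (P _ _) (P _ _)).sub (SA.mul (P _ _)
      (P _ _))).div_const 2).add ((hb.B.so _ _ _ _ x).div_const 2)).div_const 2) (h.comp t)
  exact SA.toLp this

theorem sm_qd {u v : M → Eu ν} (hu : SA I u x) (hv : SA I v x) :
    SA I (fun y => b.qd y (u y) (v y)) x := SA.toLp fun _ => SA.mul contMDiffAt_const
  (SA.inner (SA.clm b.m.J (SA.app (hb.cc.sρ _ x) (SA.app (hb.cc.sρ _ x) hv))) hu)

variable (hc : b.Adm c)
include hc

theorem sm_eC : Sm I (b.eC c) := fun x => (sm_p2 hb ((sm_fc' hb hc x).sub (SA.smul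
  contMDiffAt_const (sm_qd hb (hc.sΦ x) (hc.sΦ x))))).sub (hb.com.choose_spec.1 x)

theorem sm_eD : Sm I (b.eD c) := fun x =>
  (sm_dr hb hc x).add (SA.app (hb.cms.choose_spec.1 x) (hc.sΦ x))

theorem sm_X2 : Sm I (X2 b c) := fun x => SA.sum _ fun i _ => SA.smul (hc.sa i x)
  (SA.app (hb.cc.sρ i x) (SA.app (sa_jp hb x) (hc.sΦ x)))

theorem fc_cut (r : ℝ) : b.fc (cut (fun _ => r) c) x =
    b.fc ⟨0, 0⟩ x + r • (b.fc c x - b.fc ⟨0, 0⟩ x) := by
  ext s
  have d : ∀ i j, dv I (b.F.e i) (fun y => r * c.a j y) x = r * dv I (b.F.e i) (c.a j) x :=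
    fun i j => dv_const_smul r (SA.md (hc.sa j x))
  rw [fc_add hb fun i => SA.smul contMDiffAt_const (hc.sa i x)]
  simp only [PiLp.add_apply, PiLp.smul_apply, PiLp.sub_apply, fc_add hb fun i => hc.sa i x, d1, cut,
    smul_eq_mul, d, mul_left_comm _ r, ← mul_sum]
  ring

omit hb in
theorem eD_cut (r : ℝ) : b.eD (cut (fun _ => r) c) x =
    r • (b.eD c x - X2 b c x) + r ^ 2 • X2 b c x := by
  rw [eD_eq, eD_eq (c := c), add_sub_cancel_right]
  simp only [dir, cut, fun a => nab_csmul (e := b.F.e) (A := b.A) a r (hc.sΦ x), X2, map_smul,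
    smul_add, smul_sum, smul_smul, smul_eq_mul]
  exact congrArg _ (sum_congr rfl fun _ _ => by congr 1; ring)

end gen

variable {e : En3 κ lam ν} {c : e.ZC} {v : e.YC} {y : e.Y.M} {t : ℝ} {J : Set ℝ}

/-- the covariant derivative on the cylinder -/
abbrev nb (c : e.ZC) (i : Option κ) : e.Y.M × ℝ → Eu ν :=
  nab (IC e.Y.I) e.cyl.F.e (e.cyl.W c) i c.Φ

theorem cyl_o (i j k l : Option κ) (x : e.Y.M × ℝ) : e.cyl.B.o i j k l x = e.D.o i j k l x.1 := rfl
theorem cyl_P : e.cyl.B.P = cP e.D.F.P := rfl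
theorem cyl_w : e.cyl.w = e.w := rfl
theorem cyl_om (x : e.Y.M × ℝ) : e.cyl.om x = e.om x.1 := rfl
theorem cyl_ρ (i : Option κ) (x : e.Y.M × ℝ) : e.cyl.m.ρ i x = e.m.ρ i x.1 := rfl

theorem fz0 : fz (sl (e := e) ⟨0, 0⟩ t) = ⟨0, 0⟩ := by
  ext i x
  · cases i <;> rfl
  · rfl

theorem fz_smul (r : ℝ) : fz (v.smul r) = cut (fun _ => r) (fz v) := by
  ext i x
  · cases i
    exacts [(mul_zero r).symm, rfl]
  · rfl

theorem W_none (v : e.YC) : e.cyl.W (fz v) none = 0 := by
  funext x; simp [Bg.W, En3.cyl, fz, Nd18.ca]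

theorem D_static {N : Type} [NormedAddCommGroup N] [NormedSpace ℝ N] (f : e.Y.M → N)
    (x : e.Y.M × ℝ) : dv (IC e.Y.I) (e.cyl.F.e none) (fun z => f z.1) x = 0 := by
  by_cases h : MDifferentiableAt (IC e.Y.I) 𝓘(ℝ, N) (fun z : e.Y.M × ℝ => f z.1) x
  · exact (dv_none (e := e.D.F.e) h).trans (deriv_const x.2 (f x.1))
  · unfold dv; rw [mfderiv_zero_of_not_mdifferentiableAt h]; rfl

theorem D_slice {N : Type} [NormedAddCommGroup N] [NormedSpace ℝ N] {u : e.Y.M × ℝ → N}
    (h : SA (IC e.Y.I) u (y, t)) (k : κ) (s : ℝ) : dv (IC e.Y.I) (e.cyl.F.e (some k)) u (y, t) =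
      dv (IC e.Y.I) (e.cyl.F.e (some k)) (fun z => u (z.1, t)) (y, s) :=
  (dv_some (e := e.D.F.e) h.md k).trans (dv_some (e := e.D.F.e) (u := fun z => u (z.1, t))
    (x := (y, s)) (MDifferentiableAt.comp (g := fun z => u (z, t)) (f := Prod.fst) (y, s)
      (mdiff_slice_fst h.md) mdifferentiableAt_fst) k).symm

theorem nb_none (x : e.Y.M × ℝ) : nb (fz v) none x = 0 := by
  rw [nb, nab, W_none]
  exact (add_zero _).trans (D_static v.Φ x)

theorem nb_sl (h : SA (IC e.Y.I) c.Φ (y, t)) (k : κ) :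
    nb c (some k) (y, t) = nb (fz (sl c t)) (some k) (y, 0) :=
  congrArg (· + _) (D_slice h k 0)

theorem eD_sl (h : SA (IC e.Y.I) c.Φ (y, t)) :
    e.cyl.eD c (y, t) = e.m.ρ none y (nb c none (y, t)) + e.cyl.eD (fz (sl c t)) (y, 0) := by
  simp only [Bg.eD, dir, Fintype.sum_option, nb_none, nb_sl h, map_zero, zero_add, add_assoc]
  rfl

theorem fc_none (i : Option κ) (x : e.Y.M × ℝ) :
    e.cyl.fc (fz v) x (none, i) = 0 ∧ e.cyl.fc (fz v) x (i, none) = 0 := by
  have h : dv (IC e.Y.I) (e.cyl.F.e none) (e.cyl.W (fz v) i) x = 0 := by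
    cases i with
    | none => rw [W_none, dv_zero]; rfl
    | some k => exact D_static (fun y => e.A k y + v.a k y • (e.m.J * e.m.p y)) x
  have h1 : ∀ k, e.cyl.F.c none i k x = 0 := fun k => by cases i <;> rfl
  have h2 : ∀ k, e.cyl.F.c i none k x = 0 := fun k => by cases i <;> rfl
  simp [Bg.fc, curv, W_none, h, h1, h2]

theorem adm_sl (h : e.cyl.AdmOn c (Set.univ ×ˢ J)) (ht : t ∈ J) : e.cyl.Adm (fz (sl c t)) := by
  have s : ContMDiff (IC e.Y.I) (IC e.Y.I) ∞ fun x : e.Y.M × ℝ => (x.1, t) :=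
    contMDiff_fst.prodMk contMDiff_const
  refine ⟨fun i => ?_, h.sΦ.comp_contMDiff s fun _ => ⟨trivial, ht⟩, fun i x => ?_,
    fun x => h.pΦ (x.1, t) ⟨trivial, ht⟩⟩
  · cases i with
    | none => exact contMDiff_const
    | some k => exact (h.sa (some k)).comp_contMDiff s fun _ => ⟨trivial, ht⟩
  · cases i with
    | none => simp [Fintype.sum_option, En3.cyl, Nd18.YD.B, cP, fz, Nd18.ca]
    | some k => simpa [Fintype.sum_option, En3.cyl, Nd18.YD.B, cP, fz, Nd18.ca, sl]
        using h.pa (some k) (x.1, t) ⟨trivial, ht⟩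

/-- the density of the functional -/
def dens (v : e.YC) (y : e.Y.M) : ℝ :=
  2 * ∑ k, e.cyl.p2 (y, 0) (e.cyl.fc ⟨0, 0⟩ (y, 0) + e.cyl.fc (fz v) (y, 0)) (none, some k) * v.a k y
    - 4 * ∑ k, e.om y (none, some k) * v.a k y
    - e.w / 2 * ⟪e.m.ρ none y (e.cyl.eD (fz v) (y, 0)), v.Φ y⟫_ℝ

theorem itg {g : e.Y.M → ℝ} (h : Continuous g) : Integrable g e.D.F.μ :=
  h.integrable_of_hasCompactSupport (.of_compactSpace _)

theorem cs0 {N : Type} [NormedAddCommGroup N] [NormedSpace ℝ N] {g : e.Y.M × ℝ → N}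
    (h : Sm (IC e.Y.I) g) : Continuous fun y => g (y, 0) := (sm_slice_fst h 0).continuous

theorem cmp (s : Option κ × Option κ) {α : Type} [TopologicalSpace α] {g : α → F2 κ}
    (h : Continuous g) : Continuous fun y => g y s := (PiLp.continuous_apply 2 _ s).comp h

variable (he : e.OK)
include he

theorem fc_sl (h : ∀ i, SA (IC e.Y.I) (c.a i) (y, t)) (j k : κ) :
    e.cyl.fc c (y, t) (some j, some k) = e.cyl.fc (fz (sl c t)) (y, 0) (some j, some k) := by
  have s : ∀ i, SA (IC e.Y.I) (e.cyl.W c i) (y, t) := fun i =>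
    (he.cyl.cc.sm i _).add (SA.smul (h i) (sa_jp he.cyl _))
  simp only [Bg.fc, curv, fun i j => D_slice (s i) j 0, Fintype.sum_option,
    show ∀ x, e.cyl.F.c (some j) (some k) none x = 0 from fun _ => rfl, zero_smul]
  rfl

theorem ρρ (u : Eu ν) : e.m.ρ none y (e.m.ρ none y u) = -e.m.p y u := by
  have := (p8 he.cyl (y, 0)).rel none none u
  change e.m.ρ none y (e.m.ρ none y u) = -e.m.ρ none y (e.m.ρ none y u) - (2 * 1 : ℝ) • e.m.p y u
    at this
  linear_combination (norm := module) (1 / 2 : ℝ) • this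

theorem o_none (k l : Option κ) :
    e.D.o none none k l y = 0 ∧ e.D.o none k none l y = 0 ∧ e.D.o none k l none y = 0 := by
  have B := he.cyl.B
  have h : ∀ k l, e.D.o none none k l y = 0 := fun k l => by
    linarith [show e.D.o none none k l y = -e.D.o none none k l y from B.o12 none none k l (y, 0)]
  have h' : ∀ k l, e.D.o none k none l y = 0 := fun k l =>
    (B.o23 none k none l (y, 0)).trans (neg_eq_zero.2 (h k l))
  exact ⟨h k l, h' k l, (B.o34 none k l none (y, 0)).trans (neg_eq_zero.2 (h' k l))⟩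

theorem o_some (i j k l : κ) : e.D.o (some i) (some j) (some k) (some l) y = 0 := by
  have B := he.cyl.B
  have h1 : ∑ k, ∑ l, ∑ m, e.D.o none (some k) (some l) (some m) y ^ 2 = 6 := by
    have a := fun k : κ => st_st B (y, 0) (none, some k) (none, some k)
    have r := B.rk (y, 0)
    simp only [fun s k => st_symm B (y, 0) s (none, some k)] at a
    simp only [Base.st, Base.a2, Fintype.sum_prod_type, Fintype.sum_option, cyl_o, cyl_P, cP,
      o_none he, zero_div, ← sq, one_mul] at a r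
    have := sum_congr rfl fun k (_ : k ∈ univ) => a k
    simp only [zero_pow two_ne_zero, sum_const_zero, zero_add, sub_zero, div_pow,
      ← sum_div] at this
    linarith
  have a1 : ∀ a b c d, e.D.o a b c d y = -e.D.o b a c d y := fun a b c d => B.o12 a b c d (y, 0)
  have a2 : ∀ a b c d, e.D.o a b c d y = -e.D.o a c b d y := fun a b c d => B.o23 a b c d (y, 0)
  have a3 : ∀ a b c d, e.D.o a b c d y = -e.D.o a b d c y := fun a b c d => B.o34 a b c d (y, 0)
  have h2 := B.onm (y, 0)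
  simp only [cyl_o, Fintype.sum_option, a3 _ _ (some _) none, a2 _ (some _) none,
    a1 (some _) none, o_none he, neg_sq, neg_zero, zero_pow two_ne_zero, sum_const_zero, zero_add,
    sum_add_distrib, h1] at h2
  have h3 : ∑ i, ∑ j, ∑ k, ∑ l, e.D.o (some i) (some j) (some k) (some l) y ^ 2 = 0 := by linarith
  have p := fun i j k l => sq_nonneg (e.D.o (some i) (some j) (some k) (some l) y)
  exact pow_eq_zero_iff two_ne_zero |>.1 ((sum_eq_zero_iff_of_nonneg fun l _ => p i j k l).1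
    ((sum_eq_zero_iff_of_nonneg fun k _ => sum_nonneg fun l _ => p i j k l).1
    ((sum_eq_zero_iff_of_nonneg fun j _ => by positivity).1
    ((sum_eq_zero_iff_of_nonneg fun i _ => by positivity).1 h3 i (mem_univ _)) j (mem_univ _)) k
    (mem_univ _)) l (mem_univ _))

theorem kd0 (x : e.Y.M × ℝ) : e.cyl.kd ⟨0, 0⟩ x = 0 := by
  have h := fun i => fc_none (v := sl ⟨0, 0⟩ 0) i x
  rw [fz0] at h
  simp [kd_eq, Fintype.sum_prod_type, Fintype.sum_option, h, Base.st, cyl_o, o_some he]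

theorem p2_none {η : F2 κ} (h : ∀ i, η (none, i) = 0 ∧ η (i, none) = 0) (k : κ) :
    4 * e.cyl.p2 (y, t) η (none, some k) =
      ∑ l, ∑ m, e.D.o none (some k) (some l) (some m) y * η (some l, some m) := by
  simp only [p2_apply, Fintype.sum_prod_type, Fintype.sum_option, h, Base.sd, Base.a2, Base.st,
    cyl_o, cyl_P, cP, mul_zero, zero_mul, sum_const_zero, zero_add, mul_sum, sub_zero,
    zero_div]
  exact sum_congr rfl fun _ _ => sum_congr rfl fun _ _ => by ring

theorem cont_ρ (i : Option κ) : Continuous (e.m.ρ i) := cs0 (g := e.cyl.m.ρ i) (he.cyl.cc.sρ i)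

theorem cont_om : Continuous e.om := cs0 (g := e.cyl.om) he.cyl.com.choose_spec.1

variable (hv : e.cyl.Adm (fz v))
include hv

omit he in
theorem cont_a (k : κ) : Continuous (v.a k) := cs0 (g := (fz v).a (some k)) (hv.sa _)

omit he in
theorem cont_Φ : Continuous v.Φ := cs0 (g := (fz v).Φ) hv.sΦ

theorem cont_ga (k : κ) : Continuous ((gr v).a k) := continuous_const.mul (cmp _
  ((cs0 (sm_eC he.cyl hv)).add (he.sζ.continuous.const_smul (deriv e.f (hol v)))))

theorem cont_gΦ : Continuous (gr v).Φ :=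
  ((cont_ρ he none).neg.clm_apply (cs0 (sm_eD he.cyl hv))).sub ((cont_Φ hv).const_smul (e.b (nm v)))

theorem cont_dens : Continuous (dens v) := by
  have h1 := fun k => (cmp (none, some k) (cs0 fun x => sm_p2 he.cyl
    ((sm_fc' he.cyl adm0 x).add (sm_fc' he.cyl hv x)))).mul (cont_a hv k)
  have h2 := fun k => (cmp (none, some k) (cont_om he)).mul (cont_a hv k)
  exact ((continuous_const.mul (continuous_finsetSum _ fun k _ => h1 k)).sub
    (continuous_const.mul (continuous_finsetSum _ fun k _ => h2 k))).sub (continuous_const.mul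
    (((cont_ρ he none).clm_apply (cs0 (sm_eD he.cyl hv))).inner (cont_Φ hv)))

theorem ρ_X2 (y : e.Y.M) : ⟪e.m.ρ none y (X2 e.cyl (fz v) (y, 0)), v.Φ y⟫_ℝ =
    8 * ∑ k, e.cyl.qd (y, 0) (v.Φ y) (v.Φ y) (none, some k) * v.a k y := by
  have h : e.m.p y (v.Φ y) = v.Φ y := p_of he.cyl (hv.pΦ (y, 0))
  have k : ∀ i u, e.m.J (e.m.ρ i y u) = e.m.ρ i y (e.m.J u) := (p8 he.cyl (y, 0)).J_ρ
  simp only [X2, Fintype.sum_option, fz, Nd18.ca, zero_smul, zero_add, map_sum, map_smul, sum_inner,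
    real_inner_smul_left, Bg.qd, Bg.jp, En3.cyl, mul_apply_eq_comp, h, k, mul_sum]
  exact sum_congr rfl fun _ _ => by ring

/-- **the functional** -/
theorem L_eq : L v = ∫ y, dens v y ∂e.D.F.μ + (e.f (hol v) - e.f 0) -
    e.w / 2 * ∫ s in (0 : ℝ)..nm v, e.b s := by
  set g0 := fun y => ∑ k, (e.cyl.p2 (y, 0) (e.cyl.fc ⟨0, 0⟩ (y, 0)) - e.om y) (none, some k) * v.a k y
  set g1 := fun y => ∑ k, e.cyl.p2 (y, 0) (e.cyl.fc (fz v) (y, 0) - e.cyl.fc ⟨0, 0⟩ (y, 0))
    (none, some k) * v.a k y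
  set g2 := fun y => ⟪e.m.ρ none y (e.cyl.eD (fz v) (y, 0)), v.Φ y⟫_ℝ
  set g3 := fun y => ⟪e.m.ρ none y (X2 e.cyl (fz v) (y, 0)), v.Φ y⟫_ℝ
  have i0 : Integrable g0 e.D.F.μ := itg (continuous_finsetSum _ fun k _ => (cmp _ ((cs0 fun x =>
    sm_p2 he.cyl (sm_fc' he.cyl adm0 x)).sub (cont_om he))).mul (cont_a hv k))
  have i1 : Integrable g1 e.D.F.μ := itg (continuous_finsetSum _ fun k _ => (cmp _ (cs0 fun x =>
    sm_p2 he.cyl ((sm_fc' he.cyl hv x).sub (sm_fc' he.cyl adm0 x)))).mul (cont_a hv k))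
  have i2 : Integrable g2 e.D.F.μ :=
    itg (((cont_ρ he none).clm_apply (cs0 (sm_eD he.cyl hv))).inner (cont_Φ hv))
  have i3 : Integrable g3 e.D.F.μ :=
    itg (((cont_ρ he none).clm_apply (cs0 (sm_X2 he.cyl hv))).inner (cont_Φ hv))
  have i4 : Integrable (fun y => 4 * ∑ k, e.ζ y (none, some k) * v.a k y) e.D.F.μ :=
    itg (continuous_const.mul (continuous_finsetSum _ fun k _ =>
      (cmp _ he.sζ.continuous).mul (cont_a hv k)))
  have i5 : Integrable (fun y => ‖v.Φ y‖ ^ 2) e.D.F.μ := itg ((cont_Φ hv).norm.pow 2)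
  have h1 : ∀ r, hol (v.smul r) = r * hol v := fun r => by
    simp only [hol, YC.smul, mul_left_comm _ r, ← mul_sum, integral_const_mul]
  have h2 : ∀ r, nm (v.smul r) = r ^ 2 * nm v := fun r => by
    simp only [nm, YC.smul, norm_smul, mul_pow, Real.norm_eq_abs, sq_abs, integral_const_mul]
  have h3 : ∀ r, ip (gr (v.smul r)) v = 4 * ∫ y, g0 y ∂e.D.F.μ + 4 * r * ∫ y, g1 y ∂e.D.F.μ +
      -(e.w * r) * ∫ y, g2 y ∂e.D.F.μ + e.w * (r - 3 / 2 * r ^ 2) * ∫ y, g3 y ∂e.D.F.μ +
      deriv e.f (r * hol v) * hol v + -(e.w * e.b (r ^ 2 * nm v) * r) * nm v := fun r => by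
    have := fun y => ρ_X2 he hv y
    nth_rewrite 2 [hol, nm]
    simp only [← integral_const_mul]
    rw [← integral_add (i0.const_mul _) (i1.const_mul _), ← integral_add, ← integral_add,
      ← integral_add, ← integral_add, ip]
    · refine integral_congr_ae (.of_forall fun y => ?_)
      have q : e.cyl.p2 (y, 0) (e.cyl.qd (y, 0) (v.Φ y) (v.Φ y)) = _ :=
        p2_qd_self he.cyl (hv.pΦ (y, 0))
      simp only [gr, h1, h2, fz_smul, Bg.eC, fc_cut he.cyl hv, eD_cut hv]
      simp only [cut, YC.smul, fz, qd_smul, map_sub, map_add, map_smul, q, PiLp.add_apply,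
        PiLp.sub_apply, PiLp.smul_apply, smul_eq_mul, inner_sub_left, inner_add_left,
        inner_neg_left, real_inner_smul_left, real_inner_self_eq_norm_sq, g0, g1, g2, g3, mul_add,
        mul_sub, add_mul, sub_mul, sum_add_distrib, sum_sub_distrib, mul_assoc, ← mul_sum]
      simp only [fz] at this
      rw [this]
      simp only [cyl_w, cyl_om]
      ring
    all_goals apply_rules [Integrable.add, Integrable.const_mul]
  have hf := he.sf.differentiable (by simp)
  have hB := fun s => (he.sb.continuous.integral_hasStrictDerivAt 0 s).hasDerivAt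
  have hd : ∀ r, HasDerivAt (fun r => 4 * (∫ y, g0 y ∂e.D.F.μ) * r +
      (2 * ∫ y, g1 y ∂e.D.F.μ - e.w / 2 * (∫ y, g2 y ∂e.D.F.μ - ∫ y, g3 y ∂e.D.F.μ)) * r ^ 2 -
      e.w / 2 * (∫ y, g3 y ∂e.D.F.μ) * r ^ 3 + e.f (r * hol v) -
      e.w / 2 * ∫ s in (0 : ℝ)..r ^ 2 * nm v, e.b s) (ip (gr (v.smul r)) v) r := fun r =>
    ((((((hasDerivAt_id r).const_mul _).add ((hasDerivAt_pow 2 r).const_mul _)).sub
      ((hasDerivAt_pow 3 r).const_mul _)).add ((hf _).hasDerivAt.comp r (hasDerivAt_mul_const _))).sub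
      (((hB _).comp r ((hasDerivAt_pow 2 r).mul_const _)).const_mul _)).congr_deriv
      (by rw [h3]; push_cast; ring)
  have hc1 := (he.sf.continuous_deriv (by simp))
  have hc2 := he.sb.continuous
  rw [L, intervalIntegral.integral_eq_sub_of_hasDerivAt (fun r _ => hd r)
    (Continuous.intervalIntegrable (by simp only [h3]; fun_prop) _ _),
    show ∫ y, dens v y ∂e.D.F.μ = ∫ y, (4 * g0 y + 2 * g1 y - e.w / 2 * g2 y) ∂e.D.F.μ from
      integral_congr_ae (.of_forall fun y => by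
        simp only [dens, g0, g1, g2, map_add, map_sub, PiLp.add_apply, PiLp.sub_apply, add_mul,
          sub_mul, sum_add_distrib, sum_sub_distrib]; ring),
    integral_sub (by exact (i0.const_mul _).add (i1.const_mul _)) (i2.const_mul _),
    integral_add (i0.const_mul _) (i1.const_mul _)]
  simp only [integral_const_mul, one_pow, one_mul, zero_pow two_ne_zero, zero_mul,
    intervalIntegral.integral_same]
  ring

end Crest.Agent.X212.Mp86.En
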