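import Crest.Agent.X212.Abel74.Lab

/-!
# Row 212, AN5 (helper86): the leaf `SwbL`
-/

set_option autoImplicit false
set_option linter.unusedSectionVars false
noncomputable section
open scoped Manifold ContDiff Topology InnerProductSpace
open Finset Filter MeasureTheory

namespace Crest.Agent.X212.Mp86
open An Wz78 Eq82 Num57 Abel74
open Line51 (Ln)

variable {E : Type} [NormedAddCommGroup E] [NormedSpace ℝ E] [FiniteDimensional ℝ E]
  [MeasurableSpace E] [BorelSpace E]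
  {HM : Type} [TopologicalSpace HM] {I : ModelWithCorners ℝ E HM} [I.Boundaryless]
  {M : Type} [TopologicalSpace M] [ChartedSpace HM M] [IsManifold I ∞ M]
  [MeasurableSpace M] [BorelSpace M] [SecondCountableTopology M] [T2Space M] [CompactSpace M]
  {ι : Type} [Fintype ι] [DecidableEq ι] {κ : Type} [Fintype κ] [DecidableEq κ]
  {lam : Type} [Fintype lam] {B : Base M ι lam} {G : Geo I M ι lam}

/-- the curvature form of the background line -/
theorem fL_ln {L : Ln E M κ} (h : L.On I Set.univ) {B : Base M ι (κ ⊕ κ)} (hB : B.OK I)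
    (hl : B.l = L.l) (hi : B.il = Line51.iL κ) (F : Fr I M ι) (x : M) (s : ι × ι) :
    fL B (L.geo F) x s = k2 F (L.F I) s.1 s.2 x := by
  have := h.curv_geo isOpen_univ F (Set.mem_univ x) s.1 s.2
  rw [← hl, ← hi] at this
  rw [fL, mul_assoc]
  erw [this]
  rw [mul_smul_comm, ← mul_assoc, hB.ilsq, map_smul, neg_one_mul, map_neg]
  simp only [@trE_eq _ _ (_), hB.lrk, smul_eq_mul]
  exact (fun t => by ring : ∀ t : ℝ, -(1 / 2) * (t * -2) = t) _

theorem quad_idem {α : Type} [Fintype α] {S : α → α → ℝ} (h1 : ∀ s t, S s t = S t s)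
    (h2 : ∀ s t, ∑ u, S s u * S u t = S s t) (f : α → ℝ) :
    ∑ s, ∑ t, S s t * (f s * f t) = ∑ u, (∑ t, S u t * f t) ^ 2 := by
  simp only [sq, sum_mul_sum]
  rw [sum_comm (s := univ) (t := univ) (f := fun u s => ∑ t, S u s * f s * (S u t * f t))]
  refine sum_congr rfl fun s _ => ?_
  rw [sum_comm]
  refine sum_congr rfl fun t _ => ?_
  rw [← h2, sum_mul]
  exact sum_congr rfl fun u _ => by rw [h1 s u]; ring

/-- the square of a form is bounded by its self-dual part -/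
theorem wedge_le (hB : B.OK I) (x : M) (f : ι × ι → ℝ) :
    ∑ a, ∑ b, ∑ c, ∑ d, B.o a b c d x * (f (a, b) * f (c, d)) ≤
      4 * ∑ u, (∑ t, B.sd x u t * f t) ^ 2 := by
  have h := quad_idem (a2_symm hB x) (a2_a2 hB x) f
  have e : ∑ a, ∑ b, ∑ c, ∑ d, B.o a b c d x * (f (a, b) * f (c, d)) =
      4 * ∑ s, ∑ t, B.sd x s t * (f s * f t) - 2 * ∑ s, ∑ t, B.a2 x s t * (f s * f t) := by
    simp only [Fintype.sum_prod_type, mul_sum, ← sum_sub_distrib, Base.sd, Base.st]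
    exact sum_congr rfl fun a _ => sum_congr rfl fun b _ => sum_congr rfl fun c _ =>
      sum_congr rfl fun d _ => by ring
  rw [e, h, quad_idem (sd_symm hB x) (sd_sd hB x)]
  linarith [sum_nonneg fun u (_ : u ∈ univ) => sq_nonneg (∑ t, B.a2 x u t * f t)]

/-- the pointwise estimate -/
theorem sw_pt (hB : B.OK I) (hG : G.OK B) {c : Cfg M ι lam 0} {ξ : M → c.m.A}
    (S : SWs B G (fun x s => -1 / 2 * fL B G x s) c ξ) (x : M) :
    4 * ∑ u, (∑ t, B.sd x u t * (fF G.F c.m c.W ξ t.1 t.2 x + 1 / 2 * fL B G x t)) ^ 2 ≤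
      9 * sc G x ^ 2 - ⟪lap I G.F.e G.F.dv c.W c.Φ x, c.Φ x⟫_ℝ := by
  have A := S.adm
  have R := S.spt.toRed
  have h0 := adm_weitz hB hG A x (c.Φ x)
  have hm := S.spt.mu_eq A hB x
  have e := S.C x
  rw [sub_eq_iff_eq_add, p2_smul (R.mem x)] at e
  set ρ : ι × ι → ℝ := fun s => ⟪c.m.J (rp c.m B x s (c.Φ x)), c.Φ x⟫_ℝ
  have e1 : ∀ s, ∑ t, B.sd x s t * (-1 / 2 * fL B G x t) = -1 / 2 * fP B G x s := fun s => by
    rw [fP, mul_sum]; exact sum_congr rfl fun _ _ => by ring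
  have e2 : ∀ u, ∑ t, B.sd x u t * (fF G.F c.m c.W ξ t.1 t.2 x + 1 / 2 * fL B G x t) = ρ u / 16 :=
    fun u => by
      have := congrArg (· u) e
      simp only [R.p2_Fg hB hG A.ok A.conn, hm, PiLp.add_apply, e1, ← add_smul] at this
      simp only [mul_add, sum_add_distrib, R.smul_inj A.ok this, mul_left_comm _ (1 / 2 : ℝ),
        ← mul_sum, fP]
      ring
  have e3 : ‖c.m.mu B x (c.Φ x) (c.Φ x)‖ ^ 2 = 16 * ∑ u, (ρ u / 16) ^ 2 := by
    simp only [hm, PiLp.norm_sq_eq_of_L2, norm_smul, R.nrm A.ok, mul_pow, Real.norm_eq_abs, sq_abs,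
      mul_sum]
    exact sum_congr rfl fun _ _ => by ring
  have e4 : ⟪c.m.Fg G.F c.W x, c.m.mu B x (c.Φ x) (c.Φ x)⟫_ℝ =
      -1 / 2 * ∑ s, fP B G x s * ρ s + ‖c.m.mu B x (c.Φ x) (c.Φ x)‖ ^ 2 := by
    rw [← p2_mu hB, ← inner_p2 hB, e, p2_mu hB, inner_add_left, real_inner_self_eq_norm_sq,
      PiLp.inner_apply, mul_sum]
    congr 1
    refine sum_congr rfl fun s _ => ?_
    rw [hm]
    simp only [e1, real_inner_smul_left, real_inner_smul_right, R.inn A.ok]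
    ring
  have e5 : ∀ s, ⟪rp c.m B x s (c.m.J (c.Φ x)), c.Φ x⟫_ℝ = ρ s := fun s => by
    rw [← mul_apply_eq_comp, ← J_rp A.ok, mul_apply_eq_comp]
  have e6 : dir I G.F.e c.m.ρ c.W (dir I G.F.e c.m.ρ c.W c.Φ) x = 0 := by
    rw [show dir I G.F.e c.m.ρ c.W c.Φ = fun _ => 0 from funext S.D]
    simp [dir, nab]
  simp only [e4, e5, e6, inner_zero_left, real_inner_self_eq_norm_sq] at h0
  have h1 := mu_proper hB A.ok (A.pos x)
  have h2 := mul_le_mul_of_nonneg_left h1 (abs_nonneg (sc G x))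
  have h3 := mul_le_mul_of_nonneg_right (neg_abs_le (sc G x)) (sq_nonneg ‖c.Φ x‖)
  simp only [e2]
  nlinarith [sq_nonneg (6 * |sc G x| - ‖c.m.mu B x (c.Φ x) (c.Φ x)‖), sq_abs (sc G x)]

/-- **the leaf `SwbL`** -/
theorem swbL (X : Bk I M ι) : SwbL X := by
  refine ⟨(4 * Real.pi ^ 2)⁻¹ * ∫ x, 9 * scal I X.F.e X.F.c X.F.Gam x ^ 2 ∂X.F.μ,
    fun κ _ _ L hL c ξ S => ?_⟩
  have hB := B_ok X hL
  have hG : (L.geo X.F).OK (X.B L) := hL.geo_ok X.ok.isv X.o
  have hf := fL_ln hL hB rfl rfl X.F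
  have A := S.adm
  have h1 := S.spt.toRed.cl_fm hG A.conn
  have h2 := (hL.cl_F isOpen_univ).smul (1 / 2 : ℝ)
  have h := h1.add h2
  have e : lab X.F c ξ + lcl I L = Real.pi⁻¹ • h.cls := by
    rw [Dr59.cls_add h1 h2, Dr59.cls_smul _ (hL.cl_F isOpen_univ), lab, lcl,
      cl2_eq (hL.cl_F isOpen_univ), smul_add, smul_smul]
    congr 2
    · exact cl2_eq h1
    · field_simp
  have hs : Sm I fun x => ⟪lap I X.F.e X.F.dv c.W c.Φ x, c.Φ x⟫_ℝ := fun x =>
    SA.inner (sm_lap (F := X.F) (mcW A.conn).sm A.sm x) (A.sm x)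
  have i0 : ∀ {f : M → ℝ}, Sm I f → Integrable f X.F.μ := fun hf =>
    Wz78.integ hf (HasCompactSupport.of_compactSpace _)
  have hc : Sm I fun x => 9 * scal I X.F.e X.F.c X.F.Gam x ^ 2 := fun x =>
    SA.mul contMDiffAt_const (ContMDiffAt.pow (SA.sum _ fun a _ => SA.sum _ fun b _ =>
      (lc_gam X.F).sRm (frm X.F) _ _ _ _ x) 2)
  have l0 : 0 ≤ ∫ x, ⟪lap I X.F.e X.F.dv c.W c.Φ x, c.Φ x⟫_ℝ ∂X.F.μ := by
    rw [integral_lap (F := X.F) (mcW A.conn).sm (mcW A.conn).sk A.sm A.sm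
      (HasCompactSupport.of_compactSpace _)]
    exact integral_nonneg fun x => sum_nonneg fun a _ => real_inner_self_nonneg
  have k := fun a b x => sa_k2 X.F (h.sm x trivial) a b
  have m := integral_mono (i0 fun x => SA.sum _ fun a _ => SA.sum _ fun b _ => SA.sum _ fun c _ =>
    SA.sum _ fun d _ => SA.mul (X.ok.sm a b c d x) (SA.mul (k a b x) (k c d x)))
    ((i0 hc).sub (i0 hs)) fun x => by
      have S' : SWs (X.B L) (L.geo X.F) (fun x s => -1 / 2 * fL (X.B L) (L.geo X.F) x s) c ξ := by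
        convert S using 3
        rw [Eq82.cmp, k2_smul, hf]
      refine le_trans (le_of_eq ?_) ((wedge_le hB x _).trans (sw_pt hB hG S' x))
      simp only [k2_add, k2_smul, hf]
      simp only [← k2_fm hG A.conn]
      rfl
  rw [integral_sub' (i0 hc) (i0 hs)] at m
  rw [e, Bk.Q]
  simp only [map_smul, LinearMap.smul_apply, smul_eq_mul]
  rw [Q_cls, integ_mul X.ok h.dg]
  rw [show ∀ t : ℝ, Real.pi⁻¹ * (Real.pi⁻¹ * (1 / 4 * t)) = (4 * Real.pi ^ 2)⁻¹ * t from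
    fun t => by field_simp]
  exact mul_le_mul_of_nonneg_left (by linarith) (by positivity)

end Crest.Agent.X212.Mp86
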