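import Crest.Agent.X212.Mp86.Cv1
import Crest.Agent.X212.Sw.End
import Crest.Agent.X212.Pb50.End
import Crest.Agent.X212.Nk89.Geo
import Crest.Agent.X212.Sw21.CylA
import Crest.Agent.X212.Num57.Dn

/-!
# Row 212, D-CONV (helper86), part 2: a piece is a graded Dirac module
-/

set_option autoImplicit false
set_option linter.unusedSectionVars false
noncomputable section
open scoped Manifold ContDiff Topology InnerProductSpace
open MeasureTheory Filter Set Function

namespace Crest.Agent.X212.Mp86.Cv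
open An An.Pre Sob92 Idg99 Map77.S Ix82 Cyf70 Ell97 Sw
open Map77 hiding Cf Ef
open M (Mf pm pm_mul_pm)

section cy
variable {κ V W : Type} [Fintype κ] [NormedAddCommGroup V] [InnerProductSpace ℝ V]
  [FiniteDimensional ℝ V] [NormedAddCommGroup W] [InnerProductSpace ℝ W] [FiniteDimensional ℝ W]
  {Y : Mf 3} [CompactSpace Y.M] {F : Fr Y.I Y.M κ} {A : Op Y.M (Option κ) V W}

theorem bij_ar (h : CyO F A) (c : ℝ) (hb : Injective (Crt72.Op (F.incl 1 0 A.p) (Cyf70.LH F A 0)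
    (F.mulH 0 A.p A.p fun y => c • A.p y))) :
    Bijective (AH F ⟨A.p, A.q, A.σ, fun y => A.B y + c • A.σ none y⟩ 7) := by
  obtain ⟨C, g⟩ := h.good
  obtain ⟨C', g'⟩ := h.good_sop
  set A' : Op Y.M (Option κ) V W := ⟨A.p, A.q, A.σ, fun y => A.B y + c • A.σ none y⟩
  have e : ∀ u : Sec Y.I A.p, (sop A').app F u.1 = (LS g' u + c • u).1 := fun u => funext fun y => by
    change _ + nu A y (A.B y (u.1 y) + c • A.σ none y (u.1 y)) = (_ + _) + c • u.1 y
    rw [map_add, map_smul, h.nu_σ, u.2.2.2, add_assoc]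
    rfl
  have h' : CyO F A' := ⟨h.dim, good_of_cb ⟨_, g.p.cb⟩ ⟨_, g.q.cb⟩ (fun a => ⟨_, g.σ a⟩)
    (Cb_add ⟨_, g.B⟩ (Cb_smul (Cb_const c) ⟨_, g.σ none⟩)) g.p.idem g.p.symm g.q.idem g.q.symm
      g.σp g.qσ (fun x v => (map_add _ _ _).trans (congrArg₂ (· + ·) (g.qB x v)
        ((map_smul _ _ _).trans (congrArg _ (g.qσ none x v))))) g.Pσ, h.cl, fun u v => by
    rw [e, e, ← inner_toH, ← inner_toH, map_add, map_add, map_smul, map_smul, inner_add_left,
      inner_add_right, real_inner_smul_left, real_inner_smul_right, inner_toH, inner_toH, inner_toH]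
    exact congrArg (· + _) (h.sym u v)⟩
  have := Sw21.bij_cyl (α := Empty) Empty.elim Empty.elim h' (fun u hu => toH_inj (F := F) 1 _
    (hb ?_)) 7
  · simpa [Sw21.KH] using this
  rw [map_zero, map_zero, Crt72.Op_apply, incl_toH zero_le_one, H_toH g', RepT_toH' (rep_mulH
    (Cb_smul (Cb_const c) ⟨_, g'.p.cb⟩) (Maps.of_left fun y v =>
      (map_smul _ _ _).trans (congrArg _ (g'.p.idem y v)))) u (c • u)
    (funext fun y => congrArg (c • ·) (u.2.2.2 y)), ← map_add, ← map_zero (F.toH 0 A.p)]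
  exact congrArg _ (Subtype.ext ((e u).symm.trans (funext fun y => by simpa using hu y)))

end cy

variable {κ lam ν : Type} [Fintype κ] [Fintype lam] [Fintype ν] [DecidableEq ν] [DecidableEq κ]
  {X X' : Mf 4} {nc nc' : ℕ}

theorem df_lit {b : Bg X.I X.M κ lam ν nc} {b' : Bg X'.I X'.M κ lam ν nc'}
    {φ : OpenPartialHomeomorph X.M X'.M} (h : b.Lit b' φ) (h' : b'.OK) {x : X.M} (hx : x ∈ φ.source)
    {r : X.M → ℝ} {r' : X'.M → ℝ} (hr : r' (φ x) = r x) : df b' r' (φ x) = df b r x := by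
  have k := ptE_lit h hx
  have o : ∀ a, Om b'.F.P b'.F.Gam a (φ x) = Om b.F.P b.F.Gam a x := fun a => by
    simp only [Om, Gm, Pm, ← Met55.iso_P h.iso hx, ← (Pj41.fRel_of_iso h.iso).Gam hx]
  simp only [df, dg, db, ps, A1, A2, sA, tA, Om2, kr, o, k.o, k.σ, A0_p, A0_q, B_lit h' h hx, hr,
    h.A _ x hx, k.p1, k.p2, k.pp, k.pm, Pi.zero_apply]

variable {e : En3 κ lam ν}

variable (e) in
/-- the cross-section -/
def de : DE κ (UU κ ν) := ⟨e.Y, e.D.F, fun y => df (X := e.Z) e.cyl (fun _ => e.eps) (y, 0)⟩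

theorem de_d (he : e.OK) (x : e.Y.M × ℝ) : (de e).d x.1 = df (X := e.Z) e.cyl (fun _ => e.eps) x := by
  have h : (Cut71.sH e (-x.2)).toOpenPartialHomeomorph x = (x.1, 0) :=
    congrArg (Prod.mk _) (add_neg_cancel _)
  exact (congrArg (df (X := e.Z) e.cyl fun _ => e.eps) h).symm.trans
    (df_lit (Cut71.sH_lit (-x.2)) he.cyl trivial rfl)

theorem de_cyl (he : e.OK) : (de e).cyl = ⟨e.Z, e.cyl.F, df e.cyl fun _ => e.eps⟩ :=
  congrArg (DM.mk _ _) (funext (de_d he))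

theorem de_ok (he : e.OK) : (de e).OK where
  loc := de_cyl he ▸ dg_loc (pa (X := e.Z) he.cyl) (Cb_const _) (nok (X := e.Z) he.cyl)
  tmp y := by
    have h : Om e.cyl.F.P e.cyl.F.Gam none (y, 0) = 0 := congrFun Num57.om_cyl.1 _
    have h' : e.cyl.A none (y, 0) = 0 := rfl
    simp only [de, df, dg, A1, A2, sA, tA, Om2, kr, h, h']
    exact cext (fun u => ext2 (by simp) (by simp)) fun u => ext3 (by simp) (by simp) (by simp)

theorem ap_z0 : e.ap (e.z0 0) = fun u y => (e.eps • e.A0.p y) (u y) := by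
  have h : (En3.fz ⟨0, 0⟩ : Sw.Cfg (e.Y.M × ℝ) κ ν) = ⟨0, 0⟩ :=
    Sw.Cfg.ext (funext fun a => by cases a <;> rfl) rfl
  funext u y
  simp only [En3.ap, En3.z0, h, Bg.lo, Bg.A0, sub_self, ContinuousLinearMap.zero_comp,
    ContinuousLinearMap.comp_zero, zero_add, Pi.zero_apply, smul_zero, Finset.sum_const_zero,
    add_zero]

theorem de_inv (he : e.OK) (hs : CyO e.D.F e.A0) (h : e.TInv (e.z0 0)) : (de e).Inv := by
  have h1 := h.bij.1
  rw [En3.aH, ap_z0] at h1
  have h2 := bij_ar hs e.eps h1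
  refine (congrArg (fun M : DM κ (UU κ ν) => Bijective M.H) (de_cyl he)).mpr
    (dg_bij (pa (X := e.Z) he.cyl) (Cb_const _) ?_)
  rw [← cyo_A0 he]
  exact h2

variable {N : Type} [Fintype N] {e : N → En3 κ lam ν} (P : Pz X nc e)

/-- the weight of the reference terms -/
def wt (x : X.M) : ℝ := ∑ i, ∑ s, (P.nk i).elim 0 fun K => K.bw s x • (e i).eps

theorem cb_wt : P.bg.F.Cb (wt P) :=
  Pb50.cb_base (g := fun i _ _ => (e i).eps) fun _ _ _ => Cb_const _

variable {P} (hP : P.OK)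
include hP

theorem st_eq : P.st (fun i _ => (e i).z0 0) = (ar P.bg.A0 (wt P)).app P.bg.F := by
  funext u x
  simp only [Pz.st, Op.app, Pre.op, add_apply, smul_apply, add_assoc]
  simp only [wt, Finset.sum_smul]
  refine congrArg _ (congrArg _ (Finset.sum_congr rfl fun i _ => Finset.sum_congr rfl fun s _ => ?_))
  cases P.nk i with
  | none => exact (zero_smul ℝ _).symm
  | some K =>
    by_cases h : K.bw s x = 0
    · simp only [Option.elim_some, Nk.et, h, zero_smul]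
    have hx := K.dp_sub one_pos (Pb50.bw_dp K h).2.2
    have k := (ptE_nk K (K.ψ.map_target hx)).pC
    rw [K.ψ.right_inv hx] at k
    simp only [Option.elim_some, Nk.et, ap_z0, ← K.snd_symm hx, K.ψ.right_inv hx, smul_apply,
      map_smul, smul_smul, smul_eq_mul]
    exact congrArg _ ((congrArg (fun T : Cf κ ν →L[ℝ] Cf κ ν => P.bg.A0.σ none x (T (u x)))
      k.symm).trans ((alg_A0 hP.bg).σp none x _))

theorem ex_en {i : N} {s : Bool} {K : Nk (e i) P.bg} (hK : K ∈ P.nk i) (hs : K.Inf s) :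
    ∃ T ≥ 0, ∃ k : Ix82.En (de (e i)) s ⟨X, P.bg.F, df P.bg (wt P)⟩,
      k.ψ.target ⊆ K.ψ.target ∧ ∀ x, pm s * k.tm x = pm s * K.tm x - T := by
  obtain ⟨T, -, hT⟩ := Pb50.nd_basis.eventually_iff.1 (((Pb50.ev_ψ K hs).and
    (Pb50.base_ev hP (g := fun i _ _ => (e i).eps) hK hs)).and
      (Pb50.nd_basis.mem_of_mem (i := 0) trivial))
  have h0 : 0 ≤ T := le_of_forall_gt_imp_ge_of_dense fun t ht => by
    have := (hT (x := (Classical.arbitrary _, pm s * t)) (by
      simpa only [mem_ofPred_eq, ← mul_assoc, pm_mul_pm, one_mul] using ht)).2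
    change 0 < pm s * (pm s * t) at this
    rw [← mul_assoc, pm_mul_pm, one_mul] at this
    exact this.le
  have e1 : ∀ t, pm s * (t + pm s * T) = pm s * t + T := fun t => by
    rw [mul_add, ← mul_assoc, pm_mul_pm, one_mul]
  have e2 : ∀ t, pm s * (t - pm s * T) = pm s * t - T := fun t => by
    rw [mul_sub, ← mul_assoc, pm_mul_pm, one_mul]
  have h1 : ∀ x : (e i).Y.M × ℝ, 0 < pm s * x.2 → T < pm s * (x.1, x.2 + pm s * T).2 := fun x hx => by
    rw [e1]; linarith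
  have h2 : ∀ x ∈ K.ψ.target, ((K.sh (pm s * T)).symm x).2 = K.tm x - pm s * T := fun x hx =>
    congrArg (· + _) (K.snd_symm hx)
  refine ⟨T, h0, ⟨(K.sh (pm s * T)).restrOpen _ (Pb50.isOpen_nd (s := s) 0),
    fun x => K.tm x - pm s * T, inter_eq_right.2 fun x hx => ⟨trivial, (hT (h1 x hx)).1.1⟩, ?_,
    K.cont.sub continuous_const, fun x hx => ?_, Nk89.iso_restr (K.sh_lit _).iso _, fun x hx => ?_⟩,
    fun x hx => hx.1.1, fun x => e2 _⟩
  · ext x
    refine ⟨fun hx => lt_of_lt_of_eq hx.2 (congrArg (pm s * ·) (h2 x hx.1.1)), fun hx => ?_⟩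
    have h3 : x ∈ K.ψ.target := K.tgt ▸ K.mem_src.1 (hT (x := (Classical.arbitrary _, K.tm x)) (by
      have : 0 < pm s * (K.tm x - pm s * T) := hx
      rw [e2] at this
      exact sub_pos.1 this)).1.1
    exact ⟨⟨h3, trivial⟩, lt_of_lt_of_eq hx (congrArg (pm s * ·) (h2 x h3).symm)⟩
  · exact (congrArg (· - _) (K.tm_ψ _ hx.1.2)).trans (add_sub_cancel_right _ _)
  · have h3 := df_lit (r := fun _ => (e i).eps) (r' := wt P) (K.sh_lit (pm s * T)) hP.bg hx.1
      (hT (h1 x hx.2)).1.2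
    rw [← de_d (hP.en i)] at h3
    dsimp only
    exact h3

omit hP [DecidableEq κ]
variable (κ lam ν) in
/-- **D-CONV** -/
theorem dConv (hs : IxSym κ lam ν) : DConv κ lam ν := by
  classical
  refine ⟨de, fun e he => ⟨de_inv he (hs.cyo e he), id⟩, fun X nc N _ e P hP => ?_⟩
  choose K hK hI using fun p : P.NE => p.2
  choose T h0 k h1 h2 using fun p => ex_en hP (hK p) (hI p)
  refine ⟨_, k, ⟨dg_loc (pa hP.bg) (cb_wt P) (nok hP.bg), hP.con, fun p => de_ok (hP.en _),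
    fun p q hpq => ?_, fun R => ?_⟩, rfl, fun n _ h => dg_ix (pa hP.bg) (cb_wt P) ?_, dn_df hP.bg⟩
  · obtain ⟨⟨i, s⟩, hp⟩ := p
    obtain ⟨⟨j, s'⟩, hq⟩ := q
    by_cases hij : i = j
    · subst hij
      refine disjoint_left.2 fun x a b => ?_
      rw [En.tgt] at a b
      replace a := lt_of_lt_of_eq a (h2 ⟨_, hp⟩ x)
      replace b := lt_of_lt_of_eq b (h2 ⟨_, hq⟩ x)
      rw [Option.mem_unique (hK ⟨_, hq⟩) (hK ⟨_, hp⟩)] at b
      have := h0 ⟨_, hp⟩
      have := h0 ⟨_, hq⟩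
      cases s <;> cases s' <;> simp only [pm, ne_eq, not_true, if_true, Bool.false_eq_true,
        if_false] at hpq a b <;> linarith
    · exact (hP.dj hij _ (hK ⟨_, hp⟩) _ (hK ⟨_, hq⟩)).mono (h1 _) (h1 _)
  · obtain ⟨T', hT⟩ := Finite.exists_le T
    refine (hP.cpt (R + T')).of_isClosed_subset (by
      simp only [ofPred_forall]
      exact isClosed_iInter fun p => isClosed_le (continuous_const.mul (k p).cont) continuous_const)
      fun x hx i s K' hK' hs ⟨z, hz, e⟩ => ?_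
    have a := (h2 ⟨(i, s), K', hK', hs⟩ x).symm.trans_le (hx ⟨(i, s), K', hK', hs⟩)
    rw [Option.mem_unique (hK ⟨(i, s), K', hK', hs⟩) hK', ← e, K'.tm_ψ z (K'.mem_src.2 hz.2.1)] at a
    linarith [hT ⟨(i, s), K', hK', hs⟩, show R + T' < pm s * z.2 from hz.2.2]
  · rwa [Pz.I0, Pz.Ix, Pz.stH, st_eq hP] at h

end Crest.Agent.X212.Mp86.Cv
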