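import Crest.Agent.X212.Mp86.Lb
import Crest.Agent.X212.Ix82.Abs
import Crest.Agent.X212.Num57.Es

/-!
# Row 212, D-CS and D-BND (helper86): Chern-Simons terms of the ends, bounds of the densities
-/

set_option autoImplicit false
set_option linter.unusedSectionVars false
noncomputable section
open scoped Manifold ContDiff Topology InnerProductSpace
open MeasureTheory Set Filter

namespace Crest.Agent.X212.Mp86.En
open An Wz78 Sob92 Sw88 Cyf70 Nka63
open Sw (Bg F2 En3 Nk Pz BCs bp)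
open Sw.En3
open M (Mf pm)
open Nd18 (Jv Dp)
open Pb50 (src)
open Num57 (k1 fm1)

/-- closed one-forms are exact, in components -/
theorem ex_hz {n : ℕ} {Y : Mf n} {ι : Type} [Fintype ι] {F : Fr Y.I Y.M ι}
    (h : Dr59.HZ Y.I 1 (univ : Set Y.M)) {a : ι → Y.M → ℝ} (sm : ∀ k, Sm Y.I (a k))
    (pr : ∀ k y, ∑ j, F.P k j y * a j y = a k y) (cl : ∀ i j y, d1 Y.I F.e F.c a i j y = 0) :
    ∃ χ, Sm Y.I χ ∧ ∀ k y, a k y = F.D k χ y := by
  have e : k1 F (fm1 F a) = a := funext₂ fun k y => (Num57.k1_fm1 F a k y).trans (pr k y)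
  have d : Dr59.Dg 1 univ (fm1 F a) := fun y _ => Num57.deg_fm1 F a y
  obtain ⟨b, h1, h2, h3⟩ := (h _ ⟨fun y _ => Num57.smAt_fm1 F fun k => sm k y, d, fun y _ => by
    rw [← Num57.fm2_k2 F (d.dM isOpen_univ y trivial), Num57.fm2_apply]
    simp only [Num57.k2_dM_fm1 F fun k => sm k y, e]
    exact Finset.sum_eq_zero fun i _ => Finset.sum_eq_zero fun j _ => by
      rw [show F.D i (a j) y - F.D j (a i) y - ∑ k, F.c i j k y * a k y = 0 from cl i j y, mul_zero,
        zero_smul]⟩).deg (k := 0) d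
  have s : Sm Y.I fun y => R208.F.evA Y.E 0 (b y) ![] := fun y => Num57.sa_e0 (h1 y trivial)
  refine ⟨_, s, fun k y => ?_⟩
  rw [← Num57.k1_df, ← e, k1, k1, ← h3 y trivial, ← Dr59.dM_fn (SA.md (s y))]
  exact congrArg (fun b => Num57.e1 (Dr59.dM Y.I b y) _) (funext fun x =>
    (Dr59.eq_alg_of_deg (h2 x trivial)).trans (congrArg
      (fun v => algebraMap ℝ _ (R208.F.evA Y.E 0 (b x) v)) (Subsingleton.elim _ _)))

variable {κ lam ν : Type} [Fintype κ] [Fintype lam] [Fintype ν] [DecidableEq ν]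
  {X : Mf 4} {nc : ℕ} {c : Sw.Cfg X.M κ ν} {x : X.M}

section cs
variable {e : En3 κ lam ν} {v v' : e.YC}

/-- the Chern-Simons integral -/
def cj (v : e.YC) : ℝ := ∫ y, Jc e.cyl (fz v) none (y, 0) ∂e.D.F.μ

/-- flat connections -/
def Fl (v : e.YC) : Prop :=
  e.cyl.Adm (fz v) ∧ ∀ j k y, e.cyl.fc (fz v) (y, 0) (some j, some k) = 0

variable (e) in
/-- the dual of the reference curvature -/
def Gs (j k : Option κ) (x : e.Y.M × ℝ) : ℝ :=
  ∑ l, ∑ m, e.cyl.B.o j k l m x • e.cyl.fc ⟨0, 0⟩ x (l, m)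

theorem cj_eq (h : Fl v) : cj v = ∫ y, ∑ k, Gs e none (some k) (y, 0) * v.a k y ∂e.D.F.μ := by
  have k : ∀ y l m, e.cyl.fc (fz v) (y, 0) (l, m) = 0 := by
    rintro y (_ | l) (_ | m) <;> simp only [fc_none, h.2]
  simp only [cj, Jc, k, add_zero, Fintype.sum_option (f := fun k => _ * (fz v).a k _), Gs, smul_eq_mul]
  simp only [fz, Nd18.ca, mul_zero, zero_add]

variable (he : e.OK)
include he

theorem sm_Gs (j k : Option κ) : Sm (IC e.Y.I) (Gs e j k) := fun x => SA.sum _ fun _ _ =>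
  SA.sum _ fun _ _ => SA.smul (he.cyl.B.so _ _ _ _ x) (sm_fc he.cyl adm0 _ x)

theorem int_Gs {χ : e.Y.M → ℝ} (h : Sm e.Y.I χ) :
    ∫ y, ∑ k, Gs e none (some k) (y, 0) * e.D.F.D k χ y ∂e.D.F.μ = 0 := by
  have hb := he.cyl
  have s := fun k => sm_slice_fst (sm_Gs he (some k) none) 0
  have k := integral_dvg (F := e.D.F) (f := fun k y => χ y * Gs e (some k) none (y, 0))
    (fun k y => SA.mul (h y) (s k y)) fun _ => .of_compactSpace _
  refine .trans (integral_congr_ae (.of_forall fun y => ?_)) ((integral_neg _).trans (neg_eq_zero.2 k))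
  have h1 := Rdc90.dl_star (A := fun _ _ => 0) (lc_gam e.cyl.F) (frm _) (dv_gam hb.G.vol (y, 0))
    hb.B.so (hb.G.P ▸ Num57.vol_of_base hb.B) (fun l m => sm_fc hb adm0 (l, m) (y, 0))
    (fc_swap hb adm0) (fc_proj hb adm0) (fc_closed hb adm0) none
  have h2 : Gs e none none = fun _ => 0 := funext fun x => by simp [Gs, cyl_o, o_none he]
  have h3 : ∀ k, Gs e none (some k) (y, 0) = -Gs e (some k) none (y, 0) := fun k => by
    simp only [Gs, hb.B.o12 none, neg_smul, Finset.sum_neg_distrib]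
  change ∑ m, cP e.D.F.P none m (y, 0) • Rdc90.dl (IC e.Y.I) (ce e.D.F.e) (cc e.D.F.c)
    (Cyf70.cd e.D.F.dv) _ (Gs e) m _ = 0 at h1
  simp only [Fintype.sum_option, cP, one_mul, zero_mul, Finset.sum_const_zero, add_zero, Rdc90.dl,
    nab, h2, dv_const, Cyf70.cd, cc, smul_eq_mul, mul_zero, sub_zero, neg_eq_zero, zero_apply,
    fun k => dv_some (e := e.D.F.e) (SA.md (sm_Gs he (some k) none (y, 0))) k, zero_add] at h1
  have := congrArg (χ y * ·) h1
  simp only [Finset.mul_sum, mul_add, mul_zero, Finset.sum_add_distrib] at this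
  simp only [dvg, fun k => Wz78.dv_mul (e := e.D.F.e k) (h y) (s k y), h3, Pre.D_def, neg_mul,
    Finset.sum_neg_distrib, Finset.sum_add_distrib, mul_left_comm _ (χ y), add_assoc, this, add_zero,
    mul_comm (Gs e _ _ _)]

theorem cj_uq (hz : Dr59.HZ e.Y.I 1 (univ : Set e.Y.M)) (h : Fl v) (h' : Fl v') : cj v' = cj v := by
  have s : ∀ {v : e.YC}, Fl v → ∀ k, Sm e.Y.I (v.a k) := fun h k =>
    sm_slice_fst (h.1.sa (some k)) 0
  have p : ∀ {v : e.YC}, Fl v → ∀ k y, ∑ j, e.D.F.P k j y * v.a j y = v.a k y := fun h k y => by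
    simpa [cyl_P, cP, fz, Nd18.ca] using h.1.pa (some k) (y, 0)
  have d : ∀ {v : e.YC}, Fl v → ∀ i j y, d1 e.Y.I e.D.F.e e.D.F.c v.a i j y =
      -e.cyl.fc ⟨0, 0⟩ (y, 0) (some i, some j) := fun {v} h i j y => by
    have := fc_add he.cyl (fun i => h.1.sa i (y, 0)) (some i, some j)
    rw [h.2, d1] at this
    rw [Fintype.sum_option, show e.cyl.F.c (some i) (some j) none (y, 0) = 0 from rfl, zero_smul,
      zero_add] at this
    exact eq_neg_of_add_eq_zero_right (this.trans (congrArg₂ (fun a b => _ + (a - b - _))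
      (dv_some (SA.md (h.1.sa _ _)) i) (dv_some (SA.md (h.1.sa _ _)) j))).symm
  obtain ⟨χ, h1, h2⟩ := ex_hz (F := e.D.F) hz (a := fun k y => v'.a k y - v.a k y)
    (fun k => (s h' k).sub (s h k))
    (fun k y => by simp only [mul_sub, Finset.sum_sub_distrib, p h, p h']) fun i j y => by
      have := (d h' i j y).trans (d h i j y).symm
      simp only [d1, fun i j => dv_sub' (e := e.D.F.e i) (s h' j y) (s h j y), smul_sub,
        Finset.sum_sub_distrib] at this ⊢
      linarith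
  have i : ∀ {v : e.YC}, Fl v → Integrable (fun y => ∑ k, Gs e none (some k) (y, 0) * v.a k y)
      e.D.F.μ := fun h => itg (continuous_finsetSum _ fun k _ =>
    (cs0 (sm_Gs he _ _)).mul (s h k).continuous)
  rw [← sub_eq_zero, cj_eq h, cj_eq h', ← integral_sub (i h') (i h)]
  simpa only [← h2, mul_sub, Finset.sum_sub_distrib] using int_Gs he h1

end cs

variable {N : Type} [Fintype N] {e : N → En3 κ lam ν} {P : Pz X nc e}

variable (P) in
open Classical in
theorem ne_eq' (f : N → Bool → ℝ) : ∑ p : P.NE, f p.1.1 p.1.2 =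
    ∑ j : Ix P, ∑ s, if (kk j).Inf s then f j.1 s else 0 := by
  rw [← sum_kk P fun i K => ∑ s, if K.Inf s then f i s else 0, ← Finset.sum_subtype
    (Finset.univ.filter fun p : N × Bool => P.Inf p.1 p.2) (by simp) fun p => f p.1 p.2,
    Finset.sum_filter, Fintype.sum_prod_type]
  refine Finset.sum_congr rfl fun i _ => ?_
  cases h : P.nk i <;> simp [Pz.Inf, h]

section pc
variable (hP : P.OK)
include hP

open Classical in
/-- **the divergence theorem** for currents with constant flux through the far slices -/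
theorem div_far {U : Option κ → X.M → ℝ} (hU : ∀ i, Sm X.I (U i)) {v : Ix P → Bool → ℝ}
    (hv : ∀ (j : Ix P) s, (kk j).Inf s → ∀ᶠ t in lE s,
      (∀ y, dvg X.I P.bg.F.e P.bg.F.dv U ((kk j).ψ (y, t)) = 0) ∧
        ∫ y, U none ((kk j).ψ (y, t)) ∂(e j.1).D.F.μ = v j s) :
    ∫ x, dvg X.I P.bg.F.e P.bg.F.dv U x ∂P.bg.F.μ =
      ∑ j : Ix P, ∑ s, if (kk j).Inf s then pm s * v j s else 0 := by
  have hT := eventually_all.2 fun j => eventually_all.2 fun s => eventually_all.2 fun hs =>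
    ev_T ((ev_Dq hs 2).and (hv j s hs))
  obtain ⟨T, hT, T0⟩ := (hT.and (eventually_ge_atTop 0)).exists
  have T1 : 0 ≤ T + 1 := by linarith
  set u := fun j : Ix P => stp (T + 1) (kk j).Inf fun _ => 1
  have ne := fun j t (h : u j t ≠ 0) => (stp_ne h).imp fun s k =>
    And.intro k.1 (show T < pm s * t by linarith [k.2])
  have h0 : ∀ j, ∀ t ∉ Dp (kk j).p (kk j).q 2, u j t = 0 := fun j t ht => by_contra fun k =>
    let ⟨s, h1, h2⟩ := ne j t k
    ht (Dq_sub_Dp (hT j s h1 t h2).1)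
  have hk : HasCompactSupport (θu u) := .intro (hP.cpt (T + 2)) fun x hx => by
    refine by_contra fun n => hx fun i s => (all_kk P (p := fun _ K => K.Inf s →
      x ∉ K.ψ '' univ ×ˢ K.far s (T + 2))).2 (fun j hs ⟨z, hz, e⟩ => n ?_) i
    have k := (kk j).mem_src.2 hz.2.1
    rw [← e, θu_tgt hP h0 ((kk j).ψ.map_source k), (kk j).tm_ψ _ k, show u _ _ = _ from
      stp_far T1 (by linarith [show T + 2 < _ from hz.2.2]), if_pos hs, sub_self]
  have hu : ∀ j, ContDiff ℝ ∞ (u j) := fun _ => cd_stp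
  have D := fun j => D_tm (kk j) (hu j) (h0 j)
  have sθ : Sm X.I (θu u) := fun x => contMDiffAt_const.sub (SA.sum _ fun j _ => (D j).1 x)
  have s2 : ∀ j, tsupport (deriv (u j)) ⊆ (kk j).J := fun j =>
    tsupport_deriv_subset.trans ((closure_minimal (fun t (h : u j t ≠ 0) => by_contra fun k =>
      h (h0 j t k)) Nd18.isClosed_Dp).trans (Nd18.Dp_sub two_pos))
  have z := fun j t (h : t ∉ tsupport (deriv (u j))) => image_eq_zero_of_notMem_tsupport h
  have i2 : ∀ j, IntegrableOn (fun x => deriv (u j) ((kk j).tm x) * U none x)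
      ((kk j).tm ⁻¹' tsupport (deriv (u j))) P.bg.F.μ := fun j => by
    refine ContinuousOn.integrableOn_compact ?_ ((((hu j).continuous_deriv (by simp)).comp
      (kk j).cont).mul (hU none).continuous).continuousOn
    rw [← img_eq _ (s2 j)]
    exact (isCompact_univ.prod (hcs_stp T1)).image_of_continuousOn
      ((kk j).ψ.continuousOn.mono fun _ hz => (kk j).mem_src.2 (s2 j hz.2))
  have z' := fun j x (h : x ∉ (kk j).tm ⁻¹' tsupport (deriv (u j))) =>
    (congrArg (· * U none x) (z j _ h)).trans (zero_mul _)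
  have h1 : ∀ j, ∫ x, deriv (u j) ((kk j).tm x) * U none x ∂P.bg.F.μ =
      ∑ s, if (kk j).Inf s then pm s * v j s else 0 := fun j => by
    rw [← setIntegral_eq_integral_of_forall_compl_eq_zero (z' j), (slab (kk j)
      (u := fun t => deriv (u j) t * ∫ y, U none ((kk j).ψ (y, t)) ∂(e j.1).D.F.μ)
      (isClosed_tsupport _).measurableSet (s2 j) (i2 j) fun t ht => by
        simp only [(kk j).tm_ψ _ (src _ (s2 j ht) _), integral_const_mul]).2,
      setIntegral_eq_integral_of_forall_compl_eq_zero fun t ht => by rw [z j t ht, zero_mul],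
      integral_congr_ae (g := deriv (stp (T + 1) (kk j).Inf (v j))) (.of_forall fun t => ?_),
      int_der cd_stp (hcs_stp T1) fun s => (ev_pm s (T + 1 + 1)).mono fun t ht => stp_far T1 ht.le]
    · simp only [mul_ite, mul_zero]
    simp only [u, deriv_stp, Finset.sum_mul]
    refine Finset.sum_congr rfl fun s _ => ?_
    split_ifs with hs
    swap; · exact zero_mul _
    by_cases k : bp (pm s * t - (T + 1)) = 0
    · simp [k]
    · rw [one_mul, mul_comm,
        (hT j s hs t (by linarith [(of_not_not (mt Pb50.bp_zero k)).1])).2.2]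
  have h2 : ∀ x, dvg X.I P.bg.F.e P.bg.F.dv (fun i x => θu u x * U i x) x =
      θu u x * dvg X.I P.bg.F.e P.bg.F.dv U x - ∑ j, deriv (u j) ((kk j).tm x) * U none x :=
    fun x => by
    have h : ∀ a, dv X.I (P.bg.F.e a) (θu u) x = 0 - ∑ j, P.bg.F.D a (fun x => u j ((kk j).tm x)) x :=
      fun a => (dv_sub' contMDiffAt_const (SA.sum _ fun j _ => (D j).1 x)).trans (congrArg₂ _
        (by rw [dv_const]) (dv_sum' _ fun j => (D j).1 x))
    simp only [dvg, fun i => Wz78.dv_mul (e := P.bg.F.e i) (sθ x) (hU i x), h, zero_sub, neg_mul,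
      Finset.sum_mul, ← fun j => (D j).2 x fun a => U a x, Finset.mul_sum]
    rw [Finset.sum_comm, ← Finset.sum_sub_distrib]
    exact Finset.sum_congr rfl fun _ _ => by ring
  have h3 := integral_dvg (F := P.bg.F) (f := fun i x => θu u x * U i x)
    (fun i x => SA.mul (sθ x) (hU i x)) fun _ => hk.mul_right
  have i3 := fun j => (i2 j).integrable_of_forall_notMem_eq_zero (z' j)
  simp only [h2] at h3
  rw [integral_sub (by exact (sθ.continuous.mul (sm_dvg hU).continuous)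
    |>.integrable_of_hasCompactSupport hk.mul_right) (integrable_finsetSum _ fun j _ => i3 j),
    integral_finsetSum _ fun j _ => i3 j, sub_eq_zero] at h3
  simp only [h1] at h3
  refine .trans (integral_congr_ae (.of_forall fun x => ?_)) h3
  by_cases k : θu u x = 1
  · simp only [k, one_mul]
  obtain ⟨j, hj⟩ := θu_ne k
  obtain ⟨s, h1, h2⟩ := ne j _ hj
  obtain ⟨⟨y, t⟩, ht, rfl⟩ := (img_deep (kk j) zero_le_two).symm.subset (hT j s h1 _ h2).1
  rw [(kk j).tm_ψ _ (src _ (Dq_sub zero_le_two ht.2) y)] at h2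
  simp only [(hT j s h1 _ h2).2.1 y, mul_zero]

theorem int_thick {f : X.M → ℝ} (h : Continuous f)
    (h0 : ∀ j : Ix P, ∀ x ∈ (kk j).ψ.target, f x = 0) :
    Integrable f P.bg.F.μ ∧ ∫ x, f x ∂P.bg.F.μ = ∫ x in P.thick 3, f x ∂P.bg.F.μ := by
  have z : ∀ x ∉ P.thick 3, f x = 0 := fun x hx =>
    let ⟨j, hj⟩ := not_forall_not.1 (mt (mem_thick P three_pos.le).2 hx)
    h0 j x (O_sub _ three_pos.le hj)
  exact ⟨h.integrable_of_hasCompactSupport (.intro (cpt_thick hP three_pos.le) z),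
    (setIntegral_eq_integral_of_forall_compl_eq_zero z).symm⟩

end pc

variable (κ lam ν) in
/-- **D-CS** -/
theorem dCs : Sw.DCs κ lam ν := by
  refine ⟨fun e => 2 * cj (@Classical.epsilon _ ⟨sl (e := e) ⟨0, 0⟩ 0⟩ Fl),
    fun X nc N _ e P hP hq c hc hx => ?_⟩
  have hb := hP.bg
  obtain ⟨β, h1, h2, h3⟩ := (hx.smul (1 / 2)).deg (k := 1)
    ((hc.cl.dg.sub fun x _ => Num57.deg_fm2 _ _ x).smul _)
  set A : Sw.Cfg X.M κ ν := ⟨k1 P.bg.F β, 0⟩
  have hA : P.bg.Adm A := ⟨fun i x => Num57.sa_k1 _ (h1 x trivial) i, contMDiff_const,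
    fun i x => hb.G.P ▸ Num57.k1_P _ β i x, fun _ => map_zero _⟩
  have h4 : ∀ i j x, Num57.k2 P.bg.F c i j x = 2 * P.bg.fc A x (i, j) := fun i j x => by
    have a1 := Num57.k2_dM P.bg.F (h1 x trivial) (.of_forall fun y => h2 y trivial) i j
    have a2 := Num57.k2_fm2 P.bg.F (β := fun i j x => 2 * P.bg.fc ⟨0, 0⟩ x (i, j)) (x := x)
      (fun a b => by rw [fc_swap hb adm0, mul_neg])
      (fun a b => by simp only [mul_left_comm _ (2 : ℝ), ← Finset.mul_sum]
                     exact congrArg _ (fc_proj hb adm0 a b)) i j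
    rw [Num57.k2, h3 x trivial, Pi.smul_apply, Num57.e2_smul, Pi.sub_apply, Num57.e2_sub] at a1
    rw [fc_add hb fun i => hA.sa i x, show d1 _ _ _ _ _ _ _ = _ from a1.symm, mul_add, ← a2]
    simp only [Num57.k2, Bg.cf]
    ring
  have z : ∀ x ∉ tsupport c, ∀ s, P.bg.fc A x s = 0 := fun x hx s => by
    have := h4 s.1 s.2 x
    rw [Num57.k2, image_eq_zero_of_notMem_tsupport hx, Num57.e2_zero] at this
    linarith
  have z' : ∀ x ∉ tsupport c, P.bg.kd A x = 0 := fun x hx => by simp [kd_eq, z x hx]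
  have h5 := div_far hP (sm_Jc hb hA)
    (v := fun j _ => cj (@Classical.epsilon _ ⟨sl (e := e j.1) ⟨0, 0⟩ 0⟩ Fl)) fun j s hs => by
    obtain ⟨T, hT⟩ := hc.hc.exists_bound_of_continuousOn (kk j).cont.continuousOn
    filter_upwards [ev_Dq hs 0, ev_pm s T] with t ht ht'
    have hJ : t ∈ (kk j).J := Dq_sub le_rfl ht
    have n : ∀ y, (kk j).ψ (y, t) ∉ tsupport c := fun y k => by
      have := hT _ k
      rw [(kk j).tm_ψ _ (src _ hJ y), Real.norm_eq_abs, abs_le] at this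
      cases s <;> simp [pm] at ht' <;> linarith [this.1, this.2]
    have ad := Pb50.admOn_pb (kk j) hA
    have f := fun y => fc_sl (hP.en _) fun i => at_a Nd18.isOpen_Jv ad hJ i y
    have f' : ∀ y s, (e j.1).cyl.fc ((kk j).pb A) (y, t) s = 0 := fun y s => by
      rw [← Pb50.fc_ψ _ (src _ hJ y), z _ (n y)]
    have fl : Fl (sl ((kk j).pb A) t) := ⟨adm_sl ad hJ, fun i k y => (f y i k).symm.trans (f' y _)⟩
    refine ⟨fun y => ?_, ?_⟩
    · have := kd_sub hb hA (x := (kk j).ψ (y, t))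
      rwa [z' _ (n y), kd_tgt _ (hP.en _) ((kk j).ψ.map_source (src _ hJ y)), zero_add,
        eq_comm] at this
    · rw [cj_uq (hP.en _) (hq ⟨(j.1, s), _, kk_mem j, hs⟩).1 fl (Classical.epsilon_spec ⟨_, fl⟩),
        cj_eq fl]
      refine integral_congr_ae (.of_forall fun y => ?_)
      have f0 := fc_sl (hP.en j.1) (c := ⟨0, 0⟩) (y := y) (t := t) fun _ => contMDiffAt_const
      have n0 := fun i x => fc_none (e := e j.1) (v := sl ⟨0, 0⟩ 0) i x
      rw [fz0] at f0 n0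
      simp only [Jc, Pb50.fc_ψ _ (src _ hJ y), f', add_zero, (kk j).o _ _ _ _ _ (src _ hJ y),
        show (kk j).pb ⟨0, 0⟩ = ⟨0, 0⟩ from rfl, Fintype.sum_option, n0, f0, Gs, smul_eq_mul]
      simp [cyl_o, o_none (hP.en j.1), Nd18.YD.B, sl, Sw.Cfg.pb]
  simp only [funext fun x => (eq_sub_of_add_eq' (kd_sub hb hA (x := x)).symm)] at h5
  rw [integral_sub ((cont_kd hb hA).integrable_of_hasCompactSupport (.intro hc.hc z'))
    (int_thick hP (cont_kd hb adm0) fun j x => kd_tgt _ (hP.en _)).1] at h5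
  rw [Dr59.ip, Bg.ov, Abel74.integ_mul (.of_base X.dim hb.B hb.G) hc.cl.dg,
    ne_eq' P fun i s => pm s * (2 * cj (@Classical.epsilon _ ⟨sl (e := e i) ⟨0, 0⟩ 0⟩ Fl)), Bg.k2,
    eq_sub_of_add_eq' (eq_add_of_sub_eq h5).symm]
  simp only [mul_left_comm _ (2 : ℝ), mul_sub, Finset.mul_sum, mul_ite, mul_zero, sub_add_cancel,
    ← integral_const_mul, kd_eq, h4, Fintype.sum_prod_type, Base.st]
  refine integral_congr_ae (.of_forall fun x => ?_)
  exact Finset.sum_congr rfl fun _ _ => Finset.sum_congr rfl fun _ _ =>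
    Finset.sum_congr rfl fun _ _ => Finset.sum_congr rfl fun _ _ => by ring

section ub
variable (ι : Type) [Fintype ι] (C : ℕ → ℝ)

/-- tame oriented frames -/
structure TS : Type 1 where
  X : Mf 4
  F : Fr X.I X.M ι
  o : ι → ι → ι → ι → X.M → ℝ
  hF : F.Tame C
  ho : Num57.OK F o

variable {ι C} {k : ℕ} {f g : ∀ s : TS ι C, s.X.M → ℝ}

/-- uniform bounds -/
def UC (k : ℕ) (f : ∀ s : TS ι C, s.X.M → ℝ) : Prop := ∃ K, ∀ s, Sm s.X.I (f s) ∧ s.F.CB k (f s) K

theorem UC.add (h : UC k f) (h' : UC k g) : UC k fun s x => f s x + g s x :=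
  let ⟨_, h⟩ := h; let ⟨_, h'⟩ := h'
  ⟨_, fun s => ⟨(h s).1.add (h' s).1, CB_add (h s).1 (h' s).1 (h s).2 (h' s).2⟩⟩

theorem UC.mul (h : UC k f) (h' : UC k g) : UC k fun s x => f s x * g s x :=
  let ⟨_, h⟩ := h; let ⟨_, h'⟩ := h'
  ⟨_, fun s => ⟨fun x => SA.mul ((h s).1 x) ((h' s).1 x),
    CB_bil (ContinuousLinearMap.mul ℝ ℝ) (h s).1 (h' s).1 (h s).2 (h' s).2⟩⟩

theorem uc_const (r : ℝ) : UC (ι := ι) (C := C) k fun _ _ => r :=
  ⟨_, fun _ => ⟨contMDiff_const, CB_const k r⟩⟩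

theorem UC.neg (h : UC k f) : UC k fun s x => -f s x := by simpa using (uc_const (-1)).mul h

theorem UC.sub (h : UC k f) (h' : UC k g) : UC k fun s x => f s x - g s x := by
  simpa only [sub_eq_add_neg] using h.add h'.neg

theorem UC.div (h : UC k f) (r : ℝ) : UC k fun s x => f s x / r := h.mul (uc_const r⁻¹)

theorem uc_sum {α : Type} [Fintype α] {f : α → ∀ s : TS ι C, s.X.M → ℝ} (h : ∀ a, UC k (f a)) :
    UC k fun s x => ∑ a, f a s x := by
  choose K h using h
  exact ⟨_, fun s => ⟨fun x => SA.sum _ fun a _ => (h a s).1 x,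
    CB_sum _ (fun a _ => (h a s).1) fun a _ => (h a s).2⟩⟩

theorem UC.D (h : UC (k + 1) f) (a : ι) : UC k fun s => s.F.D a (f s) :=
  h.imp fun _ h s => ⟨s.F.sm_D (h s).1 a, CB_D (h s).2 a⟩

theorem UC.le (h : UC (k + 1) f) : UC k f := h.imp fun _ h s => ⟨(h s).1, CB_of_le (h s).2 k.le_succ⟩

theorem uc_o (a b c d : ι) : UC 0 fun s : TS ι C => s.o a b c d :=
  ⟨5, fun s => ⟨s.ho.sm a b c d, CB_zero.2 fun x => abs_le_of_sq_le_sq (by
    have := (s.ho.vo x).nm
    rw [← Fintype.sum_prod_type', ← Fintype.sum_prod_type' (f := fun (p : ι × ι) c => ∑ d, _),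
      ← Fintype.sum_prod_type' (f := fun (p : (ι × ι) × ι) d => _)] at this
    linarith [(Finset.single_le_sum (fun _ _ => sq_nonneg _)
      (Finset.mem_univ (((a, b), c), d))).trans_eq this]) (by norm_num)⟩⟩

theorem uc_Om (i a b : ι) : UC 1 fun (s : TS ι C) x => Idg99.Om s.F.P s.F.Gam i x a b :=
  have G : ∀ a b, UC 1 fun s : TS ι C => s.F.Gam i a b := fun a b =>
    ⟨_, fun s => ⟨fun x => (lc_gam s.F).sm i a b x, cb_Gam s.hF 1 i a b⟩⟩
  ((G a b).neg.add (G b a)).add (uc_sum fun l =>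
    UC.mul ⟨_, fun s => ⟨(s.hF.P a l).1, (s.hF.P a l).2 1⟩⟩ (G l b))

theorem uc_cwm {α : Type} [Fintype α] [DecidableEq α] {S : ∀ s : TS ι C, s.X.M → Matrix α α ℝ}
    {Ω : ∀ s : TS ι C, ι → s.X.M → Matrix α α ℝ} (hS : ∀ a b, UC 0 fun s x => S s x a b)
    (hΩ : ∀ i a b, UC 1 fun s x => Ω s i x a b) : UC 0 fun s x => Idg99.cwm
      (fun a b c d => s.o a b c d x) (S s x) fun a b => Idg99.cm s.X.I s.F.e s.F.c (Ω s) a b x := by
  have R : ∀ i j a b, UC 0 fun s x => Idg99.cm s.X.I s.F.e s.F.c (Ω s) i j x a b := fun i j a b => by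
    simp only [Idg99.cm, Matrix.sub_apply, Matrix.add_apply, Matrix.sum_apply, Matrix.smul_apply]
    exact ((((hΩ j a b).D i).sub ((hΩ i a b).D j)).add ((uc_sum fun l => (hΩ i a l).le.mul
      (hΩ j l b).le).sub (uc_sum fun l => (hΩ j a l).le.mul (hΩ i l b).le))).sub (uc_sum fun l =>
        UC.mul ⟨_, fun s => ⟨(s.hF.c i j l).1, (s.hF.c i j l).2 0⟩⟩ (hΩ l a b).le)
  exact uc_sum fun a => uc_sum fun b => uc_sum fun c => uc_sum fun d => (uc_o a b c d).mul
    (uc_sum fun i => uc_sum fun j => (uc_sum fun l => (hS i l).mul (R a b l j)).mul (R c d j i))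

theorem uc_eud : UC 0 fun s : TS ι C => Idg99.eud s.F s.o := by
  classical
  simp only [Num57.eud99, funext (Num57.eud_eq _ _)]
  exact (uc_const _).mul (uc_cwm (fun a b => (uc_o a.1 a.2 b.1 b.2).div 2) fun i a b =>
    ((uc_Om i a.1 b.1).mul (uc_const _)).add ((uc_const _).mul (uc_Om i a.2 b.2)))

theorem uc_sgd : UC 0 fun s : TS ι C => Idg99.sgd s.F s.o := by
  classical
  have := (uc_cwm (S := fun (s : TS ι C) => Idg99.Pm s.F.P)
    (fun a b => ⟨_, fun s => ⟨(s.hF.P a b).1, (s.hF.P a b).2 0⟩⟩) uc_Om).neg.div (96 * Real.pi ^ 2)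
  simp only [fun s : TS ι C => Idg99.cwm_Pm (lc_gam s.F) (frm s.F)] at this
  exact this

end ub

variable (κ lam ν) in
/-- **D-BND** -/
theorem dBnd : Sw.DBnd κ lam ν := fun C => by
  obtain ⟨K, hK⟩ := (uc_eud (ι := Option κ) (C := C))
  obtain ⟨K', hK'⟩ := (uc_sgd (ι := Option κ) (C := C))
  refine ⟨(|K| + |K'|) * |C 0|, fun X nc N _ e P hP => ?_⟩
  have ho := Num57.OK.of_base X.dim hP.bg.B hP.bg.G
  have z := fun (j : Ix P) x hx =>
    Num57.nk_zero (kk j).toNk ⟨(hP.en j.1).cyl.B, (hP.en j.1).cyl.G⟩ (z := x) hx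
  have h1 := int_thick hP (Idg99.sm_eud ho).continuous fun j x hx =>
    (congrFun (Num57.eud99 _ _) x).trans (z j x hx).2.1
  have h2 := int_thick hP (Idg99.sm_sgd ho).continuous fun j x hx =>
    (congrFun (Num57.sgd99 _ _) x).trans (z j x hx).1
  refine ⟨(int_thick hP (cont_kd hP.bg adm0) fun j x => kd_tgt _ (hP.en _)).1, h1.1, h2.1,
    fun hF hv => ?_⟩
  have b : ∀ {f : X.M → ℝ} {A : ℝ}, (∀ x, ‖f x‖ ≤ A) → |A| ≤ |K| + |K'| →
      |∫ x in P.thick 3, f x ∂P.bg.F.μ| ≤ (|K| + |K'|) * |C 0| := fun h h' =>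
    (norm_setIntegral_le_of_norm_le_const (hv.trans_lt ENNReal.ofReal_lt_top) fun x _ =>
      (h x).trans ((le_abs_self _).trans h')).trans (mul_le_mul_of_nonneg_left
        (ENNReal.toReal_le_of_le_ofReal (abs_nonneg _)
          (hv.trans (ENNReal.ofReal_le_ofReal (le_abs_self _)))) (by positivity))
  rw [h1.2, h2.2]
  exact ⟨b (CB_bound (hK ⟨X, _, _, hF, ho⟩).2) (le_add_of_nonneg_right (abs_nonneg _)),
    b (CB_bound (hK' ⟨X, _, _, hF, ho⟩).2) (le_add_of_nonneg_left (abs_nonneg _))⟩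

end Crest.Agent.X212.Mp86.En
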