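import Crest.Agent.X212.Mp86.En2
import Crest.Agent.X212.Sep15.Mono
import Crest.Agent.X212.Nka63.B

/-!
# Row 212, SW-EN (helper86), part 4: estimates on the slices of a cylinder
-/

set_option autoImplicit false
set_option linter.unusedSectionVars false
noncomputable section
open scoped Manifold ContDiff Topology InnerProductSpace
open MeasureTheory Finset Filter

namespace Crest.Agent.X212.Mp86.En
open An Wz78 Sob92 Sw88 Cyf70
open Sw (Bg F2 En3)
open Sw.En3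

variable {κ lam ν : Type} [Fintype κ] [Fintype lam] [Fintype ν] [DecidableEq ν]
  {e : En3 κ lam ν} {c : e.ZC} {v : e.YC} {y : e.Y.M} {t : ℝ} {J : Set ℝ}

/-- the error term of the curvature equation -/
def tY (c : e.ZC) (z : e.Y.M × ℝ) : F2 κ := e.cyl.eC c z + deriv e.f (hol (sl c z.2)) • e.ζ z.1

/-- its square on a slice -/
def Ts (c : e.ZC) (t : ℝ) : ℝ := ∫ y, ‖tY c (y, t)‖ ^ 2 ∂e.D.F.μ

/-- the energy of a slice -/
def es (c : e.ZC) (t : ℝ) : ℝ := ∫ y, Ed e.cyl c (y, t) ∂e.D.F.μ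

/-- the flux through a slice -/
def Us (c : e.ZC) (t : ℝ) : ℝ := ∫ y, Uc e.cyl c none (y, t) ∂e.D.F.μ

/-- the Dirac equation on a slice -/
def Dq0 (c : e.ZC) (t : ℝ) : Prop :=
  ∀ y, e.cyl.eD c (y, t) = e.b (nm (sl c t)) • e.m.ρ none y (c.Φ (y, t))

theorem Ts_nonneg : 0 ≤ Ts c t := integral_nonneg fun _ => sq_nonneg _

theorem abs_int {f g : e.Y.M → ℝ} (hg : Integrable g e.D.F.μ) (h : ∀ y, |f y| ≤ g y) :
    |∫ y, f y ∂e.D.F.μ| ≤ ∫ y, g y ∂e.D.F.μ :=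
  norm_integral_le_of_norm_le (f := f) hg (.of_forall h)

theorem p2_inv (y : e.Y.M) (s : ℝ) : e.cyl.p2 (y, s) = e.cyl.p2 (y, 0) := by
  have h : ∀ a b, e.cyl.B.P a b (y, s) = e.cyl.B.P a b (y, 0) := fun a b => by
    cases a <;> cases b <;> rfl
  refine congrArg (idx · _) (funext₂ fun a b => ?_)
  simp only [Base.sd, Base.a2, h]
  rfl

theorem wb_le {C : ℝ} (hN : e.Nb C) (r : ℝ) : e.w * e.b r ≤ 1 := by
  nlinarith [hN.wb r, hN.w0, hN.w1, sq_nonneg (e.b r - 1), mul_nonneg hN.w0.le (sq_nonneg (e.b r - 1))]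

variable (he : e.OK)
include he

theorem es_nonneg : 0 ≤ es c t := integral_nonneg fun _ => Ed_nonneg he.cyl _ _

theorem norm_p (u : Eu ν) : ‖e.m.p y u‖ ≤ ‖u‖ := by
  have P := p8 he.cyl (y, 0)
  have h : ⟪e.m.p y u, e.m.p y u⟫_ℝ = ⟪u, e.m.p y u⟫_ℝ :=
    (P.ps u _).trans (congrArg (⟪u, ·⟫_ℝ) (congrArg (· u) P.p_p))
  rw [real_inner_self_eq_norm_sq] at h
  nlinarith [real_inner_le_norm u (e.m.p y u), norm_nonneg u, norm_nonneg (e.m.p y u)]

theorem ρ_sk (u u' : Eu ν) : ⟪e.m.ρ none y u, u'⟫_ℝ = -⟪u, e.m.ρ none y u'⟫_ℝ :=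
  (p8 he.cyl (y, 0)).ρs none u u'

theorem norm_ρ (u : Eu ν) : ‖e.m.ρ none y u‖ ≤ ‖u‖ := by
  have h := ρ_sk he (y := y) u (e.m.ρ none y u)
  rw [real_inner_self_eq_norm_sq, ρρ he, inner_neg_right, neg_neg] at h
  refine (abs_le_of_sq_le_sq' ?_ (norm_nonneg u)).2
  nlinarith [real_inner_le_norm u (e.m.p y u), norm_nonneg u, norm_p he (y := y) u]

theorem wB_le {C : ℝ} (hN : e.Nb C) {n : ℝ} (hn : 0 ≤ n) :
    |e.w * ∫ s in (0 : ℝ)..n, e.b s| ≤ 1 := by
  have i : ∀ a b, IntervalIntegrable (fun s => e.w * e.b s) volume a b := fun a b =>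
    (he.sb.continuous.const_smul e.w).intervalIntegrable a b
  have k : ∀ m ∈ Set.Icc (0 : ℝ) 1, ‖∫ s in (0 : ℝ)..m, e.w * e.b s‖ ≤ 1 := fun m hm =>
    (intervalIntegral.norm_integral_le_of_norm_le_const (C := 1) fun s _ => by
      rw [Real.norm_of_nonneg (mul_nonneg hN.w0.le (he.b0 s))]; exact wb_le hN s).trans
      (by rw [sub_zero, abs_of_nonneg hm.1, one_mul]; exact hm.2)
  rw [← intervalIntegral.integral_const_mul]
  rcases le_total n 1 with h | h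
  · exact k n ⟨hn, h⟩
  · have := intervalIntegral.integral_add_adjacent_intervals (i 0 1) (i 1 n)
    rw [intervalIntegral.integral_congr (a := 1) (b := n) (g := fun _ => 0) fun s hs => by
      simp [he.b1 s (by rw [Set.uIcc_of_le h] at hs; exact hs.1)]] at this
    rw [← this, intervalIntegral.integral_zero, add_zero]
    exact k 1 ⟨zero_le_one, le_rfl⟩

theorem rad_le {C : ℝ} (hN : e.Nb C) (v : e.YC) : e.w * e.b (nm v) ^ 2 * nm v ≤ 1 := by
  rcases le_total (nm v) 1 with h | h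
  · exact mul_le_one₀ (hN.wb _) (nm_nonneg v) h
  · simp [he.b1 _ h]

variable (hJ : IsOpen J) (h : e.cyl.AdmOn c (Set.univ ×ˢ J)) (ht : t ∈ J)
include hJ h ht

omit he in
theorem at_a (i : Option κ) (y : e.Y.M) : SA (IC e.Y.I) (c.a i) (y, t) :=
  (h.sa i).contMDiffAt ((isOpen_univ.prod hJ).mem_nhds ⟨trivial, ht⟩)

omit he in
theorem at_Φ (y : e.Y.M) : SA (IC e.Y.I) c.Φ (y, t) :=
  h.sΦ.contMDiffAt ((isOpen_univ.prod hJ).mem_nhds ⟨trivial, ht⟩)

omit he hJ h ht in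
theorem c_sl {N : Type} [NormedAddCommGroup N] [NormedSpace ℝ N] {g : e.Y.M × ℝ → N}
    (hg : ∀ y, SA (IC e.Y.I) g (y, t)) : Continuous fun y => g (y, t) :=
  continuous_iff_continuousAt.2 fun y => (hg y).continuousAt.comp (f := fun y => (y, t))
    (by fun_prop)

theorem pΦ (y : e.Y.M) : e.m.p y (c.Φ (y, t)) = c.Φ (y, t) :=
  p_of he.cyl (h.pΦ (y, t) ⟨trivial, ht⟩)

theorem gr_Φ (hD : Dq0 c t) (y : e.Y.M) : (gr (sl c t)).Φ y = -e.m.p y (nb c none (y, t)) := by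
  have := congrArg (e.m.ρ none y) ((hD y).symm.trans (eD_sl (at_Φ hJ h ht y)))
  rw [map_add, map_smul, ρρ he, ρρ he, pΦ he hJ h ht] at this
  change -e.m.ρ none y _ - _ • c.Φ (y, t) = _
  linear_combination (norm := module) this

theorem gr_a (k : κ) (y : e.Y.M) : (gr (sl c t)).a k y = 2 * (tY c (y, t) - e.cyl.p2 (y, 0)
    (e.cyl.fc c (y, t) - e.cyl.fc (fz (sl c t)) (y, 0))) (none, some k) := by
  simp only [gr, tY, Bg.eC, p2_inv y t, map_sub]
  refine congrArg (fun η : F2 κ => 2 * η (none, some k)) ?_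
  change _ - e.cyl.p2 _ (e.cyl.w • e.cyl.qd (y, t) (c.Φ (y, t)) (c.Φ (y, t))) - e.cyl.om (y, t) + _ = _
  abel

theorem fc_le (y : e.Y.M) : ‖e.cyl.fc (fz (sl c t)) (y, 0)‖ ≤ ‖e.cyl.fc c (y, t)‖ ∧
    ‖e.cyl.fc c (y, t) - e.cyl.fc (fz (sl c t)) (y, 0)‖ ≤ ‖e.cyl.fc c (y, t)‖ := by
  have k := fc_sl he fun i => at_a hJ h ht i y
  refine ⟨norm_le_of ?_, norm_le_of ?_⟩ <;> rintro ⟨_ | i, _ | j⟩ <;>
    simp [fc_none, k]

theorem c_tY : Continuous fun y => tY c (y, t) :=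
  (c_sl fun y => Sep15.S.sa_eC he.cyl (fun i => at_a hJ h ht i y) (at_Φ hJ h ht y)).add
    (he.sζ.continuous.const_smul (deriv e.f (hol (sl c t))))

theorem i_tY : Integrable (fun y => ‖tY c (y, t)‖ ^ 2) e.D.F.μ :=
  itg ((c_tY he hJ h ht).norm.pow 2)

theorem sa_Ed (y : e.Y.M) : SA (IC e.Y.I) (Ed e.cyl c) (y, t) := by
  have n : ∀ {N : Type} [NormedAddCommGroup N] [InnerProductSpace ℝ N] {g : e.Y.M × ℝ → N},
      SA (IC e.Y.I) g (y, t) → SA (IC e.Y.I) (fun x => ‖g x‖ ^ 2) (y, t) := fun k =>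
    (contDiff_norm_sq ℝ).contMDiff.contMDiffAt.comp _ k
  have a := fun i => at_a hJ h ht i y
  have := n (at_Φ hJ h ht y)
  exact (((n (Sep15.S.sa_fc he.cyl a)).add (SA.mul contMDiffAt_const (SA.sum _ fun i _ =>
    n (Sep15.S.sa_nab he.cyl a (at_Φ hJ h ht y) i)))).add ((SA.mul (contMDiffAt_const (c := e.w ^ 2))
    (SA.mul this this)).div_const 8)).congr_of_eventuallyEq (.of_forall fun x => by
      simp only [Ed, cyl_w, Pi.add_apply]; ring)

theorem i_Ed : Integrable (fun y => Ed e.cyl c (y, t)) e.D.F.μ := itg (c_sl (sa_Ed he hJ h ht))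

/-- the gradient is bounded by the energy -/
theorem gn_le (hD : Dq0 c t) : gn (sl c t) ≤ 16 * (Ts c t + es c t) := by
  have i := i_tY he hJ h ht
  rw [Ts, es, ← integral_add i (i_Ed he hJ h ht), ← integral_const_mul]
  refine integral_mono (Sep15.S.integrable_gn he (adm_sl h ht))
    ((i.add (i_Ed he hJ h ht)).const_mul 16) fun y => ?_
  have w : 0 ≤ e.w := he.cyl.w
  have h1 := (fc_le he hJ h ht y).2
  have h3 := mul_le_mul_of_nonneg_left ((pow_le_pow_left₀ (norm_nonneg _)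
    (norm_p he (y := y) (nb c none (y, t))) 2).trans (single_le_sum
      (f := fun i => ‖nb c i (y, t)‖ ^ 2) (fun _ _ => sq_nonneg _) (mem_univ none))) w
  simp only [gr_a he hJ h ht, gr_Φ he hJ h ht hD, real_inner_self_eq_norm_sq, norm_neg, Ed, cyl_w,
    ← sq, mul_pow, ← mul_sum]
  generalize e.cyl.fc c (y, t) - _ = η at h1 ⊢
  have h2 := (sum_sq_le _).trans (pow_le_pow_left₀ (norm_nonneg _) ((norm_sub_le (tY c (y, t))
    _).trans (add_le_add_right ((Sw88.norm_p2 he.cyl (x := (y, 0)) η).trans h1) _)) 2)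
  have h4 : 0 ≤ e.w ^ 2 * ‖c.Φ (y, t)‖ ^ 4 := by positivity
  have h5 : 0 ≤ e.w * ∑ i, ‖nb c i (y, t)‖ ^ 2 := by positivity
  generalize ‖tY c (y, t)‖ = A, ‖e.cyl.fc c (y, t)‖ = B at h2 ⊢
  linarith [two_mul_le_add_sq A B, add_sq A B]

theorem ip_le : |ip (gr (sl c t)) ⟨fun k y => 2 * tY c (y, t) (none, some k), 0⟩| ≤
    gn (sl c t) / 2 + 4 * Ts c t := by
  have i := i_tY he hJ h ht
  have i' := (Sep15.S.integrable_gn he (adm_sl h ht)).div_const 2
  rw [Ts, gn, ip, ip, ← integral_const_mul, ← integral_div, ← integral_add i' (i.const_mul 4)]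
  refine abs_int (i'.add (i.const_mul 4)) fun y => ?_
  have h1 : 0 ≤ e.w * ⟪(gr (sl c t)).Φ y, (gr (sl c t)).Φ y⟫_ℝ :=
    mul_nonneg he.cyl.w real_inner_self_nonneg
  have h2 := fun r : ℝ => sum_nonneg fun k (_ : k ∈ univ) =>
    sq_nonneg ((gr (sl c t)).a k y + r * tY c (y, t) (none, some k))
  have h3 := sum_sq_le (tY c (y, t))
  simp only [add_sq, sum_add_distrib, mul_pow, mul_assoc, mul_left_comm ((gr (sl c t)).a _ y), ← mul_sum] at h2
  simp only [Pi.zero_apply, inner_zero_right, mul_zero, add_zero, abs_le,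
     mul_left_comm ((gr (sl c t)).a _ y), ← mul_sum, ← sq]
  constructor <;> linarith [h2 2, h2 (-2)]

theorem Uc_eq (y : e.Y.M) : Uc e.cyl c none (y, t) = -2 * dens (sl c t) y -
    8 * ∑ k, e.om y (none, some k) * (sl c t).a k y -
    e.w * ⟪e.m.ρ none y (e.cyl.ms (y, t) (c.Φ (y, t))), c.Φ (y, t)⟫_ℝ := by
  have h1 : dir _ e.cyl.F.e e.cyl.m.ρ (e.cyl.W c) c.Φ (y, t) = _ :=
    eq_sub_of_add_eq (eD_sl (at_Φ hJ h ht y))
  have h2 : ⟪e.m.p y (nb c none (y, t)), c.Φ (y, t)⟫_ℝ = ⟪nb c none (y, t), c.Φ (y, t)⟫_ℝ :=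
    ((p8 he.cyl (y, 0)).ps _ _).trans (congrArg _ (pΦ he hJ h ht y))
  have h3 := fc_sl he (c := ⟨0, 0⟩) (y := y) (t := t) fun _ => contMDiffAt_const
  have h4 := fun k => p2_none he (y := y) (t := 0) (η := e.cyl.fc ⟨0, 0⟩ (y, 0) +
    e.cyl.fc (fz (sl c t)) (y, 0)) (fun i => by
      have := fc_none (v := sl ⟨0, 0⟩ 0) i (y, 0)
      rw [fz0] at this
      simp [fc_none, this]) k
  rw [fz0] at h3
  simp only [Uc, Vc, Jc, h1, cyl_ρ, map_add, map_sub, ρρ he, inner_add_left, inner_sub_left,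
    inner_neg_left, h2, Fintype.sum_option, cyl_o, o_none he, zero_mul, sum_const_zero, zero_add,
    h3, fc_sl he fun i => at_a hJ h ht i y, dens, cyl_w]
  simp only [← PiLp.add_apply, ← h4, mul_assoc, ← mul_sum, ← map_add]
  change _ - 4 * ∑ k, _ * (sl c t).a k y = -2 * (_ - _ - _ * ⟪_, c.Φ (y, t)⟫_ℝ) - _ - _
  ring

/-- the flux is the level up to a small multiple of the energy -/
theorem Us_le {C δ η : ℝ} (hN : e.Nb C) (hm : ∀ y, ‖e.cyl.ms (y, t)‖ ≤ C) (hδ : 0 < δ)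
    (hη : η ∈ Set.Icc (0 : ℝ) 1) : η * |Us c t + 2 * L (sl c t)| ≤
      16 * C * δ * (η ^ 2 * es c t) + (12 * C + 1 + (2 * C + C ^ 2) / δ) := by
  have hv := adm_sl h ht
  have C0 : 0 ≤ C := (abs_nonneg _).trans (hN.f 0).1
  have w := hN.w0
  have cΦ := c_sl (at_Φ hJ h ht)
  have i1 := (itg (cont_dens he hv)).const_mul (-2)
  have i2 := (itg (continuous_finsetSum univ fun k _ =>
    (cmp (none, some k) (cont_om he)).mul (cont_a hv k))).const_mul 8
  have i3 := (itg (((cont_ρ he none).clm_apply ((c_sl fun y =>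
    he.cyl.cms.choose_spec.1 (y, t)).clm_apply cΦ)).inner cΦ)).const_mul e.w
  have e0 := es_nonneg he (c := c) (t := t)
  have h1 := hN.om _ hv
  have h2 : (e.D.F.nrm 0 fun y => e.cyl.fc (fz (sl c t)) (y, 0)) ^ 2 ≤ es c t := by
    refine (Real.sq_sqrt (integral_nonneg fun _ => real_inner_self_nonneg)).trans_le <|
      integral_mono_of_nonneg (.of_forall fun _ => real_inner_self_nonneg) (i_Ed he hJ h ht)
      (.of_forall fun y => ?_)
    simp only [real_inner_self_eq_norm_sq, Ed, cyl_w]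
    exact (pow_le_pow_left₀ (norm_nonneg _) (fc_le he hJ h ht y).1 2).trans
      (le_add_of_le_of_nonneg (le_add_of_nonneg_right (by positivity)) (by positivity))
  have h3 : η * |∫ y, e.w * ⟪e.m.ρ none y (e.cyl.ms (y, t) (c.Φ (y, t))), c.Φ (y, t)⟫_ℝ ∂e.D.F.μ| ≤
      8 * C * δ * η ^ 2 * es c t + C / δ * e.D.F.μ.real Set.univ := by
    rw [← abs_of_nonneg hη.1, ← abs_mul, sq_abs, ← integral_const_mul, es, ← integral_const_mul,
      mul_comm (C / δ), ← smul_eq_mul _ (C / δ), ← integral_const,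
      ← integral_add ((i_Ed he hJ h ht).const_mul _) (integrable_const _)]
    refine abs_int (((i_Ed he hJ h ht).const_mul _).add (integrable_const _)) fun y => ?_
    have k := (abs_real_inner_le_norm _ (c.Φ (y, t))).trans (mul_le_mul_of_nonneg_right
      ((norm_ρ he (y := y) _).trans ((e.cyl.ms (y, t)).le_of_opNorm_le (hm y) (c.Φ (y, t))))
      (norm_nonneg _))
    have k' : e.w ^ 2 * ‖c.Φ (y, t)‖ ^ 4 / 8 ≤ Ed e.cyl c (y, t) :=
      le_add_of_nonneg_left (by rw [cyl_w]; positivity)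
    rw [abs_mul, abs_mul, abs_of_nonneg hη.1, abs_of_pos w]
    refine (mul_le_mul_of_nonneg_left (mul_le_mul_of_nonneg_left k w.le) hη.1).trans
      (le_trans ?_ (add_le_add_left (mul_le_mul_of_nonneg_left k' (by positivity)) _))
    rw [← sub_le_iff_le_add', le_div_iff₀ hδ]
    nlinarith [mul_nonneg C0 (sq_nonneg (δ * η * e.w * ‖c.Φ (y, t)‖ ^ 2 - 1 / 2))]
  have h4 : e.D.F.μ.real Set.univ ≤ C := ENNReal.toReal_le_of_le_ofReal C0 hN.vol
  have h5 := wB_le he hN (nm_nonneg (sl c t))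
  have h6 : η * (C * e.D.F.nrm 0 fun y => e.cyl.fc (fz (sl c t)) (y, 0)) ≤
      C * δ * (η ^ 2 * es c t) + C / 4 / δ := by
    rw [← sub_le_iff_le_add', le_div_iff₀ hδ]
    nlinarith [mul_nonneg C0 (sq_nonneg (δ * η * e.D.F.nrm 0
      (fun y => e.cyl.fc (fz (sl c t)) (y, 0)) - 1 / 2)),
      mul_le_mul_of_nonneg_left h2 (show 0 ≤ C * δ ^ 2 * η ^ 2 by positivity)]
  have h7 := mul_le_mul_of_nonneg_left h4 (show 0 ≤ C / δ by positivity)
  simp only [Us, Uc_eq he hJ h ht, L_eq he hv]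
  rw [integral_sub (by exact i1.sub i2) i3, integral_sub i1 (by exact i2), integral_const_mul,
    integral_const_mul]
  set A := ∫ y, ∑ k, e.om y (none, some k) * (sl c t).a k y ∂e.D.F.μ
  set B := ∫ y, e.w * ⟪e.m.ρ none y (e.cyl.ms (y, t) (c.Φ (y, t))), c.Φ (y, t)⟫_ℝ ∂e.D.F.μ
  refine (mul_le_mul_of_nonneg_left (c := 8 * |A| + |B| + (4 * C + 1)) (abs_le.2 ?_) hη.1).trans ?_
  · constructor <;> linarith [abs_le.1 h5, abs_le.1 (hN.f 0).1, abs_le.1 (hN.f (hol (sl c t))).1,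
      le_abs_self A, neg_abs_le A, le_abs_self B, neg_abs_le B, (abs_le.1 h5).1, (abs_le.1 h5).2,
      (abs_le.1 (hN.f 0).1).1, (abs_le.1 (hN.f 0).1).2, (abs_le.1 (hN.f (hol (sl c t))).1).1,
      (abs_le.1 (hN.f (hol (sl c t))).1).2]
  · have := mul_le_mul_of_nonneg_left h1 hη.1
    have := mul_le_mul_of_nonneg_right hη.2 C0
    rw [show (2 * C + C ^ 2) / δ = 8 * (C / 4 / δ) + C / δ * C by ring]
    nlinarith [hη.2]

end Crest.Agent.X212.Mp86.En
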