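import Crest.Agent.X212.Mp86.Lop

/-!
# Row 212, layer AN (helper86): the squared distance function of a spanning frame, log barrier
-/

set_option autoImplicit false
open Set Filter Topology Module
open scoped Manifold ContDiff InnerProductSpace

noncomputable section

namespace Crest.Agent.X212.Mp86

theorem two_le : (2 : ℕ∞ω) ≤ ∞ := WithTop.coe_le_coe.2 (le_top (a := (2 : ℕ∞)))

/-- dual Parseval frame of a spanning family -/
theorem exists_dual {E : Type*} [NormedAddCommGroup E] [NormedSpace ℝ E] [FiniteDimensional ℝ E]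
    {ι : Type*} [Fintype ι] (w : ι → E) (hw : Submodule.span ℝ (range w) = ⊤) :
    ∃ S : E →L[ℝ] EuclideanSpace ℝ ι, Function.Injective S ∧
      (∀ a y, ⟪S (w a), S y⟫_ℝ = S y a) ∧ (∀ y, ∑ a, S y a • w a = y) ∧
      ∑ a, ‖S (w a)‖ ^ 2 = finrank ℝ E := by
  classical
  let T : EuclideanSpace ℝ ι →ₗ[ℝ] E :=
    (Fintype.linearCombination ℝ w).comp (WithLp.linearEquiv 2 ℝ (ι → ℝ)).toLinearMap
  have hT : ∀ c, T c = ∑ a, c a • w a := fun c => by
    simp [T, Fintype.linearCombination_apply]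
  have hTs : Function.Surjective T := by
    have : Function.Surjective (Fintype.linearCombination ℝ w) := by
      rw [← LinearMap.range_eq_top, Fintype.range_linearCombination, hw]
    exact this.comp (WithLp.linearEquiv 2 ℝ (ι → ℝ)).surjective
  let K : Submodule ℝ (EuclideanSpace ℝ ι) := (LinearMap.ker T)ᗮ
  have hP : ∀ c, T (K.starProjection c) = T c := fun c => by
    have h := K.sub_starProjection_mem_orthogonal c
    rw [Submodule.orthogonal_orthogonal, LinearMap.mem_ker, map_sub, sub_eq_zero] at h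
    exact h.symm
  have hb : Function.Bijective (T.domRestrict K) := by
    refine ⟨(injective_iff_map_eq_zero _).2 fun k hk => ?_, fun y => ?_⟩
    · have h1 : (k : EuclideanSpace ℝ ι) ∈ LinearMap.ker T := hk
      exact Subtype.ext (inner_self_eq_zero.1 (k.2 _ h1))
    · obtain ⟨c, rfl⟩ := hTs y
      exact ⟨⟨K.starProjection c, K.starProjection_apply_mem c⟩, hP c⟩
  let Φ : K ≃ₗ[ℝ] E := LinearEquiv.ofBijective _ hb
  have hΦ : ∀ k : K, Φ k = T k := fun _ => rfl
  let S : E →L[ℝ] EuclideanSpace ℝ ι :=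
    LinearMap.toContinuousLinearMap (K.subtype.comp Φ.symm.toLinearMap)
  have hS : ∀ y, S y = (Φ.symm y : K) := fun _ => rfl
  have hSw : ∀ a, S (w a) = K.starProjection (EuclideanSpace.single a 1) := fun a => by
    have : Φ ⟨_, K.starProjection_apply_mem (EuclideanSpace.single a 1)⟩ = w a := by
      rw [hΦ, hP, hT]; simp
    rw [hS, ← this, Φ.symm_apply_apply]
  have hin : ∀ a (k : K), ⟪S (w a), (k : EuclideanSpace ℝ ι)⟫_ℝ = k.1 a := fun a k => by
    rw [hSw, K.inner_starProjection_left_eq_right, Submodule.starProjection_eq_self_iff.2 k.2]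
    simp [EuclideanSpace.inner_single_left]
  refine ⟨S, fun y z h => Φ.symm.injective (Subtype.ext h), fun a y => hin a _, fun y => ?_, ?_⟩
  · rw [← hT, hS, ← hΦ, Φ.apply_symm_apply]
  · let B := stdOrthonormalBasis ℝ K
    have h1 : ∀ a, ‖S (w a)‖ ^ 2 = ∑ j, ((B j).1 a) ^ 2 := fun a => by
      have := B.sum_sq_norm_inner_left (Φ.symm (w a))
      rw [hS, ← Submodule.coe_norm, ← this]
      refine Finset.sum_congr rfl fun j _ => ?_
      rw [← hin, hS, Real.norm_eq_abs, sq_abs]; rfl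
    simp_rw [h1]
    rw [Finset.sum_comm]
    have h2 : ∀ j, ∑ a, ((B j).1 a) ^ 2 = 1 := fun j => by
      rw [← EuclideanSpace.real_norm_sq_eq, ← Submodule.coe_norm, B.orthonormal.1 j, one_pow]
    simp [h2, Φ.finrank_eq]

variable {E H M : Type*} [NormedAddCommGroup E] [NormedSpace ℝ E] [TopologicalSpace H]
  {I : ModelWithCorners ℝ E H} [TopologicalSpace M] [ChartedSpace H M] [IsManifold I ∞ M]
  {ι : Type*} [Fintype ι] {e : ι → Π x : M, TangentSpace I x} {b : ι → M → ℝ} {x₀ : M}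

theorem contAt_Lop {V : Type*} [NormedAddCommGroup V] [NormedSpace ℝ V] {u : M → V}
    (he : ∀ a, VF I 1 (e a) x₀) (hb : ∀ a, ContinuousAt (b a) x₀) (hu : CM I 2 u x₀) :
    ContinuousAt (Lop I e b u) x₀ := by
  refine tendsto_finsetSum _ fun a _ => ?_
  have h1 : CM I 1 (dv I (e a) u) x₀ := cm_dv hu (he a) (by norm_num)
  have h2 : CM I 0 (dv I (e a) (dv I (e a) u)) x₀ :=
    cm_dv h1 ((he a).of_le zero_le_one) (by norm_num)
  exact h2.continuousAt.add ((hb a).smul h1.continuousAt)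

/-- a squared distance function from `x₀` adapted to the frame -/
theorem exists_Q [FiniteDimensional ℝ E] (he : ∀ a, VF I 1 (e a) x₀)
    (hb : ∀ a, ContinuousAt (b a) x₀)
    (hs : Submodule.span ℝ (range fun a => (show E from e a x₀)) = ⊤) :
    ∃ Q : M → ℝ, (∀ᶠ y in 𝓝 x₀, CM I ∞ Q y) ∧ Q x₀ = 0 ∧ (∀ᶠ y in 𝓝[≠] x₀, 0 < Q y) ∧
      ∀ η > 0, ∀ᶠ y in 𝓝 x₀, |∑ a, dv I (e a) Q y ^ 2 - 4 * Q y| ≤ η * Q y ∧
        |Lop I e b Q y - 2 * finrank ℝ E| ≤ η := by
  obtain ⟨S, hS1, hS2, -, hS3⟩ := exists_dual _ hs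
  let φ := extChartAt I x₀
  let Y : M → EuclideanSpace ℝ ι := fun y => S (φ y - φ x₀)
  have hsrc : ∀ᶠ y in 𝓝 x₀, y ∈ (chartAt H x₀).source := chart_source_mem_nhds H x₀
  have hY : ∀ᶠ y in 𝓝 x₀, CM I ∞ Y y := hsrc.mono fun y hy =>
    S.contDiff.contDiffAt.comp_contMDiffAt ((contMDiffAt_extChartAt' hy).sub contMDiffAt_const)
  have hY0 : Y x₀ = 0 := by simp [Y]
  have hY2 : CM I 2 Y x₀ := hY.self_of_nhds.of_le two_le
  have hYa : ∀ a, dv I (e a) Y x₀ = S (e a x₀) := fun a => by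
    have h1 : MD I φ x₀ := mdifferentiableAt_extChartAt (mem_chart_source H x₀)
    rw [dv_clm S (u := fun y => φ y - φ x₀) (h1.sub mdifferentiableAt_const),
      dv_sub h1 mdifferentiableAt_const, dv_const, sub_zero]
    congr 1
    change mfderiv I 𝓘(ℝ, E) (extChartAt I x₀) x₀ (e a x₀) = _
    rw [mfderiv_extChartAt_self]; rfl
  refine ⟨fun y => ‖Y y‖ ^ 2, hY.mono fun y hy => cm_normSq hy, by simp [hY0], ?_, fun η hη => ?_⟩
  · filter_upwards [nhdsWithin_le_nhds hsrc, self_mem_nhdsWithin] with y hy (h0 : y ≠ x₀)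
    refine pow_pos (norm_pos_iff.2 fun h => h0 ?_) 2
    have h2 : φ y - φ x₀ = 0 := hS1 (h.trans (map_zero S).symm)
    exact φ.injOn (by simpa [φ] using hy) (mem_extChartAt_source x₀) (sub_eq_zero.1 h2)
  · refine Eventually.and ?_ ?_
    · have hc : Tendsto (fun y => 4 * ∑ a, (2 * ‖dv I (e a) Y y - S (e a x₀)‖ +
          ‖dv I (e a) Y y - S (e a x₀)‖ ^ 2)) (𝓝 x₀) (𝓝 (4 * ∑ _a : ι, (2 * 0 + 0 ^ 2))) := by
        refine (tendsto_finsetSum _ fun a _ => ?_).const_mul 4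
        have h1 := (cm_dv hY2 (he a) (m := 1) (by norm_num)).continuousAt.tendsto
        rw [hYa] at h1
        have h2 := tendsto_iff_norm_sub_tendsto_zero.1 h1
        exact (h2.const_mul 2).add (h2.pow 2)
      simp only [mul_zero, zero_add, ne_eq, OfNat.ofNat_ne_zero, not_false_eq_true, zero_pow,
        Finset.sum_const_zero] at hc
      filter_upwards [hc.eventually (gt_mem_nhds hη), hY] with y h1 h2
      have h3 := h2.md (by exact_mod_cast le_top)
      have h4 : ∀ a, dv I (e a) (fun y => ‖Y y‖ ^ 2) y =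
          2 * (Y y a + ⟪dv I (e a) Y y - S (e a x₀), Y y⟫_ℝ) := fun a => by
        have := dv_inner (v := e a) h3 h3
        simp only [real_inner_self_eq_norm_sq] at this
        rw [this, inner_sub_left, hS2 a (φ y - φ x₀), real_inner_comm (dv I (e a) Y y)]
        simp only [Y]; ring
      simp_rw [h4]
      refine le_trans ?_ (mul_le_mul_of_nonneg_right h1.le (by positivity))
      rw [EuclideanSpace.real_norm_sq_eq, Finset.mul_sum, ← Finset.sum_sub_distrib,
        ← EuclideanSpace.real_norm_sq_eq, Finset.mul_sum, Finset.sum_mul]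
      refine (Finset.abs_sum_le_sum_abs _ _).trans (Finset.sum_le_sum fun a _ => ?_)
      set r := ⟪dv I (e a) Y y - S (e a x₀), Y y⟫_ℝ
      set δ := ‖dv I (e a) Y y - S (e a x₀)‖
      have a1 : |r| ≤ δ * ‖Y y‖ := abs_real_inner_le_norm _ _
      have a2 : |Y y a| ≤ ‖Y y‖ := by simpa using PiLp.norm_apply_le (Y y) a
      have a3 : (2 * (Y y a + r)) ^ 2 - 4 * Y y a ^ 2 = 4 * (2 * (Y y a * r) + r ^ 2) := by ring
      have a4 : |Y y a * r| ≤ ‖Y y‖ * (δ * ‖Y y‖) := by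
        rw [abs_mul]; exact mul_le_mul a2 a1 (abs_nonneg _) (norm_nonneg _)
      have a5 : r ^ 2 ≤ (δ * ‖Y y‖) ^ 2 := by
        rw [← sq_abs]; exact pow_le_pow_left₀ (abs_nonneg _) a1 2
      rw [a3, abs_le]
      have a6 := abs_le.1 a4
      constructor <;> nlinarith [sq_nonneg r, sq_nonneg (δ * ‖Y y‖)]
    · have h1 := (contAt_Lop he hb (cm_normSq hY2)).tendsto
      have h2 : Lop I e b (fun y => ‖Y y‖ ^ 2) x₀ = 2 * finrank ℝ E := by
        rw [Lop_normSq (A := fun _ _ => 0) he (fun _ => contMDiffAt_const)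
          (fun _ => .of_forall fun _ _ _ => by simp) hY2, hY0, ← hS3]
        simp [cd, hYa]
      rw [h2] at h1
      filter_upwards [Metric.tendsto_nhds.1 h1 η hη] with y hy
      exact (Real.dist_eq _ _ ▸ hy).le

/-- logarithmic barrier at a point, dimension at least three -/
theorem exists_barrier [FiniteDimensional ℝ E] (hd : 3 ≤ finrank ℝ E) (he : ∀ a, VF I 1 (e a) x₀)
    (hb : ∀ a, ContinuousAt (b a) x₀)
    (hs : Submodule.span ℝ (range fun a => (show E from e a x₀)) = ⊤) :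
    ∃ ψ : M → ℝ, Tendsto ψ (𝓝[≠] x₀) atTop ∧
      ∀ᶠ y in 𝓝[≠] x₀, CM I 2 ψ y ∧ 0 ≤ ψ y ∧ Lop I e b ψ y ≤ 0 := by
  obtain ⟨Q, h1, h2, h3, h4⟩ := exists_Q he hb hs
  have hQ : Tendsto Q (𝓝[≠] x₀) (𝓝[>] 0) :=
    tendsto_nhdsWithin_iff.2 ⟨h2 ▸ h1.self_of_nhds.continuousAt.tendsto.mono_left
      nhdsWithin_le_nhds, h3⟩
  have ht : Tendsto (fun y => -Real.log (Q y)) (𝓝[≠] x₀) atTop :=
    tendsto_neg_atBot_atTop.comp (Real.tendsto_log_nhdsGT_zero.comp hQ)
  have hev : ∀ᶠ y in 𝓝 x₀, ∀ a, VF I 1 (e a) y :=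
    eventually_all.2 fun a => (contMDiffAt_iff_contMDiffAt_nhds (by simp)).1 (he a)
  refine ⟨fun y => -Real.log (Q y), ht, ?_⟩
  filter_upwards [h3, ht.eventually_ge_atTop 0, nhdsWithin_le_nhds h1,
    nhdsWithin_le_nhds (h4 1 one_pos), nhdsWithin_le_nhds hev] with y a1 a2 a3 a4 a5
  have a6 : CM I 2 Q y := a3.of_le two_le
  refine ⟨((Real.contDiffAt_log.2 a1.ne').neg).comp_contMDiffAt a6, a2, ?_⟩
  rw [Lop_comp (g := fun t => -Real.log t) (g' := fun t => -t⁻¹) (g'' := (Q y ^ 2)⁻¹) a5 a6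
    ((eventually_ne_nhds a1.ne').mono fun t ht => (Real.hasDerivAt_log ht).neg)
    ((hasDerivAt_inv a1.ne').neg.congr_deriv (neg_neg _))]
  have b1 := (abs_le.1 a4.1).2
  have b2 := (abs_le.1 a4.2).1
  have b3 : (3 : ℝ) ≤ finrank ℝ E := by exact_mod_cast hd
  have b4 : (Q y ^ 2)⁻¹ * ∑ a, dv I (e a) Q y ^ 2 ≤ (Q y)⁻¹ * 5 := by
    rw [inv_mul_le_iff₀ (by positivity)]
    field_simp; nlinarith
  have b5 : (Q y)⁻¹ * 5 ≤ (Q y)⁻¹ * Lop I e b Q y :=
    mul_le_mul_of_nonneg_left (by linarith) (by positivity)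
  linarith

end Crest.Agent.X212.Mp86

end
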