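import Crest.Agent.X212.Mp86.Max

/-!
# Row 212, layer AN (helper86): local calculus of `dv`, the operator `Lop`, maximum principle

All statements are local (at a point), so they apply on punctured manifolds.
-/

set_option autoImplicit false
open Set Filter Topology
open scoped Manifold ContDiff InnerProductSpace

noncomputable section

namespace Crest.Agent.X212.Mp86

variable {E H M : Type*} [NormedAddCommGroup E] [NormedSpace ℝ E] [TopologicalSpace H]
  {I : ModelWithCorners ℝ E H} [TopologicalSpace M] [ChartedSpace H M]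
  {V W Z : Type*} [NormedAddCommGroup V] [NormedSpace ℝ V] [NormedAddCommGroup W] [NormedSpace ℝ W]
  [NormedAddCommGroup Z] [NormedSpace ℝ Z]
  {v : Π x : M, TangentSpace I x} {x : M}

/-- `MDifferentiableAt` into a vector space -/
abbrev MD (I : ModelWithCorners ℝ E H) (u : M → V) (x : M) : Prop :=
  MDifferentiableAt I 𝓘(ℝ, V) u x

/-- `ContMDiffAt` into a vector space -/
abbrev CM (I : ModelWithCorners ℝ E H) (n : ℕ∞ω) (u : M → V) (x : M) : Prop :=
  ContMDiffAt I 𝓘(ℝ, V) n u x

/-- `C^n` vector field at a point -/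
abbrev VF (I : ModelWithCorners ℝ E H) [IsManifold I 1 M] (n : ℕ∞ω)
    (v : Π x : M, TangentSpace I x) (x : M) : Prop :=
  ContMDiffAt I I.tangent n (fun y => (⟨y, v y⟩ : TangentBundle I M)) x

theorem dv_congr {u w : M → V} (h : u =ᶠ[𝓝 x] w) : dv I v u x = dv I v w x := by
  unfold dv; rw [h.mfderiv_eq]; rfl

theorem dv_congr_ev {u w : M → V} (h : u =ᶠ[𝓝 x] w) : dv I v u =ᶠ[𝓝 x] dv I v w :=
  h.eventuallyEq_nhds.mono fun _ hy => dv_congr hy

/-- chain rule -/
theorem dv_comp {u : M → V} {g : V → W} {g' : V →L[ℝ] W} (hg : HasFDerivAt g g' (u x))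
    (hu : MD I u x) : dv I v (fun y => g (u y)) x = g' (dv I v u x) := by
  have := (hg.hasMFDerivAt.comp x hu.hasMFDerivAt).mfderiv
  unfold dv
  exact congrArg (fun L => L (v x)) this

theorem dv_clm (g : V →L[ℝ] W) {u : M → V} (hu : MD I u x) :
    dv I v (fun y => g (u y)) x = g (dv I v u x) := dv_comp g.hasFDerivAt hu

theorem dv_const (c : V) : dv I v (fun _ => c) x = 0 := by
  unfold dv; rw [mfderiv_const]; rfl

theorem md_prod {u : M → V} {w : M → W} (hu : MD I u x) (hw : MD I w x) :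
    MD I (fun y => (u y, w y)) x := hu.prodMk_space hw

theorem dv_prod {u : M → V} {w : M → W} (hu : MD I u x) (hw : MD I w x) :
    dv I v (fun y => (u y, w y)) x = (dv I v u x, dv I v w x) := by
  have h := md_prod hu hw
  ext1
  · exact (dv_clm (ContinuousLinearMap.fst ℝ V W) h).symm
  · exact (dv_clm (ContinuousLinearMap.snd ℝ V W) h).symm

theorem md_comp {u : M → V} {g : V → W} (hg : DifferentiableAt ℝ g (u x)) (hu : MD I u x) :
    MD I (fun y => g (u y)) x := hg.comp_mdifferentiableAt hu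

theorem dv_add {u w : M → V} (hu : MD I u x) (hw : MD I w x) :
    dv I v (fun y => u y + w y) x = dv I v u x + dv I v w x := by
  have := dv_clm (v := v) (ContinuousLinearMap.fst ℝ V V + ContinuousLinearMap.snd ℝ V V)
    (md_prod hu hw)
  rw [dv_prod hu hw] at this
  simpa using this

theorem dv_sub {u w : M → V} (hu : MD I u x) (hw : MD I w x) :
    dv I v (fun y => u y - w y) x = dv I v u x - dv I v w x := by
  have := dv_clm (v := v) (ContinuousLinearMap.fst ℝ V V - ContinuousLinearMap.snd ℝ V V)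
    (md_prod hu hw)
  rw [dv_prod hu hw] at this
  simpa using this

/-- Leibniz rule for a continuous bilinear map -/
theorem dv_bil (B : V →L[ℝ] W →L[ℝ] Z) {u : M → V} {w : M → W} (hu : MD I u x) (hw : MD I w x) :
    dv I v (fun y => B (u y) (w y)) x = B (dv I v u x) (w x) + B (u x) (dv I v w x) := by
  have := dv_comp (v := v) (u := fun y => (u y, w y))
    (B.isBoundedBilinearMap.hasFDerivAt (u x, w x)) (md_prod hu hw)
  rw [dv_prod hu hw] at this
  rw [add_comm]
  exact this

theorem md_bil (B : V →L[ℝ] W →L[ℝ] Z) {u : M → V} {w : M → W} (hu : MD I u x) (hw : MD I w x) :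
    MD I (fun y => B (u y) (w y)) x :=
  md_comp (u := fun y => (u y, w y)) (B.isBoundedBilinearMap.differentiableAt (u x, w x))
    (md_prod hu hw)

theorem dv_smul {c : M → ℝ} {u : M → V} (hc : MD I c x) (hu : MD I u x) :
    dv I v (fun y => c y • u y) x = dv I v c x • u x + c x • dv I v u x :=
  dv_bil (ContinuousLinearMap.lsmul ℝ ℝ) hc hu

theorem md_smul {c : M → ℝ} {u : M → V} (hc : MD I c x) (hu : MD I u x) :
    MD I (fun y => c y • u y) x := md_bil (ContinuousLinearMap.lsmul ℝ ℝ) hc hu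

theorem dv_mul {c d : M → ℝ} (hc : MD I c x) (hd : MD I d x) :
    dv I v (fun y => c y * d y) x = dv I v c x * d x + c x * dv I v d x := dv_smul hc hd

theorem md_mul {c d : M → ℝ} (hc : MD I c x) (hd : MD I d x) : MD I (fun y => c y * d y) x :=
  md_smul hc hd

theorem dv_app {A : M → V →L[ℝ] W} {u : M → V} (hA : MD I A x) (hu : MD I u x) :
    dv I v (fun y => A y (u y)) x = dv I v A x (u x) + A x (dv I v u x) :=
  dv_bil (ContinuousLinearMap.id ℝ (V →L[ℝ] W)) hA hu

theorem md_sum {ι : Type*} (s : Finset ι) {u : ι → M → V} (hu : ∀ i ∈ s, MD I (u i) x) :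
    MD I (fun y => ∑ i ∈ s, u i y) x := by
  classical
  induction s using Finset.induction_on with
  | empty => simpa using mdifferentiableAt_const
  | insert a s ha ih =>
    simp only [Finset.sum_insert ha]
    exact (hu a (by simp)).add (ih fun i hi => hu i (by simp [hi]))

theorem dv_sum {ι : Type*} (s : Finset ι) {u : ι → M → V} (hu : ∀ i ∈ s, MD I (u i) x) :
    dv I v (fun y => ∑ i ∈ s, u i y) x = ∑ i ∈ s, dv I v (u i) x := by
  classical
  induction s using Finset.induction_on with
  | empty => simp [dv_const]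
  | insert a s ha ih =>
    simp only [Finset.sum_insert ha]
    rw [dv_add (hu a (by simp)) (md_sum s fun i hi => hu i (by simp [hi])),
      ih fun i hi => hu i (by simp [hi])]

section inner
variable {U : Type*} [NormedAddCommGroup U] [InnerProductSpace ℝ U]

theorem dv_inner {u w : M → U} (hu : MD I u x) (hw : MD I w x) :
    dv I v (fun y => ⟪u y, w y⟫_ℝ) x = ⟪dv I v u x, w x⟫_ℝ + ⟪u x, dv I v w x⟫_ℝ :=
  dv_bil (innerSL ℝ) hu hw

theorem md_inner {u w : M → U} (hu : MD I u x) (hw : MD I w x) :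
    MD I (fun y => ⟪u y, w y⟫_ℝ) x := md_bil (innerSL ℝ) hu hw

end inner

variable [IsManifold I ∞ M]

/-- the derivative along a `C^m` field of a `C^(m+1)` map is `C^m` -/
theorem cm_dv {m n : ℕ∞ω} {u : M → V} (hu : CM I n u x) (hv : VF I m v x) (hmn : m + 1 ≤ n) :
    CM I m (dv I v u) x := by
  have h := ContMDiffAt.mfderiv_const hu hmn
  have h2 := ContMDiffAt.clm_apply_of_inCoordinates (IB₁ := I) (IB₂ := 𝓘(ℝ, V)) (IM := I)
    (b₁ := fun y : M => y) (b₂ := u) (E₁ := TangentSpace I) (E₂ := TangentSpace 𝓘(ℝ, V))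
    (ϕ := fun y => mfderiv I 𝓘(ℝ, V) u y) (v := v) h hv (hu.of_le (le_self_add.trans hmn))
  exact (contMDiff_snd_tangentBundle_modelSpace V 𝓘(ℝ, V)).contMDiffAt.comp x h2

theorem CM.ev_md {n : ℕ∞ω} {u : M → V} (hu : CM I n u x) (hn : 1 ≤ n) : ∀ᶠ y in 𝓝 x, MD I u y :=
  (contMDiffAt_iff_contMDiffAt_nhds (by simp)).1 (hu.of_le hn) |>.mono fun _ hy =>
    hy.mdifferentiableAt one_ne_zero

omit [IsManifold I ∞ M] in
theorem CM.md {n : ℕ∞ω} {u : M → V} (hu : CM I n u x) (hn : 1 ≤ n) : MD I u x :=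
  (hu.of_le hn).mdifferentiableAt one_ne_zero

theorem md_dv {u : M → V} (hu : CM I 2 u x) (hv : VF I 1 v x) : MD I (dv I v u) x :=
  (cm_dv hu hv (by norm_num)).md le_rfl

end Crest.Agent.X212.Mp86

end
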