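import Crest.Agent.X212.Map77.IxO
import Crest.Agent.X212.Sw88.Wz
import Crest.Agent.X212.Idg99.Md
import Crest.Agent.X212.Ix82.Abs

/-!
# Row 212, D-CONV (helper86), part 1: the graded module of a background, its density
-/

set_option autoImplicit false
set_option linter.unusedSectionVars false
noncomputable section
open scoped Manifold ContDiff Topology InnerProductSpace
open MeasureTheory Filter Finset

namespace Crest.Agent.X212.Mp86.Cv
open An Wz78 Sob92 Idg99 Ind95 Map77.S Ix82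
open Map77 hiding Cf Ef
open Sw (Bg F2 UU)

section dbl
variable {E : Type} [NormedAddCommGroup E] [NormedSpace ℝ E] [FiniteDimensional ℝ E]
  [MeasurableSpace E] [BorelSpace E]
  {HM : Type} [TopologicalSpace HM] {I : ModelWithCorners ℝ E HM}
  {M : Type} [TopologicalSpace M] [ChartedSpace HM M] [IsManifold I ∞ M] [MeasurableSpace M]
  [T2Space M] [BorelSpace M] [SecondCountableTopology M] {ι : Type} [Fintype ι]
  {V W : Type} [NormedAddCommGroup V] [InnerProductSpace ℝ V] [FiniteDimensional ℝ V]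
  [NormedAddCommGroup W] [InnerProductSpace ℝ W] [FiniteDimensional ℝ W]
  {F : Fr I M ι} {A : Op M ι V W} {C : ℕ → ℝ}

/-- an operator as an operator on the sum of the fibres -/
def db (A : Op M ι V W) : Op M ι (P2 V W) (P2 V W) :=
  ⟨ps A.p 0, ps 0 A.q, fun a x => clf (A.σ a x) * ps A.p 0 x, fun x => i2 V W ∘L A.B x ∘L f2 V W⟩

variable (F W) in
/-- the first summand -/
def e1 (k : ℕ) (p : M → V →L[ℝ] V) : F.H k (ps p (0 : M → W →L[ℝ] W)) ≃L[ℝ] F.H k p :=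
  .equivOfInverse (fH _ k p 0) (iH1 _ k p 0) (fun u => DFunLike.congr_fun
    (RepT_eq (RepT_comp rep_iH1 rep_fH) Rep_id fun u => _root_.funext fun x =>
      ext2 rfl (by simpa using congrArg (s2 V W) (u.2.2.2 x))) u) fH_iH1

variable (F V) in
/-- the second summand -/
def e2 (k : ℕ) (q : M → W →L[ℝ] W) : F.H k q ≃L[ℝ] F.H k (ps (0 : M → V →L[ℝ] V) q) :=
  .equivOfInverse (iH2 _ k 0 q) (sH _ k 0 q) sH_iH2 fun u => DFunLike.congr_fun
    (RepT_eq (RepT_comp rep_iH2 rep_sH) Rep_id fun u => _root_.funext fun x =>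
      ext2 (by simpa using congrArg (f2 V W) (u.2.2.2 x)) rfl) u

theorem db_H (h : A.Good F C) (k : ℕ) : (db A).H F k =
    (e2 V F k A.q).toContinuousLinearMap ∘L A.H F k ∘L (e1 W F (k + 1) A.p).toContinuousLinearMap :=
  (RepT_congr (RepT_comp rep_iH2 (RepT_comp (rep_OpH h k).1 rep_fH)) fun u =>
    _root_.funext fun x => ext2 (by simp [db, Pre.op]) (by
      simp [db, Pre.op, Op.app, h.σp, Pre.D_def, dv_clm _ (SA.md (u.2.1 x))])).liftT_eq

theorem db_fr (h : A.Good F C) {k : ℕ} {n : ℤ} (H : Fred93.Fr (A.H F k) n) :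
    Fred93.Fr ((db A).H F k) n := db_H h k ▸ H.conj _ _

theorem db_bij (h : A.Good F C) {k : ℕ} (H : Function.Bijective (A.H F k)) :
    Function.Bijective ((db A).H F k) := by
  rw [db_H h]
  exact (e2 V F k A.q).bijective.comp (H.comp (e1 W F (k + 1) A.p).bijective)

end dbl

section gen
variable {κ V W : Type} [Fintype κ] [NormedAddCommGroup V] [InnerProductSpace ℝ V]
  [FiniteDimensional ℝ V] [NormedAddCommGroup W] [InnerProductSpace ℝ W] [FiniteDimensional ℝ W]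
  {X : M.Mf 4} {F : Fr X.I X.M (Option κ)} (o : Option κ → Option κ → Option κ → Option κ → X.M → ℝ)
  (A : Op X.M (Option κ) V W) (r : X.M → ℝ) (A₁ : Option κ → X.M → V →L[ℝ] V)
  (A₂ : Option κ → X.M → W →L[ℝ] W)

/-- the operator with the weight `r` -/
abbrev ar : Op X.M (Option κ) V W := ⟨A.p, A.q, A.σ, fun x => A.B x + r x • A.σ none x⟩

/-- the graded module of an operator -/
def dg (x : X.M) : DF κ (P2 V W) :=
  ⟨fun i j k l => o i j k l x, ps A.p 0 x, ps 0 A.q x, fun a => clf (A.σ a x),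
    fun a => sA A₁ A₂ a x, (db (ar A r)).B x⟩

variable {o A r A₁ A₂}

theorem ar_good {C : ℕ → ℝ} (g : A.Good F C) (hr : F.Cb r) : ∃ C, (ar A r).Good F C :=
  Cyf70.good_of_cb ⟨_, g.p.cb⟩ ⟨_, g.q.cb⟩ (fun a => ⟨_, g.σ a⟩)
    (Cb_add ⟨_, g.B⟩ (Cb_smul hr ⟨_, g.σ none⟩)) g.p.idem g.p.symm g.q.idem g.q.symm g.σp g.qσ
    (fun x v => by simp [g.qB, g.qσ]) g.Pσ

variable (D : Pa F A A₁ A₂) (hr : F.Cb r)
include D hr

theorem dg_loc (h : Num57.OK F o) : DM.Loc ⟨X, F, dg o A r A₁ A₂⟩ := by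
  have e : DM.p ⟨X, F, dg o A r A₁ A₂⟩ = ps A.p A.q := _root_.funext D.gr.add
  obtain ⟨C, g⟩ := ar_good D.good.choose_spec hr
  exact ⟨h, e ▸ D.dm h, e ▸ D.gr, fun x => sa_comp contMDiffAt_const
    (sa_comp (g.B.1 x) contMDiffAt_const), fun x v => ext2 (f2_ps _ _) ((s2_ps _ _).trans (g.qB _ _))⟩

theorem dg_ix {n : ℤ} (h : Fred93.Fr ((ar A r).H F 7) n) : DM.Ix ⟨X, F, dg o A r A₁ A₂⟩ n :=
  db_fr (ar_good D.good.choose_spec hr).choose_spec h

theorem dg_bij (h : Function.Bijective ((ar A r).H F 7)) :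
    Function.Bijective (DM.H ⟨X, F, dg o A r A₁ A₂⟩) :=
  db_bij (ar_good D.good.choose_spec hr).choose_spec h

omit hr in
theorem dg_dn (h : Num57.OK F o) {T₀ : X.M → V →L[ℝ] V} {T₁ : X.M → W →L[ℝ] W} (x : X.M)
    (h0 : ∀ v, omP (fun a b c d => o a b c d x) (fun a => A.σ a x) (i1 V W (A.p x v))
      = -i1 V W (T₀ x v))
    (hσ : ∀ a v, A.σ a x (T₀ x v) = T₁ x (A.σ a x v)) (hq : ∀ w, T₁ x (A.q x w) = T₁ x w) :
    DM.dn ⟨X, F, dg o A r A₁ A₂⟩ x = dn F o T₀ A₁ x + dn F o T₁ A₂ x := by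
  classical
  exact (congrArg (Ind95.dens _ · _ _)
    (om_sm2 (ori_of (h.vo x)) (cl_clf D.alg D.cl x) h0 hσ hq)).trans (dn_sm2 D.c1 D.c2 T₀ T₁ x)

end gen

variable {κ lam ν : Type} [Fintype κ] [Fintype lam] [Fintype ν] [DecidableEq ν] [DecidableEq κ]
  {X : M.Mf 4} {nc : ℕ} (b : Bg X.I X.M κ lam ν nc) (r : X.M → ℝ)

/-- the connection on one-forms and spinors -/
def A1 : Option κ → X.M → Cf κ ν →L[ℝ] Cf κ ν := sA (tA (Om b.F.P b.F.Gam) fun _ _ => 0) b.A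

/-- the connection on spinors, two-forms and functions -/
def A2 : Option κ → X.M → Ef κ ν →L[ℝ] Ef κ ν :=
  sA (sA b.A (tA (Om2 b.F.P b.F.Gam) fun _ _ => 0)) fun _ _ => 0

/-- the graded module -/
def df : X.M → DF κ (UU κ ν) := dg b.B.o b.A0 r (A1 b) (A2 b)

theorem pp_pm (x : X.M) : b.pp x + b.pm x = b.m.p x := by
  simp only [Bg.pp, Bg.pm]; module

variable {b r} (hb : b.OK)
include hb

theorem nok : Num57.OK b.F b.B.o := .of_base X.dim hb.B hb.G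

omit hb in
theorem sub0 : Idg99.Sub b.F (triv X.M ℝ) fun _ _ => 0 :=
  ⟨⟨fun _ _ => contMDiffAt_const, by simp⟩, fun _ _ _ _ => by simp, contMDiff_const,
    fun _ _ => by simp [nabE]⟩

theorem sub1 : Idg99.Sub b.F b.p1 (tA (Om b.F.P b.F.Gam) fun _ _ => 0) := by
  have := (sub0 (b := b)).one
  rwa [show (fun x => idx (fun i j => b.F.P i j x) _) = b.p1 by rw [hb.G.P]; rfl] at this

theorem sub2 : Idg99.Sub b.F b.p2 (tA (Om2 b.F.P b.F.Gam) fun _ _ => 0) := by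
  have := (sub0 (b := b)).two (nok hb)
  rwa [show (fun x => idx (sdm (fun i j => b.F.P i j x) _) _) = b.p2 by rw [hb.G.P]; rfl] at this

theorem subp : Idg99.Sub b.F b.pp b.A := ⟨hb.G.P ▸ hb.cc.toCon, hb.sk, Op40.sa_pp hb, Op40.pp_par hb⟩

theorem subm : Idg99.Sub b.F b.pm b.A := by
  have := Idg99.Sub.sub (⟨(subp hb).con, hb.sk, hb.cc.sp, hb.cc.par⟩ : Idg99.Sub b.F b.m.p b.A) (subp hb)
  rwa [show (fun x => b.m.p x - b.pp x) = b.pm from _root_.funext fun x =>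
    sub_eq_of_eq_add' (pp_pm b x).symm] at this

theorem pa : Pa b.F b.A0 (A1 b) (A2 b) := by
  have S := (sub1 hb).ps (subp hb)
  have T := ((subm hb).ps (sub2 hb)).ps sub0
  have ρ : ParS X.I b.F.e b.F.Gam b.m.ρ b.A b.A := ⟨hb.cc.sρ, hb.cc.comp⟩
  refine ⟨good_A0 hb, cliff_A0 hb, S.con, T.con, S.sk, T.sk, S.par, T.par,
    (((ρ.snd.pr2 (par_wd (lc_gam _) (frm _) _).fst).pr2 (par_pj (lc_gam _) (frm _) _).fst).comp
      S.sm T.sm S.par T.par).congr fun a x v => ?_⟩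
  refine ext3 (by simp [A0_σ, σF]) (by simp [A0_σ, σF, hb.G.P]) ?_
  simpa [A0_σ, σF, hb.G.P, co_apply, -Fintype.sum_option] using (Op40.P_p1 hb _ a).symm

theorem om (x : X.M) (v : Cf κ ν) : omP (fun i j k l => b.B.o i j k l x) (fun a => b.A0.σ a x)
    (i1 _ _ (b.A0.p x v)) = -i1 _ _ (sm2 (-b.p1 x) (b.pp x) v) := by
  have C := cl_clf (alg_A0 hb) (cliff_A0 hb) x
  have t := two_ok hb
  have Q := Op40.pc hb x
  rw [hb.G.P] at C
  have h1 := om_one (Op40.vol hb x) C (g := ContinuousLinearMap.id ℝ ℝ) (fun _ => rfl)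
    (i1 _ (Eu ν)) (i2 _ ℝ) (fun a ξ => (Op40.tr_full t a _).trans (by
      simp only [f2_i2, s2_i2, map_zero, sub_zero, PiLp.zero_apply, mul_zero, add_zero]; rfl))
    (fun i j α hα => (Op40.tr_full t i _).trans (by
      have hα : b.two.p1 x α = α := hα
      simp only [Bg.A0, Op40.σ1 t, Op40.σ2, Op40.σ3, f2_i1, s2_i1, map_zero, sub_zero, hα,
        (Op40.prj2 t).idem]
      rfl)) (f2 _ _ v)
  have k1 : ∀ a φ, clf (b.A0.σ a x) (i1 _ _ (i2 _ _ (b.pp x φ)))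
      = i2 _ _ (i1 _ _ (i1 _ _ (b.pm x (b.m.ρ a x (b.pp x φ))))) := fun a φ => by
    rw [clf_i1]
    exact congrArg _ (ext3 (by simp [A0_σ, σF, (Op40.prjp hb).idem]) (by simp [A0_σ, σF])
      (by simp [A0_σ, σF, co_apply]))
  have k2 : ∀ a φ, clf (b.A0.σ a x) (i2 _ _ (i1 _ _ (i1 _ _ (b.pm x φ))))
      = i1 _ _ (i2 _ _ (b.pp x (b.m.ρ a x (b.pm x φ)))) := fun a φ => by
    rw [clf_i2, Op40.pm hb, ← map_neg, Bg.A0, Op40.tr_full t]
    refine congrArg _ (ext2 (fm_ext fun k => by simp) ?_)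
    simp only [map_neg, map_sub, s2_i1, s2_i2, f2_i1, zero_sub, neg_neg]
    exact congrArg (b.m.ρ a x) ((Op40.prjm hb).idem x φ)
  have h2 : omC (fun i j k l => b.B.o i j k l x) (fun a => b.m.ρ a x) * b.pp x = -b.pp x := by
    change b.vol x * _ = _
    rw [Bg.pp, mul_smul_comm, mul_sub, show b.vol x * b.m.p x = b.vol x from Q.om_p,
      show b.vol x * b.vol x = _ from Q.om_om, ← smul_neg, neg_sub]
  have h3 := congrArg (fun φ => i1 _ (Ef κ ν) (i2 (Fm (Option κ) ℝ) _ φ))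
    (DFunLike.congr_fun h2 (sp v))
  have k3 : ∀ i j k l φ, b.pp x (b.m.ρ i x (b.pm x (b.m.ρ j x (b.pp x (b.m.ρ k x (b.pm x (b.m.ρ l x
      (b.pp x φ)))))))) = b.m.ρ i x (b.m.ρ j x (b.m.ρ k x (b.m.ρ l x (b.pp x φ)))) :=
    fun i j k l φ => by rw [Op40.pm hb, Op40.mp hb, Op40.pm hb, Op40.mp hb]
  rw [show b.A0.p x v = i1 _ _ (b.p1 x (f2 _ _ v)) + i2 _ _ (b.pp x (sp v)) from rfl, map_add,
    map_add, Bg.p1, h1]
  simp only [omC, smul_apply, _root_.sum_apply, mul_apply_eq_comp, map_smul, map_sum] at h3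
  simp only [omP_apply, k1, k2]
  simp only [k3]
  rw [h3]
  exact ext2 (ext2 (by simp) (by simp)) (by simp)

theorem σT (x : X.M) (a : Option κ) (v : Cf κ ν) : b.A0.σ a x (sm2 (-b.p1 x) (b.pp x) v) =
    sm2 (sm2 (b.pm x) (-b.p2 x)) (-triv X.M ℝ x) (b.A0.σ a x v) := by
  have t := two_ok hb
  refine ext3 ?_ ?_ ?_ <;> simp only [Bg.A0, f2_sm2, s2_sm2, Op40.σ1 t, Op40.σ2, Op40.σ3, neg_apply,
    map_neg, PiLp.neg_apply]
  · exact ((Op40.mp t _ _).trans (congrArg _ ((Op40.prjp t).idem x _).symm)).symm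
  · exact congrArg _ ((congrArg (fun z => b.p2 x (wd2 ℝ _ a z)) ((Op40.prj1 t).idem x _)).trans
      ((Op40.prj2 t).idem x _).symm)
  · exact congrArg (fun z : Fm (Option κ) ℝ => -z a) ((Op40.prj1 t).idem x _)

theorem dn_sp (x : X.M) : dn b.F b.B.o b.m.p b.A x =
    b.kd ⟨0, 0⟩ x / (8 * Real.pi ^ 2) - sgd b.F b.B.o x / 4 := by
  have Q := Op40.pc hb x
  have w : b.W ⟨0, 0⟩ = b.A := by funext i y; simp [Bg.W]
  have h := Sw88.tw_eq (c := ⟨0, 0⟩) hb ⟨fun _ => contMDiff_const, contMDiff_const, by simp, by simp⟩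
  rw [w] at h
  rw [dn_ab (k := fun i j y => 2 * b.fc ⟨0, 0⟩ y (i, j)) (hb.G.P ▸ hb.cc)
    (fun a => (Q.cl.pl a).trans (Q.cl.pr a).symm) Q.p_p hb.m.Jsq fun i j => by
      rw [h, mul_smul_comm, Bg.jp, ← mul_assoc, ← Q.Jp, mul_assoc, Q.p_p,
        mul_div_cancel_left₀ _ two_ne_zero], trL_apply, hb.m.prk x trivial, Bg.kd, PiLp.inner_apply]
  have e : ∀ f : Option κ × Option κ → ℝ, wf b.B.o (fun i j _ => 2 * f (i, j))
      (fun i j _ => 2 * f (i, j)) x = 8 * ∑ s, (∑ t, b.B.st x s t * f t) * f s := fun f => by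
    simp only [Base.st, Fintype.sum_prod_type, c4, wf, mul_sum, sum_mul]
    exact sum_congr rfl fun _ _ => sum_congr rfl fun _ _ => sum_congr rfl fun _ _ =>
      sum_congr rfl fun _ _ => by ring
  simp only [Wz78.idx_apply, ContinuousLinearMap.id_apply, RCLike.inner_apply, conj_trivial,
    smul_eq_mul]
  rw [← mul_right_inj' (show (8 : ℝ) ≠ 0 by norm_num), mul_sub (8 : ℝ) (_ / _) (_ / 4),
    ← mul_div_assoc 8, ← e (b.fc ⟨0, 0⟩ x)]
  simp only [wf]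
  ring

theorem dn_df (x : X.M) : DM.dn ⟨X, b.F, df b r⟩ x =
    b.kd ⟨0, 0⟩ x / (8 * Real.pi ^ 2) - eud b.F b.B.o x / 2 - 3 / 4 * sgd b.F b.B.o x := by
  have h1 := dg_dn (r := r) (pa hb) (nok hb) (T₀ := fun x => sm2 (-b.p1 x) (b.pp x))
    (T₁ := fun x => sm2 (sm2 (b.pm x) (-b.p2 x)) (-triv X.M ℝ x)) x (om hb x) (σT hb x) fun w =>
    ext3 (by simp [A0_q, (Op40.prjm hb).idem]) (by simp [A0_q, (Op40.prj2 hb).idem])
      (by simp [A0_q])
  have h2 := dn_asd (g := triv X.M ℝ) (sub0 (b := b)).con (nok hb) x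
  have h3 : cwd b.F b.B.o (triv X.M ℝ) (fun _ _ => 0) x = 0 := by simp [cwd, cw, curv]
  have h4 : trL (triv X.M ℝ x) = 1 := by simp [trL_apply]
  have h5 := dn_sp hb x
  rw [h3, h4, show (fun x => idx (fun i j => b.F.P i j x) _) = b.p1 by rw [hb.G.P]; rfl,
    show (fun x => idx (sdm (fun i j => b.F.P i j x) _) _) = b.p2 by rw [hb.G.P]; rfl] at h2
  rw [dn, ← pp_pm, dens_add] at h5
  rw [A1, A2, dn_sm2 (sub1 hb).con (subp hb).con, dn_sm2 ((subm hb).ps (sub2 hb)).con sub0.con,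
    dn_sm2 (subm hb).con (sub2 hb).con, dn_neg, dn_neg, dn_neg] at h1
  change dn b.F b.B.o b.pp b.A x + dn b.F b.B.o b.pm b.A x = _ at h5
  rw [df, A1, A2, h1]
  linear_combination h5 - h2

end Crest.Agent.X212.Mp86.Cv
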