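import Crest.Agent.X212.Sw88.Wz
import Crest.Agent.X212.Rdc90.Nf

/-!
# Row 212, SW-EN (helper86), part 1: the energy identity in divergence form
-/

set_option autoImplicit false
set_option linter.unusedSectionVars false
noncomputable section
open scoped Manifold ContDiff Topology InnerProductSpace
open MeasureTheory Finset Filter

namespace Crest.Agent.X212.Mp86.En
open An Wz78 Sob92 Sw88
open Sw (Bg F2)

variable {κ lam ν : Type} [Fintype κ] [Fintype lam] [Fintype ν] [DecidableEq ν]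
  {E : Type} [NormedAddCommGroup E] [NormedSpace ℝ E] [FiniteDimensional ℝ E]
  [MeasurableSpace E] [BorelSpace E]
  {HM : Type} [TopologicalSpace HM] {I : ModelWithCorners ℝ E HM}
  {M : Type} [TopologicalSpace M] [ChartedSpace HM M] [IsManifold I ∞ M] [MeasurableSpace M]
  {nc : ℕ} {b : Bg I M κ lam ν nc} {c : Sw.Cfg M κ ν} {x : M}

variable (b c) in
/-- the Chern-Simons current -/
def Jc (j : Option κ) (y : M) : ℝ := ∑ k,
  (∑ l, ∑ m, b.B.o j k l m y * (b.fc ⟨0, 0⟩ y (l, m) + b.fc c y (l, m))) * c.a k y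

variable (b c) in
/-- the Dirac current -/
def Vc (j : Option κ) (y : M) : ℝ :=
  ⟪b.m.ρ j y (dir I b.F.e b.m.ρ (b.W c) c.Φ y), c.Φ y⟫_ℝ + ⟪nab I b.F.e (b.W c) j c.Φ y, c.Φ y⟫_ℝ

variable (b c) in
/-- the current -/
def Uc (j : Option κ) (y : M) : ℝ := b.w * Vc b c j y - Jc b c j y

variable (b c) in
/-- the energy density -/
def Ed (x : M) : ℝ := ‖b.fc c x‖ ^ 2 + b.w * ∑ i, ‖nab I b.F.e (b.W c) i c.Φ x‖ ^ 2 +
  b.w ^ 2 * ‖c.Φ x‖ ^ 4 / 8

variable (b c) in
/-- the remainder -/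
def Rm (x : M) : ℝ := b.w * ‖dir I b.F.e b.m.ρ (b.W c) c.Φ x‖ ^ 2 -
  b.w * (sc b x / 4 * ‖c.Φ x‖ ^ 2) + 2 * ‖b.eC c x + b.om x‖ ^ 2

theorem W0 : b.W ⟨0, 0⟩ = b.A := by funext i x; simp [Bg.W]

theorem adm0 : b.Adm ⟨0, 0⟩ :=
  ⟨fun _ => contMDiff_const, contMDiff_const, fun _ _ => by simp, fun _ => map_zero _⟩

theorem kd_eq : b.kd c x = ∑ s, ∑ t, b.B.st x s t * (b.fc c x s * b.fc c x t) := by
  simp only [Bg.kd, PiLp.inner_apply, idx_apply, ContinuousLinearMap.id_apply, smul_eq_mul,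
    RCLike.inner_apply, conj_trivial, sum_mul]
  exact sum_congr rfl fun _ _ => sum_congr rfl fun _ _ => by ring

variable (hb : b.OK)
include hb

theorem sa_jp (x : M) : SA I b.jp x := SA.mul contMDiffAt_const (hb.cc.sp x)

theorem jp_jp (x : M) : ⟪hsL (b.jp x), hsL (b.jp x)⟫_ℝ = 8 := by
  rw [inner_hsL_skw (jp_skw hb x), Bg.jp, mul_assoc, ← mul_assoc (b.m.p x), ← (p8 hb x).Jp,
    mul_assoc, (p8 hb x).p_p, ← mul_assoc, hb.m.Jsq, neg_one_mul, map_neg, neg_neg, trE_eq]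
  exact hb.m.prk x trivial

theorem jp_par {W : Option κ → M → En ν} (D : Idg99.Cm b.F b.m.p b.m.ρ W b.m.J) (a : Option κ)
    (x : M) : nabE I b.F.e W a b.jp x = 0 := by
  have := nabE_mul (e := b.F.e) (A := W) a (S := fun _ => b.m.J) contMDiffAt_const (D.cc.sp x)
  rw [show nabE I b.F.e W a b.m.p x = 0 from D.cc.par a x] at this
  refine this.trans ?_
  simp [nabE, D.JW, dv_const]

/-- the curvature is affine -/
theorem fc_add (ha : ∀ i, SA I (c.a i) x) (s : Option κ × Option κ) :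
    b.fc c x s = b.fc ⟨0, 0⟩ x s + d1 I b.F.e b.F.c c.a s.1 s.2 x := by
  have := curv_add_smul (e := b.F.e) (c := b.F.c) (fun a => hb.cc.sm a x) ha (sa_jp hb x)
    (fun a => W0 (b := b) ▸ jp_par hb (cm hb adm0) a x) s.1 s.2
  simp only [Bg.fc, W0]
  rw [show b.W c = b.A + fun a y => c.a a y • b.jp y from rfl, this, map_add, map_smul,
    inner_add_right, real_inner_smul_right, jp_jp hb]
  ring

variable (hc : b.Adm c)
include hc

theorem sm_fc (s : Option κ × Option κ) : Sm I fun x => b.fc c x s := fun x =>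
  SA.mul contMDiffAt_const (SA.inner (SA.clm hsL (sa_jp hb x))
    (SA.clm hsL ((frm b.F).sCurv (fun a => (cm hb hc).cc.sm a x) _ _)))

theorem sm_fc' : Sm I (b.fc c) := fun x => SA.toLp fun s => sm_fc hb hc s x

theorem fc_swap (i j : Option κ) : b.fc c x (i, j) = -b.fc c x (j, i) := by
  simp only [Bg.fc, (lc_gam b.F).curv_anti (cm hb hc).cc.toCon i, map_neg, inner_neg_right]
  ring

theorem fc_proj (i j : Option κ) : ∑ k, b.F.P i k x • b.fc c x (k, j) = b.fc c x (i, j) := by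
  simp only [Bg.fc, ← (lc_gam b.F).curv_p1 (frm _) (sep _) (cm hb hc).cc.toCon i j x, map_sum,
    map_smul, inner_sum, real_inner_smul_right, mul_sum, smul_eq_mul]
  exact sum_congr rfl fun _ _ => by ring

theorem fc_closed (i j k : Option κ) :
    d2 I b.F.e b.F.c (fun _ _ => 0) (fun i j y => b.fc c y (i, j)) i j k x = 0 := by
  have D := cm hb hc
  have h := congrArg (fun T => (1 / 8 : ℝ) * -trE (b.jp x * T))
    ((lc_gam b.F).bianchi2 (frm _) (sep _) D.cc.toCon i j k x)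
  have e : ∀ y s, b.fc c y s = (1 / 8 : ℝ) * -trE (b.jp y *
      curv I b.F.e b.F.c (b.W c) s.1 s.2 y) := fun y s => by
    simp only [Bg.fc, inner_hsL_skw (jp_skw hb y)]
  have d : ∀ i j k, dv I (b.F.e i) (fun y => b.fc c y (j, k)) x = (1 / 8 : ℝ) * -trE (b.jp x *
      nabE I b.F.e (b.W c) i (curv I b.F.e b.F.c (b.W c) j k) x) := fun i j k => by
    have s := (frm b.F).sCurv (fun a => D.cc.sm a x) j k
    have := nabE_mul (e := b.F.e) (A := b.W c) i (sa_jp hb x) s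
    rw [jp_par hb D, zero_mul, zero_add] at this
    rw [← this, nabE, map_add, map_sub, trE_comm (b.W c i x), sub_self, add_zero,
      ← dv_clm trE ((sa_jp hb x).mul s).md]
    simp only [e]
    exact dv_clm (-(1 / 8 : ℝ) • ContinuousLinearMap.id ℝ ℝ)
      (SA.clm trE ((sa_jp hb x).mul s)).md |> fun k => by simpa using k
  simp only [mul_add, mul_sub, map_add, map_sub, mul_sum, map_sum, mul_smul_comm, map_smul,
    mul_zero, map_zero, neg_zero, smul_eq_mul] at h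
  simp only [d2, nab, zero_apply, add_zero, d, smul_eq_mul]
  simp only [e, mul_left_comm _ (1 / 8 : ℝ), ← mul_sum, mul_neg, sum_neg_distrib]
  linarith

theorem norm_fc : ‖b.fc c x‖ ^ 2 = 2 * ‖b.p2 x (b.fc c x)‖ ^ 2 - b.kd c x := by
  have a := a2_fix (B := b.B) (x := x) (T := fun i j => b.fc c x (i, j)) (fc_swap hb hc)
    (hb.G.P ▸ fc_proj hb hc)
  have h : b.p2 x (b.fc c x) = (1 / 2 : ℝ) • (b.fc c x
      + idx (b.B.st x) (ContinuousLinearMap.id ℝ ℝ) (b.fc c x)) := by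
    ext1 s
    simp only [Bg.p2, idx_apply, Base.sd, div_eq_inv_mul, mul_smul,
      ← smul_sum, add_smul, sum_add_distrib, a, PiLp.smul_apply, PiLp.add_apply, mul_one,
      ContinuousLinearMap.id_apply]
  rw [← real_inner_self_eq_norm_sq (b.p2 x _), inner_p2 hb, p2_p2 hb, h, real_inner_smul_right,
    inner_add_right, real_inner_self_eq_norm_sq, Bg.kd]
  ring

theorem sm_Jc (j : Option κ) : Sm I (Jc b c j) := fun x => SA.sum _ fun k _ => SA.mul
  (SA.sum _ fun _ _ => SA.sum _ fun _ _ => SA.mul (hb.B.so _ _ _ _ x)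
    ((sm_fc hb adm0 _ x).add (sm_fc hb hc _ x))) (hc.sa k x)

theorem sm_nb (j : Option κ) : Sm I (nab I b.F.e (b.W c) j c.Φ) :=
  sm_nab (cm hb hc).cc.sm j hc.sΦ

theorem sm_dr : Sm I (dir I b.F.e b.m.ρ (b.W c) c.Φ) := fun x =>
  (cm hb hc).cc.dir_sm (frm _) (hc.sΦ x)

theorem sm_Vc (j : Option κ) : Sm I (Vc b c j) := fun x =>
  (SA.inner (SA.app (hb.cc.sρ j x) (sm_dr hb hc x)) (hc.sΦ x)).add
    (SA.inner (sm_nb hb hc j x) (hc.sΦ x))

theorem sm_Uc (j : Option κ) : Sm I (Uc b c j) := fun x =>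
  (SA.mul contMDiffAt_const (sm_Vc hb hc j x)).sub (sm_Jc hb hc j x)

theorem cont_kd : Continuous (b.kd c) := by
  simp only [funext fun x => kd_eq (b := b) (c := c) (x := x), Base.st]
  exact continuous_finsetSum _ fun s _ => continuous_finsetSum _ fun t _ =>
    ((hb.B.so _ _ _ _).continuous.div_const 2).mul
      ((sm_fc hb hc s).continuous.mul (sm_fc hb hc t).continuous)

theorem cont_Ed : Continuous (Ed b c) :=
  (((sm_fc' hb hc).continuous.norm.pow 2).add (continuous_const.mul (continuous_finsetSum _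
    fun i _ => (sm_nb hb hc i).continuous.norm.pow 2))).add
    ((continuous_const.mul (hc.sΦ.continuous.norm.pow 4)).div_const 8)

omit hc in
theorem Ed_nonneg (c : Sw.Cfg M κ ν) (x : M) : 0 ≤ Ed b c x := by
  have := hb.w
  unfold Ed
  positivity

variable [T2Space M] [BorelSpace M] [SecondCountableTopology M] [I.Boundaryless]

/-- **transgression** -/
theorem kd_sub : b.kd c x = b.kd ⟨0, 0⟩ x + dvg I b.F.e b.F.dv (Jc b c) x := by
  set θ : Option κ → Option κ → M → ℝ := fun l m y => b.fc ⟨0, 0⟩ y (l, m) + b.fc c y (l, m)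
  have s : ∀ l m, SA I (θ l m) x := fun l m => (sm_fc hb adm0 _ x).add (sm_fc hb hc _ x)
  have h1 := Rdc90.dl_star (A := fun _ _ => 0) (lc_gam b.F) (frm _) (dv_gam hb.G.vol x) hb.B.so
    (hb.G.P ▸ fun x => ⟨hb.B.pr x, hb.B.rk x, (hb.B.o12 · · · · x), (hb.B.o23 · · · · x),
      (hb.B.o34 · · · · x), (hb.B.oP · · · · x), hb.B.onm x⟩) s
    (fun i j => by simp only [θ, fc_swap hb adm0 i, fc_swap hb hc i]; ring)
    (fun i j => by simp only [θ, smul_add, sum_add_distrib, fc_proj hb adm0, fc_proj hb hc])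
    fun i j k => by
      have e1 := fc_closed hb adm0 (x := x) i j k
      have e2 := fc_closed hb hc (x := x) i j k
      simp only [d2, θ, nab_add _ (sm_fc hb adm0 _ x) (sm_fc hb hc _ x), smul_add,
        sum_add_distrib] at e1 e2 ⊢
      linarith
  have h2 := Rdc90.adj_ed (e := b.F.e) (c := b.F.c) (g := b.F.dv) (A := fun _ _ => 0)
    (fun _ v w => by simp) (fun k => hc.sa k x)
    (β := fun a b' y => ∑ k, ∑ l, b.B.o a b' k l y • θ k l y)
    (fun j k => SA.sum _ fun l _ => SA.sum _ fun m _ => SA.smul (hb.B.so _ _ _ _ x) (s l m))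
    fun j k => by simp only [hb.B.o12 j k, neg_smul, sum_neg_distrib]
  generalize Rdc90.dl (V := ℝ) I b.F.e b.F.c b.F.dv (fun _ _ => 0) _ = δ at h1 h2
  have h3 : ∑ k, ⟪δ k x, c.a k x⟫_ℝ = 0 := by
    rw [sum_congr rfl fun k _ => congrArg (⟪δ k x, ·⟫_ℝ) (hc.pa k x).symm]
    simp only [RCLike.inner_apply, conj_trivial, sum_mul]
    rw [sum_comm]
    refine sum_eq_zero fun k _ => ?_
    have := congrArg (c.a k x * ·) (h1 k)
    simp only [hb.G.P, smul_eq_mul, mul_sum, mul_zero] at this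
    rw [← this]
    exact sum_congr rfl fun j _ => by rw [(hb.B.pr x).symm j k]; ring
  have h4 : ∀ j k, Rdc90.ed I b.F.e b.F.c (fun _ _ => 0) c.a j k x =
      b.fc c x (j, k) - b.fc ⟨0, 0⟩ x (j, k) := fun j k => by
    rw [fc_add hb fun i => hc.sa i x]; simp [Rdc90.ed, d1, nab]
  rw [h3] at h2
  simp only [h4, RCLike.inner_apply, conj_trivial, smul_eq_mul, mul_comm (c.a _ _)] at h2
  have h5 : ∑ s, ∑ t, b.B.st x s t * (b.fc c x s * b.fc ⟨0, 0⟩ x t) =
      ∑ s, ∑ t, b.B.st x s t * (b.fc ⟨0, 0⟩ x s * b.fc c x t) :=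
    sum_comm.trans (sum_congr rfl fun _ _ => sum_congr rfl fun _ _ => by rw [st_symm hb.B]; ring)
  have h6 : ∑ j, ∑ k, (b.fc c x (j, k) - b.fc ⟨0, 0⟩ x (j, k)) * ∑ l, ∑ m, b.B.o j k l m x * θ l m x
      = 2 * ∑ s, ∑ t, (b.B.st x s t * (b.fc c x s * b.fc ⟨0, 0⟩ x t) +
        b.B.st x s t * (b.fc c x s * b.fc c x t) -
        b.B.st x s t * (b.fc ⟨0, 0⟩ x s * b.fc ⟨0, 0⟩ x t) -
        b.B.st x s t * (b.fc ⟨0, 0⟩ x s * b.fc c x t)) := by
    simp only [Fintype.sum_prod_type, mul_sum, Base.st, θ]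
    exact sum_congr rfl fun _ _ => sum_congr rfl fun _ _ => sum_congr rfl fun _ _ =>
      sum_congr rfl fun _ _ => by ring
  simp only [sum_add_distrib, sum_sub_distrib, h5, ← kd_eq] at h6
  rw [h6] at h2
  change _ = _ + 2 * dvg I b.F.e b.F.dv (Jc b c) x at h2
  linarith

theorem wz_div : ∑ i, ‖nab I b.F.e (b.W c) i c.Φ x‖ ^ 2 + sc b x / 4 * ‖c.Φ x‖ ^ 2 +
    4 * ⟪b.fc c x, b.qd x (c.Φ x) (c.Φ x)⟫_ℝ = ‖dir I b.F.e b.m.ρ (b.W c) c.Φ x‖ ^ 2 +
      dvg I b.F.e b.F.dv (Vc b c) x := by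
  have D := cm hb hc
  have h1 := weitz hb hc (hc.sΦ x) (.of_forall fun y => p_of hb (hc.pΦ y)) (c.Φ x)
  rw [(frm _).inner_lap (fun a => D.cc.sm a x) (fun a => D.sk a x) (hc.sΦ x) (hc.sΦ x),
    D.cc.inner_dir (lc_gam _) (frm _) (dv_gam hb.G.vol x) (fun a => D.sk a x) (fun a => D.ρsk a x)
      (sm_dr hb hc x) (hc.sΦ x)] at h1
  simp only [real_inner_self_eq_norm_sq, dvg] at h1
  simp only [dvg, show ∀ j, Vc b c j = fun y => _ + _ from fun _ => rfl, fun a j => dv_add' (e := b.F.e a)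
    (SA.inner (SA.app (hb.cc.sρ j x) (sm_dr hb hc x)) (hc.sΦ x))
    (SA.inner (sm_nb hb hc j x) (hc.sΦ x)), mul_add, sum_add_distrib] at h1 ⊢
  linarith

/-- **the energy identity** -/
theorem ed_id : Ed b c x + b.kd ⟨0, 0⟩ x = Rm b c x + dvg I b.F.e b.F.dv (Uc b c) x := by
  have h1 := wz_div hb hc (x := x)
  have h2 := kd_sub hb hc (x := x)
  have h3 := norm_fc hb hc (x := x)
  have h4 := inner_fc_qd hb (hc.pΦ x)
  have h5 : b.p2 x (b.fc c x) = b.eC c x + b.om x + b.w • b.qd x (c.Φ x) (c.Φ x) := by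
    rw [Bg.eC, map_sub, map_smul, p2_qd_self hb (hc.pΦ x)]; abel
  rw [h5, norm_add_sq_real, real_inner_smul_right, norm_smul, norm_qd hb (hc.pΦ x), mul_pow,
    Real.norm_eq_abs, sq_abs] at h3
  have h6 : dvg I b.F.e b.F.dv (Uc b c) x =
      b.w * dvg I b.F.e b.F.dv (Vc b c) x - dvg I b.F.e b.F.dv (Jc b c) x := by
    simp only [dvg, show ∀ j, Uc b c j = fun y => _ - _ from fun _ => rfl, mul_sum,
      ← sum_sub_distrib]
    exact sum_congr rfl fun j _ => by
      rw [dv_sub' (SA.mul contMDiffAt_const (sm_Vc hb hc j x)) (sm_Jc hb hc j x),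
        Wz78.dv_mul contMDiffAt_const (sm_Vc hb hc j x), dv_const]
      change 0 * _ + _ - _ + _ = _; ring
  rw [h6, Ed, Rm]
  linear_combination b.w * h1 + h3 - h2 - 4 * b.w * h4

theorem cont_Rm : Continuous (Rm b c) := by
  rw [show Rm b c = fun x => Ed b c x + b.kd ⟨0, 0⟩ x - dvg I b.F.e b.F.dv (Uc b c) x from
    funext fun x => by rw [ed_id hb hc]; ring]
  exact ((cont_Ed hb hc).add (cont_kd hb adm0)).sub (sm_dvg (sm_Uc hb hc)).continuous

/-- **the integrated energy identity** -/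
theorem int_id {θ : M → ℝ} (hθ : Sm I θ) (hk : HasCompactSupport θ) :
    ∫ x, θ x * Ed b c x ∂b.F.μ + ∫ x, θ x * b.kd ⟨0, 0⟩ x ∂b.F.μ =
      ∫ x, θ x * Rm b c x ∂b.F.μ - ∫ x, ∑ j, b.F.D j θ x * Uc b c j x ∂b.F.μ := by
  have i : ∀ {f : M → ℝ}, Continuous f → Integrable (fun x => θ x * f x) b.F.μ := fun h =>
    (hθ.continuous.mul h).integrable_of_hasCompactSupport hk.mul_right
  have s := sm_Uc hb hc
  have h := integral_dvg (F := b.F) (f := fun j x => θ x * Uc b c j x)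
    (fun j x => SA.mul (hθ x) (s j x)) fun _ => hk.mul_right
  have e : ∀ x, dvg I b.F.e b.F.dv (fun j x => θ x * Uc b c j x) x =
      ∑ j, b.F.D j θ x * Uc b c j x + θ x * dvg I b.F.e b.F.dv (Uc b c) x := fun x => by
    simp only [dvg, fun j => Wz78.dv_mul (e := b.F.e j) (hθ x) (s j x), mul_sum, ← sum_add_distrib,
      Pre.D_def]
    exact sum_congr rfl fun _ _ => by ring
  simp only [e] at h
  rw [integral_add (integrable_finsetSum _ fun j _ => integ (fun x => SA.mul (b.F.sm_D hθ j x)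
    (s j x)) (b.F.hcs_D hk j).mul_right) (i (sm_dvg s).continuous)] at h
  rw [← integral_add (i (cont_Ed hb hc)) (i (cont_kd hb adm0))]
  simp only [← mul_add, ed_id hb hc]
  simp only [mul_add]
  rw [integral_add (i (cont_Rm hb hc)) (i (sm_dvg s).continuous)]
  linarith

end Crest.Agent.X212.Mp86.En
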