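import Crest.Agent.X212.Nka63.B
import Crest.Agent.X212.M.Prof

/-!
# Row 212, SW-EN (helper86), part 3: the integration over the time of a neck
-/

set_option autoImplicit false
noncomputable section
open scoped ContDiff Topology
open MeasureTheory Set Filter

namespace Crest.Agent.X212.Mp86.En
open Nd18 Nka63

variable {p q : Option ℝ} {d d' t : ℝ}

/-- the end of the side `s` -/
def lE (s : Bool) : Filter ℝ := if s then atTop else atBot

/-- the side `s` is infinite -/
def Inf (p q : Option ℝ) (s : Bool) : Prop := if s then q = none else p = none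

/-- the times of depth between `d` and `d'` -/
def Bt (p q : Option ℝ) (d d' : ℝ) : Set ℝ := Dp p q d \ Dq p q d'

theorem Bt_sub : Bt p q d d' ⊆ Icc (p.getD 0 + d) (p.getD 0 + d') ∪
    Icc (q.getD 0 - d') (q.getD 0 - d) := fun t h => by
  have h2 := h.2
  rw [mem_Dq, not_and_or] at h2
  push Not at h2
  rcases h2 with ⟨a, rfl, k⟩ | ⟨b, rfl, k⟩
  exacts [.inl ⟨h.1.1 a rfl, k⟩, .inr ⟨k, h.1.2 b rfl⟩]

theorem cpt_Bt : IsCompact (Bt p q d d') :=
  (isCompact_Icc.union isCompact_Icc).of_isClosed_subset (isClosed_Dp.sdiff isOpen_Dq) Bt_sub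

theorem ms_Bt : MeasurableSet (Bt p q d d') := cpt_Bt.measurableSet

theorem vol_Bt (h : d ≤ d') : volume.real (Bt p q d d') ≤ 2 * (d' - d) := by
  refine (measureReal_mono Bt_sub (isCompact_Icc.union isCompact_Icc).measure_lt_top.ne).trans
    ((measureReal_union_le _ _).trans ?_)
  rw [Real.volume_real_Icc_of_le (by linarith), Real.volume_real_Icc_of_le (by linarith)]
  linarith

theorem ev_Dq {s : Bool} (h : Inf p q s) (d : ℝ) : ∀ᶠ t in lE s, t ∈ Dq p q d := by
  cases s
  · obtain rfl : p = none := h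
    exact (eventually_lt_atBot (q.getD 0 - d)).mono fun t ht =>
      mem_Dq.2 ⟨by simp, by rintro b rfl; exact ht⟩
  · obtain rfl : q = none := h
    exact (eventually_gt_atTop (p.getD 0 + d)).mono fun t ht =>
      mem_Dq.2 ⟨by rintro b rfl; exact ht, by simp⟩

theorem ev_not {s : Bool} (h : ¬ Inf p q s) (d : ℝ) : ∀ᶠ t in lE s, t ∉ Dq p q d := by
  cases s
  · obtain ⟨a, rfl⟩ := Option.ne_none_iff_exists'.1 (show p ≠ none from h)
    exact (eventually_lt_atBot (a + d)).mono fun t ht k => ht.not_gt ((mem_Dq.1 k).1 a rfl)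
  · obtain ⟨b, rfl⟩ := Option.ne_none_iff_exists'.1 (show q ≠ none from h)
    exact (eventually_gt_atTop (b - d)).mono fun t ht k => ht.not_gt ((mem_Dq.1 k).2 b rfl)

theorem vol_lE (s : Bool) : ∀ S ∈ lE s, volume S = ⊤ := fun S hS => by
  cases s
  · obtain ⟨b, hb⟩ := mem_atBot_sets.1 hS
    exact top_le_iff.1 (Real.volume_Iic (a := b) ▸ measure_mono hb)
  · obtain ⟨b, hb⟩ := mem_atTop_sets.1 hS
    exact top_le_iff.1 (Real.volume_Ici (a := b) ▸ measure_mono hb)

/-- integrable at both ends -/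
theorem int_Dq {g : ℝ → ℝ} (hd : 0 < d) (hc : ContinuousOn g (Jv p q))
    (h : ∀ s, Inf p q s → IntegrableAtFilter g (lE s) volume) : IntegrableOn g (Dq p q d) := by
  have k : ∀ s, ∃ S ∈ lE s, IntegrableOn g (S ∩ Dq p q d) := fun s => by
    by_cases hs : Inf p q s
    · obtain ⟨S, h1, h2⟩ := h s hs
      exact ⟨S, h1, h2.mono_set inter_subset_left⟩
    · exact ⟨_, ev_not hs d, by
        rw [show {t | t ∉ Dq p q d} ∩ Dq p q d = ∅ from compl_inter_self _]; exact integrableOn_empty⟩
  obtain ⟨S, h1, h2⟩ := k false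
  obtain ⟨S', h3, h4⟩ := k true
  obtain ⟨a, ha⟩ := mem_atBot_sets.1 h1
  obtain ⟨b, hb⟩ := mem_atTop_sets.1 h3
  refine ((h2.union h4).union ((hc.mono fun t ht => Dp_sub hd ht.2).integrableOn_compact
    ((isCompact_Icc (a := a) (b := b)).inter_right isClosed_Dp))).mono_set fun t ht => ?_
  rcases le_total t a with h5 | h5
  · exact .inl (.inl ⟨ha t h5, ht⟩)
  · rcases le_total b t with h6 | h6
    exacts [.inl (.inr ⟨hb t h6, ht⟩), .inr ⟨⟨h5, h6⟩, Dq_sub_Dp ht⟩]

variable (p q) in
/-- the weight of the gradient -/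
def wt (t : ℝ) : ℝ := 1 - (1 - ct p q 3 t) ^ 2

theorem cd_wt : ContDiff ℝ ∞ (wt p q) := contDiff_const.sub ((contDiff_const.sub contDiff_ct).pow 2)

theorem wt_zero (h : t ∉ Dq p q 3) : wt p q t = 0 := by simp [wt, ct_zero' h]

theorem wt_one (h : t ∈ Dq p q 4) : wt p q t = 1 := by
  simp [wt, ct_one (d := 3) (by norm_num; exact Dq_sub_Dp h)]

theorem wt_mem : wt p q t ∈ Icc (0 : ℝ) 1 := by
  have := ct_mem (p := p) (q := q) (d := 3) (s := t)
  rw [wt]
  constructor <;> nlinarith [this.1, this.2]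

theorem deriv_wt : deriv (wt p q) t = 2 * (1 - ct p q 3 t) * deriv (ct p q 3) t :=
  ((((contDiff_ct.differentiable (by simp) t).hasDerivAt.const_sub 1).pow 2).const_sub
    1).deriv.trans (by norm_num)

theorem dct_ne (h : deriv (ct p q 3) t ≠ 0) : t ∈ Bt p q 3 4 :=
  ⟨tsupport_ct (tsupport_deriv_subset (subset_tsupport _ h)), fun k => h (dct_zero (by
    norm_num; exact k))⟩

theorem dwt_zero (h : t ∉ Bt p q 3 4) : deriv (wt p q) t = 0 := by
  rw [deriv_wt, of_not_not (mt dct_ne h), mul_zero]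

/-- the bound of the derivative of the cut-off -/
def kM : ℝ := bd_ct.choose 1

theorem dct_le : |deriv (ct p q d) t| ≤ kM := by
  simpa [kM] using (bd_ct.choose_spec p q d).2 1 1 le_rfl t

theorem kM_nonneg : 0 ≤ kM := (abs_nonneg _).trans (dct_le (p := none) (q := none) (d := 0) (t := 0))

open Classical in
/-- **integration over the time** -/
theorem oneD {L gn T e U : ℝ → ℝ} {lv : Bool → ℝ} {a c0 c1 γ : ℝ} (ha : 0 ≤ a) (h0 : 0 ≤ c0)
    (h1 : 0 ≤ c1) (hγ : γ ∈ Icc (0 : ℝ) 1)
    (hL : ∀ t ∈ Dq p q 2, ∃ L', HasDerivAt L L' t ∧ |L' + gn t| ≤ gn t / 2 + 4 * T t)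
    (g0 : ∀ t, 0 ≤ gn t) (gi : IntegrableOn gn (Dq p q 2)) (T0 : ∀ t, 0 ≤ T t)
    (Ti : IntegrableOn T (Dq p q 3)) (Tb : ∀ t ∈ Dq p q 2, t ∉ Dq p q 3 → T t ≤ c0)
    (e0 : ∀ t, 0 ≤ e t) (ei : IntegrableOn (fun t => (1 - wt p q t) * e t) (Jv p q))
    (ge : ∀ t ∈ Dq p q 2, gn t ≤ 16 * (T t + e t))
    (Ui : IntegrableOn (fun t => deriv (wt p q) t * U t) (Jv p q))
    (Ub : ∀ t ∈ Dq p q 2, ∀ η ∈ Icc (0 : ℝ) 1, η * |U t + 2 * L t| ≤ a * (η ^ 2 * e t) + c1)
    (lim : ∀ s, Inf p q s → IntegrableAtFilter (fun t => (L t - lv s) ^ 2) (lE s) volume) :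
    (∫ t in Jv p q, deriv (wt p q) t * U t) + γ * ∫ t in Dq p q 2, gn t ≤
      (2 * kM * a + 16 * γ) * (∫ t in Jv p q, (1 - wt p q t) * e t) + 16 * (∫ t in Dq p q 3, T t) +
        (4 * kM * c1 + 32 * c0) + 2 * ∑ s, if Inf p q s then |lv s| else 0 := by
  have s23 : Dq p q 3 ⊆ Dq p q 2 := Dq_mono (by norm_num)
  have s34 : Bt p q 3 4 ⊆ Dq p q 2 := fun t h => Dp_sub_Dq (by norm_num) h.1
  have mJ : MeasurableSet (Jv p q) := isOpen_Jv.measurableSet
  have mD : ∀ d, MeasurableSet (Dq p q d) := fun d => isOpen_Dq.measurableSet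
  have hd : ∀ t, HasDerivAt (fun t => wt p q t * L t)
      (deriv (wt p q) t * L t + wt p q t * deriv L t) t := fun t => by
    by_cases ht : t ∈ Dq p q 2
    · obtain ⟨L', k, -⟩ := hL t ht
      exact (cd_wt.differentiable (by simp) t).hasDerivAt.mul k.differentiableAt.hasDerivAt
    · rw [dwt_zero (mt (@s34 t) ht), wt_zero (mt (@s23 t) ht), zero_mul, zero_mul, add_zero]
      refine (hasDerivAt_const t 0).congr_of_eventuallyEq ?_
      filter_upwards [isClosed_Dp.isOpen_compl.mem_nhds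
        (mt (@Dp_sub_Dq p q 2 3 (by norm_num) t) ht)] with s hs
      rw [wt_zero (mt (@Dq_sub_Dp p q 3 s) hs), zero_mul]
  have i2 : Integrable fun t => deriv (wt p q) t * L t :=
    IntegrableOn.integrable_of_forall_notMem_eq_zero (ContinuousOn.integrableOn_compact cpt_Bt
      ((cd_wt.continuous_deriv (by simp)).continuousOn.mul fun t ht =>
        (hL t (s34 ht)).choose_spec.1.continuousAt.continuousWithinAt))
      fun t ht => by rw [dwt_zero ht, zero_mul]
  have iG := (integrable_indicator_iff (mD 2)).2 gi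
  have iT := (integrable_indicator_iff (mD 3)).2 Ti
  have i3 : Integrable fun t => wt p q t * deriv L t := by
    refine ((iG.const_mul 2).add (iT.const_mul 4)).mono' (cd_wt.continuous.measurable.mul
      (measurable_deriv L)).aestronglyMeasurable (.of_forall fun t => ?_)
    by_cases ht : t ∈ Dq p q 3
    · obtain ⟨L', k, k'⟩ := hL t (s23 ht)
      rw [Pi.add_apply, indicator_of_mem ht, indicator_of_mem (s23 ht), k.deriv, norm_mul,
        Real.norm_of_nonneg wt_mem.1]
      refine (mul_le_of_le_one_left (norm_nonneg _) wt_mem.2).trans (abs_le.2 ?_)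
      constructor <;> linarith [abs_le.1 k', g0 t, (abs_le.1 k').1, (abs_le.1 k').2]
    · rw [wt_zero ht, zero_mul, norm_zero]
      exact add_nonneg (mul_nonneg two_pos.le (indicator_nonneg (fun t _ => g0 t) t))
        (mul_nonneg four_pos.le (indicator_nonneg (fun t _ => T0 t) t))
  have hm : ∀ s, ∃ m, Tendsto (fun t => wt p q t * L t) (lE s) (𝓝 m) ∧
      |m| ≤ if Inf p q s then |lv s| else 0 := fun s => by
    have : NeBot (lE s) := by
      cases s
      exacts [(inferInstance : NeBot (atBot : Filter ℝ)), (inferInstance : NeBot (atTop : Filter ℝ))]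
    obtain ⟨m, hm⟩ : ∃ m, Tendsto (fun t => wt p q t * L t) (lE s) (𝓝 m) := by
      cases s
      exacts [⟨_, tendsto_limUnder_of_hasDerivAt_of_integrableOn_Iic (a := 0) (fun t _ => hd t)
          (i2.add i3).integrableOn⟩, ⟨_, tendsto_limUnder_of_hasDerivAt_of_integrableOn_Ioi (a := 0)
          (fun t _ => hd t) (i2.add i3).integrableOn⟩]
    refine ⟨m, hm, ?_⟩
    split_ifs with hs
    · have := (lim s hs).eq_zero_of_tendsto (vol_lE s) (((hm.congr' ((ev_Dq hs 4).mono fun t ht => by
        simp only [wt_one ht, one_mul])).sub_const (lv s)).pow 2)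
      rw [sub_eq_zero.1 (pow_eq_zero_iff two_ne_zero |>.1 this)]
    · rw [tendsto_nhds_unique hm ((tendsto_const_nhds (x := 0)).congr' ((ev_not hs 3).mono fun t ht => by
        simp only [wt_zero ht, zero_mul])), abs_zero]
  obtain ⟨m, m1, m2⟩ := hm false
  obtain ⟨n, n1, n2⟩ := hm true
  have ft := integral_of_hasDerivAt_of_tendsto hd (i2.add i3) m1 n1
  have iU := (integrable_indicator_iff mJ).2 Ui
  have iE := (integrable_indicator_iff mJ).2 ei
  have iB : ∀ d d', Integrable ((Bt p q d d').indicator fun _ => (1 : ℝ)) := fun d d' =>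
    (integrable_indicator_iff ms_Bt).2 (integrableOn_const cpt_Bt.measure_lt_top.ne)
  have := kM_nonneg
  have key := integral_mono ((iU.add ((i2.add i3).const_mul 2)).add (iG.const_mul γ))
    ((((iE.const_mul (2 * kM * a + 16 * γ)).add (iT.const_mul 16)).add
      ((iB 3 4).const_mul (2 * kM * c1))).add ((iB 2 3).const_mul (16 * c0))) fun t => by
    have w := wt_mem (p := p) (q := q) (t := t)
    have p1 := indicator_nonneg (s := Jv p q) (fun t _ => mul_nonneg (sub_nonneg.2
      (wt_mem (p := p) (q := q) (t := t)).2) (e0 t)) t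
    have p2 := indicator_nonneg (s := Dq p q 3) (fun t _ => T0 t) t
    have p3 := fun d d' => indicator_nonneg (s := Bt p q d d') (fun _ _ => zero_le_one' ℝ) t
    have p4 := p3 3 4
    have p5 := p3 2 3
    have := hγ.1
    simp only [Pi.add_apply]
    by_cases ht : t ∈ Dq p q 2
    swap
    · rw [indicator_of_notMem ht, show (Jv p q).indicator (fun t => deriv (wt p q) t * U t) t = 0 by
        simp [indicator, dwt_zero (mt (@s34 t) ht)], dwt_zero (mt (@s34 t) ht),
        wt_zero (mt (@s23 t) ht)]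
      simp only [zero_mul, add_zero, mul_zero]
      positivity
    obtain ⟨L', k, k'⟩ := hL t ht
    have hJ := Dq_sub two_pos.le ht
    rw [indicator_of_mem hJ] at p1
    rw [indicator_of_mem ht, indicator_of_mem hJ, indicator_of_mem hJ, k.deriv]
    have a1 : deriv (wt p q) t * (U t + 2 * L t) ≤ 2 * kM * a * ((1 - wt p q t) * e t) +
        2 * kM * c1 * (Bt p q 3 4).indicator (fun _ => 1) t := by
      by_cases hB : t ∈ Bt p q 3 4
      · have c := ct_mem (p := p) (q := q) (d := 3) (s := t)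
        have b := Ub t ht (1 - ct p q 3 t) ⟨by linarith [c.2], by linarith [c.1]⟩
        have b' := mul_le_mul (dct_le (p := p) (q := q) (d := 3) (t := t)) b
          (mul_nonneg (by linarith [c.2]) (abs_nonneg _)) kM_nonneg
        have b'' := le_abs_self (deriv (wt p q) t * (U t + 2 * L t))
        rw [deriv_wt, abs_mul, abs_mul, abs_of_nonneg (by linarith [c.2])] at b''
        rw [indicator_of_mem hB, deriv_wt, wt]
        linarith
      · rw [dwt_zero hB, zero_mul]; positivity
    have a2 := mul_le_mul_of_nonneg_left (abs_le.1 k').2 w.1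
    have a3 := mul_le_mul_of_nonneg_left (ge t ht) (mul_nonneg hγ.1 (sub_nonneg.2 w.2))
    have a4 := mul_le_mul_of_nonneg_right hγ.2 (mul_nonneg w.1 (g0 t))
    have a5 := mul_le_mul_of_nonneg_right hγ.2 (mul_nonneg (sub_nonneg.2 w.2) (T0 t))
    have a6 : T t ≤ (Dq p q 3).indicator T t + c0 * (Bt p q 2 3).indicator (fun _ => 1) t := by
      by_cases h3 : t ∈ Dq p q 3
      · rw [indicator_of_mem h3]; nlinarith
      · rw [indicator_of_mem (show t ∈ Bt p q 2 3 from ⟨Dq_sub_Dp ht, h3⟩)]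
        linarith [Tb t ht h3]
    nlinarith [mul_nonneg w.1 (T0 t)]
  simp only [Pi.add_apply] at key
  have j1 := (iE.const_mul (2 * kM * a + 16 * γ)).add (iT.const_mul 16)
  have j2 := j1.add ((iB 3 4).const_mul (2 * kM * c1))
  have j3 := (i2.add i3).const_mul 2
  rw [integral_add (by exact iU.add j3) (iG.const_mul γ), integral_add iU (by exact j3),
    integral_add (by exact j2) ((iB 2 3).const_mul _),
    integral_add (by exact j1) ((iB 3 4).const_mul _),
    integral_add (iE.const_mul _) (iT.const_mul 16)] at key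
  simp only [integral_const_mul, ft, integral_indicator mJ, integral_indicator (mD _),
    integral_indicator ms_Bt, setIntegral_const, smul_eq_mul, mul_one] at key
  have v1 := mul_le_mul_of_nonneg_left (vol_Bt (p := p) (q := q) (d := 3) (d' := 4) (by norm_num))
    (show 0 ≤ 2 * kM * c1 by positivity)
  have v2 := mul_le_mul_of_nonneg_left (vol_Bt (p := p) (q := q) (d := 2) (d' := 3) (by norm_num))
    (show 0 ≤ 16 * c0 by positivity)
  rw [Fintype.sum_bool]
  linarith [le_abs_self m, neg_abs_le n]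

end Crest.Agent.X212.Mp86.En
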