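import Crest.Agent.X212.Mp86.En3
import Crest.Agent.X212.Mp86.En4
import Crest.Agent.X212.Pb50.Main

/-!
# Row 212, SW-EN (helper86), part 5: the infinite ends
-/

set_option autoImplicit false
set_option linter.unusedSectionVars false
noncomputable section
open scoped Manifold ContDiff Topology InnerProductSpace
open MeasureTheory Finset Filter Asymptotics

namespace Crest.Agent.X212.Mp86.En
open An Wz78 Sob92 Sw88 Cyf70
open Sw (Bg F2 En3)
open Sw.En3
open Pb50 (nd Gl Gb nd_basis)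

section dm
variable {α N N' N'' : Type} [NormedAddCommGroup N] [NormedAddCommGroup N'] [NormedAddCommGroup N'']
  {A : Submodule ℝ (α → ℝ)} {l : Filter α} {f g : α → N} {u : α → N'}

variable (A l) in
/-- the square is dominated by a function of class `A` -/
def Dm (g : α → N) : Prop := ∃ S ∈ A, ∀ᶠ x in l, ‖g x‖ ^ 2 ≤ S x

variable (l) in
/-- bounded -/
abbrev Bo (g : α → N) : Prop := g =O[l] fun _ => (1 : ℝ)

theorem Dm.mono (h : Dm A l u) (k : f =O[l] u) : Dm A l f :=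
  let ⟨_, h1, h2⟩ := h
  let ⟨C, hC⟩ := k.bound
  ⟨_, A.smul_mem (C ^ 2) h1, (h2.and hC).mono fun _ hx =>
    (pow_le_pow_left₀ (norm_nonneg _) hx.2 2).trans ((mul_pow _ _ _).trans_le
      (mul_le_mul_of_nonneg_left hx.1 (sq_nonneg C)))⟩

theorem Dm.congr (h : Dm A l f) (k : g =ᶠ[l] f) : Dm A l g := h.mono k.isBigO

theorem Dm.add (h : Dm A l f) (h' : Dm A l g) : Dm A l fun x => f x + g x :=
  let ⟨_, h1, h2⟩ := h
  let ⟨_, h3, h4⟩ := h'
  ⟨_, A.smul_mem 2 (A.add_mem h1 h3), (h2.and h4).mono fun x hx =>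
    (pow_le_pow_left₀ (norm_nonneg _) (norm_add_le _ _) 2).trans (by
      simp only [Pi.smul_apply, Pi.add_apply, smul_eq_mul]
      nlinarith [hx.1, hx.2, sq_nonneg (‖f x‖ - ‖g x‖)])⟩

theorem Dm.sub (h : Dm A l f) (h' : Dm A l g) : Dm A l fun x => f x - g x := by
  simpa only [sub_eq_add_neg] using h.add (h'.mono (isBigO_refl g l).neg_left)

theorem Dm.sum {ι : Type} [Fintype ι] {f : ι → α → N} (h : ∀ i, Dm A l (f i)) :
    Dm A l fun x => ∑ i, f i x := by
  choose S h1 h2 using h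
  exact ⟨_, A.smul_mem (Fintype.card ι : ℝ) (A.sum_mem fun i (_ : i ∈ univ) => h1 i),
    (eventually_all.2 h2).mono fun x hx => (nsq_sum' _).trans (by
      rw [Pi.smul_apply, Finset.sum_apply, smul_eq_mul]
      exact mul_le_mul_of_nonneg_left (sum_le_sum fun i _ => hx i) (Nat.cast_nonneg _))⟩
where nsq_sum' (v : ι → N) : ‖∑ a, v a‖ ^ 2 ≤ Fintype.card ι * ∑ a, ‖v a‖ ^ 2 :=
  (pow_le_pow_left₀ (norm_nonneg _) (norm_sum_le _ _) 2).trans sq_sum_le_card_mul_sum_sq

theorem Dm.lp {ι : Type} [Fintype ι] {f : α → Fm ι ℝ} (h : ∀ i, Dm A l fun x => f x i) :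
    Dm A l f := by
  choose S h1 h2 using h
  exact ⟨_, A.sum_mem fun i (_ : i ∈ univ) => h1 i, (eventually_all.2 h2).mono fun x hx => by
    rw [PiLp.norm_sq_eq_of_L2, Finset.sum_apply]
    exact sum_le_sum fun i _ => hx i⟩

theorem Dm.bil {a : α → N''} (h : Dm A l u) (ha : Bo l a) (k : ∀ x, ‖f x‖ ≤ ‖a x‖ * ‖u x‖) :
    Dm A l f := h.mono ((IsBigO.of_norm_le k).trans (by
      simpa using ha.norm_left.mul (isBigO_refl (fun x => ‖u x‖) l)))

theorem Dm.mul {a u : α → ℝ} (h : Dm A l u) (ha : Bo l a) : Dm A l fun x => a x * u x :=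
  h.bil ha fun _ => norm_mul_le _ _

theorem Dm.mul' {a u : α → ℝ} (h : Dm A l u) (ha : Bo l a) : Dm A l fun x => u x * a x := by
  simpa only [mul_comm] using h.mul ha

theorem Dm.cmul {u : α → ℝ} (h : Dm A l u) (r : ℝ) : Dm A l fun x => r * u x :=
  h.mul (isBigO_const_one ℝ r l)

theorem Dm.inl {V : Type} [NormedAddCommGroup V] [InnerProductSpace ℝ V] {a u : α → V}
    (h : Dm A l u) (ha : Bo l a) : Dm A l fun x => ⟪u x, a x⟫_ℝ :=
  h.bil ha fun _ => (norm_inner_le_norm _ _).trans_eq (mul_comm _ _)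

theorem Dm.inr {V : Type} [NormedAddCommGroup V] [InnerProductSpace ℝ V] {a u : α → V}
    (h : Dm A l u) (ha : Bo l a) : Dm A l fun x => ⟪a x, u x⟫_ℝ :=
  h.bil ha fun _ => norm_inner_le_norm _ _

theorem Dm.lip {φ : ℝ → ℝ} {S : Set ℝ} {r : α → ℝ} {r₀ C : ℝ} (h : Dm A l fun x => r x - r₀)
    (hS : Convex ℝ S) (h0 : r₀ ∈ S) (h1 : ∀ x, r x ∈ S) (hd : Differentiable ℝ φ)
    (hC : ∀ s ∈ S, ‖deriv φ s‖ ≤ C) : Dm A l fun x => φ (r x) - φ r₀ :=
  h.mono (.of_bound C (.of_forall fun x =>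
    hS.norm_image_sub_le_of_norm_deriv_le (fun s _ => hd s) hC h0 (h1 x)))

end dm

variable {κ lam ν : Type} [Fintype κ] [Fintype lam] [Fintype ν] [DecidableEq ν]
  {e : En3 κ lam ν} {c : e.ZC} {v : e.YC} {J : Set ℝ} {s : Bool}
  {N : Type} [NormedAddCommGroup N] [NormedSpace ℝ N]

/-- integrable functions of the time -/
def A1 : Submodule ℝ (ℝ → ℝ) where
  carrier := {S | Integrable S volume}
  add_mem' h k := Integrable.add h k
  zero_mem' := integrable_zero _ _ _
  smul_mem' r _ h := Integrable.smul r h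

variable (e) in
/-- integrable functions on the cylinder with integrable slices -/
def A2 : Submodule ℝ (e.Y.M × ℝ → ℝ) where
  carrier := {S | Integrable S (e.D.F.μ.prod volume) ∧ ∀ t, Integrable (fun y => S (y, t)) e.D.F.μ}
  add_mem' h k := ⟨h.1.add k.1, fun t => (h.2 t).add (k.2 t)⟩
  zero_mem' := ⟨integrable_zero _ _ _, fun _ => integrable_zero _ _ _⟩
  smul_mem' r _ h := ⟨h.1.smul r, fun t => (h.2 t).smul r⟩

theorem ev_pm (s : Bool) (T : ℝ) : ∀ᶠ t in lE s, T < M.pm s * t := by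
  cases s
  exacts [(eventually_lt_atBot (-T)).mono fun t ht => by simp [M.pm]; linarith,
    (eventually_gt_atTop T).mono fun t ht => by simpa [M.pm] using ht]

theorem ev_nd {p : e.Y.M × ℝ → Prop} (h : ∀ᶠ x in nd e.Y.M s, p x) :
    ∀ᶠ t in lE s, ∀ y, p (y, t) :=
  let ⟨T, _, hT⟩ := nd_basis.eventually_iff.1 h
  (ev_pm s T).mono fun _ ht _ => hT ht

theorem tn : Tendsto Prod.snd (nd e.Y.M s) (lE s) := by
  cases s
  exacts [tendsto_atBot.2 fun b => nd_basis.eventually_iff.2 ⟨-b, trivial, fun x hx => by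
      simp [M.pm] at hx; exact hx.le⟩, tendsto_atTop.2 fun b => nd_basis.eventually_iff.2
    ⟨b, trivial, fun x hx => by simp [M.pm] at hx; exact hx.le⟩]

theorem dm_gl {g : e.Y.M × ℝ → N} (h : Gl e.D.F.toPre s g) : Dm (A2 e) (nd e.Y.M s) g :=
  let ⟨g', h1, h2⟩ := h
  ⟨fun x => ‖g' x‖ ^ 2, ⟨integrableOn_univ.1 (h1.hh Set.univ []), fun t =>
    itg ((sm_slice_fst h1.1 t).continuous.norm.pow 2)⟩, h2.mono fun x hx => by rw [hx]⟩

theorem bo_gb {g : e.Y.M × ℝ → N} (h : Gb e.D.F.toPre s g) : Bo (nd e.Y.M s) g :=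
  let ⟨C, hC⟩ := h.bdd []
  .of_bound C (by simpa [Pre.Dw] using hC)

theorem bo_st {g : e.Y.M → N} (h : Continuous g) : Bo (nd e.Y.M s) fun x => g x.1 :=
  let ⟨C, hC⟩ := h.bounded_above_of_compact_support (.of_compactSpace _)
  .of_bound C (.of_forall fun x => by simpa using hC x.1)

theorem Dm.int {g : e.Y.M × ℝ → ℝ} (h : Dm (A2 e) (nd e.Y.M s) g) :
    Dm A1 (lE s) fun t => ∫ y, g (y, t) ∂e.D.F.μ := by
  obtain ⟨S, h1, h2⟩ := h
  set V := e.D.F.μ.real Set.univ
  have V0 : 0 < V + 1 := by positivity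
  refine ⟨_, h1.1.integral_prod_right.smul (V + 1), (ev_nd h2).mono fun t ht => ?_⟩
  refine (pow_le_pow_left₀ (norm_nonneg _) (norm_integral_le_integral_norm _) 2).trans ?_
  set B := ∫ y, ‖g (y, t)‖ ∂e.D.F.μ
  have B0 : 0 ≤ B / (V + 1) := div_nonneg (integral_nonneg fun _ => norm_nonneg _) V0.le
  have k := integral_mono_of_nonneg (f := fun y => 2 * (B / (V + 1)) * ‖g (y, t)‖)
    (.of_forall fun y => by positivity) ((integrable_const ((B / (V + 1)) ^ 2)).add (h1.2 t))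
    (.of_forall fun y => by
      simp only [Pi.add_apply]; nlinarith [ht y, sq_nonneg (B / (V + 1) - ‖g (y, t)‖)])
  simp only [Pi.add_apply] at k
  rw [integral_add (integrable_const _) (h1.2 t), integral_const_mul, integral_const] at k
  change _ * B ≤ V * _ + _ at k
  have := mul_div_cancel₀ B V0.ne'
  generalize B / (V + 1) = r at k this
  rw [← this] at k
  rw [Pi.smul_apply, smul_eq_mul, ← this]
  nlinarith [mul_le_mul_of_nonneg_left k V0.le, sq_nonneg r, sq_nonneg (r * (V + 1))]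

theorem Dm.snd {G : ℝ → ℝ} (h : Dm A1 (lE s) G) : Dm (A2 e) (nd e.Y.M s) fun x => G x.2 :=
  let ⟨S, h1, h2⟩ := h
  ⟨fun x => S x.2, ⟨Integrable.comp_snd (f := S) h1 _, fun t => integrable_const (S t)⟩, tn.eventually h2⟩

theorem int_lE {G S : ℝ → ℝ} (hJ : IsOpen J) (ev : ∀ᶠ t in lE s, t ∈ J) (hc : ContinuousOn G J)
    (hS : Integrable S) (h : ∀ᶠ t in lE s, ‖G t‖ ≤ S t) : IntegrableAtFilter G (lE s) volume := by
  have : IsMeasurablyGenerated (lE s) := by
    cases s
    exacts [(inferInstance : IsMeasurablyGenerated (atBot : Filter ℝ)),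
      (inferInstance : IsMeasurablyGenerated (atTop : Filter ℝ))]
  exact (IsBigO.of_norm_eventuallyLE h).integrableAtFilter
    ⟨J, ev, hc.aestronglyMeasurable hJ.measurableSet⟩ (hS.integrableAtFilter _)

/-- the local part of the functional -/
def dn (v : e.YC) (y : e.Y.M) : ℝ :=
  2 * ∑ k, e.cyl.p2 (y, 0) (e.cyl.fc ⟨0, 0⟩ (y, 0) + e.cyl.fc (fz v) (y, 0)) (none, some k) * v.a k y
    - 4 * ∑ k, e.om y (none, some k) * v.a k y + e.w / 2 * ⟪(gr v).Φ y, v.Φ y⟫_ℝ

variable (e) in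
/-- the radial part of the functional -/
def Gf (r : ℝ) : ℝ := e.b r * r - ∫ s in (0 : ℝ)..r, e.b s

theorem dn_eq (y : e.Y.M) : dn v y = dens v y - e.w / 2 * e.b (nm v) * ‖v.Φ y‖ ^ 2 := by
  simp only [dn, dens, gr, inner_sub_left, inner_neg_left, real_inner_smul_left,
    real_inner_self_eq_norm_sq]
  ring

variable (he : e.OK)
include he

theorem der_Gf (r : ℝ) : HasDerivAt (Gf e) (deriv e.b r * r) r :=
  (((he.sb.differentiable (by simp) r).hasDerivAt.mul (hasDerivAt_id r)).sub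
    (he.sb.continuous.integral_hasStrictDerivAt 0 r).hasDerivAt).congr_deriv (by simp)

theorem Gf_le : ∃ C, ∀ r ∈ Set.Ici (0 : ℝ), ‖deriv (Gf e) r‖ ≤ C := by
  obtain ⟨C, hC⟩ := (isCompact_Icc (a := (0 : ℝ)) (b := 1)).exists_bound_of_continuousOn
    ((he.sb.continuous_deriv (by simp)).mul continuous_id).continuousOn
  refine ⟨C, fun r hr => (der_Gf he r).deriv ▸ (le_or_gt r 1).elim (fun h => hC r ⟨hr, h⟩) fun h => ?_⟩
  rw [EventuallyEq.deriv_eq (f := fun _ => 0) ((lt_mem_nhds h).mono fun s hs => he.b1 s hs.le)]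
  simpa using hC 0 ⟨le_rfl, zero_le_one⟩

theorem i_dn (hv : e.cyl.Adm (fz v)) : Integrable (dn v) e.D.F.μ := by
  rw [funext dn_eq]
  exact itg ((cont_dens he hv).sub (continuous_const.mul ((cont_Φ hv).norm.pow 2)))

theorem L_dn (hv : e.cyl.Adm (fz v)) :
    L v = ∫ y, dn v y ∂e.D.F.μ + (e.f (hol v) - e.f 0) + e.w / 2 * Gf e (nm v) := by
  simp only [dn_eq]
  rw [L_eq he hv, integral_sub (itg (cont_dens he hv))
    (by exact (itg ((cont_Φ hv).norm.pow 2)).const_mul _), integral_const_mul, Gf, ← nm]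
  ring

/-- **the infinite ends** -/
theorem asy (hJ : IsOpen J) (h : e.cyl.AdmOn c (Set.univ ×ˢ J)) (ev : ∀ᶠ t in lE s, t ∈ J)
    (hq : ∀ t ∈ J, Dq0 c t) (hv : Crit v) (cL : ContinuousOn (fun t => L (sl c t)) J)
    (cg : ContinuousOn (fun t => gn (sl c t)) J)
    (ha : ∀ i, Gl e.D.F.toPre s fun x => c.a i x - (fz v).a i x)
    (hΦ : Gl e.D.F.toPre s fun x => c.Φ x - v.Φ x.1) :
    IntegrableAtFilter (fun t => gn (sl c t)) (lE s) volume ∧
      IntegrableAtFilter (fun t => (L (sl c t) - L v) ^ 2) (lE s) volume := by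
  have ex : ∀ {p : e.Y.M × ℝ → Prop}, (∀ y, ∀ t ∈ J, p (y, t)) → ∀ᶠ x in nd e.Y.M s, p x :=
    fun k => (tn.eventually ev).mono fun x hx => k x.1 x.2 hx
  have hb := he.cyl
  have bΦ := bo_gb (Pb50.gb_of he hΦ (Pb50.gb_fst (Sep15.S.sm_Φ hv.1)))
  have ba := fun i => bo_gb (Pb50.gb_of he (ha i) (Pb50.gb_fz (hv.1.sa i) (Pb50.fz_a v i)))
  have da := fun i => dm_gl (ha i)
  have dΦ := dm_gl hΦ
  have d1 : Dm (A2 e) (nd e.Y.M s) fun x => e.cyl.fc c x - e.cyl.fc (fz v) x := .lp fun ⟨i, j⟩ =>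
    (((dm_gl ((ha j).D i)).sub (dm_gl ((ha i).D j))).sub (.sum fun k => (da k).mul
      (a := e.cyl.F.c i j k) (isBigO_of_le' _ fun x => (CB_bound ((hb.tame.choose_spec.c
        i j k).2 0) x).trans_eq (mul_one _).symm |>.trans_eq (by rw [norm_one])))).congr
      (ex fun y t ht => by
      have k := fun i => at_a hJ h ht i y
      have k' : ∀ i j, (cylP e.D.F.toPre).D i _ _ = _ := fun i j =>
        dv_sub' (e := e.cyl.F.e i) (k j) (hv.1.sa j (y, t))
      simp only [PiLp.sub_apply, fc_add hb k, fc_add hb fun i => hv.1.sa i (y, t), d1, smul_eq_mul,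
        mul_sub, sum_sub_distrib, k']
      ring)
  set η := fun x : e.Y.M × ℝ => e.cyl.fc (fz (sl c x.2)) (x.1, 0) - e.cyl.fc (fz v) (x.1, 0)
  have d2 : ∀ k, Dm (A2 e) (nd e.Y.M s) fun x => e.cyl.p2 (x.1, 0) (η x) (none, some k) := fun k =>
    d1.mono (.of_bound' (ex fun y t ht => (PiLp.norm_apply_le _ _).trans
      ((Sw88.norm_p2 hb _).trans (norm_le_of (by
        have k := fc_sl he fun i => at_a hJ h ht i y
        have k' := fc_sl he fun i => hv.1.sa i (y, t)
        rintro ⟨_ | i, _ | j⟩ <;> simp [η, fc_none, k, k', show sl (fz v) t = v from rfl])))))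
  have cζ := fun k => cmp (none, some k) he.sζ.continuous
  have dh : Dm A1 (lE s) fun t => hol (sl c t) - hol v :=
    ((Dm.sum fun k => (da (some k)).mul (bo_st (cζ k))).cmul 4).int.congr (ev.mono fun t ht => by
      have i : ∀ u : e.YC, e.cyl.Adm (fz u) → Integrable (fun y => 4 * ∑ k, e.ζ y (none, some k) *
          u.a k y) e.D.F.μ := fun u hu => itg (continuous_const.mul
        (continuous_finsetSum _ fun k _ => (cζ k).mul (cont_a hu k)))
      simp only [hol, ← integral_sub (i _ (adm_sl h ht)) (i v hv.1), mul_sub, sum_sub_distrib]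
      rfl)
  have sf := contDiff_infty_iff_deriv.1 he.sf
  obtain ⟨C1, h1⟩ := he.bf 1
  obtain ⟨C2, h2⟩ := he.bf 2
  have cT := fun k => (continuous_const (y := e.m.J)).mul ((cont_ρ he none).mul (cont_ρ he (some k)))
  have ga : ∀ k, Dm (A2 e) (nd e.Y.M s) fun x => (gr (sl c x.2)).a k x.1 := fun k =>
    ((((d2 k).sub (((((dΦ.bil (bo_st (cT k)) fun x => ContinuousLinearMap.le_opNorm _ _).inl bΦ).add
      (dΦ.inr (bo_st ((cT k).clm_apply (cont_Φ hv.1))))).cmul (1 / 8)).cmul e.w)).add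
      ((dh.lip convex_univ trivial (fun _ => trivial) (sf.2.differentiable (by simp)) fun r _ => by
        simpa [iteratedDeriv_succ] using h2 r).snd.mul' (bo_st (cζ k)))).cmul 2).congr
      (ex fun y t ht => by
        have k1 := hv.2.1 k y
        have q1 := p2_qd_self hb ((adm_sl h ht).pΦ (y, 0))
        have q2 := p2_qd_self hb (hv.1.pΦ (y, 0))
        simp only [gr, Bg.eC, map_sub, map_smul, q1, q2, η] at k1 ⊢
        simp only [PiLp.add_apply, PiLp.sub_apply, PiLp.smul_apply, smul_eq_mul, Bg.qd, Pi.mul_apply,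
          mul_apply_eq_comp, inner_sub_left, inner_sub_right, En3.cyl, fz, sl] at k1 ⊢
        linear_combination k1)
  have gΦ : Dm (A2 e) (nd e.Y.M s) fun x => (gr (sl c x.2)).Φ x.1 :=
    ((dm_gl (hΦ.D none)).add ((da none).bil (f := fun x => (c.a none x - (fz v).a none x) •
      (e.m.J * e.m.p x.1) (c.Φ x)) (a := fun x => ‖e.m.J * e.m.p x.1‖ * ‖c.Φ x‖) (by
        simpa using (bo_st (continuous_const.mul (show Continuous e.m.p from
          cs0 (g := e.cyl.m.p) hb.cc.sp))).norm_left.mul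
          bΦ.norm_left) fun x => by
        rw [norm_smul, mul_comm]
        exact mul_le_mul_of_nonneg_right ((ContinuousLinearMap.le_opNorm _ _).trans
          (le_abs_self _)) (norm_nonneg _))).mono (.of_bound' (ex fun y t ht => by
      rw [gr_Φ he hJ h ht (hq t ht), norm_neg]
      refine (norm_p he _).trans_eq (congrArg _ ?_)
      rw [show (cylP e.D.F.toPre).D none (fun x => c.Φ x - v.Φ x.1) _ = _ from
        (dv_sub' (e := e.cyl.F.e none) (at_Φ hJ h ht y) (hv.1.sΦ (y, t))).trans (sub_eq_self.2 (D_static v.Φ _))]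
      simp [nb, nab, Bg.W, Bg.jp, En3.cyl, fz, Nd18.ca]))
  constructor
  · choose S k1 k2 using ga
    obtain ⟨S', k3, k4⟩ := gΦ
    have k := (A2 e).add_mem ((A2 e).smul_mem 2 ((A2 e).sum_mem fun k (_ : k ∈ univ) => k1 k))
      ((A2 e).smul_mem e.w k3)
    refine int_lE hJ ev cg k.1.integral_prod_right ?_
    filter_upwards [ev_nd ((eventually_all.2 k2).and k4), ev] with t k5 ht
    rw [Real.norm_of_nonneg (Sep15.S.gn_nonneg hb.w _)]
    refine integral_mono (Sep15.S.integrable_gn he (adm_sl h ht)) (k.2 t) fun y => ?_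
    simp only [Pi.add_apply, Pi.smul_apply, Finset.sum_apply, smul_eq_mul, ← sq,
      real_inner_self_eq_norm_sq]
    exact add_le_add (mul_le_mul_of_nonneg_left (sum_le_sum fun k _ => (sq_abs _).symm.trans_le
      ((k5 y).1 k)) two_pos.le) (mul_le_mul_of_nonneg_left (k5 y).2 hb.w)
  have dm : Dm A1 (lE s) fun t => nm (sl c t) - nm v :=
    ((dΦ.inl bΦ).add (dΦ.inr (bo_st (cont_Φ hv.1)))).int.congr (ev.mono fun t ht => by
      simp only [inner_sub_left, inner_sub_right, real_inner_self_eq_norm_sq, sub_add_sub_cancel]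
      exact (integral_sub (itg ((cont_Φ (adm_sl h ht)).norm.pow 2))
        (itg ((cont_Φ hv.1).norm.pow 2))).symm)
  obtain ⟨C3, h3⟩ := Gf_le he
  obtain ⟨S, k1, k2⟩ := ((((((Dm.sum fun k => ((d2 k).mul' (ba (some k))).add ((da (some k)).mul
    (bo_st (cmp (none, some k) (cs0 fun x => sm_p2 hb ((sm_fc' hb adm0 x).add
      (sm_fc' hb hv.1 x))))))).cmul 2).sub ((Dm.sum fun k => (da (some k)).mul
      (bo_st (cmp (none, some k) (cont_om he)))).cmul 4)).add ((gΦ.inl bΦ).cmul (e.w / 2))).int.add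
    (dh.lip convex_univ trivial (fun _ => trivial) sf.1 fun r _ => by simpa using h1 r)).add
    ((dm.lip (convex_Ici 0) (nm_nonneg v) (fun _ => nm_nonneg _)
      (fun r => (der_Gf he r).differentiableAt) h3).cmul (e.w / 2))).congr
    (g := fun t => L (sl c t) - L v) (ev.mono fun t ht => by
      simp only [L_dn he (adm_sl h ht), L_dn he hv.1]
      refine (show ∀ a b c d f g : ℝ, a + (b - e.f 0) + e.w / 2 * c - (d + (f - e.f 0) + e.w / 2 * g) =
        a - d + (b - f) + e.w / 2 * (c - g) from fun _ _ _ _ _ _ => by ring) _ _ _ _ _ _ |>.trans ?_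
      rw [← integral_sub (i_dn he (adm_sl h ht)) (i_dn he hv.1)]
      congr 3
      funext y
      simp only [dn, η, hv.2.2 y, inner_zero_left, map_add, map_sub, PiLp.add_apply, PiLp.sub_apply,
        Pi.add_apply, add_mul, sub_mul, mul_sub, sum_add_distrib, sum_sub_distrib, sl, fz, Nd18.ca]
      ring)
  exact int_lE hJ ev ((cL.sub continuousOn_const).pow 2) k1 (k2.mono fun t ht => by
    rwa [norm_pow])

end Crest.Agent.X212.Mp86.En
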