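import Crest.Agent.X212.Mp86.En5
import Crest.Agent.X212.Sw88.C0

/-!
# Row 212, SW-EN (helper86), part 6: one neck
-/

set_option autoImplicit false
set_option linter.unusedSectionVars false
noncomputable section
open scoped Manifold ContDiff Topology InnerProductSpace
open MeasureTheory Set Filter

namespace Crest.Agent.X212.Mp86.En
open An Wz78 Sob92 Sw88 Cyf70 Nka63
open Sw (Bg F2 En3 Nk DlStmt)
open Sw.En3
open M (Mf)
open Nd18 (Jv Dp isOpen_Jv Dp_sub)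
open Pb50 (src)

variable {κ lam ν : Type} [Fintype κ] [Fintype lam] [Fintype ν] [DecidableEq ν]
  {X : Mf 4} {nc : ℕ} {e : En3 κ lam ν} {b : Bg X.I X.M κ lam ν nc} (K : Nk e b)
  {c : Sw.Cfg X.M κ ν} {z : e.Y.M × ℝ} {x : X.M} {S : Set ℝ} {d d' : ℝ}

/-- the weight on the piece -/
def wK (x : X.M) : ℝ := wt K.p K.q (K.tm x)

/-- its derivative -/
def dK (x : X.M) : ℝ := deriv (wt K.p K.q) (K.tm x)

/-- the slab between two depths -/
def sB (d d' : ℝ) : Set X.M := K.tm ⁻¹' Bt K.p K.q d d'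

theorem img_eq (h : S ⊆ K.J) : K.ψ '' univ ×ˢ S = K.tm ⁻¹' S := by
  ext x
  refine ⟨?_, fun hx => ?_⟩
  · rintro ⟨z, hz, rfl⟩
    rw [mem_preimage, K.tm_ψ z (K.mem_src.2 (h hz.2))]
    exact hz.2
  · have ht : x ∈ K.ψ.target := K.tgt ▸ h hx
    exact ⟨K.ψ.symm x, ⟨trivial, K.snd_symm ht ▸ hx⟩, K.ψ.right_inv ht⟩

theorem img_deep (hd : 0 ≤ d) : K.ψ '' univ ×ˢ K.deep d = O K.toNk d := img_eq K (Dq_sub hd)

theorem Bt_J {p q : Option ℝ} (hd : 0 < d) : Bt p q d d' ⊆ Jv p q := fun _ h => Dp_sub hd h.1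

theorem cpt_sB (hd : 0 < d) : IsCompact (sB K d d') := by
  rw [sB, ← img_eq K (Bt_J hd)]
  exact (isCompact_univ.prod cpt_Bt).image_of_continuousOn
    (K.ψ.continuousOn.mono fun _ hz => K.mem_src.2 (Bt_J hd hz.2))

theorem vol_sB {C : ℝ} (hN : e.Nb C) : b.F.μ.real (sB K 3 4) ≤ C * 2 := by
  have C0 : 0 ≤ C := (abs_nonneg _).trans (hN.f 0).1
  rw [Measure.real, sB, measure_slab K.toNk ms_Bt (Bt_J three_pos), ENNReal.toReal_mul]
  exact mul_le_mul (ENNReal.toReal_le_of_le_ofReal C0 hN.vol)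
    ((vol_Bt (by norm_num)).trans_eq (by norm_num)) ENNReal.toReal_nonneg C0

/-- Fubini on a slab -/
theorem slab {h : X.M → ℝ} {u : ℝ → ℝ} (hS : MeasurableSet S) (hJ : S ⊆ K.J)
    (hi : IntegrableOn h (K.tm ⁻¹' S) b.F.μ)
    (hu : ∀ t ∈ S, ∫ y, h (K.ψ (y, t)) ∂e.D.F.μ = u t) :
    IntegrableOn u S ∧ ∫ x in K.tm ⁻¹' S, h x ∂b.F.μ = ∫ t in S, u t := by
  have m := K.cont.measurable hS
  have i := (integrable_indicator_iff m).2 hi
  have h0 : ∀ x ∉ K.ψ.target, (K.tm ⁻¹' S).indicator h x = 0 := fun x hx =>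
    indicator_of_notMem (s := K.tm ⁻¹' S) (fun k => hx (K.tgt ▸ hJ k)) _
  have k : EqOn (fun t => ∫ y, (K.tm ⁻¹' S).indicator h (K.ψ (y, t)) ∂e.D.F.μ) (S.indicator u) K.J :=
    fun t ht => by
      by_cases k : t ∈ S <;> simp [indicator, K.tm_ψ _ (src K ht _), k, hu]
  exact ⟨(((integrableOn_slice K.toNk i h0).congr_fun k (meas_J K.toNk)).mono_set hJ).congr_fun
      (fun t ht => indicator_of_mem ht _) hS, by
    rw [← integral_indicator m, integral_neck K.toNk i h0, setIntegral_congr_fun (meas_J K.toNk) k,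
      setIntegral_indicator hS, inter_eq_right.2 hJ]⟩

theorem wK_eq : wK K = K.push fun z => wt K.p K.q z.2 :=
  (K.push_time three_pos fun _ h => wt_zero (mt (@Dq_sub_Dp _ _ _ _) h)).symm

theorem sm_wK : Sm X.I (wK K) := wK_eq K ▸ sm_push K.toNk three_pos (sm_snd cd_wt)
  fun _ h => wt_zero (mt (@Dq_sub_Dp _ _ _ _) h)

theorem D_wK (U : Option κ → ℝ) : ∑ a, b.F.D a (wK K) x * U a = dK K x * U none := by
  have h := fun a => congrFun (D_push K.toNk three_pos (sm_snd cd_wt)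
    (fun _ h => wt_zero (mt (@Dq_sub_Dp _ _ _ _) h)) a) x
  have h1 := congrFun (K.push_time (h := deriv (wt K.p K.q)) three_pos
    fun _ h => dwt_zero fun k => h k.1) x
  have h2 : ∀ a, K.push (e.D.Z.D (some a) fun z => wt K.p K.q z.2) x = 0 := fun a => by
    rw [show e.D.Z.D (some a) _ = 0 from D_some_snd e.D.F.toPre cd_wt a]; simp [pull]
  simp only [wK_eq, h, Fintype.sum_option, h2, zero_mul, Finset.sum_const_zero, add_zero]
  rw [show e.D.Z.D none _ = _ from D_none_snd e.D.F.toPre cd_wt, h1, dK]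

theorem wK_zero (hx : x ∉ O K.toNk 3) : wK K x = 0 := wt_zero hx

theorem dK_zero (hx : x ∉ sB K 3 4) : dK K x = 0 := dwt_zero hx

section at_z
variable (hz : z ∈ K.ψ.source)
include hz

theorem Ed_ψ : Ed b c (K.ψ z) = Ed e.cyl (K.pb c) z := by
  simp only [Ed, Pb50.fc_ψ K hz, Pb50.nab_ψ K hz, K.hw]
  rfl

theorem Uc_ψ : Uc b c none (K.ψ z) = Uc e.cyl (K.pb c) none z := by
  simp only [Uc, Vc, Jc, dir, Pb50.fc_ψ K hz, Pb50.nab_ψ K hz, K.hw, K.hρ _ z hz, K.o _ _ _ _ z hz]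
  rfl

end at_z

theorem kd_tgt (he : e.OK) (hx : x ∈ K.ψ.target) : b.kd ⟨0, 0⟩ x = 0 := by
  have hz := K.ψ.map_target hx
  rw [← K.ψ.right_inv hx, ← kd0 he (K.ψ.symm x)]
  simp only [kd_eq, Base.st, Pb50.fc_ψ K hz, K.o _ _ _ _ _ hz]
  rfl

variable (he : e.OK) (hb : b.OK) (hc : b.Adm c)
include he hb hc

theorem i_dK : Integrable (fun x => dK K x * Uc b c none x) b.F.μ :=
  IntegrableOn.integrable_of_forall_notMem_eq_zero (ContinuousOn.integrableOn_compact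
    (cpt_sB K three_pos) (((cd_wt.continuous_deriv (by simp)).comp K.cont).mul
      (sm_Uc hb hc none).continuous).continuousOn) fun x hx => by rw [dK_zero K hx, zero_mul]

/-- the radial mass -/
theorem rad_int {C : ℝ} (hN : e.Nb C) :
    IntegrableOn (fun x => b.w * ‖K.rad c x‖ ^ 2) (sB K 1 4) b.F.μ ∧
      ∫ x in sB K 1 4, b.w * ‖K.rad c x‖ ^ 2 ∂b.F.μ ≤ 6 := by
  have i : IntegrableOn (fun x => b.w * ‖K.rad c x‖ ^ 2) (sB K 1 4) b.F.μ :=
    ContinuousOn.integrableOn_compact (cpt_sB K one_pos) (continuous_const.mul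
      ((((cd_β K he hc.sΦ).continuous.comp K.cont).smul ((ContMDiff.continuous
        (hb.cc.sρ none)).clm_apply hc.sΦ.continuous)).norm.pow 2)).continuousOn
  obtain ⟨h1, h2⟩ := slab K ms_Bt (Bt_J one_pos) i fun _ _ => rfl
  refine ⟨i, h2.trans_le ((setIntegral_mono_on h1 (integrableOn_const (C := (1 : ℝ))
    cpt_Bt.measure_lt_top.ne) ms_Bt fun t ht => ?_).trans ?_)⟩
  · have hJ := Bt_J one_pos ht
    refine le_trans ?_ (rad_le he hN (sl (K.pb c) t))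
    rw [nm, ← integral_const_mul, ← nm]
    refine integral_mono_of_nonneg (.of_forall fun _ => mul_nonneg hb.w (sq_nonneg _))
      ((itg ((cont_Φ (adm_sl (Pb50.admOn_pb K hc) hJ)).norm.pow 2)).const_mul _)
      (.of_forall fun y => ?_)
    simp only [Nk.rad, K.hw, K.tm_ψ _ (src K hJ y), K.hρ _ _ (src K hJ y), mul_smul, mul_assoc]
    refine mul_le_mul_of_nonneg_left ((pow_le_pow_left₀ (norm_nonneg _) (norm_χ_smul K _ _) 2).trans
      ?_) hN.w0.le
    rw [norm_smul, mul_pow, Real.norm_eq_abs, sq_abs]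
    exact mul_le_mul_of_nonneg_left (pow_le_pow_left₀ (norm_nonneg _) (norm_ρ he _) 2) (sq_nonneg _)
  · rw [setIntegral_const, smul_eq_mul, mul_one]
    exact (vol_Bt (by norm_num)).trans_eq (by norm_num)

open Classical in
/-- **the estimate on a neck** -/
theorem neck (hD : DlStmt κ lam ν) {C ε δ γ : ℝ} {τ : X.M → F2 κ} {v : Bool → e.YC} (hN : e.Nb C)
    (hm : ∀ x, ‖b.ms x‖ ≤ C) (hε : 0 ≤ ε) (hδ : 0 < δ) (hγ : γ ∈ Icc (0 : ℝ) 1)
    (hq : ∀ x ∈ K.ψ.target, b.eD c x = K.rad c x ∧ b.eC c x = K.hl c x + τ x)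
    (hτ : ∀ x ∈ K.ψ.target, x ∉ O K.toNk 3 → ‖τ x‖ ≤ 2)
    (hT : ∫⁻ x in O K.toNk 3, ‖τ x‖ₑ ^ 2 ∂b.F.μ ≤ 1 + ENNReal.ofReal ε * en (K.pb c) (K.deep 2))
    (hv : ∀ s, K.Inf s → Crit (v s) ∧ K.Asy s (v s) c)
    (hE : IntegrableOn (fun x => (1 - wK K x) * Ed b c x) K.ψ.target b.F.μ) :
    ∃ G, 0 ≤ G ∧ en (K.pb c) (K.deep 2) = ENNReal.ofReal G ∧
      IntegrableOn (fun x => ‖τ x‖ ^ 2) (O K.toNk 3) b.F.μ ∧
      ∫ x in O K.toNk 3, ‖τ x‖ ^ 2 ∂b.F.μ ≤ 1 + ε * G ∧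
      (∫ x, dK K x * Uc b c none x ∂b.F.μ) + γ * G ≤ (2 * kM * (16 * C * δ) + 16 * γ) *
        (∫ x in K.ψ.target, (1 - wK K x) * Ed b c x ∂b.F.μ) + 16 * (1 + ε * G) +
        (4 * kM * (12 * C + 1 + (2 * C + C ^ 2) / δ) + 32 * (4 * C)) +
        2 * ∑ s, if K.Inf s then |L (v s)| else 0 := by
  have C0 : 0 ≤ C := (abs_nonneg _).trans (hN.f 0).1
  have ha := Pb50.admOn_pb K hc
  have s2 : Dq K.p K.q 2 ⊆ K.J := Dq_sub two_pos.le
  have s3 : Dq K.p K.q 3 ⊆ Dq K.p K.q 2 := Dq_mono (by norm_num)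
  have tg := fun t ht y => K.ψ.map_source (src K (t := t) ht y)
  have q0 : ∀ t ∈ Dq K.p K.q 2, Dq0 (K.pb c) t := fun t ht y => by
    have hz := src K (s2 ht) y
    rw [← Pb50.eD_ψ K hz, (hq _ (tg t (s2 ht) y)).1, Nk.rad, Pb50.χ_ψ K (x := (y, t)) ht, one_mul,
      K.tm_ψ _ hz, K.hρ _ _ hz]
    rfl
  have q1 : ∀ t ∈ Dq K.p K.q 2, ∀ y, τ (K.ψ (y, t)) = tY (K.pb c) (y, t) := fun t ht y => by
    have hz := src K (s2 ht) y
    rw [tY, ← Pb50.eC_ψ K hz, (hq _ (tg t (s2 ht) y)).2, Nk.hl, Pb50.ext_ψ K _ (x := (y, t)) ht,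
      K.tm_ψ _ hz, neg_smul]
    abel
  obtain ⟨cL, cg, dL⟩ := hD e he _ _ isOpen_Jv ha
  have as := fun s (hs : Inf K.p K.q s) => asy he isOpen_Dq (Sep15.S.admOn_mono ha
    (prod_mono_right s2)) (ev_Dq hs 2) q0 (hv s hs).1 (cL.continuousOn.mono s2)
    (cg.continuousOn.mono s2) ((Pb50.asy_iff K hs hc (hv s hs).1.1).1 (hv s hs).2).1
    ((Pb50.asy_iff K hs hc (hv s hs).1.1).1 (hv s hs).2).2
  have g0 := fun t => Sep15.S.gn_nonneg hN.w0.le (sl (K.pb c) t)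
  have gi := int_Dq two_pos cg.continuousOn fun s hs => (as s hs).1
  have G0 : 0 ≤ ∫ t in Dq K.p K.q 2, gn (sl (K.pb c) t) := integral_nonneg g0
  have hG : en (K.pb c) (K.deep 2) = _ :=
    (ofReal_integral_eq_lintegral_ofReal gi (.of_forall g0)).symm
  have o3 := O_sub K.toNk (d := 3) (by norm_num)
  have cτ : ContinuousOn τ (O K.toNk 3) := by
    have ch : ContinuousOn (fun t => hol (sl (K.pb c) t)) K.J :=
      (cd_sl e.D.F.toPre isOpen_Jv (g := fun z => 4 * ∑ k, e.ζ z.1 (none, some k) *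
        (K.pb c).a (some k) z) fun z hz => (SA.mul contMDiffAt_const (SA.sum _ fun k _ => SA.mul
          (Sep15.S.sa_ev (sm_fst he.sζ z) (none, some k))
          (at_a isOpen_Jv ha hz.2 (some k) z.1))).contMDiffWithinAt).continuousOn
    exact ((sm_eC hb hc).continuous.continuousOn.sub ((((he.sf.continuous_deriv (by simp)).comp_continuousOn
      (ch.comp K.cont.continuousOn fun x hx => s2 (s3 hx))).neg).smul
      (sm_ext K.toNk he.sζ).continuous.continuousOn)).congr fun x hx =>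
        eq_sub_of_add_eq' (hq x (o3 hx)).2.symm
  have e1 : ∀ x, ‖τ x‖ₑ ^ 2 = ENNReal.ofReal (‖τ x‖ ^ 2) := fun x => by
    rw [← ofReal_norm, ENNReal.ofReal_pow (norm_nonneg _)]
  rw [hG, ← ENNReal.ofReal_mul hε, ← ENNReal.ofReal_one, ← ENNReal.ofReal_add zero_le_one
    (mul_nonneg hε G0), lintegral_congr e1] at hT
  have iτ : IntegrableOn (fun x => ‖τ x‖ ^ 2) (O K.toNk 3) b.F.μ :=
    ⟨(cτ.norm.pow 2).aestronglyMeasurable (isOpen_O _).measurableSet,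
      (hasFiniteIntegral_iff_ofReal (.of_forall fun _ => sq_nonneg _)).2
        (hT.trans_lt ENNReal.ofReal_lt_top)⟩
  rw [← ofReal_integral_eq_lintegral_ofReal iτ (.of_forall fun _ => sq_nonneg _),
    ENNReal.ofReal_le_ofReal_iff (by positivity)] at hT
  obtain ⟨T1, T2⟩ := slab K (u := Ts (K.pb c)) isOpen_Dq.measurableSet (s3.trans s2) iτ
    fun t ht => by simp only [q1 t (s3 ht), Ts]
  obtain ⟨E1, E2⟩ := slab K (u := fun t => (1 - wt K.p K.q t) * es (K.pb c) t) (meas_J K.toNk)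
    subset_rfl (K.tgt ▸ hE) fun t ht => by
      simp only [wK, K.tm_ψ _ (src K ht _), Ed_ψ K (src K ht _), integral_const_mul, es]
  obtain ⟨U1, U2⟩ := slab K (u := fun t => deriv (wt K.p K.q) t * Us (K.pb c) t) (meas_J K.toNk)
    subset_rfl (i_dK K he hb hc).integrableOn fun t ht => by
      simp only [dK, K.tm_ψ _ (src K ht _), Uc_ψ K (src K ht _), integral_const_mul, Us]
  have key := oneD (lv := fun s => L (v s)) (c0 := 4 * C) (by positivity) (by positivity)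
    (by positivity) hγ (fun t ht => ⟨_, dL t (s2 ht) (q0 t ht), by
      rw [neg_add_cancel_comm]; exact ip_le he isOpen_Jv ha (s2 ht)⟩) g0 gi (fun _ => Ts_nonneg) T1
    (fun t ht k => by
      refine (integral_mono (i_tY he isOpen_Jv ha (s2 ht)) (integrable_const (2 ^ 2)) fun y =>
        pow_le_pow_left₀ (norm_nonneg _) (q1 t ht y ▸ hτ _ (tg t (s2 ht) y) fun k' => k (by
          rwa [O, mem_preimage, K.tm_ψ _ (src K (s2 ht) y)] at k')) 2).trans ?_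
      rw [integral_const, smul_eq_mul]
      linarith [show e.D.F.μ.real univ ≤ C from ENNReal.toReal_le_of_le_ofReal C0 hN.vol])
    (fun _ => es_nonneg he) E1 (fun t ht => gn_le he isOpen_Jv ha (s2 ht) (q0 t ht)) U1
    (fun t ht η hη => Us_le he isOpen_Jv ha (s2 ht) hN (fun y => K.hms _ (src K (s2 ht) y) ▸ hm _)
      hδ hη) fun s hs => (as s hs).2
  refine ⟨_, G0, hG, iτ, hT, ?_⟩
  rw [← E2, ← U2, ← T2, ← K.tgt, setIntegral_eq_integral_of_forall_compl_eq_zero fun x hx => by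
    rw [dK_zero K fun k => hx (K.tgt ▸ Bt_J three_pos k), zero_mul]] at key
  exact key.trans (by gcongr; exacts [hT, le_rfl])

end Crest.Agent.X212.Mp86.En
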