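import Crest.Agent.X212.Mp86.En6
import Crest.Agent.X212.Dl42.Main

/-!
# Row 212, SW-EN (helper86), part 7: the energy inequality
-/

set_option autoImplicit false
set_option linter.unusedSectionVars false
noncomputable section
open scoped Manifold ContDiff Topology InnerProductSpace
open MeasureTheory Set Filter

namespace Crest.Agent.X212.Mp86.En
open An Wz78 Sob92 Sw88 Cyf70 Nka63
open Sw (Bg F2 En3 Nk Pz BCs DlStmt EnStmt)
open Sw.En3
open M (Mf)

variable {κ lam ν : Type} [Fintype κ] [Fintype lam] [Fintype ν] [DecidableEq ν]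
  {X : Mf 4} {nc : ℕ} {N : Type} [Fintype N] {e : N → En3 κ lam ν} (P : Pz X nc e)
  {c : Sw.Cfg X.M κ ν} {x : X.M} {d : ℝ}

/-- the necks which are present -/
abbrev Ix : Type := {i // (P.nk i).isSome}

variable {P} in
/-- the neck -/
def kk (j : Ix P) : Nk (e j.1) P.bg := (P.nk j.1).get j.2

variable {P} in
theorem kk_mem (j : Ix P) : kk j ∈ P.nk j.1 := Option.get_mem _

theorem all_kk {p : ∀ i, Nk (e i) P.bg → Prop} :
    (∀ i, ∀ K ∈ P.nk i, p i K) ↔ ∀ j : Ix P, p j.1 (kk j) :=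
  ⟨fun h j => h _ _ (kk_mem j), fun h i K hK => by
    have := h ⟨i, Option.isSome_of_mem hK⟩
    rwa [kk, Option.get_of_mem _ hK] at this⟩

theorem sum_kk {V : Type} [AddCommMonoid V] (f : ∀ i, Nk (e i) P.bg → V) :
    ∑ i, (P.nk i).elim 0 (f i) = ∑ j : Ix P, f j.1 (kk j) := by
  rw [← Fintype.sum_subtype_add_sum_subtype (fun i => (P.nk i).isSome),
    Finset.sum_eq_zero (s := Finset.univ) fun (j : {i // ¬ (P.nk i).isSome}) _ => by
      rw [Option.not_isSome_iff_eq_none.1 j.2]; rfl, add_zero]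
  exact Finset.sum_congr rfl fun j _ => by rw [show P.nk j.1 = _ from kk_mem j]; rfl

theorem mem_thick (hd : 0 ≤ d) : x ∈ P.thick d ↔ ∀ j : Ix P, x ∉ O (kk j).toNk d :=
  (all_kk P (p := fun _ K => x ∉ K.ψ '' univ ×ˢ K.deep d)).trans
    (forall_congr' fun j => by rw [img_deep _ hd])

open Classical in
theorem lev_eq (y : BCs e) :
    P.lev y = ∑ j : Ix P, ∑ s, if (kk j).Inf s then |L (y j.1 s)| else 0 := by
  rw [← sum_kk P fun i K => ∑ s, if K.Inf s then |L (y i s)| else 0]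
  refine Finset.sum_congr rfl fun i _ => ?_
  cases h : P.nk i <;> simp [Pz.Inf, h]

/-- the weight of the energy density -/
def θ (x : X.M) : ℝ := 1 - ∑ j : Ix P, wK (kk j) x

theorem θ_one (hx : x ∈ P.thick 3) : θ P x = 1 := by
  simp [θ, fun j => wK_zero _ ((mem_thick P (by norm_num)).1 hx j)]

theorem sm_θ : Sm X.I (θ P) := fun x => contMDiffAt_const.sub (SA.sum _ fun _ _ => sm_wK _ x)

theorem D_θ (U : Option κ → ℝ) :
    ∑ a, P.bg.F.D a (θ P) x * U a = -∑ j : Ix P, dK (kk j) x * U none := by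
  have h : ∀ a, P.bg.F.D a (θ P) x = 0 - ∑ j : Ix P, P.bg.F.D a (wK (kk j)) x := fun a =>
    (dv_sub' contMDiffAt_const (SA.sum _ fun j _ => sm_wK _ x)).trans (congrArg₂ _
      (by rw [dv_const]) (dv_sum' _ fun j => sm_wK _ x))
  simp only [h, zero_sub, neg_mul, Finset.sum_mul, Finset.sum_neg_distrib, ← D_wK]
  rw [Finset.sum_comm]

variable {P} (hP : P.OK)
include hP

theorem cpt_thick (hd : 0 ≤ d) : IsCompact (P.thick d) := by
  have h : ∀ᶠ T in atTop, ∀ (j : Ix P) s, (kk j).Inf s → (kk j).far s T ⊆ (kk j).deep d := by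
    simp only [eventually_all]
    intro j s hs
    cases s
    · filter_upwards [eventually_ge_atTop (d - (kk j).q.getD 0)] with T hT t ht
      refine mem_Dq.2 ⟨by simp [show (kk j).p = none from hs], fun a ha => ?_⟩
      have := ht.2
      simp [M.pm, show (kk j).q = some a from ha] at this hT
      linarith
    · filter_upwards [eventually_ge_atTop (d + (kk j).p.getD 0)] with T hT t ht
      refine mem_Dq.2 ⟨fun a ha => ?_, by simp [show (kk j).q = none from hs]⟩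
      have := ht.2
      simp [M.pm, show (kk j).p = some a from ha] at this hT
      linarith
  obtain ⟨T, hT⟩ := h.exists
  refine (hP.cpt T).of_isClosed_subset ?_ fun x hx i s => ?_
  · rw [show P.thick d = ⋂ j : Ix P, (O (kk j).toNk d)ᶜ from
      ext fun x => (mem_thick P hd).trans (by simp)]
    exact isClosed_iInter fun j => (isOpen_O _).isClosed_compl
  · revert i
    exact (all_kk P).2 fun j hs k => hx _ _ (kk_mem j) (image_mono (prod_mono_right (hT j s hs)) k)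

theorem off_O {j j' : Ix P} (hx : x ∈ (kk j).ψ.target) (h : j' ≠ j) (hd : 0 ≤ d) :
    x ∉ O (kk j').toNk d := fun k => disjoint_left.1 (hP.dj (Subtype.coe_ne_coe.2 h) _ (kk_mem j') _
      (kk_mem j)) (O_sub _ hd k) hx

theorem θ_tgt {j : Ix P} (hx : x ∈ (kk j).ψ.target) : θ P x = 1 - wK (kk j) x := by
  rw [θ, Fintype.sum_eq_single j fun j' h => wK_zero _ (off_O hP hx h (by norm_num))]

theorem θ_zero {j : Ix P} (hx : x ∈ O (kk j).toNk 4) : θ P x = 0 := by
  rw [θ_tgt hP (O_sub _ (by norm_num) hx), wK, wt_one hx, sub_self]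

theorem θ_mem (x : X.M) : θ P x ∈ Icc (0 : ℝ) 1 := by
  by_cases hx : x ∈ P.thick 3
  · rw [θ_one P hx]; exact ⟨zero_le_one, le_rfl⟩
  · obtain ⟨j, hj⟩ := not_forall_not.1 (mt (mem_thick P (by norm_num)).2 hx)
    rw [θ_tgt hP (O_sub _ (by norm_num) hj)]
    exact ⟨sub_nonneg.2 wt_mem.2, sub_le_self _ wt_mem.1⟩

theorem hcs_θ : HasCompactSupport (θ P) := .intro (cpt_thick hP four_pos.le) fun _ hx =>
  let ⟨_, hj⟩ := not_forall_not.1 (mt (mem_thick P four_pos.le).2 hx)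
  θ_zero hP hj

theorem θ_le (j : Ix P) {f : X.M → ℝ} (h0 : 0 ≤ f x) (h : x ∉ (kk j).dp d → f x = 0) :
    θ P x * f x ≤ (sB (kk j) d 4).indicator f x := by
  by_cases hx : x ∈ sB (kk j) d 4
  · rw [indicator_of_mem hx]; exact mul_le_of_le_one_left h0 (θ_mem hP x).2
  · rw [indicator_of_notMem hx]
    by_cases k : x ∈ (kk j).dp d
    · rw [θ_zero hP (j := j) (by_contra fun k' => hx ⟨k, k'⟩), zero_mul]
    · rw [h k, mul_zero]

omit hP in
/-- the constant of the remainder -/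
def k2 (C S : ℝ) : ℝ := 8 * (2 * C ^ 2 + S / 4) ^ 2 + 6 * ((C * (C * C)) ^ 2 + C ^ 2)

omit hP in
/-- the constant of the energy inequality -/
def kE (C S δ : ℝ) : ℝ := (k2 C S + 24) * C + C * (k2 C S * (C * 2) + 22 + 12 * C +
  (4 * kM * (12 * C + 1 + (2 * C + C ^ 2) / δ) + 32 * (4 * C)))

variable {C : ℕ → ℝ} (hB : P.bg.Bd C) (hn : (Fintype.card (Ix P) : ℝ) ≤ C 0)
  (hN : ∀ j : Ix P, (e j.1).Nb (C 0)) {τ : X.M → F2 κ}
  (hq : ∀ x, P.bg.eD c x = P.p0.D c x ∧ P.bg.eC c x = P.p0.C c x + τ x)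
include hB hn hN hq

theorem Rm_le (x : X.M) : Rm P.bg c x ≤ Ed P.bg c x / 4 +
    (k2 (C 0) (kS (Fintype.card (Option κ)) (C 2)) + 6 * ‖τ x‖ ^ 2) +
    2 * C 0 * ∑ j : Ix P, P.bg.w * ‖(kk j).rad c x‖ ^ 2 := by
  have C0 : 0 ≤ C 0 := (Nat.cast_nonneg _).trans hn
  have w := hP.bg.w
  have h1 : dir X.I P.bg.F.e P.bg.m.ρ (P.bg.W c) c.Φ x =
      ∑ j : Ix P, (kk j).rad c x - P.bg.ms x (c.Φ x) :=
    eq_sub_of_add_eq ((hq x).1.trans (sum_kk P fun _ K => K.rad c x))
  have h2 := mul_le_mul_of_nonneg_left (pow_le_pow_left₀ (norm_nonneg _) ((norm_sub_le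
    (∑ j : Ix P, (kk j).rad c x) _).trans (add_le_add_right
      ((P.bg.ms x).le_of_opNorm_le (hB.ms x) (c.Φ x)) _)) 2) w
  have h3 := mul_le_mul_of_nonneg_left ((Dm.sum.nsq_sum' fun j : Ix P => (kk j).rad c x).trans
    (mul_le_mul_of_nonneg_right hn (by positivity))) w
  have h4 := mul_le_mul_of_nonneg_left (abs_le.1 (scal_le hB.tame x)).1
    (show 0 ≤ P.bg.w * ‖c.Φ x‖ ^ 2 by positivity)
  have h5 : ‖∑ j : Ix P, (kk j).hl c x‖ ≤ C 0 * (C 0 * C 0) := (norm_sum_le _ _).trans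
    ((Finset.sum_le_card_nsmul _ _ (C 0 * C 0) fun j _ => norm_hl _ _ _ fun r y =>
      (norm_smul_le _ _).trans (mul_le_mul ((hN j).f r).2 ((hN j).ζ y) (norm_nonneg _) C0)).trans
      (by rw [nsmul_eq_mul]; exact mul_le_mul_of_nonneg_right hn (by positivity)))
  have h6 := Dm.sum.nsq_sum' ![∑ j : Ix P, (kk j).hl c x, τ x, P.bg.om x]
  simp only [Fin.sum_univ_three, Fintype.card_fin, Matrix.cons_val] at h6
  push_cast at h6
  have h7 : P.bg.w ^ 2 * ‖c.Φ x‖ ^ 4 / 8 ≤ Ed P.bg c x := le_add_of_nonneg_left (by positivity)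
  rw [Rm, h1, (hq x).2, show P.p0.C c x = _ from sum_kk P fun _ K => K.hl c x, k2, ← Finset.mul_sum]
  have h8 := pow_le_pow_left₀ (norm_nonneg _) h5 2
  have h9 := pow_le_pow_left₀ (norm_nonneg _) (hB.om x) 2
  linarith [sq_nonneg (P.bg.w * ‖c.Φ x‖ ^ 2 / 16 - (2 * C 0 ^ 2 +
    kS (Fintype.card (Option κ)) (C 2) / 4)), mul_nonneg w
      (sq_nonneg (‖∑ j : Ix P, (kk j).rad c x‖ - C 0 * ‖c.Φ x‖))]

theorem en_core (hD : DlStmt κ lam ν) {ε δ γ : ℝ} {y : BCs e} (hε : 0 ≤ ε) (hδ : 0 < δ)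
    (hγ : γ ∈ Icc (0 : ℝ) 1) (k1 : C 0 * (2 * kM * (16 * C 0 * δ) + 16 * γ) ≤ 1 / 4)
    (k3 : 23 * ε ≤ γ) (k4 : 16 * ε ≤ 1) (hμ : P.bg.F.μ (P.thick 3) ≤ ENNReal.ofReal (C 0))
    (hy : P.Cr y) (hc : P.As y c) (hτ : ∀ x ∈ P.thick 3, ‖τ x‖ ≤ 2)
    (hT : ∀ j : Ix P, ∫⁻ x in O (kk j).toNk 3, ‖τ x‖ₑ ^ 2 ∂P.bg.F.μ ≤
      1 + ENNReal.ofReal ε * en ((kk j).pb c) ((kk j).deep 2)) :
    P.ean c ≠ ⊤ ∧ ε * (P.ean c).toReal + P.bg.k2 ≤
      kE (C 0) (kS (Fintype.card (Option κ)) (C 2)) δ + 2 * P.lev y := by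
  have C0 : 0 ≤ C 0 := (Nat.cast_nonneg _).trans hn
  have hb := hP.bg
  have kM0 := kM_nonneg
  have i : ∀ {f : X.M → ℝ}, Continuous f → Integrable (fun x => θ P x * f x) P.bg.F.μ := fun h =>
    ((sm_θ P).continuous.mul h).integrable_of_hasCompactSupport (hcs_θ hP).mul_right
  have iE := i (cont_Ed hb hc.1)
  have p0 := fun x => mul_nonneg (θ_mem hP x).1 (Ed_nonneg hb c x)
  have mt := fun j : Ix P => (kk j).ψ.open_target.measurableSet
  have eE : ∀ j : Ix P, EqOn (fun x => θ P x * Ed P.bg c x)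
      (fun x => (1 - wK (kk j) x) * Ed P.bg c x) (kk j).ψ.target := fun j x hx => by
    simp only [θ_tgt hP hx]
  choose G G0 G1 G2 G3 G4 using fun j : Ix P => neck (kk j) (hP.en _) hb hc.1 hD (v := y j.1) (hN j)
    hB.ms hε hδ hγ (fun x hx => ⟨(hq x).1.trans (Pb50.sum_nk hP (kk_mem j) hx (fun _ K => K.rad c x)
      fun _ K h => by simp [Nk.rad, K.χ_zero h]), (hq x).2.trans (congrArg (· + τ x)
        (Pb50.sum_nk hP (kk_mem j) hx (fun _ K => K.hl c x) fun _ K h => by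
          simp [Nk.hl, K.ext_zero _ h]))⟩)
    (fun x hx k => hτ x ((mem_thick P (by norm_num)).2 fun j' => by
      by_cases h : j' = j
      exacts [h ▸ k, off_O hP hx h (by norm_num)])) (hT j)
    (fun s hs => ⟨hy _ s ⟨_, kk_mem j, hs⟩, hc.2 _ s _ (kk_mem j) hs⟩)
    (iE.integrableOn.congr_fun (eE j) (mt j))
  set E := ∫ x, θ P x * Ed P.bg c x ∂P.bg.F.μ
  have E0 : 0 ≤ E := integral_nonneg p0
  set A := k2 (C 0) (kS (Fintype.card (Option κ)) (C 2))
  have A0 : 0 ≤ A := by unfold A k2; positivity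
  have c3 := cpt_thick hP three_pos.le
  have r := fun j : Ix P => rad_int (kk j) (hP.en _) hb hc.1 (hN j)
  have m1 := fun j : Ix P => (cpt_sB (kk j) (d' := 4) one_pos).measurableSet
  have m2 := fun j : Ix P => (cpt_sB (kk j) (d' := 4) three_pos).measurableSet
  have m3 := fun j : Ix P => (isOpen_O (kk j).toNk (d := 3)).measurableSet
  have i1 := fun j => ((integrable_indicator_iff (m1 j)).2 (r j).1).const_mul (2 * C 0)
  have i2 := fun j : Ix P => (integrable_indicator_iff (m2 j)).2 (integrableOn_const (C := A)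
    (μ := P.bg.F.μ) (cpt_sB (kk j) three_pos).measure_lt_top.ne)
  have i3 := fun j => ((integrable_indicator_iff (m3 j)).2 (G2 j)).const_mul 6
  have i4 := (integrable_indicator_iff c3.measurableSet).2 (integrableOn_const (C := A + 24)
    (μ := P.bg.F.μ) c3.measure_lt_top.ne)
  have i5 := fun j => ((i2 j).add (i3 j)).add (i1 j)
  have h1 := integral_mono (i (cont_Rm hb hc.1)) (((iE.div_const 4).add i4).add
    (integrable_finsetSum Finset.univ fun j _ => i5 j)) fun x => by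
    have a1 := mul_le_mul_of_nonneg_left (Rm_le hP hB hn hN hq x) (θ_mem hP x).1
    have a2 := mul_le_mul_of_nonneg_left (Finset.sum_le_sum fun j (_ : j ∈ Finset.univ) =>
      θ_le hP j (d := 1) (x := x) (f := fun x => P.bg.w * ‖(kk j).rad c x‖ ^ 2)
        (mul_nonneg hb.w (sq_nonneg _)) fun h => by simp [Nk.rad, (kk j).χ_zero h])
      (show 0 ≤ 2 * C 0 by positivity)
    have a3 : θ P x * (A + 6 * ‖τ x‖ ^ 2) ≤ (P.thick 3).indicator (fun _ => A + 24) x +
        ∑ j : Ix P, ((sB (kk j) 3 4).indicator (fun _ => A) x +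
          6 * (O (kk j).toNk 3).indicator (fun x => ‖τ x‖ ^ 2) x) := by
      have n := fun (j : Ix P) (_ : j ∈ Finset.univ) => add_nonneg (indicator_nonneg
        (s := sB (kk j) 3 4) (fun _ _ => A0) x) (mul_nonneg (show (0 : ℝ) ≤ 6 by norm_num)
          (indicator_nonneg (s := O (kk j).toNk 3) (fun x _ => sq_nonneg ‖τ x‖) x))
      by_cases hx : x ∈ P.thick 3
      · rw [θ_one P hx, indicator_of_mem hx]
        nlinarith [Finset.sum_nonneg n, hτ x hx, norm_nonneg (τ x)]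
      · obtain ⟨j, hj⟩ := not_forall_not.1 fun k => hx ((mem_thick P (by norm_num)).2 k)
        rw [indicator_of_notMem hx, zero_add, mul_add]
        refine le_trans ?_ (Finset.single_le_sum n (Finset.mem_univ j))
        rw [indicator_of_mem hj]
        exact add_le_add (θ_le hP j (f := fun _ => A) A0 fun k => (k (O_sub_dp _ hj)).elim)
          (mul_le_of_le_one_left (by positivity) (θ_mem hP x).2)
    simp only [Pi.add_apply, Finset.sum_add_distrib, ← Finset.mul_sum] at a1 a2 a3 ⊢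
    linarith
  have h2 : ∀ j, ∫ x, ((((sB (kk j) 3 4).indicator fun _ => A) + fun x => 6 *
      (O (kk j).toNk 3).indicator (fun x => ‖τ x‖ ^ 2) x) + fun x => 2 * C 0 *
      (sB (kk j) 1 4).indicator (fun x => P.bg.w * ‖(kk j).rad c x‖ ^ 2) x) x ∂P.bg.F.μ ≤
      A * (C 0 * 2) + 6 * (1 + ε * G j) + 2 * C 0 * 6 := fun j => by
    rw [integral_add' ((i2 j).add (i3 j)) (i1 j), integral_add' (i2 j) (i3 j), integral_const_mul,
      integral_const_mul, integral_indicator (m1 j), integral_indicator (m3 j),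
      integral_indicator_const _ (m2 j), smul_eq_mul, mul_comm _ A]
    gcongr
    exacts [vol_sB _ (hN j), G3 j, (r j).2]
  rw [integral_add' ((iE.div_const 4).add i4) (integrable_finsetSum _ fun j _ => i5 j),
    integral_add' (iE.div_const 4) i4, integral_div, integral_finsetSum _ fun j _ => i5 j,
    integral_indicator_const _ c3.measurableSet, smul_eq_mul] at h1
  have h3 := int_id hb hc.1 (sm_θ P) (hcs_θ hP)
  have h4 : ∀ x, θ P x * P.bg.kd ⟨0, 0⟩ x = P.bg.kd ⟨0, 0⟩ x := fun x => by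
    by_cases hx : x ∈ P.thick 3
    · rw [θ_one P hx, one_mul]
    · obtain ⟨j, hj⟩ := not_forall_not.1 fun k => hx ((mem_thick P (by norm_num)).2 k)
      rw [kd_tgt _ (hP.en _) (O_sub _ (by norm_num) hj), mul_zero]
  simp only [h4, D_θ P, integral_neg, sub_neg_eq_add] at h3
  rw [integral_finsetSum _ fun j _ => i_dK _ (hP.en _) hb hc.1, ← Bg.k2] at h3
  have h5 := Finset.sum_le_sum fun j (_ : j ∈ Finset.univ) => add_le_add (h2 j) ((G4 j).trans
    (add_le_add_left (add_le_add_left (add_le_add_left (mul_le_mul_of_nonneg_left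
      ((setIntegral_congr_fun (mt j) (eE j)).symm.trans_le (setIntegral_le_integral iE
        (.of_forall p0))) (by have := hγ.1; positivity)) _) _) _))
  have h6 : P.ean c ≤ ENNReal.ofReal (8 * E + ∑ j, G j) := by
    rw [ENNReal.ofReal_add (by positivity) (Finset.sum_nonneg fun j _ => G0 j),
      ENNReal.ofReal_sum_of_nonneg fun j _ => G0 j, Pz.ean,
      sum_kk P fun _ K => en (K.pb c) (K.deep 2), ← integral_const_mul,
      ofReal_integral_eq_lintegral_ofReal (iE.const_mul 8) (.of_forall fun x => by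
        have := p0 x; positivity)]
    refine add_le_add ((setLIntegral_mono' c3.measurableSet fun x hx =>
      ENNReal.ofReal_le_ofReal ?_).trans (setLIntegral_le_lintegral _ _))
      (Finset.sum_le_sum fun j _ => (G1 j).le)
    have := hb.w
    rw [θ_one P hx, Bg.ed, Ed]
    nlinarith [sq_nonneg ‖P.bg.fc c x‖,
      show 0 ≤ P.bg.w * ∑ i, ‖nab X.I P.bg.F.e (P.bg.W c) i c.Φ x‖ ^ 2 by positivity]
  have S0 := Finset.sum_nonneg fun j (_ : j ∈ Finset.univ) => G0 j
  refine ⟨ne_top_of_le_ne_top ENNReal.ofReal_ne_top h6, ?_⟩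
  have h7 := mul_le_mul_of_nonneg_left (ENNReal.toReal_le_of_le_ofReal (by positivity) h6) hε
  have h8 := mul_le_mul_of_nonneg_right (ENNReal.toReal_le_of_le_ofReal C0 hμ)
    (show 0 ≤ A + 24 by positivity)
  have h9 := mul_le_mul_of_nonneg_right hn (show 0 ≤ A * (C 0 * 2) + 22 + 12 * C 0 + (4 * kM *
    (12 * C 0 + 1 + (2 * C 0 + C 0 ^ 2) / δ) + 32 * (4 * C 0)) by positivity)
  have h10 := mul_le_mul_of_nonneg_right ((mul_le_mul_of_nonneg_right hn (by
    have := hγ.1; positivity)).trans k1) E0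
  simp only [Finset.sum_add_distrib, ← Finset.mul_sum, Finset.sum_const, Finset.card_univ,
    nsmul_eq_mul, mul_add (6 : ℝ), mul_add (16 : ℝ), ← lev_eq] at h5
  rw [kE, Measure.real] at *
  nlinarith [mul_le_mul_of_nonneg_right k3 S0, mul_le_mul_of_nonneg_right k4 E0]

omit hP hB hn hN hq in
variable (κ lam ν) in
/-- **SW-EN** -/
theorem enStmt : EnStmt κ lam ν := fun C => by
  have := kM_nonneg
  refine ⟨(128 * (|C 0| + 1))⁻¹ / 23, by positivity, |kE (C 0) (kS (Fintype.card (Option κ)) (C 2))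
    (256 * (kM * C 0 ^ 2 + 1))⁻¹| + 2, fun N _ e X nc P hP hB hn hN _ _ hμ y c τ hy hc hq hτ hT => ?_⟩
  have C0 : 0 ≤ C 0 := (Nat.cast_nonneg _).trans hn
  rw [abs_of_nonneg C0] at hT ⊢
  have g1 : (128 * (C 0 + 1))⁻¹ * (128 * (C 0 + 1)) = 1 := inv_mul_cancel₀ (by positivity)
  have g2 : (256 * (kM * C 0 ^ 2 + 1))⁻¹ * (256 * (kM * C 0 ^ 2 + 1)) = 1 :=
    inv_mul_cancel₀ (by positivity)
  have g3 : 0 < (128 * (C 0 + 1))⁻¹ := by positivity
  have g4 : 0 < (256 * (kM * C 0 ^ 2 + 1))⁻¹ := by positivity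
  generalize (128 * (C 0 + 1))⁻¹ = γ at *
  generalize (256 * (kM * C 0 ^ 2 + 1))⁻¹ = δ at *
  have g5 := mul_nonneg g3.le C0
  obtain ⟨h1, h2⟩ := en_core hP hB (by rwa [← Nat.card_coe_set_eq, Nat.card_eq_fintype_card] at hn)
    (fun j => hN _ j.2) hq Dl42.dl (ε := γ / 23) (γ := γ) (by positivity) g4
    ⟨g3.le, by linarith⟩ (by linarith) (by linarith) (by linarith) hμ hy hc hτ
    fun j => img_deep (kk j) three_pos.le ▸ hT _ _ (kk_mem j)
  have l0 : 0 ≤ P.lev y := Finset.sum_nonneg fun _ _ => Finset.sum_nonneg fun _ _ => by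
    split_ifs <;> positivity
  refine ⟨h1, h2.trans ?_⟩
  generalize kE _ _ _ = A
  nlinarith [le_abs_self A, abs_nonneg A]

end Crest.Agent.X212.Mp86.En
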