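import Crest.Agent.X212.Qab60.Lq

/-! X212 / NTR-LAB (helper86): the abelian equation is linear on smooth forms. -/

set_option autoImplicit false
set_option linter.unusedSectionVars false
noncomputable section
open scoped Manifold ContDiff Topology InnerProductSpace
open MeasureTheory Function Filter
open Crest.Agent.R208.F (Ext)

namespace Crest.Agent.X212.Mp86.Lab
open An Sob92 Map77 Num57 Qab60
open Wrd81 (TmIn wd)
open Abel74 (G0 la0)

section gen
variable {E : Type} [NormedAddCommGroup E] [NormedSpace ℝ E] [FiniteDimensional ℝ E]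
  [MeasurableSpace E] [BorelSpace E]
  {HM : Type} [TopologicalSpace HM] {I : ModelWithCorners ℝ E HM} [I.Boundaryless]
  {M : Type} [TopologicalSpace M] [ChartedSpace HM M] [IsManifold I ∞ M] [T2Space M]
  [MeasurableSpace M] [BorelSpace M] [SecondCountableTopology M] {ι : Type} [Fintype ι]
  {F : Fr I M ι} {N : ℝ} {n d : ℕ}

theorem wo_lin {A : L2 F ℝ →L[ℝ] L2 F ℝ} {Af : (M → ℝ) → M → ℝ} (h : Wo F A Af N n d)
    (u v : Sec I (triv M ℝ)) (s : ℝ) : Af (u.1 + s • v.1) = Af u.1 + s • Af v.1 := by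
  have := openPos F.toPre
  have k := fun w : Sec I (triv M ℝ) => h.rp (F.toH 0 _ w) w.1
    (fun j => ⟨F.toH j _ w, incl_toH j.zero_le _⟩) w.2.1 (Is.toH w)
  have e := (k (u + s • v)).2
  rw [map_add, map_smul, map_add, map_smul] at e
  exact (Continuous.ae_eq_iff_eq F.μ (k (u + s • v)).1.continuous
    ((k u).1.add (sm_csmul s (k v).1)).continuous).1 (e.symm.trans ((k u).2.add ((k v).2.smul s)))

theorem wo_ll' {C : ℕ → ℝ} (hF : F.Tame C) : ∀ l : List (La M), (∀ t ∈ l, La.OK F t) →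
    ∃ N n, Wo F (llH F l) (fun u => wd (la0 F) u l) N n 0
  | [], _ => ⟨1, 0, (wo_smul (Cb_const _) (by simp) (by simp)).congr fun u _ => by simp⟩
  | t :: l, h1 => by
    obtain ⟨N, n, ih⟩ := wo_ll' hF l fun t ht => h1 t (by simp [ht])
    cases t with
    | mul f =>
      obtain ⟨K, hK⟩ := h1 (.mul f) (by simp)
      exact ⟨_, _, (wo_smul ⟨K, hK⟩ (abs_nonneg (K 0)) fun x =>
        (CB_zero.1 (hK.2 0) x).trans (le_abs_self _)).comp ih⟩
    | G => exact ⟨_, _, ((wo_GS hF).mono le_rfl le_rfl (Nat.zero_le 2)).comp ih⟩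

variable {lam : Type} [Fintype lam] {r m : ℕ} {o : ι → ι → ι → ι → M → ℝ} {C : ℕ → ℝ}
  (hF : F.Tame C) {u v : M → V2 ι} (hu : Sm I u) (hv : Sm I v) (s : ℝ)
include hF hu hv

theorem tmF_lin {T : Tm M lam r m} (h1 : TmIn I Set.univ T) :
    tmF F o T (u + s • v) = tmF F o T u + s • tmF F o T v := by
  have h0 := h1.ok F
  rcases T with _ | _ | ⟨g, g2, ⟨_ | ⟨f, g', h'⟩, l⟩⟩ | _ | _ | _ | _ <;>
    try exact funext fun _ => ((zero_add _).trans (smul_zero s)).symm
  obtain ⟨-, -, ⟨a3, a4, a5⟩, a6⟩ := h0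
  obtain ⟨N, n, k⟩ := wo_ll' hF l a6
  let φ : ∀ w : M → V2 ι, Sm I w → Sec I (triv M ℝ) := fun w hw =>
    ⟨fun y => ⟪f y • dd2 F g' h' y, w y⟫_ℝ,
      (Cb_clm (innerSL ℝ) (Cb_smul a3 (cb_dd2 a4 a5))).choose_spec.1.clm_apply hw,
      h1.2.2.1.1.hcs.mono fun y hy e => hy (by simp [e]), fun _ => rfl⟩
  have e := wo_lin (k.comp ((wo_GS hF).comp (wo_GS hF))) (φ u hu) (φ v hv) s
  have e' : (fun y => ⟪f y • dd2 F g' h' y, (u + s • v) y⟫_ℝ) = (φ u hu).1 + s • (φ v hv).1 :=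
    funext fun y => by simp [φ, inner_add_right, inner_smul_right]
  funext x
  simp only [tmF]
  rw [e', e]
  simp only [Pi.add_apply, Pi.smul_apply, add_smul, smul_assoc]
  rfl

theorem smF_lin {κ : Type} (S : Finset κ) (a : κ → ℝ) {T : κ → Tm M lam r m}
    (h1 : ∀ i ∈ S, TmIn I Set.univ (T i)) :
    smF F o S a T (u + s • v) = smF F o S a T u + s • smF F o S a T v := by
  simp only [smF, Finset.smul_sum, ← Finset.sum_add_distrib]
  exact Finset.sum_congr rfl fun i hi => by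
    rw [tmF_lin hF hu hv s (h1 i hi), smul_add, smul_comm s]

end gen

open M
variable {Wi : Type} {X : Mf 4} {A κ lam : Type} [Fintype A] [Fintype κ] [Fintype lam]
  [DecidableEq lam] {M : Mark X A κ} {W : World M} {N : ML M lam} {Λ : Lns W N}
  {A' h : Type} [Fintype A'] [DecidableEq A'] [Fintype h] {r n : ℕ}
  {J : Job Wi Λ A' h r n} {c : M.Cl} {q : Wi →₀ ℝ} {s : A' → ℝ}

/-- **the abelian equation is linear** -/
theorem aE_lin (hs : J.Θ s ∈ M.O c.1) {f g : (W.Z c).M → Ext (W.Z c).E} {k l : ℕ}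
    (hf : Fo (W.Z c).I k f) (hg : Fo (W.Z c).I l g) (t : ℝ) (z : (W.Z c).M) :
    aE J c q s (f + t • g) z = aE J c q s f z + t • aE J c q s g z := by
  obtain ⟨C, hC⟩ : ∃ C, (J.G c s).F.Tame C := (tam_W Λ (m := J.m) hs).tm
  simp only [aE, aF, Qab60.c2_add, Qab60.c2_smul]
  rw [smF_lin hC (sm_c2 hf.sm) (sm_c2 hg.sm) t _ _ fun _ => wS_in]
  simp only [Pi.add_apply, Pi.smul_apply, map_add, map_smul, smul_sub]
  abel

end Crest.Agent.X212.Mp86.Lab
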