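import Crest.Agent.X212.Mp86.LabA
import Crest.Agent.X212.Qab60.Lh
import Crest.Agent.X212.Qa50.Add
import Crest.Agent.X212.Sep15.Gau
import Crest.Agent.X212.Ink3.Main

/-! X212 / NTR-LAB (helper86): the curvature equation at abelian points. -/

set_option autoImplicit false
set_option linter.unusedSectionVars false
noncomputable section
open scoped Manifold ContDiff Topology InnerProductSpace
open MeasureTheory Set Function Filter
open Crest.Agent.R208.F (Ext)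

namespace Crest.Agent.X212.Mp86.Lab
open An Prm93 Num57 M Nd18 Rf65 Qab60
open Dr59 (dM)
open Wrd81 (TmIn Bas)

variable {Wi : Type} {X : Mf 4} {A κ lam : Type} [Fintype A] [Fintype κ] [Fintype lam]
  [DecidableEq lam] {M : Mark X A κ} {W : World M} {N : ML M lam} {Λ : Lns W N}
  {A' h : Type} [Fintype A'] [DecidableEq A'] [Fintype h] {r n : ℕ}
  {J : Job Wi Λ A' h r n} {c : M.Cl} {σ : Cel A'} {q : Wi →₀ ℝ} {s : A' → ℝ}
  {Ω : Set (W.Z c).M} {x : Cg' W c lam r} {ξ : (W.Z c).M → x.m.A} {z : (W.Z c).M}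
  {a : (W.Z c).M → Ext (W.Z c).E}
  (ok : J.OK) (nl : ∀ a, Nl J a) (bas : ∀ w, Bas (J.tw w)) (hσ : σ ∈ J.𝒦) (ov : J.Ov σ c s)
  (cl : IsClopen Ω) (hA : Ab (J.B c) (J.G c s) Ω x ξ)
include ok hσ ov cl hA

theorem addJ : (∀ a, Fo (W.Z c).I 1 a → Off Ω a → Ab (J.B c) (J.G c s) Ω (ada (J.G c s).F x ξ a) ξ ∧
      xf J c s (ada (J.G c s).F x ξ a) ξ = xf J c s x ξ + dM (W.Z c).I a) ∧
    (∀ z ∈ Ω, x.m.p2 (J.B c) z (x.m.Fg (J.G c s).F x.W z) - x.m.mu (J.B c) z (x.Φ z) (x.Φ z) =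
      tn (Num57.hs (J.G c s).F (J.B c).o z (c2 (J.G c s).F (xf J c s x ξ) z)) (ξ z) ∧
      Wz78.dir (W.Z c).I (J.G c s).F.e x.m.ρ x.W x.Φ z = 0) ∧
    Cz (W.Z c).I Ω (xf J c s x ξ) ∧ ∀ z ∈ Ω, ξ z ≠ 0 :=
  Qa50.addStmt _ _ _ _ r _ _ _ x ξ (Λ.B_ok _ _) (Λ.G_ok _ (ok.memO hσ ov)) cl hA

include nl bas

/-- the terms at an abelian point -/
theorem pureJ (hz : z ∈ Ω) : (J.τ c q s).D x z = 0 ∧
    (J.τ c q s).C x z = tn (aF c J q.support q s (c2 (J.G c s).F (xf J c s x ξ)) z) (ξ z) := by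
  classical
  have g := fun w (k : TmIn (W.Z c).I univ (Fin37.tm J c w)) => Sep15.Gau.gau _ _ _ _ r n _ _ _ x ξ
    (Λ.B_ok _ _) (Λ.G_ok _ (ok.memO hσ ov)) (tam_W Λ (ok.memO hσ ov)).tm cl hA _ k
    (Nat75.bas_tm (bas w)) z hz
  have i : ∀ w, J.co w s ≠ 0 → TmIn (W.Z c).I univ (Fin37.tm J c w) := fun w k =>
    (ok.tw_in hσ ov k).choose_spec.mono (subset_univ _)
  rw [Ink3.τ_nil c s (fun a => (nl a).1) fun a w => congrFun (nl a).2 w]
  refine ⟨Finset.sum_eq_zero fun w _ => ?_, PiLp.ext fun t => ?_⟩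
  · change q w • J.co w s • x.tD (J.B c) (J.G c s).F (Fin37.tm J c w) z = 0
    by_cases k : J.co w s = 0
    · rw [k, zero_smul, smul_zero]
    · rw [show x.tD (J.B c) (J.G c s).F (Fin37.tm J c w) z = 0 from (g w (i w k)).1, smul_zero,
        smul_zero]
  · change (∑ w ∈ q.support, q w • J.co w s • x.tC (J.B c) (J.G c s).F (Fin37.tm J c w) z) t = _
    simp only [tn, aF, smF, wS, Finset.sum_filter, Finset.sum_apply, WithLp.ofLp_sum, Finset.sum_smul]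
    refine Finset.sum_congr rfl fun w _ => ?_
    by_cases k : J.co w s = 0
    · simp [k]
    · have e : x.tC (J.B c) (J.G c s).F (Fin37.tm J c w) z = tn (tmF (J.G c s).F (J.B c).o
        (Fin37.tm J c w) (c2 (J.G c s).F (xf J c s x ξ)) z) (ξ z) := (g w (i w k)).2
      simp [e, if_pos (i w k), tn, smul_smul, mul_assoc]

/-- **the curvature equation at an abelian point** -/
theorem eC_ab (hz : z ∈ Ω) : x.eC (J.B c) (J.G c s) (J.τ c q s) z =
    tn (aE J c q s (xf J c s x ξ) z) (ξ z) := by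
  rw [Cfg.eC, ((addJ ok hσ ov cl hA).2.1 z hz).1, (pureJ ok nl bas hσ ov cl hA hz).2]
  exact PiLp.ext fun _ => (sub_smul _ _ _).symm

theorem eD_ab (hz : z ∈ Ω) : x.eD (J.G c s) (J.τ c q s) z = 0 := by
  rw [Cfg.eD, (pureJ ok nl bas hσ ov cl hA hz).1, ((addJ ok hσ ov cl hA).2.1 z hz).2, sub_zero]

/-- along an abelian line the curvature equation is affine -/
theorem eC_ada (fo : Fo (W.Z c).I 1 a) (o : Off Ω a) (t : ℝ) (hz : z ∈ Ω) :
    (ada (J.G c s).F x ξ (t • a)).eC (J.B c) (J.G c s) (J.τ c q s) z =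
      tn (aE J c q s (xf J c s x ξ) z) (ξ z) + t • tn (aE J c q s (dM (W.Z c).I a) z) (ξ z) := by
  have k := addJ ok hσ ov cl hA
  obtain ⟨k1, k2⟩ := k.1 _ (fo.smul t) (o.smul t)
  refine (eC_ab ok nl bas hσ ov cl k1 hz).trans ?_
  rw [k2, fo.d_smul, aE_lin (ok.memO hσ ov) k.2.2.1.fo fo.d]
  exact PiLp.ext fun _ => (add_smul _ _ _).trans (congrArg _ (mul_smul t _ _))

end Crest.Agent.X212.Mp86.Lab
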