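import Crest.Agent.X212.Mp86.En7
import Crest.Agent.X212.Dru9.Main
import Crest.Agent.X212.Pb50.End

/-!
# Row 212, SW-FORM and SW-LAB (helper86): labels
-/

set_option autoImplicit false
set_option linter.unusedSectionVars false
noncomputable section
open scoped Manifold ContDiff Topology InnerProductSpace
open MeasureTheory Set Filter

namespace Crest.Agent.X212.Mp86.En
open An Wz78 Sob92 Sw88 Cyf70 Nka63
open Sw (Bg F2 En3 Nk Pz BCs bp)
open Sw.En3
open M (Mf pm)
open Nd18 (Jv Dp ct isOpen_Jv Dp_sub isClosed_Dp contDiff_ct ct_mem ct_one ct_zero)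
open Pb50 (src nd Gl)

section time
variable {p q : Option ℝ} {t c : ℝ} {s : Bool} {I : Bool → Prop} {v : Bool → ℝ}

theorem ev_T {p : ℝ → Prop} (h : ∀ᶠ t in lE s, p t) : ∀ᶠ T in atTop, ∀ t, T < pm s * t → p t := by
  cases s
  · obtain ⟨b, hb⟩ := mem_atBot_sets.1 h
    exact (eventually_ge_atTop (-b)).mono fun T hT t ht => hb t (by simp [pm] at ht; linarith)
  · obtain ⟨b, hb⟩ := mem_atTop_sets.1 h
    exact (eventually_ge_atTop b).mono fun T hT t ht => hb t (by simp [pm] at ht; linarith)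

theorem int_der {g : ℝ → ℝ} (hg : ContDiff ℝ ∞ g) (hc : HasCompactSupport (deriv g))
    (h : ∀ s, ∀ᶠ t in lE s, g t = v s) : ∫ t, deriv g t = ∑ s, pm s * v s := by
  rw [integral_of_hasDerivAt_of_tendsto (fun t => (hg.differentiable (by simp) t).hasDerivAt)
    ((hg.continuous_deriv (by simp)).integrable_of_hasCompactSupport hc)
    (tendsto_const_nhds.congr' (EventuallyEq.symm (h false)))
    (tendsto_const_nhds.congr' (EventuallyEq.symm (h true)))]
  simp [pm, sub_eq_add_neg]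

open Classical in
variable (I c v) in
/-- steps at the infinite ends -/
def stp (t : ℝ) : ℝ := ∑ s, if I s then v s * Real.smoothTransition (pm s * t - c) else 0

theorem cd_stp : ContDiff ℝ ∞ (stp c I v) := ContDiff.sum fun s _ => by
  split_ifs
  exacts [contDiff_const.mul (Real.smoothTransition.contDiff.comp (by fun_prop)), contDiff_const]

open Classical in
theorem deriv_stp : deriv (stp c I v) t =
    ∑ s, if I s then v s * (bp (pm s * t - c) * pm s) else 0 :=
  (HasDerivAt.fun_sum fun s _ => by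
    split_ifs
    exacts [(((Real.smoothTransition.contDiff (n := 1)).differentiable (by simp) _).hasDerivAt.comp t
      (((hasDerivAt_id t).const_mul (pm s)).sub_const c)).const_mul _ |>.congr_deriv (by simp [bp]),
      hasDerivAt_const _ _]).deriv

open Classical in
theorem stp_far (hc : 0 ≤ c) (h : c + 1 ≤ pm s * t) : stp c I v t = if I s then v s else 0 := by
  have h1 := Real.smoothTransition.one_of_one_le (x := pm s * t - c) (by linarith)
  have h2 := Real.smoothTransition.zero_of_nonpos (x := pm (!s) * t - c) (by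
    cases s <;> simp [pm] at h ⊢ <;> linarith)
  cases s <;> simp only [Bool.not_true, Bool.not_false] at h2 <;> simp [stp, h1, h2]

theorem stp_ne (h : stp c I v t ≠ 0) : ∃ s, I s ∧ c < pm s * t := by
  obtain ⟨s, -, hs⟩ := Finset.exists_ne_zero_of_sum_ne_zero h
  split_ifs at hs with k
  exacts [⟨s, k, by_contra fun k' => hs (by
    rw [Real.smoothTransition.zero_of_nonpos (by linarith), mul_zero])⟩, (hs rfl).elim]

theorem hcs_stp (hc : 0 ≤ c) : HasCompactSupport (deriv (stp c I v)) :=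
  .intro (isCompact_Icc (a := -(c + 1)) (b := c + 1)) fun t ht => by
    rw [deriv_stp]
    refine Finset.sum_eq_zero fun s _ => ?_
    rw [Pb50.bp_zero fun k => ht ?_, zero_mul, mul_zero, ite_self]
    cases s <;> simp [pm] at k <;> constructor <;> linarith [k.1, k.2]

theorem dct2 (h : deriv (ct p q 2) t ≠ 0) : t ∈ Dq p q 2 ∧ t ∈ Bt p q 2 3 := by
  have k : t ∈ Dq p q 2 := by_contra fun k => h (IsLocalMin.deriv_eq_zero
    (.of_forall fun _ => (ct_zero' k).trans_le ct_mem.1))
  exact ⟨k, Dq_sub_Dp k, fun k' => h (dct_zero (by norm_num; exact k'))⟩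

theorem hcs_ct : HasCompactSupport (deriv (ct p q 2)) :=
  .intro cpt_Bt fun _ ht => of_not_not fun k => ht (dct2 k).2

open Classical in
/-- the drift over a neck -/
theorem drift {H : ℝ → ℝ} {D : ℝ} (hD : 0 ≤ D) (hH : ContinuousOn H (Jv p q))
    (h1 : ∀ t ∈ Dq p q 2, ∀ t' ∈ Dq p q 2, |H t - H t'| ≤ D)
    (h2 : ∀ s, Inf p q s → ∃ t ∈ Dq p q 2, |H t - v s| ≤ 1) :
    |(∫ t, deriv (ct p q 2) t * H t) - ∑ s, if Inf p q s then pm s * v s else 0| ≤
      2 * kM * D + 2 * (D + 1) := by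
  obtain ⟨a, ha⟩ : ∃ a, ∀ t ∈ Dq p q 2, |H t - a| ≤ D := by
    rcases (Dq p q 2).eq_empty_or_nonempty with h | ⟨t, ht⟩
    exacts [⟨0, by simp [h]⟩, ⟨H t, fun t' ht' => h1 _ ht' _ ht⟩]
  have c := (contDiff_ct (p := p) (q := q) (d := 2)).continuous_deriv (by simp)
  have i : Integrable fun t => deriv (ct p q 2) t * (H t - a) :=
    IntegrableOn.integrable_of_forall_notMem_eq_zero (ContinuousOn.integrableOn_compact cpt_Bt
      (c.continuousOn.mul ((hH.mono (Bt_J two_pos)).sub continuousOn_const))) fun t ht => by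
        rw [of_not_not fun k => ht (dct2 k).2, zero_mul]
  have k1 := int_der (v := fun s => if Inf p q s then 1 else 0) contDiff_ct hcs_ct fun s => by
    split_ifs with hs
    exacts [(ev_Dq hs 3).mono fun t ht => ct_one (by norm_num; exact Dq_sub_Dp ht),
      (ev_not hs 2).mono fun t ht => ct_zero' ht]
  have k2 : |∫ t, deriv (ct p q 2) t * (H t - a)| ≤ 2 * kM * D := by
    have := kM_nonneg
    refine (norm_integral_le_of_norm_le (f := fun t => deriv (ct p q 2) t * (H t - a))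
      ((integrable_indicator_iff ms_Bt).2 (integrableOn_const (μ := volume)
      (C := kM * D) (cpt_Bt (p := p) (q := q) (d := 2) (d' := 3)).measure_lt_top.ne))
      (.of_forall fun t => ?_)).trans ?_
    · by_cases k : deriv (ct p q 2) t = 0
      · rw [k, zero_mul, norm_zero]; exact indicator_nonneg (fun _ _ => by positivity) t
      · rw [indicator_of_mem (dct2 k).2, norm_mul]
        exact mul_le_mul dct_le (ha t (dct2 k).1) (abs_nonneg _) this
    · rw [integral_indicator_const _ ms_Bt, smul_eq_mul]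
      nlinarith [vol_Bt (p := p) (q := q) (d := 2) (d' := 3) (by norm_num), mul_nonneg this hD]
  have k3 : ∀ s, |(if Inf p q s then pm s * a else 0) - if Inf p q s then pm s * v s else 0| ≤
      D + 1 := fun s => by
    split_ifs with hs
    · obtain ⟨t, ht, k⟩ := h2 s hs
      rw [← mul_sub, abs_mul, show |pm s| = 1 by cases s <;> simp [pm], one_mul]
      linarith [abs_sub_le a (H t) (v s), abs_sub_comm a (H t), ha t ht]
    · simpa using by positivity
  have k4 := integral_add i ((c.integrable_of_hasCompactSupport hcs_ct).mul_const a)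
  simp only [mul_sub, sub_add_cancel, integral_mul_const, k1, Fintype.sum_bool, add_mul, mul_ite,
    ite_mul, mul_one, mul_zero, zero_mul] at k2 k4 ⊢
  rw [k4, abs_le]
  constructor <;> linarith [abs_le.1 k2, (abs_le.1 k2).1, (abs_le.1 k2).2, (abs_le.1 (k3 true)).1,
    (abs_le.1 (k3 true)).2, (abs_le.1 (k3 false)).1, (abs_le.1 (k3 false)).2]

theorem Dm.small {G : ℝ → ℝ} (h : Dm A1 (lE s) G) : ∃ᶠ t in lE s, |G t| ≤ 1 := fun k => by
  obtain ⟨S, h1, h2⟩ := h
  exact one_ne_zero ((int_lE (G := fun _ => 1) isOpen_univ (.of_forall fun _ => trivial)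
    continuousOn_const h1 ((h2.and k).mono fun t ht => by
      have := ht.1
      rw [Real.norm_eq_abs] at this
      rw [norm_one]
      nlinarith [not_le.1 ht.2])).eq_zero_of_tendsto (vol_lE s) tendsto_const_nhds)

end time

variable {κ lam ν : Type} [Fintype κ] [Fintype lam] [Fintype ν] [DecidableEq ν]
  {X : Mf 4} {nc : ℕ} {c : Sw.Cfg X.M κ ν} {x : X.M}

/-- the dual form -/
def se (b : Bg X.I X.M κ lam ν nc) (η : X.M → F2 κ) (x : X.M) : F2 κ :=
  idx (b.B.st x) (ContinuousLinearMap.id ℝ ℝ) (η x)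

section nk
variable {e : En3 κ lam ν} {b : Bg X.I X.M κ lam ν nc} (K : Nk e b) {η : X.M → F2 κ}

theorem D_tm {h : ℝ → ℝ} (hh : ContDiff ℝ ∞ h) (h0 : ∀ t ∉ Dp K.p K.q 2, h t = 0) :
    (Sm X.I fun x => h (K.tm x)) ∧ ∀ x (U : Option κ → ℝ),
      ∑ a, b.F.D a (fun x => h (K.tm x)) x * U a = deriv h (K.tm x) * U none := by
  rw [← K.push_time two_pos h0]
  refine ⟨sm_push K.toNk two_pos (sm_snd hh) fun _ k => h0 _ k, fun x U => ?_⟩
  have h1 := congrFun (K.push_time (h := deriv h) two_pos fun t k => (EventuallyEq.deriv_eq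
    (f := fun _ => 0) (mem_of_superset (isClosed_Dp.isOpen_compl.mem_nhds k) h0)).trans
      (deriv_const _ _)) x
  have h2 : ∀ a, K.push (e.D.Z.D (some a) fun z => h z.2) x = 0 := fun a => by
    rw [show e.D.Z.D (some a) _ = 0 from D_some_snd e.D.F.toPre hh a]; simp [pull]
  simp only [fun a => congrFun (D_push K.toNk two_pos (sm_snd hh) (fun _ k => h0 _ k) a) x,
    Fintype.sum_option, h2, zero_mul, Finset.sum_const_zero, add_zero]
  rw [show e.D.Z.D none _ = _ from D_none_snd e.D.F.toPre hh, h1]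

theorem c_hol (he : e.OK) (ha : ∀ i, Sm X.I (c.a i)) :
    ContinuousOn (fun t => hol (sl (K.pb c) t)) K.J :=
  (cd_sl e.D.F.toPre isOpen_Jv (g := fun z => 4 * ∑ k, e.ζ z.1 (none, some k) *
    (K.pb c).a (some k) z) fun z hz => (SA.mul contMDiffAt_const (SA.sum _ fun k _ => SA.mul
      (Sep15.S.sa_ev (sm_fst he.sζ z) (none, some k))
      (Pb50.sa_ψ K (K.mem_src.2 hz.2) (ha (some k) _)))).contMDiffWithinAt).continuousOn

theorem se_ψ (he : e.OK) {r t : ℝ} {y : e.Y.M} (ht : t ∈ K.J) (h : ∀ a a', η (K.ψ (y, t)) (a, a') =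
    if a.isSome ∧ a'.isSome then r * e.ζ y (a, a') else 0) :
    se b η (K.ψ (y, t)) (none, none) = 0 ∧ ∀ k,
      se b η (K.ψ (y, t)) (none, some k) = r * e.ζ y (none, some k) ∧
      se b η (K.ψ (y, t)) (some k, none) = -(r * e.ζ y (none, some k)) ∧
      ∀ j, se b η (K.ψ (y, t)) (some j, some k) = 0 := by
  have h1 : idx (e.cyl.B.st (y, 0)) (ContinuousLinearMap.id ℝ ℝ) (e.ζ y) = e.ζ y := by
    rw [← he.pζ]; simp only [Bg.p2, idx_idx, st_sd he.cyl.B]; rfl
  have h2 := fun k => congrArg (· (none, some k)) h1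
  have h3 : ∀ k l m, e.D.o (some k) none l m y = -e.D.o none (some k) l m y := fun k l m =>
    he.cyl.B.o12 _ _ _ _ (y, 0)
  have o : ∀ i j k l, b.B.o i j k l (K.ψ (y, t)) = e.D.o i j k l y := fun i j k l =>
    K.o i j k l _ (src K ht y)
  simp only [idx_apply, Fintype.sum_prod_type, Fintype.sum_option, Base.st, cyl_o, o_none he,
    ContinuousLinearMap.id_apply, smul_eq_mul, zero_div, zero_mul, Finset.sum_const_zero,
    zero_add] at h2
  simp [se, Fintype.sum_prod_type, Base.st, o, h, o_none he, o_some he, h3, ← h2, Finset.mul_sum,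
    mul_left_comm r, neg_div]

theorem pair_ψ (he : e.OK) {r t : ℝ} {y : e.Y.M} (ht : t ∈ K.J) (h : ∀ a a', η (K.ψ (y, t)) (a, a') =
    if a.isSome ∧ a'.isSome then r * e.ζ y (a, a') else 0) (v : e.YC) :
    ⟪e.cyl.fc (fz v) (y, t), se b η (K.ψ (y, t))⟫_ℝ = 0 := by
  simp [inner_F2, fc_none, (se_ψ K he ht h).2]

theorem dm_hol (he : e.OK) {c : e.ZC} {J : Set ℝ} {s : Bool} {v : e.YC}
    (h : e.cyl.AdmOn c (univ ×ˢ J)) (ev : ∀ᶠ t in lE s, t ∈ J) (hv : e.cyl.Adm (fz v))
    (ha : ∀ i, Gl e.D.F.toPre s fun x => c.a i x - (fz v).a i x) :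
    Dm A1 (lE s) fun t => hol (sl c t) - hol v := by
  have cζ := fun k => cmp (none, some k) he.sζ.continuous
  refine ((Dm.sum fun k => (dm_gl (ha (some k))).mul (bo_st (cζ k))).cmul 4).int.congr
    (ev.mono fun t ht => ?_)
  have i : ∀ u : e.YC, e.cyl.Adm (fz u) → Integrable (fun y => 4 * ∑ k, e.ζ y (none, some k) *
      u.a k y) e.D.F.μ := fun u hu => itg (continuous_const.mul
    (continuous_finsetSum _ fun k _ => (cζ k).mul (cont_a hu k)))
  simp only [hol, ← integral_sub (i _ (adm_sl h ht)) (i v hv), mul_sub, Finset.sum_sub_distrib]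
  rfl

theorem pair_le (hb : b.OK) (hc : b.Adm c) :
    |⟪b.fc c x, se b η x⟫_ℝ| ≤ 3 * ‖b.fc c x‖ * ‖η x‖ := by
  have a := a2_fix (B := b.B) (x := x) (T := fun i j => b.fc c x (i, j)) (fc_swap hb hc)
    (hb.G.P ▸ fc_proj hb hc)
  have h : idx (b.B.st x) (ContinuousLinearMap.id ℝ ℝ) (b.fc c x) =
      (2 : ℝ) • b.p2 x (b.fc c x) - b.fc c x := by
    ext1 s
    simp only [Bg.p2, idx_apply, Base.sd, div_eq_inv_mul, mul_smul, ← Finset.smul_sum, add_smul,
      Finset.sum_add_distrib, a, PiLp.smul_apply, PiLp.sub_apply, ContinuousLinearMap.id_apply]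
    simp
  rw [se, ← inner_idx (st_symm hb.B x) fun _ _ => rfl, h]
  refine (abs_real_inner_le_norm _ _).trans (mul_le_mul_of_nonneg_right ((norm_sub_le _ _).trans
    ?_) (norm_nonneg _))
  rw [norm_smul, Real.norm_two]
  linarith [Sw88.norm_p2 hb (x := x) (b.fc c x)]

end nk

variable {N : Type} [Fintype N] {e : N → En3 κ lam ν} {P : Pz X nc e} {η : X.M → F2 κ} {r : N → ℝ}
  {B : ℝ} {u : Ix P → ℝ → ℝ}

variable (P) in
open Classical in
theorem hs_eq (r : N → ℝ) (y : BCs e) : hs P r y =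
    ∑ j : Ix P, r j.1 * ∑ s, if (kk j).Inf s then pm s * hol (y j.1 s) else 0 := by
  rw [← sum_kk P fun i K => r i * ∑ s, if K.Inf s then pm s * hol (y i s) else 0]
  refine Finset.sum_congr rfl fun i _ => ?_
  cases h : P.nk i <;> simp [Pz.Inf, h, mul_add, mul_assoc, mul_left_comm (pm _)]

variable (u) in
/-- the cut-off -/
def θu (x : X.M) : ℝ := 1 - ∑ j, u j ((kk j).tm x)

theorem θu_ne (h : θu u x ≠ 1) : ∃ j, u j ((kk j).tm x) ≠ 0 :=
  by_contra fun k => h (by simp [θu, not_exists_not.1 k])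

variable (hP : P.OK) (h0 : ∀ j, ∀ t ∉ Dp (kk j).p (kk j).q 2, u j t = 0)
include hP h0

theorem θu_tgt {j : Ix P} (hx : x ∈ (kk j).ψ.target) : θu u x = 1 - u j ((kk j).tm x) := by
  rw [θu, Fintype.sum_eq_single j fun j' h => h0 _ _ fun k =>
    off_O hP hx h zero_le_one (dp_sub_O _ one_lt_two k)]

/-- **Stokes** -/
theorem stokes (hη : TF P η r B) (ha : ∀ i, Sm X.I (c.a i))
    (pa : ∀ i x, ∑ j, P.bg.B.P i j x * c.a j x = c.a i x) (hu : ∀ j, ContDiff ℝ ∞ (u j))
    (hd : ∀ j, HasCompactSupport (deriv (u j))) (hk : HasCompactSupport (θu u)) :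
    ∫ x, θu u x * ⟪P.bg.fc c x, se P.bg η x⟫_ℝ ∂P.bg.F.μ = wd P.bg (P.bg.fc ⟨0, 0⟩) η +
      (∑ j, r j.1 * ∫ t, deriv (u j) t * hol (sl ((kk j).pb c) t)) / 2 := by
  have hb := hP.bg
  have D := fun j => D_tm (kk j) (hu j) (h0 j)
  have sθ : Sm X.I (θu u) := fun x => contMDiffAt_const.sub (SA.sum _ fun j _ => (D j).1 x)
  have cs : Continuous (se P.bg η) := ContMDiff.continuous fun x =>
    Sep15.S.sa_idx (fun s t => (hb.B.so _ _ _ _ x).div_const 2) (hη.sm x)
  set U := fun i x => ∑ j, c.a j x * (se P.bg η x (i, j) - se P.bg η x (j, i))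
  have i : ∀ {c : Sw.Cfg X.M κ ν}, (∀ i, Sm X.I (c.a i)) →
      Integrable (fun x => θu u x * ⟪P.bg.fc c x, se P.bg η x⟫_ℝ) P.bg.F.μ := fun h =>
    (sθ.continuous.mul ((ContMDiff.continuous fun x => Sep15.S.sa_fc hb fun i => h i x).inner
      cs)).integrable_of_hasCompactSupport hk.mul_right
  have s1 : ∀ j, tsupport (deriv (u j)) ⊆ Dq (kk j).p (kk j).q 1 := fun j =>
    tsupport_deriv_subset.trans ((closure_minimal (fun t (h : u j t ≠ 0) => by_contra fun k =>
      h (h0 j t k)) isClosed_Dp).trans (Dp_sub_Dq one_lt_two))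
  have s2 := fun j => (s1 j).trans (Dq_sub zero_le_one)
  have z := fun j t (h : t ∉ tsupport (deriv (u j))) => image_eq_zero_of_notMem_tsupport h
  have i2 : ∀ j, IntegrableOn (fun x => deriv (u j) ((kk j).tm x) * U none x)
      ((kk j).tm ⁻¹' tsupport (deriv (u j))) P.bg.F.μ := fun j => by
    refine ContinuousOn.integrableOn_compact ?_ ((((hu j).continuous_deriv (by simp)).comp
      (kk j).cont).mul (continuous_finsetSum _ fun k _ => (ha k).continuous.mul
        ((cmp (none, k) cs).sub (cmp (k, none) cs)))).continuousOn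
    rw [← img_eq _ (s2 j)]
    exact (isCompact_univ.prod (hd j)).image_of_continuousOn
      ((kk j).ψ.continuousOn.mono fun _ hz => (kk j).mem_src.2 (s2 j hz.2))
  have z' := fun j x (h : x ∉ (kk j).tm ⁻¹' tsupport (deriv (u j))) =>
    (congrArg (· * U none x) (z j _ h)).trans (zero_mul _)
  have h1 : ∀ j, ∫ x, deriv (u j) ((kk j).tm x) * U none x ∂P.bg.F.μ =
      r j.1 / 2 * ∫ t, deriv (u j) t * hol (sl ((kk j).pb c) t) := fun j => by
    rw [← setIntegral_eq_integral_of_forall_compl_eq_zero (z' j), (slab (kk j)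
      (u := fun t => r j.1 / 2 * (deriv (u j) t * hol (sl ((kk j).pb c) t)))
      (isClosed_tsupport _).measurableSet (s2 j) (i2 j) fun t ht => ?_).2,
      setIntegral_eq_integral_of_forall_compl_eq_zero fun t ht => by rw [z j t ht]; ring,
      integral_const_mul]
    rw [hol, ← integral_const_mul, ← integral_const_mul]
    refine integral_congr_ae (.of_forall fun y => ?_)
    have k := se_ψ (kk j) (hP.en _) (s2 j ht) (hη.nk _ _ (kk_mem j) y t (s1 j ht))
    simp only [U, (kk j).tm_ψ _ (src _ (s2 j ht) y), Fintype.sum_option, k.2, sub_self, mul_zero,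
      zero_add, Finset.mul_sum]
    exact Finset.sum_congr rfl fun k _ => by simp only [sl, Sw.Cfg.pb]; ring
  have h2 : ∀ x, θu u x * ⟪P.bg.fc ⟨0, 0⟩ x, se P.bg η x⟫_ℝ = ⟪P.bg.fc ⟨0, 0⟩ x, se P.bg η x⟫_ℝ :=
    fun x => by
    by_cases k : θu u x = 1
    · rw [k, one_mul]
    obtain ⟨j, hj⟩ := θu_ne k
    obtain ⟨⟨y, t⟩, ht, rfl⟩ := (img_deep (kk j) zero_le_one).symm.subset
      (dp_sub_O _ one_lt_two (by_contra fun k => hj (h0 j _ k)))
    have hJ := Dq_sub zero_le_one ht.2
    have := pair_ψ (kk j) (hP.en _) hJ (hη.nk _ _ (kk_mem j) y t ht.2) (sl ⟨0, 0⟩ 0)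
    rw [fz0] at this
    rw [Pb50.fc_ψ _ (src _ hJ y), show (kk j).pb ⟨0, 0⟩ = ⟨0, 0⟩ from rfl, this, mul_zero]
  have h3 := hη.cl (fun i x => θu u x * c.a i x) (fun i => ⟨fun x => SA.mul (sθ x) (ha i x),
    hk.mul_right⟩) fun i x => by simp only [mul_left_comm _ (θu u x), ← Finset.mul_sum, pa]
  have h4 : ∀ x, ⟪dd P.bg (fun i x => θu u x * c.a i x) x, se P.bg η x⟫_ℝ =
      θu u x * ⟪P.bg.fc c x, se P.bg η x⟫_ℝ - θu u x * ⟪P.bg.fc ⟨0, 0⟩ x, se P.bg η x⟫_ℝ -
        ∑ j, deriv (u j) ((kk j).tm x) * U none x := fun x => by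
    have h : ∀ a, P.bg.F.D a (θu u) x = 0 - ∑ j, P.bg.F.D a (fun x => u j ((kk j).tm x)) x :=
      fun a => (dv_sub' contMDiffAt_const (SA.sum _ fun j _ => (D j).1 x)).trans (congrArg₂ _
        (by rw [dv_const]) (dv_sum' _ fun j => (D j).1 x))
    have h' : ∑ a, P.bg.F.D a (θu u) x * U a x = -∑ j, deriv (u j) ((kk j).tm x) * U none x := by
      simp only [h, zero_sub, neg_mul, Finset.sum_mul, Finset.sum_neg_distrib,
        ← fun j => (D j).2 x fun a => U a x]
      rw [Finset.sum_comm]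
    rw [sub_eq_add_neg _ (∑ j, _), ← h']
    have k := Finset.sum_comm (s := Finset.univ) (t := Finset.univ) (f := fun i j =>
      P.bg.F.D i (θu u) x * (c.a j x * se P.bg η x (j, i)))
    simp only [inner_F2, dd, Pre.D_def, fun a i => Wz78.dv_mul (e := P.bg.F.e a) (sθ x) (ha i x),
      fc_add hb fun i => ha i x, d1, smul_eq_mul, U, mul_sub, Finset.sum_sub_distrib,
      Finset.mul_sum] at k ⊢
    simp only [k, ← Finset.sum_sub_distrib, ← Finset.sum_add_distrib]
    refine Finset.sum_congr rfl fun i _ => Finset.sum_congr rfl fun j _ => ?_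
    simp only [mul_left_comm _ (θu u x), ← Finset.mul_sum]
    ring
  have i3 := fun j => (i2 j).integrable_of_forall_notMem_eq_zero (z' j)
  change ∫ x, ⟪_, se P.bg η x⟫_ℝ ∂_ = 0 at h3
  simp only [h4] at h3
  rw [integral_sub (by exact (i ha).sub (i fun _ => contMDiff_const))
    (integrable_finsetSum _ fun j _ => i3 j), integral_sub (i ha) (i fun _ => contMDiff_const),
    integral_finsetSum _ fun j _ => i3 j] at h3
  simp only [h1, h2, div_mul_eq_mul_div, ← Finset.sum_div] at h3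
  exact eq_add_of_sub_eq' (sub_eq_zero.1 h3)

omit hP h0 in
variable (κ lam ν) in
/-- **SW-FORM** -/
theorem formStmt : FormStmt κ lam ν := fun N _ e X nc P hP η r B hη β hβ => by
  have hT : ∀ᶠ T in atTop, ∀ (j : Ix P) s, (kk j).Inf s → ∀ t, T < pm s * t →
      t ∈ Dq (kk j).p (kk j).q 2 ∧ ∀ y a, ((kk j).pb (P.base β)).a a (y, t) =
        (fz (β j.1 s)).a a (y, t) := by
    simp only [eventually_all]
    exact fun j s hs => ev_T ((ev_Dq hs 2).and (ev_nd (eventually_all.2 fun a =>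
      Pb50.base_ev hP (g := fun i s => (fz (β i s)).a a) (kk_mem j) hs)))
  obtain ⟨T, hT, T0⟩ := (hT.and (eventually_ge_atTop 0)).exists
  have T1 : 0 ≤ T + 1 := by linarith
  set u := fun j : Ix P => stp (T + 1) (kk j).Inf fun _ => 1
  have ne := fun j t (h : u j t ≠ 0) => (stp_ne h).imp fun s k =>
    And.intro k.1 (show T < pm s * t by linarith [k.2])
  have h0 : ∀ j, ∀ t ∉ Dp (kk j).p (kk j).q 2, u j t = 0 := fun j t ht => by_contra fun k =>
    let ⟨s, h1, h2⟩ := ne j t k
    ht (Dq_sub_Dp (hT j s h1 t h2).1)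
  have h := stokes (c := P.base β) hP h0 hη (fun a => (Pb50.cb_base (g := fun i s =>
    (fz (β i s)).a a) fun i s h => Pb50.cb_fz ((hβ i s h).sa a) (Pb50.fz_a _ a)).choose_spec.1)
    (fun a x => by
      have k : ∀ a, (P.base β).a a x = ∑ s, ∑ j : Ix P, (kk j).bw s x *
          (fz (β j.1 s)).a a ((kk j).ψ.symm x) := fun a => Finset.sum_comm.trans
        (Finset.sum_congr rfl fun s _ => sum_kk P fun i K => K.bw s x * (fz (β i s)).a a (K.ψ.symm x))
      simp only [k, Finset.mul_sum]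
      refine Finset.sum_comm.trans (Finset.sum_congr rfl fun s _ => Finset.sum_comm.trans
        (Finset.sum_congr rfl fun j _ => ?_))
      by_cases h : (kk j).bw s x = 0
      · simp [h]
      · have hx := (kk j).dp_sub one_pos (Pb50.bw_dp _ h).2.2
        rw [← (hβ _ s ⟨_, kk_mem j, (Pb50.bw_dp _ h).1⟩).pa a, Finset.mul_sum]
        refine Finset.sum_congr rfl fun i _ => ?_
        rw [← (kk j).ψ.right_inv hx, (kk j).P _ _ _ ((kk j).ψ.map_target hx),
          (kk j).ψ.right_inv hx, mul_left_comm]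
        rfl)
    (fun _ => cd_stp) (fun _ => hcs_stp T1) (.intro (hP.cpt (T + 2)) fun x hx => by
      refine by_contra fun n => hx fun i s => (all_kk P (p := fun _ K => K.Inf s →
        x ∉ K.ψ '' univ ×ˢ K.far s (T + 2))).2 (fun j hs ⟨z, hz, e⟩ => n ?_) i
      have k := (kk j).mem_src.2 hz.2.1
      rw [← e, θu_tgt hP h0 ((kk j).ψ.map_source k), (kk j).tm_ψ _ k, show u _ _ = _ from
        stp_far T1 (by linarith [show T + 2 < _ from hz.2.2]), if_pos hs, sub_self])
  have h' : ∀ j : Ix P, ∫ t, deriv (u j) t * hol (sl ((kk j).pb (P.base β)) t) =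
      ∫ t, deriv (stp (T + 1) (kk j).Inf fun s => hol (β j.1 s)) t := fun j => by
    refine integral_congr_ae (.of_forall fun t => ?_)
    simp only [u, deriv_stp, Finset.sum_mul]
    refine Finset.sum_congr rfl fun s _ => ?_
    split_ifs with hs
    swap; · exact zero_mul _
    by_cases k : bp (pm s * t - (T + 1)) = 0
    · simp [k]
    · have := (hT j s hs t (by linarith [(of_not_not (mt Pb50.bp_zero k)).1])).2
      rw [one_mul, mul_comm, show hol (sl _ t) = hol (β j.1 s) from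
        integral_congr_ae (.of_forall fun y => by simp only [sl, this]; rfl)]
  simp only [h', int_der cd_stp (hcs_stp T1) fun s =>
    (ev_pm s (T + 1 + 1)).mono fun t ht => stp_far T1 ht.le, mul_ite, mul_zero] at h
  rw [hs_eq, wd, ← h]
  refine integral_congr_ae (.of_forall fun x => ?_)
  by_cases k : θu u x = 1
  · simp only [k, one_mul, se]
  obtain ⟨j, hj⟩ := θu_ne k
  obtain ⟨s, h1, h2⟩ := ne j _ hj
  obtain ⟨⟨y, t⟩, ht, rfl⟩ := (img_deep (kk j) zero_le_one).symm.subset
    (O_mono _ one_le_two (hT j s h1 _ h2).1)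
  have hJ := Dq_sub zero_le_one ht.2
  rw [(kk j).tm_ψ _ (src _ hJ y)] at h2
  have := pair_ψ (kk j) (hP.en _) hJ (hη.nk _ _ (kk_mem j) y t ht.2) (β j.1 s)
  rw [← fc_congr fun a => ((Pb50.isOpen_nd T).eventually_mem (x := (y, t)) h2).mono fun z hz =>
    (hT j s h1 z.2 hz).2 z.1 a, ← Pb50.fc_ψ _ (src _ hJ y)] at this
  simp only [this, mul_zero]
  exact this

omit hP h0 in
variable (κ lam ν) in
/-- **SW-LAB** -/
theorem labStmt : LabStmt κ lam ν := fun C ε l B hε hl => by
  obtain ⟨D, hD⟩ := Dru9.dru (κ := κ) (lam := lam) (ν := ν) (C 0) ε l hε hl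
  refine ⟨3 * |B| * (C 0 + 1) + C 0 * (|B| * (2 * kM * |D| + 2 * (|D| + 1))),
    fun N _ e X nc P hP hU hG η r hη y c hy hc hq hE => ?_⟩
  have hn : (Fintype.card (Ix P) : ℝ) ≤ C 0 := by
    have := hU.nn
    rwa [← Nat.card_coe_set_eq, Nat.card_eq_fintype_card] at this
  have C0 : 0 ≤ C 0 := (Nat.cast_nonneg _).trans hn
  have hb := hP.bg
  have k0 := kM_nonneg
  set E := (P.ean c).toReal
  have E0 : 0 ≤ E := ENNReal.toReal_nonneg
  set u := fun j : Ix P => ct (kk j).p (kk j).q 2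
  have h0 : ∀ j, ∀ t ∉ Dp (kk j).p (kk j).q 2, u j t = 0 := fun _ _ => ct_zero
  have c3 := cpt_thick hP three_pos.le
  have z : ∀ x ∉ P.thick 3, θu u x = 0 := fun x hx => by
    obtain ⟨j, hj⟩ := not_forall_not.1 (mt (mem_thick P three_pos.le).2 hx)
    rw [θu_tgt hP h0 (O_sub _ three_pos.le hj), show u j _ = 1 from
      ct_one (by norm_num; exact Dq_sub_Dp hj), sub_self]
  have h := stokes hP h0 hη hc.1.sa hc.1.pa (fun _ => contDiff_ct) (fun _ => hcs_ct) (.intro c3 z)
  have i : IntegrableOn (fun x => ‖P.bg.fc c x‖ ^ 2) (P.thick 3) P.bg.F.μ :=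
    ((sm_fc' hb hc.1).continuous.norm.pow 2).continuousOn.integrableOn_compact c3
  have i1 := integrableOn_const (C := (1 : ℝ)) (μ := P.bg.F.μ) c3.measure_lt_top.ne
  have h1 : |∫ x, θu u x * ⟪P.bg.fc c x, se P.bg η x⟫_ℝ ∂P.bg.F.μ| ≤ 3 * |B| * (C 0 + E) := by
    rw [← setIntegral_eq_integral_of_forall_compl_eq_zero fun x hx => by rw [z x hx, zero_mul]]
    refine (norm_integral_le_of_norm_le (f := fun x => θu u x * ⟪P.bg.fc c x, se P.bg η x⟫_ℝ)
      ((i1.add i).const_mul (3 * |B|)) (.of_forall fun x => ?_)).trans ?_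
    · have m : |θu u x| ≤ 1 := by
        by_cases k : θu u x = 1
        · rw [k, abs_one]
        · obtain ⟨j, hj⟩ := θu_ne k
          have := ct_mem (p := (kk j).p) (q := (kk j).q) (d := 2) (s := (kk j).tm x)
          rw [θu_tgt hP h0 ((kk j).dp_sub two_pos (by_contra fun k => hj (h0 j _ k))), abs_le]
          constructor <;> linarith [this.1, this.2]
      rw [norm_mul, Pi.add_apply]
      refine (mul_le_of_le_one_left (norm_nonneg _) m).trans ((pair_le hb hc.1).trans ?_)
      nlinarith [mul_le_mul_of_nonneg_left ((hη.bd x).trans (le_abs_self B))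
        (norm_nonneg (P.bg.fc c x)), mul_nonneg (abs_nonneg B) (sq_nonneg (‖P.bg.fc c x‖ - 1)),
        mul_nonneg (abs_nonneg B) (norm_nonneg (P.bg.fc c x))]
    · rw [integral_const_mul, integral_add' i1 i, setIntegral_const, smul_eq_mul, mul_one]
      refine mul_le_mul_of_nonneg_left (add_le_add (ENNReal.toReal_le_of_le_ofReal C0 hU.vol)
        ((ENNReal.ofReal_le_iff_le_toReal hE).1 ?_)) (by positivity)
      rw [ofReal_integral_eq_lintegral_ofReal i (.of_forall fun _ => sq_nonneg _)]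
      refine (lintegral_mono fun x => ENNReal.ofReal_le_ofReal ?_).trans le_self_add
      have := hb.w
      rw [Bg.ed, add_assoc]
      exact le_add_of_nonneg_right (by positivity)
  have h2 := fun j : Ix P => drift (v := fun s => hol (y j.1 s)) (D := |D| * (1 + E))
    (by positivity) (c_hol (kk j) (hP.en _) hc.1.sa) (fun t ht t' ht' => by
      have k : en ((kk j).pb c) ((kk j).deep 2) ≤ P.ean c := le_add_left ((Finset.single_le_sum
        (f := fun j : Ix P => en ((kk j).pb c) ((kk j).deep 2)) (fun _ _ => zero_le)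
        (Finset.mem_univ j)).trans_eq (sum_kk P fun _ K => en (K.pb c) (K.deep 2)).symm)
      refine (hD _ (hP.en _) (hU.nb _ j.2) (hG _ j.2) ((kk j).pb c) _ _ (Sep15.S.admOn_mono
        (Pb50.admOn_pb _ hc.1) (prod_mono_right (Dq_sub two_pos.le))) (fun z hz => ?_)
        (ne_top_of_le_ne_top hE k) t ht t' ht').trans (mul_le_mul (le_abs_self D)
          (add_le_add_right (ENNReal.toReal_mono hE k) 1) (by positivity) (abs_nonneg D))
      have hz' := (kk j).mem_src.2 (Dq_sub two_pos.le hz.2)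
      have := hq ((kk j).ψ z)
      rwa [show P.p0.C c _ = _ from Pb50.sum_nk hP (kk_mem j) ((kk j).ψ.map_source hz')
        (fun _ K => K.hl c _) fun _ K h => by simp [Nk.hl, K.ext_zero _ h], Pb50.eC_ψ _ hz', Nk.hl,
        Pb50.ext_ψ _ _ hz.2, (kk j).tm_ψ _ hz', neg_smul, sub_neg_eq_add] at this)
    fun s hs => by
      have hv := (hy _ s ⟨_, kk_mem j, hs⟩).1
      exact ((dm_hol (hP.en _) (Pb50.admOn_pb _ hc.1) ((ev_Dq hs 0).mono fun t ht => Dq_sub le_rfl ht)
        hv ((Pb50.asy_iff _ hs hc.1 hv).1 (hc.2 _ s _ (kk_mem j) hs)).1).small.and_eventually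
        (ev_Dq hs 2)).exists.imp fun _ => And.symm
  have h3 := (Finset.abs_sum_le_sum_abs _ _).trans ((Finset.sum_le_card_nsmul Finset.univ _ _
    fun j _ => (abs_mul _ _).trans_le (mul_le_mul ((hη.rb j.1).trans (le_abs_self B)) (h2 j)
      (abs_nonneg _) (abs_nonneg B))).trans ((nsmul_eq_mul _ _).trans_le
        (mul_le_mul_of_nonneg_right hn (by positivity))))
  simp only [mul_sub, Finset.sum_sub_distrib] at h3
  have e : hs P r y = ∑ j : Ix P, r j.1 * ∑ s, @ite _ (Inf (kk j).p (kk j).q s)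
    (Classical.propDecidable _) (pm s * hol (y j.1 s)) 0 := hs_eq P r y
  rw [← e] at h3
  rw [h] at h1
  have := mul_nonneg (abs_nonneg B) E0
  have := mul_nonneg C0 this
  have := mul_nonneg (abs_nonneg B) C0
  have := mul_nonneg this (show 0 ≤ (2 * kM * |D| + 2 * (|D| + 1)) * (1 + E) by positivity)
  rw [abs_le] at h1 h3 ⊢
  constructor <;> nlinarith [h1.1, h1.2, h3.1, h3.2, abs_nonneg B]

end Crest.Agent.X212.Mp86.En
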