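import Crest.Agent.X212.Mp86.OY
import Crest.Agent.X212.Wz78.Int

/-!
# Row 212, layer AN (helper86): level set estimates (De Giorgi-Stampacchia)

For a smooth `w` tending to zero at infinity with `w - σ ≤ Lop w`: `w ≤ K ‖σ‖_{L⁴}` and
`‖w₊‖_{L⁴} ≤ K ‖σ‖_{L²}`; the constants only depend on the Sobolev constant `L4`.
-/

set_option autoImplicit false
set_option linter.unusedSectionVars false
open Set Filter Topology Module MeasureTheory
open scoped Manifold ContDiff InnerProductSpace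

noncomputable section

namespace Crest.Agent.X212.Mp86

/-- smooth approximation of `(x - t)₊` -/
theorem exists_theta (t : ℝ) {ε : ℝ} (hε : 0 < ε) : ∃ θ θ' : ℝ → ℝ, ContDiff ℝ ∞ θ ∧
    (∀ x, HasDerivAt θ (θ' x) x) ∧ (∀ x, 0 ≤ θ' x ∧ θ' x ≤ 1) ∧ (∀ x ≤ t, θ x = 0) ∧
    (∀ x, x - t - ε ≤ θ x) ∧ (∀ x, 0 ≤ θ x) ∧ (∀ x, t ≤ x → θ x ≤ x - t) ∧
    ∀ x, θ x ≤ θ' x * (x - t) := by
  let τ : ℝ → ℝ := fun y => Real.smoothTransition ((y - t) / ε)
  have hτ : ContDiff ℝ ∞ τ :=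
    Real.smoothTransition.contDiff.comp ((contDiff_id.sub contDiff_const).div_const ε)
  have hc := hτ.continuous
  have h0 : ∀ y, 0 ≤ τ y := fun _ => Real.smoothTransition.nonneg _
  have h1 : ∀ y, τ y ≤ 1 := fun _ => Real.smoothTransition.le_one _
  have hd : ∀ x, HasDerivAt (fun x => ∫ y in t..x, τ y) (τ x) x := fun x =>
    (hc.integral_hasStrictDerivAt t x).hasDerivAt
  have hz : ∀ x ≤ t, ∫ y in t..x, τ y = 0 := fun x hx => by
    rw [intervalIntegral.integral_congr (g := fun _ => 0) fun y hy => ?_, intervalIntegral.integral_zero]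
    rw [uIcc_of_ge hx] at hy
    exact Real.smoothTransition.zero_of_nonpos (div_nonpos_of_nonpos_of_nonneg (by linarith [hy.2]) hε.le)
  have hp : ∀ x, 0 ≤ ∫ y in t..x, τ y := fun x => by
    rcases le_total x t with h | h
    · rw [hz x h]
    · exact intervalIntegral.integral_nonneg h fun y _ => h0 y
  refine ⟨fun x => ∫ y in t..x, τ y, τ, ?_, hd, fun x => ⟨h0 x, h1 x⟩, hz, fun x => ?_, hp,
    fun x hx => ?_, fun x => ?_⟩
  · rw [contDiff_infty_iff_deriv]
    refine ⟨fun x => (hd x).differentiableAt, ?_⟩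
    rw [show deriv (fun x => ∫ y in t..x, τ y) = τ from funext fun x => (hd x).deriv]
    exact hτ
  · rcases le_total x (t + ε) with h | h
    · linarith [hp x]
    · beta_reduce
      rw [← intervalIntegral.integral_add_adjacent_intervals (b := t + ε)
        (hc.intervalIntegrable _ _) (hc.intervalIntegrable _ _)]
      have : ∫ y in (t + ε)..x, τ y = x - (t + ε) := by
        rw [intervalIntegral.integral_congr (g := fun _ => 1) fun y hy => ?_]
        · simp
        · rw [uIcc_of_le h] at hy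
          exact Real.smoothTransition.one_of_one_le ((one_le_div hε).2 (by linarith [hy.1]))
      linarith [hp (t + ε)]
  · have := intervalIntegral.integral_mono_on (μ := volume) hx (hc.intervalIntegrable _ _)
      (continuous_const.intervalIntegrable _ _) fun y _ => h1 y
    simpa using this
  · rcases le_total x t with h | h
    · have : τ x = 0 := Real.smoothTransition.zero_of_nonpos
        (div_nonpos_of_nonpos_of_nonneg (by linarith) hε.le)
      simp only [hz x h, this, zero_mul, le_rfl]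
    · have := intervalIntegral.integral_mono_on (μ := volume) (g := fun _ => τ x) h
        (hc.intervalIntegrable _ _) (continuous_const.intervalIntegrable _ _) fun y hy =>
          Real.smoothTransition.monotone (div_le_div_of_nonneg_right (by linarith [hy.2]) hε.le)
      simpa [mul_comm] using this

/-- Cauchy-Schwarz for integrals -/
theorem int_cs {X : Type*} [MeasurableSpace X] {μ : Measure X} {f g : X → ℝ}
    (hf : Integrable (fun x => f x ^ 2) μ) (hg : Integrable (fun x => g x ^ 2) μ)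
    (h : Integrable (fun x => f x * g x) μ) :
    ∫ x, f x * g x ∂μ ≤ √(∫ x, f x ^ 2 ∂μ) * √(∫ x, g x ^ 2 ∂μ) := by
  have key : ∀ t : ℝ, 0 ≤ (∫ x, f x ^ 2 ∂μ) * (t * t) + (2 * ∫ x, f x * g x ∂μ) * t +
      ∫ x, g x ^ 2 ∂μ := fun t => by
    have : ∫ x, (t * f x + g x) ^ 2 ∂μ = (∫ x, f x ^ 2 ∂μ) * (t * t) +
        (2 * ∫ x, f x * g x ∂μ) * t + ∫ x, g x ^ 2 ∂μ := by
      rw [← integral_mul_const, ← integral_const_mul, ← integral_mul_const,
        ← integral_add (hf.mul_const _) ((h.const_mul _).mul_const _),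
        ← integral_add (f := fun x => f x ^ 2 * (t * t) + 2 * (f x * g x) * t)
          ((hf.mul_const _).add ((h.const_mul _).mul_const _)) hg]
      exact integral_congr_ae (.of_forall fun x => by ring)
    rw [← this]; exact integral_nonneg fun x => sq_nonneg _
  have h2 := discrim_le_zero key
  rw [discrim] at h2
  rw [← Real.sqrt_mul (integral_nonneg fun x => sq_nonneg _)]
  exact Real.le_sqrt_of_sq_le (by linarith)

/-- the iteration -/
theorem iter_zero {a : ℕ → ℝ} {q : ℝ} (h0 : ∀ k, 0 ≤ a k) (hq : 0 ≤ q) (h1 : q * a 0 * 16 ≤ 1)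
    (h : ∀ k, a (k + 1) ≤ q * 16 ^ k * a k ^ 2) (k : ℕ) : a k ≤ a 0 * (1 / 16) ^ k := by
  induction k with
  | zero => simp
  | succ k ih =>
    have h2 : a k ^ 2 ≤ (a 0 * (1 / 16) ^ k) ^ 2 := pow_le_pow_left₀ (h0 k) ih 2
    have h3 : (16 : ℝ) ^ k * (1 / 16) ^ k = 1 := by rw [← mul_pow]; norm_num
    calc a (k + 1) ≤ q * 16 ^ k * (a 0 * (1 / 16) ^ k) ^ 2 :=
          (h k).trans (mul_le_mul_of_nonneg_left h2 (by positivity))
      _ = (q * a 0 * 16) * (16 ^ k * (1 / 16) ^ k) * (a 0 * (1 / 16) ^ (k + 1)) := by ring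
      _ ≤ 1 * 1 * (a 0 * (1 / 16) ^ (k + 1)) := by
          rw [h3]
          exact mul_le_mul_of_nonneg_right (by linarith) (mul_nonneg (h0 0) (by positivity))
      _ = _ := by ring

open An
variable {E : Type} [NormedAddCommGroup E] [NormedSpace ℝ E] [FiniteDimensional ℝ E]
  [MeasurableSpace E] [BorelSpace E]
  {HM : Type} [TopologicalSpace HM] {I : ModelWithCorners ℝ E HM}
  {M : Type} [TopologicalSpace M] [ChartedSpace HM M] [IsManifold I ∞ M]
  [MeasurableSpace M] {ι : Type} [Fintype ι] [T2Space M] [BorelSpace M]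

/-- the Sobolev inequality `L²₁ ⊆ L⁴` with constant `S` -/
def L4 (F : Pre I M ι) (S : ℝ) : Prop :=
  ∀ f : M → ℝ, Sm I f → HasCompactSupport f → √(∫ x, f x ^ 4 ∂F.μ) ≤ S * F.ip 1 f f

theorem L4.mono {F : Pre I M ι} {S S' : ℝ} (h : L4 F S) (hS : S ≤ S') : L4 F S' := fun f a b =>
  (h f a b).trans (mul_le_mul_of_nonneg_right hS (F.ip_nonneg 1 f))

theorem l4_of_tame {F : Fr I M ι} {C : ℕ → ℝ} (h : F.Tame C) : L4 F.toPre (C 0) := h.l4

variable {F : Fr I M ι} {w σ : M → ℝ}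

/-- subsolutions tending to zero at infinity -/
structure Sub (F : Fr I M ι) (w σ : M → ℝ) : Prop where
  sm : Sm I w
  cpt : ∀ t > 0, IsCompact {x | t ≤ w x}
  le : ∀ x, w x - σ x ≤ Lop I F.e F.dv w x
  cont : Continuous σ

/-- the energy inequality holds for the truncations -/
structure Eng (F : Fr I M ι) (w σ : M → ℝ) : Prop where
  sm : Sm I w
  cpt : ∀ t > 0, IsCompact {x | t ≤ w x}
  cont : Continuous σ
  energy : ∀ {t ε : ℝ}, 0 < t → 0 < ε →
    ∃ v : M → ℝ, Sm I v ∧ HasCompactSupport v ∧ (∀ x, 0 ≤ v x) ∧ (∀ x, w x ≤ t → v x = 0) ∧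
      (∀ x, w x - t - ε ≤ v x) ∧ F.ip 1 v v ≤ ∫ x, v x * (σ x - t) ∂F.μ

/-- energy inequality from a pointwise inequality -/
theorem en_of (sm : Sm I w) (cpt : ∀ t > 0, IsCompact {x | t ≤ w x}) (cont : Continuous σ)
    (r : ℝ) (h : ∀ x t v v', 0 < t → 0 ≤ v → 0 ≤ v' → v' ≤ 1 → v ≤ v' * (w x - t) →
      v ^ 2 ≤ v * (w x - t) → v ^ 2 + v' ^ 2 * ∑ a, dv I (F.e a) w x ^ 2 ≤ v * (σ x - t) +
        r * (v * Lop I F.e F.dv w x + v' * ∑ a, dv I (F.e a) w x ^ 2)) : Eng F w σ := by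
  refine ⟨sm, cpt, cont, fun {t ε} ht hε => ?_⟩
  obtain ⟨θ, θ', a1, a2, a3, a4, a5, a6, a7, a8⟩ := exists_theta t hε
  have hv : Sm I fun x => θ (w x) := a1.contMDiff.comp sm
  have hc : HasCompactSupport fun x => θ (w x) :=
    HasCompactSupport.intro (cpt t ht) fun x hx => a4 _ (le_of_not_ge hx)
  refine ⟨fun x => θ (w x), hv, hc, fun x => a6 _, fun x => a4 _, fun x => a5 _, ?_⟩
  have hD : ∀ a x, dv I (F.e a) (fun x => θ (w x)) x = θ' (w x) * dv I (F.e a) w x := fun a x => by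
    rw [dv_comp (a2 (w x)).hasFDerivAt ((cm1 sm x).md le_rfl)]; simp [mul_comm]
  have hX : ∀ a, Sm I fun x => θ (w x) * F.D a w x := fun a => hv.mul (F.sm_D sm a)
  have hXc : ∀ a, HasCompactSupport fun x => θ (w x) * F.D a w x := fun a => hc.mul_right
  have e1 := Wz78.integral_dvg (F := F) hX hXc
  have i1 := (Wz78.integ_dvg (F := F) hX hXc).const_mul r
  have i2 : Integrable (fun x => θ (w x) * (σ x - t)) F.μ :=
    (hv.continuous.mul (cont.sub continuous_const)).integrable_of_hasCompactSupport hc.mul_right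
  have i3 := F.integrable_inner hv.continuous hc hv.continuous
  have i4 := fun a => F.integrable_inner (F.sm_D hv a).continuous (F.hcs_D hc a)
    (F.sm_D hv a).continuous
  simp only [Pre.ip]
  rw [← integral_finsetSum _ fun a _ => i4 a, ← integral_add i3 (integrable_finsetSum _ fun a _ => i4 a),
    ← add_zero (∫ x, θ (w x) * (σ x - t) ∂F.μ), ← mul_zero r, ← e1, ← integral_const_mul,
    ← integral_add i2 i1]
  refine integral_mono (i3.add (integrable_finsetSum _ fun a _ => i4 a)) (i2.add i1) fun x => ?_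
  have e2 : Wz78.dvg I F.e F.dv (fun a x => θ (w x) * F.D a w x) x =
      θ (w x) * Lop I F.e F.dv w x + θ' (w x) * ∑ a, dv I (F.e a) w x ^ 2 := by
    unfold Wz78.dvg Lop
    rw [Finset.mul_sum, Finset.mul_sum, ← Finset.sum_add_distrib]
    refine Finset.sum_congr rfl fun a _ => ?_
    rw [dv_mul ((cm1 hv x).md le_rfl) ((cm1 (F.sm_D sm a) x).md le_rfl), hD]
    simp only [Pre.D, smul_eq_mul]; ring
  beta_reduce
  rw [e2]
  simp only [Pre.D, hD, real_inner_self_eq_norm_sq, Real.norm_eq_abs, sq_abs, mul_pow,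
    ← Finset.mul_sum]
  refine h x t _ _ ht (a6 _) (a3 _).1 (a3 _).2 (a8 _) ?_
  rcases le_total (w x) t with h1 | h1
  · simp [a4 _ h1]
  · nlinarith [a7 _ h1, a6 (w x)]

theorem Sub.en (h : Sub F w σ) : Eng F w σ :=
  en_of h.sm h.cpt h.cont 1 fun x t v v' _ h1 h2 h3 _ h5 => by
    have b1 : 0 ≤ ∑ a, dv I (F.e a) w x ^ 2 := Finset.sum_nonneg fun _ _ => sq_nonneg _
    have b2 : v' ^ 2 ≤ v' := by nlinarith
    nlinarith [mul_le_mul_of_nonneg_right b2 b1, mul_le_mul_of_nonneg_left (h.le x) h1]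

/-- subsolutions with a small drift -/
theorem en_drift (sm : Sm I w) (cpt : ∀ t > 0, IsCompact {x | t ≤ w x}) (cont : Continuous σ)
    (h : ∀ x, ∃ d, 16 * d ^ 2 ≤ ∑ a, dv I (F.e a) w x ^ 2 ∧
      5 / 8 * w x - σ x + 2 * d ≤ Lop I F.e F.dv w x) : Eng F w fun x => 2 * σ x :=
  en_of sm cpt (continuous_const.mul cont) 2 fun x t v v' ht h1 h2 h3 h4 h5 => by
    obtain ⟨d, d1, d2⟩ := h x
    set G := ∑ a, dv I (F.e a) w x ^ 2
    have b1 : 0 ≤ G := Finset.sum_nonneg fun _ _ => sq_nonneg _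
    have b2 : v' ^ 2 ≤ v' := by nlinarith
    have b3 : 0 ≤ v' * G + v * (w x - t) / 4 + 4 * v * d := by
      rcases h2.eq_or_lt with rfl | h6
      · rw [le_antisymm (by simpa using h4) h1]; simp
      · refine le_of_mul_le_mul_left ?_ h6
        nlinarith [sq_nonneg (4 * v' * d + v / 2), mul_le_mul_of_nonneg_left h4 h1,
          mul_le_mul_of_nonneg_left d1 (sq_nonneg v')]
    nlinarith [mul_le_mul_of_nonneg_right b2 b1, mul_le_mul_of_nonneg_left d2 h1, mul_nonneg h1 ht.le]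

theorem le_of_sq_le_mul {x B : ℝ} (hB : 0 ≤ B) (h : x ^ 2 ≤ B * x) : x ≤ B := by
  by_contra h1
  push Not at h1
  nlinarith

theorem integ_pow {v : M → ℝ} (hv : Continuous v) (hc : HasCompactSupport v) {n : ℕ} (hn : n ≠ 0) :
    Integrable (fun x => v x ^ n) F.μ :=
  (hv.pow n).integrable_of_hasCompactSupport (hc.mono fun x hx h => hx (by simp [h, hn]))

/-- Chebyshev inequality for fourth powers -/
theorem cheb {X : Type*} [MeasurableSpace X] {μ : Measure X} {v : X → ℝ} {A : Set X} {c : ℝ}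
    (hv : Integrable (fun x => v x ^ 4) μ) (hc : 0 < c)
    (h : ∀ x ∈ A, c ≤ v x) : μ A ≠ ⊤ ∧ c ^ 4 * μ.real A ≤ ∫ x, v x ^ 4 ∂μ := by
  have h1 : A ⊆ {x | c ^ 4 ≤ v x ^ 4} := fun x hx => pow_le_pow_left₀ hc.le (h x hx) 4
  have h2 := hv.measure_ge_lt_top (pow_pos hc 4)
  refine ⟨((measure_mono h1).trans_lt h2).ne, le_trans ?_
    (mul_meas_ge_le_integral_of_nonneg (.of_forall fun x => by positivity) hv (c ^ 4))⟩
  exact mul_le_mul_of_nonneg_left (measureReal_mono h1 h2.ne) (by positivity)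

/-- the basic estimate: `‖v‖_{L⁴} ≤ S β √a` if `v (σ - t) ≤ 0` outside a set of measure `a` -/
theorem Eng.step (h : Eng F w σ) {S β t ε : ℝ} (hS : L4 F.toPre S) (hS0 : 0 ≤ S) (hβ0 : 0 ≤ β)
    (hi : Integrable (fun x => σ x ^ 4) F.μ) (hβ : ∫ x, σ x ^ 4 ∂F.μ ≤ β ^ 4)
    (ht : 0 < t) (hε : 0 < ε) {A : Set M} (hA : MeasurableSet A) (hA' : F.μ A ≠ ⊤)
    (hout : ∀ x ∉ A, w x ≤ t ∨ σ x ≤ t) {T : ℝ} (hT : t + ε < T) :
    (T - t - ε) ^ 4 * F.μ.real {x | T < w x} ≤ (S * β) ^ 4 * F.μ.real A ^ 2 := by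
  obtain ⟨v, a1, a2, a3, a4, a5, a6⟩ := h.energy ht hε
  have vc := a1.continuous
  have i4 : Integrable (fun x => v x ^ 4) F.μ := integ_pow vc a2 (by norm_num)
  have j1 : Integrable (fun x => v x * σ x) F.μ :=
    (vc.mul h.cont).integrable_of_hasCompactSupport a2.mul_right
  have j2 : Integrable (fun x => (v x * σ x) ^ 2) F.μ :=
    integ_pow (vc.mul h.cont) a2.mul_right two_ne_zero
  have j3 : Integrable (fun x => A.indicator (fun _ => (1 : ℝ)) x ^ 2) F.μ := by
    refine ((integrable_indicator_iff hA).2 (integrableOn_const (C := (1 : ℝ)) hA')).congr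
      (.of_forall fun x => ?_)
    by_cases hx : x ∈ A <;> simp [hx]
  have j4 : Integrable (fun x => v x * σ x * A.indicator (fun _ => (1 : ℝ)) x) F.μ := by
    refine (j1.indicator hA).congr (.of_forall fun x => ?_)
    by_cases hx : x ∈ A <;> simp [hx]
  have b1 : ∫ x, v x * (σ x - t) ∂F.μ ≤ ∫ x, v x * σ x * A.indicator (fun _ => (1 : ℝ)) x ∂F.μ := by
    refine integral_mono ((vc.mul (h.cont.sub continuous_const)).integrable_of_hasCompactSupport
      a2.mul_right) j4 fun x => ?_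
    by_cases hx : x ∈ A
    · simp only [indicator_of_mem hx]; nlinarith [a3 x]
    · simp only [indicator_of_notMem hx]
      rcases hout x hx with h1 | h1
      · simp [a4 x h1]
      · nlinarith [a3 x]
  have b2 := int_cs j2 j3 j4
  have b3 : ∫ x, A.indicator (fun _ => (1 : ℝ)) x ^ 2 ∂F.μ = F.μ.real A := by
    rw [← integral_indicator_one hA]
    exact integral_congr_ae (.of_forall fun x => by by_cases hx : x ∈ A <;> simp [hx])
  have b4 := int_cs (μ := F.μ) (f := fun x => v x ^ 2) (g := fun x => σ x ^ 2)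
    (i4.congr (.of_forall fun x => by ring)) (hi.congr (.of_forall fun x => by ring))
    (j2.congr (.of_forall fun x => by ring))
  simp only [← pow_mul, ← mul_pow, Nat.reduceMul] at b4
  have b5 := hS v a1 a2
  set X := ∫ x, v x ^ 4 ∂F.μ with hX
  have X0 : 0 ≤ X := integral_nonneg fun x => by positivity
  have b6 : √(∫ x, σ x ^ 4 ∂F.μ) ≤ β ^ 2 := Real.sqrt_le_iff.2 ⟨by positivity, by linarith⟩
  have b7 : √(∫ x, (v x * σ x) ^ 2 ∂F.μ) ≤ √(√X) * β := by
    refine Real.sqrt_le_iff.2 ⟨by positivity, ?_⟩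
    rw [mul_pow, Real.sq_sqrt (Real.sqrt_nonneg _)]
    exact b4.trans (mul_le_mul_of_nonneg_left b6 (Real.sqrt_nonneg _))
  rw [b3] at b2
  have b8 : √(√X) ≤ S * β * √(F.μ.real A) := by
    refine le_of_sq_le_mul (by positivity) ?_
    rw [Real.sq_sqrt (Real.sqrt_nonneg _)]
    have := mul_le_mul_of_nonneg_left (a6.trans (b1.trans (b2.trans
      (mul_le_mul_of_nonneg_right b7 (Real.sqrt_nonneg _))))) hS0
    nlinarith
  have b9 : X ≤ (S * β) ^ 4 * F.μ.real A ^ 2 := by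
    have h1 := pow_le_pow_left₀ (Real.sqrt_nonneg _) b8 4
    have h2 : √(√X) ^ 4 = X := by
      rw [show 4 = 2 * 2 from rfl, pow_mul, Real.sq_sqrt (Real.sqrt_nonneg _), Real.sq_sqrt X0]
    have h3 : √(F.μ.real A) ^ 4 = F.μ.real A ^ 2 := by
      rw [show 4 = 2 * 2 from rfl, pow_mul, Real.sq_sqrt measureReal_nonneg]
    rwa [h2, mul_pow, h3] at h1
  refine le_trans (cheb i4 (by linarith)
    fun x (hx : T < w x) => ?_).2 b9
  linarith [a5 x]

/-- `L⁴ → L^∞` -/
theorem Eng.sup_le [F.μ.IsOpenPosMeasure] (h : Eng F w σ) {S β : ℝ} (hS : L4 F.toPre S)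
    (hS0 : 0 < S) (hβ0 : 0 < β) (hi : Integrable (fun x => σ x ^ 4) F.μ)
    (hβ : ∫ x, σ x ^ 4 ∂F.μ ≤ β ^ 4) (x : M) : w x ≤ (3 + 8 * S ^ 2) * β := by
  have wc := h.sm.continuous
  have ms : ∀ t, MeasurableSet {x | t < w x} := fun t =>
    (isOpen_lt continuous_const wc).measurableSet
  have fin : ∀ t > 0, F.μ {x | t < w x} ≠ ⊤ := fun t ht =>
    ((measure_mono fun x (hx : t < w x) => hx.le).trans_lt (h.cpt t ht).measure_lt_top).ne
  have mσ : MeasurableSet {x | β < σ x} := (isOpen_lt continuous_const h.cont).measurableSet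
  obtain ⟨c1, c2⟩ := cheb (A := {x | β < σ x}) hi hβ0 fun x (hx : β < σ x) => hx.le
  have c3 : F.μ.real {x | β < σ x} ≤ 1 :=
    le_of_mul_le_mul_left (by linarith) (pow_pos hβ0 4)
  have c4 := h.step hS hS0.le hβ0.le hi hβ hβ0 hβ0 mσ c1
    (fun x hx => Or.inr (not_lt.1 hx)) (T := 3 * β) (by linarith)
  have c5 : F.μ.real {x | 3 * β < w x} ≤ S ^ 4 := by
    have h1 : F.μ.real {x | β < σ x} ^ 2 ≤ 1 := pow_le_one₀ measureReal_nonneg c3
    refine le_of_mul_le_mul_left ?_ (pow_pos hβ0 4)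
    rw [show 3 * β - β - β = β by ring] at c4
    nlinarith [mul_le_mul_of_nonneg_left h1 (show 0 ≤ (S * β) ^ 4 by positivity)]
  set d := 8 * S ^ 2 * β with hd
  have d0 : 0 < d := by positivity
  let t : ℕ → ℝ := fun k => 3 * β + d * (1 - (1 / 2) ^ k)
  have p0 : ∀ k : ℕ, 0 < (1 / 2 : ℝ) ^ k := fun k => by positivity
  have p1 : ∀ k : ℕ, (1 / 2 : ℝ) ^ k ≤ 1 := fun k => pow_le_one₀ (by norm_num) (by norm_num)
  have t0 : ∀ k, 0 < t k := fun k => by
    have := mul_nonneg d0.le (sub_nonneg.2 (p1 k))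
    simp only [t]; linarith
  have key := iter_zero (a := fun k => F.μ.real {x | t k < w x}) (q := (1 / (2 * S)) ^ 4)
    (fun _ => measureReal_nonneg) (by positivity) (by
      have h1 : t 0 = 3 * β := by simp [t]
      have h2 : (1 / (2 * S)) ^ 4 * S ^ 4 * 16 = 1 := by field_simp; norm_num
      simp only [h1]
      nlinarith [mul_le_mul_of_nonneg_left c5 (show 0 ≤ (1 / (2 * S)) ^ 4 by positivity)])
    fun k => by
      have e1 : t (k + 1) - t k - d * (1 / 2) ^ k / 4 = d * (1 / 2) ^ k / 4 := by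
        simp only [t]; ring
      have q0 : 0 < d * (1 / 2) ^ k / 4 := by positivity
      have h1 := h.step hS hS0.le hβ0.le hi hβ (t0 k) q0 (ms _) (fin _ (t0 k))
        (fun x hx => Or.inl (not_lt.1 hx)) (T := t (k + 1)) (by linarith)
      rw [e1] at h1
      refine le_of_mul_le_mul_left (h1.trans_eq ?_) (pow_pos q0 4)
      have h2 : ((1 / 2 : ℝ) ^ k) ^ 4 * 16 ^ k = 1 := by
        rw [← pow_mul, mul_comm k, pow_mul, ← mul_pow]; norm_num
      have h3 : (S * β) ^ 4 = (d / 4) ^ 4 * (1 / (2 * S)) ^ 4 := by rw [hd]; field_simp; norm_num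
      rw [h3]
      linear_combination (-(d / 4) ^ 4 * (1 / (2 * S)) ^ 4 * F.μ.real {x | t k < w x} ^ 2) * h2
  have z : F.μ.real {x | 3 * β + d < w x} ≤ 0 := by
    have lim : Tendsto (fun k : ℕ => F.μ.real {x | t 0 < w x} * (1 / 16 : ℝ) ^ k) atTop (𝓝 0) := by
      simpa using (tendsto_pow_atTop_nhds_zero_of_lt_one (r := (1 / 16 : ℝ)) (by norm_num)
        (by norm_num)).const_mul (F.μ.real {x | t 0 < w x})
    refine ge_of_tendsto' lim fun k => le_trans (measureReal_mono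
      (fun x (hx : 3 * β + d < w x) => ?_) (fin _ (t0 k))) (key k)
    have := mul_pos d0 (p0 k)
    show 3 * β + d * (1 - (1 / 2) ^ k) < w x
    linarith
  have z2 : F.μ {x | 3 * β + d < w x} = 0 :=
    (measureReal_eq_zero_iff (fin _ (by positivity))).1 (le_antisymm z measureReal_nonneg)
  have z3 := (isOpen_lt continuous_const wc).measure_eq_zero_iff F.μ |>.1 z2
  refine le_of_not_gt fun hx => (z3 ▸ (show x ∈ {x | 3 * β + d < w x} from ?_) : x ∈ (∅ : Set M))
  show 3 * β + d < w x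
  linarith

/-- `L² → L⁴` for the truncations -/
theorem Eng.l4_le (h : Eng F w σ) {S β t ε : ℝ} (hS : L4 F.toPre S) (hS0 : 0 ≤ S) (hβ0 : 0 ≤ β)
    (hi : Integrable (fun x => σ x ^ 2) F.μ) (hβ : ∫ x, σ x ^ 2 ∂F.μ ≤ β ^ 2)
    (ht : 0 < t) (hε : 0 < ε) :
    ∃ v : M → ℝ, Continuous v ∧ HasCompactSupport v ∧ (∀ x, w x - t - ε ≤ v x) ∧
      F.ip 1 v v ≤ β ^ 2 ∧ ∫ x, v x ^ 4 ∂F.μ ≤ (S * β ^ 2) ^ 2 := by
  obtain ⟨v, a1, a2, a3, -, a5, a6⟩ := h.energy ht hε
  have vc := a1.continuous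
  have j1 : Integrable (fun x => v x * σ x) F.μ :=
    (vc.mul h.cont).integrable_of_hasCompactSupport a2.mul_right
  have b1 : ∫ x, v x * (σ x - t) ∂F.μ ≤ ∫ x, v x * σ x ∂F.μ :=
    integral_mono ((vc.mul (h.cont.sub continuous_const)).integrable_of_hasCompactSupport
      a2.mul_right) j1 fun x => by nlinarith [a3 x]
  have b2 := int_cs (integ_pow vc a2 two_ne_zero) hi j1
  have b3 : ∫ x, v x ^ 2 ∂F.μ ≤ F.ip 1 v v := by
    simp only [Pre.ip, real_inner_self_eq_norm_sq, Real.norm_eq_abs, sq_abs]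
    exact le_add_of_nonneg_right (Finset.sum_nonneg fun a _ => integral_nonneg fun x => sq_nonneg _)
  have b4 : √(∫ x, σ x ^ 2 ∂F.μ) ≤ β := Real.sqrt_le_iff.2 ⟨hβ0, hβ⟩
  have b5 : √(F.ip 1 v v) ≤ β := by
    refine le_of_sq_le_mul hβ0 ?_
    rw [Real.sq_sqrt (F.ip_nonneg 1 v), mul_comm]
    exact a6.trans (b1.trans (b2.trans (mul_le_mul (Real.sqrt_le_sqrt b3) b4 (Real.sqrt_nonneg _)
      (Real.sqrt_nonneg _))))
  have b6 := (Real.sqrt_le_iff.1 b5).2
  exact ⟨v, vc, a2, a5, b6,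
    (Real.sqrt_le_iff.1 ((hS v a1 a2).trans (mul_le_mul_of_nonneg_left b6 hS0))).2⟩

end Crest.Agent.X212.Mp86

end
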