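import Crest.Agent.X212.Sob92.Der

/-!
# Row 212, layer AN (helper86): second derivative test along vector fields

`dv I v f x` (helper92) is the derivative of `f` along the vector field `v`.  At a local maximum of a real
function `f`: `v f = 0` and `v (v f) ≤ 0`.
-/

set_option autoImplicit false
open Set Filter Topology
open scoped Manifold ContDiff

noncomputable section

namespace Crest.Agent.X212.Mp86

/-- one variable -/
theorem second_nonpos {h h' : ℝ → ℝ} {c : ℝ} (hm : IsLocalMax h 0)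
    (hd : ∀ᶠ t in 𝓝 (0 : ℝ), HasDerivAt h (h' t) t) (h2 : HasDerivAt h' c 0) :
    h' 0 = 0 ∧ c ≤ 0 := by
  have h0 : h' 0 = 0 := hm.hasDerivAt_eq_zero hd.self_of_nhds
  refine ⟨h0, le_of_not_gt fun hc => ?_⟩
  have e : deriv h =ᶠ[𝓝 0] h' := hd.mono fun t ht => ht.deriv
  -- `h' > 0` just right of `0`
  have p : ∀ᶠ t in 𝓝[>] (0 : ℝ), 0 < h' t := by
    have s := h2.tendsto_slope_zero_right
    filter_upwards [s.eventually (lt_mem_nhds hc), self_mem_nhdsWithin] with t ht (t0 : 0 < t)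
    simp only [zero_add, h0, sub_zero, smul_eq_mul] at ht
    exact (mul_pos_iff_of_pos_left (inv_pos.2 t0)).1 ht
  obtain ⟨δ, hδ, hP⟩ := (nhdsGT_basis (0 : ℝ)).eventually_iff.1
    (p.and ((hd.and hm).filter_mono nhdsWithin_le_nhds))
  have hδ2 : δ / 2 ∈ Ioo 0 δ := ⟨half_pos hδ, half_lt_self hδ⟩
  have hc' : ContinuousOn h (Icc 0 (δ / 2)) := fun t ht => by
    rcases ht.1.eq_or_lt with rfl | h1
    · exact hd.self_of_nhds.continuousAt.continuousWithinAt
    · exact (hP ⟨h1, ht.2.trans_lt hδ2.2⟩).2.1.continuousAt.continuousWithinAt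
  obtain ⟨t, ht, e2⟩ := exists_hasDerivAt_eq_slope h h' hδ2.1 hc'
    fun t ht => (hP ⟨ht.1, ht.2.trans hδ2.2⟩).2.1
  have a1 := (hP ⟨ht.1, ht.2.trans hδ2.2⟩).1
  have a2 := (hP hδ2).2.2
  rw [e2] at a1
  have := (div_pos_iff_of_pos_right (by linarith [hδ2.1])).1 a1
  linarith

variable {E H M : Type*} [NormedAddCommGroup E] [NormedSpace ℝ E] [TopologicalSpace H]
  (I : ModelWithCorners ℝ E H) [TopologicalSpace M] [ChartedSpace H M]
  {V : Type*} [NormedAddCommGroup V] [NormedSpace ℝ V]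

export Sob92 (dv)

variable {I}

/-- chain rule along a curve with velocity `w` -/
theorem hasDerivAt_curve {γ : ℝ → M} {t : ℝ} {w : TangentSpace I (γ t)} {f : M → V}
    (hγ : HasMFDerivAt 𝓘(ℝ, ℝ) I γ t ((1 : ℝ →L[ℝ] ℝ).smulRight w))
    (hf : MDifferentiableAt I 𝓘(ℝ, V) f (γ t)) :
    HasDerivAt (f ∘ γ) (mfderiv I 𝓘(ℝ, V) f (γ t) w : V) t := by
  have h1 := (hf.hasMFDerivAt.comp t hγ)
  rw [hasMFDerivAt_iff_hasFDerivAt] at h1
  let c : V := mfderiv I 𝓘(ℝ, V) f (γ t) w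
  have h2 : HasFDerivAt (f ∘ γ) ((1 : ℝ →L[ℝ] ℝ).smulRight c) t := by
    refine h1.congr_fderiv ?_
    ext
    change mfderiv I 𝓘(ℝ, V) f (γ t) ((1 : ℝ) • w) = (1 : ℝ) • c
    rw [one_smul, one_smul]
  have h3 := h2.hasDerivAt
  rw [ContinuousLinearMap.smulRight_apply, one_apply_eq_self, one_smul] at h3
  exact h3

/-- second derivative test along a `C¹` vector field -/
theorem dv_dv_nonpos [CompleteSpace E] [IsManifold I 1 M] [BoundarylessManifold I M]
    {v : Π x : M, TangentSpace I x} {f : M → ℝ} {x : M}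
    (hv : ContMDiffAt I I.tangent 1 (fun y => (⟨y, v y⟩ : TangentBundle I M)) x)
    (hf : ∀ᶠ y in 𝓝 x, MDifferentiableAt I 𝓘(ℝ, ℝ) f y)
    (hg : MDifferentiableAt I 𝓘(ℝ, ℝ) (dv I v f) x) (hm : IsLocalMax f x) :
    dv I v f x = 0 ∧ dv I v (dv I v f) x ≤ 0 := by
  obtain ⟨γ, rfl, hγ⟩ := exists_isMIntegralCurveAt_of_contMDiffAt_boundaryless 0 hv
  have hc := hγ.continuousAt
  refine second_nonpos (h := f ∘ γ) (h' := dv I v f ∘ γ) (hm.comp_continuous hc) ?_
    (hasDerivAt_curve hγ.hasMFDerivAt hg)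
  filter_upwards [hγ, hc.eventually hf] with t h1 h2 using hasDerivAt_curve h1 h2

end Crest.Agent.X212.Mp86

end
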