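import Crest.Agent.X212.Mp86.Lev

/-!
# Row 212, layer AN (helper86): Kato inequality and `L^p` bounds for `u + ∇^*∇ u = s`

The constants only depend on the Sobolev constant `L4`, not on the connection.
-/

set_option autoImplicit false
set_option linter.unusedSectionVars false
open Set Filter Topology Module MeasureTheory
open scoped Manifold ContDiff InnerProductSpace

noncomputable section

namespace Crest.Agent.X212.Mp86

section free
variable {E H M : Type*} [NormedAddCommGroup E] [NormedSpace ℝ E]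
  [TopologicalSpace H] {I : ModelWithCorners ℝ E H} [TopologicalSpace M] [ChartedSpace H M]
  [IsManifold I ∞ M]
  {ι : Type*} [Fintype ι] {e : ι → Π x : M, TangentSpace I x} {b : ι → M → ℝ}
  {U : Type*} [NormedAddCommGroup U] [InnerProductSpace ℝ U] {A : ι → M → U →L[ℝ] U}
  {u : M → U} {x : M}

/-- first order Kato inequality for `‖u‖²` -/
theorem sum_dv_normSq_le (hA : ∀ a s t, ⟪A a x s, t⟫_ℝ = -⟪s, A a x t⟫_ℝ) (hu : MD I u x) :
    ∑ a, dv I (e a) (fun y => ‖u y‖ ^ 2) x ^ 2 ≤ 4 * ‖u x‖ ^ 2 * gr2 I e A u x := by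
  unfold gr2
  rw [Finset.mul_sum]
  refine Finset.sum_le_sum fun a _ => ?_
  have h1 := dv_inner_cd (v := e a) (hA a) hu hu
  simp only [real_inner_self_eq_norm_sq] at h1
  rw [h1, real_inner_comm (cd I (e a) (A a) u x)]
  have h2 := abs_real_inner_le_norm (cd I (e a) (A a) u x) (u x)
  have h3 := pow_le_pow_left₀ (abs_nonneg _) h2 2
  rw [sq_abs] at h3
  nlinarith

/-- Kato inequality for `√(‖u‖² + δ²)` -/
theorem kato {δ : ℝ} (hδ : 0 < δ) (he : ∀ a, VF I 1 (e a) x) (hA : MC I A x) (hu : CM I 2 u x) :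
    ⟪LA I e b A u x, u x⟫_ℝ / √(‖u x‖ ^ 2 + δ ^ 2) ≤
      Lop I e b (fun y => √(‖u y‖ ^ 2 + δ ^ 2)) x := by
  have p : ∀ t : ℝ, 0 < t + δ ^ 2 →
      HasDerivAt (fun t => √(t + δ ^ 2)) (1 / (2 * √(t + δ ^ 2))) t := fun t ht =>
    ((hasDerivAt_id t).add_const _).sqrt ht.ne'
  have p0 : 0 < ‖u x‖ ^ 2 + δ ^ 2 := by positivity
  set W := √(‖u x‖ ^ 2 + δ ^ 2) with hW
  have W0 : 0 < W := Real.sqrt_pos.2 p0
  have W2 : W ^ 2 = ‖u x‖ ^ 2 + δ ^ 2 := Real.sq_sqrt p0.le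
  have q : HasDerivAt (fun t => 1 / (2 * √(t + δ ^ 2))) (-(1 / (4 * W ^ 3))) (‖u x‖ ^ 2) := by
    have := (hasDerivAt_const _ (1 : ℝ)).div ((p _ p0).const_mul 2) (by positivity)
    refine this.congr_deriv ?_
    rw [← hW]; field_simp; ring
  rw [Lop_comp (Q := fun y => ‖u y‖ ^ 2) (g := fun t => √(t + δ ^ 2)) he (cm_normSq hu)
    (((continuous_id.add continuous_const).continuousAt.eventually (lt_mem_nhds p0)).mono p) q,
    Lop_normSq he hA.sm hA.sk hu, ← hW]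
  have h1 := sum_dv_normSq_le (e := e) (fun a => (hA.sk a).self_of_nhds) (hu.md one_le_two)
  have h2 : 0 ≤ gr2 I e A u x := gr2_nonneg
  have h3 : 1 / (4 * W ^ 3) * ∑ a, dv I (e a) (fun y => ‖u y‖ ^ 2) x ^ 2 ≤ gr2 I e A u x / W := by
    rw [one_div, inv_mul_le_iff₀ (by positivity)]
    have : 4 * W ^ 3 * (gr2 I e A u x / W) = 4 * W ^ 2 * gr2 I e A u x := by field_simp
    rw [this, W2]
    nlinarith [mul_nonneg (sq_nonneg δ) h2]
  have h4 : 1 / (2 * W) * (2 * ⟪LA I e b A u x, u x⟫_ℝ + 2 * gr2 I e A u x) =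
      ⟪LA I e b A u x, u x⟫_ℝ / W + gr2 I e A u x / W := by field_simp
  unfold gr2 at h3 h4
  linarith

/-- `√(‖u‖² + δ²) - δ` is a subsolution -/
theorem kato_sub {δ : ℝ} (hδ : 0 < δ) (he : ∀ a, VF I 1 (e a) x) (hA : MC I A x)
    (hu : CM I 2 u x) : √(‖u x‖ ^ 2 + δ ^ 2) - δ - ‖u x - LA I e b A u x‖ ≤
      Lop I e b (fun y => √(‖u y‖ ^ 2 + δ ^ 2)) x := by
  refine le_trans ?_ (kato hδ he hA hu)
  have p0 : 0 < ‖u x‖ ^ 2 + δ ^ 2 := by positivity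
  set W := √(‖u x‖ ^ 2 + δ ^ 2)
  have W0 : 0 < W := Real.sqrt_pos.2 p0
  have W2 : W ^ 2 = ‖u x‖ ^ 2 + δ ^ 2 := Real.sq_sqrt p0.le
  have a1 : δ ≤ W := Real.le_sqrt_of_sq_le (by nlinarith)
  have a2 : ‖u x‖ ≤ W := Real.le_sqrt_of_sq_le (by nlinarith)
  have h2 := real_inner_le_norm (u x - LA I e b A u x) (u x)
  rw [inner_sub_left, real_inner_self_eq_norm_sq] at h2
  rw [le_div_iff₀ W0]
  nlinarith [mul_le_mul_of_nonneg_left a2 (norm_nonneg (u x - LA I e b A u x)),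
    mul_le_mul_of_nonneg_left a1 hδ.le]

end free

open An
variable {E : Type} [NormedAddCommGroup E] [NormedSpace ℝ E] [FiniteDimensional ℝ E]
  [MeasurableSpace E] [BorelSpace E]
  {HM : Type} [TopologicalSpace HM] {I : ModelWithCorners ℝ E HM}
  {M : Type} [TopologicalSpace M] [ChartedSpace HM M] [IsManifold I ∞ M]
  [MeasurableSpace M] {ι : Type} [Fintype ι] [T2Space M] [BorelSpace M]
  {V : Type} [NormedAddCommGroup V] [InnerProductSpace ℝ V]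
  {F : Fr I M ι} {A : ι → M → V →L[ℝ] V} {u s : M → V}

theorem LA_eq_lap (x : M) : LA I F.e F.dv A u x = -Wz78.lap I F.e F.dv A u x := (neg_neg _).symm

theorem mc_of (hs : ∀ a, Sm I (A a)) (hA : ∀ a x, Wz78.Skew (A a x)) (x : M) : MC I A x :=
  ⟨fun a => cm1 (hs a) x, fun a => .of_forall fun y => hA a y⟩

/-- a smooth solution of `u + ∇^*∇ u = s` tending to zero at infinity -/
structure Sol (F : Fr I M ι) (A : ι → M → V →L[ℝ] V) (u s : M → V) : Prop where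
  sA : ∀ a, Sm I (A a)
  sk : ∀ a x, Wz78.Skew (A a x)
  su : Sm I u
  eq : ∀ x, u x + Wz78.lap I F.e F.dv A u x = s x
  lim : Tendsto u (cocompact M) (𝓝 0)

theorem Sol.sm_s (h : Sol F A u s) : Sm I s := by
  rw [← funext h.eq]; exact h.su.add (Wz78.sm_lap h.sA h.su)

theorem Sol.sub (h : Sol F A u s) {δ : ℝ} (hδ : 0 < δ) :
    Sub F (fun x => √(‖u x‖ ^ 2 + δ ^ 2) - δ) fun x => ‖s x‖ := by
  have h1 : Sm I fun x => √(‖u x‖ ^ 2 + δ ^ 2) := fun x =>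
    (Real.contDiffAt_sqrt (by positivity)).comp_contMDiffAt
      ((cm_normSq (h.su x)).add contMDiffAt_const)
  refine ⟨h1.sub contMDiff_const, fun t ht => ?_, fun x => ?_, h.sm_s.continuous.norm⟩
  · obtain ⟨K, hK, h2⟩ := mem_cocompact.1 (NormedAddGroup.tendsto_nhds_zero.1 h.lim t ht)
    refine hK.of_isClosed_subset (isClosed_le continuous_const
      (h1.continuous.sub continuous_const)) fun x (hx : t ≤ _) => by_contra fun h3 => ?_
    have h4 : ‖u x‖ < t := h2 h3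
    have h5 : √(‖u x‖ ^ 2 + δ ^ 2) ≤ ‖u x‖ + δ :=
      Real.sqrt_le_iff.2 ⟨by positivity, by nlinarith [mul_nonneg (norm_nonneg (u x)) hδ.le]⟩
    linarith
  · rw [Lop_sub (vf F.toPre x) (cm2 h1 x) contMDiffAt_const, Lop_const, sub_zero, ← h.eq x,
      ← sub_neg_eq_add (u x), ← LA_eq_lap]
    exact kato_sub hδ (vf F.toPre x) (mc_of h.sA h.sk x) (cm2 h.su x)

theorem norm_le_sqrt (a : V) (δ : ℝ) : ‖a‖ ≤ √(‖a‖ ^ 2 + δ ^ 2) :=
  Real.le_sqrt_of_sq_le (by nlinarith)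

/-- `L⁴ → L^∞` -/
theorem Sol.sup_le [F.μ.IsOpenPosMeasure] (h : Sol F A u s) {S β : ℝ} (hS : L4 F.toPre S)
    (hS0 : 0 ≤ S) (hβ0 : 0 ≤ β) (hi : Integrable (fun x => ‖s x‖ ^ 4) F.μ)
    (hβ : ∫ x, ‖s x‖ ^ 4 ∂F.μ ≤ β ^ 4) (x : M) : ‖u x‖ ≤ (3 + 8 * S ^ 2) * β := by
  have key : ∀ δ > 0, ‖u x‖ ≤ (3 + 8 * (S + δ) ^ 2) * (β + δ) + δ := fun δ hδ => by
    have := (h.sub hδ).en.sup_le (hS.mono (S' := S + δ) (by linarith)) (by linarith)
      (β := β + δ) (by linarith) hi (hβ.trans (pow_le_pow_left₀ hβ0 (by linarith) 4)) x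
    linarith [norm_le_sqrt (u x) δ]
  have lim : Tendsto (fun δ : ℝ => (3 + 8 * (S + δ) ^ 2) * (β + δ) + δ) (𝓝[>] 0)
      (𝓝 ((3 + 8 * (S + 0) ^ 2) * (β + 0) + 0)) :=
    Tendsto.mono_left (Continuous.tendsto (by fun_prop) 0) nhdsWithin_le_nhds
  simp only [add_zero] at lim
  exact ge_of_tendsto lim (eventually_nhdsWithin_of_forall key)

/-- Fatou lemma in the form used below -/
theorem fatou {X : Type*} [MeasurableSpace X] {μ : Measure X} {g : X → ℝ} {f : ℕ → X → ℝ} {B : ℝ}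
    (hg : Measurable g) (g0 : ∀ x, 0 ≤ g x) (hm : ∀ n, Measurable (f n))
    (hi : ∀ n, Integrable (f n) μ) (f0 : ∀ n x, 0 ≤ f n x) (hB : ∀ n, ∫ x, f n x ∂μ ≤ B)
    (hl : ∀ x, Tendsto (fun n => f n x) atTop (𝓝 (g x))) :
    Integrable g μ ∧ ∫ x, g x ∂μ ≤ B := by
  have B0 : 0 ≤ B := (integral_nonneg (f0 0)).trans (hB 0)
  have h1 : ∫⁻ x, ENNReal.ofReal (g x) ∂μ ≤ ENNReal.ofReal B := by
    have h2 := lintegral_liminf_le (μ := μ) (u := atTop)
      (f := fun n x => ENNReal.ofReal (f n x)) fun n => (hm n).ennreal_ofReal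
    have h3 : ∀ x, liminf (fun n => ENNReal.ofReal (f n x)) atTop = ENNReal.ofReal (g x) :=
      fun x => (ENNReal.tendsto_ofReal (hl x)).liminf_eq
    simp only [h3] at h2
    refine h2.trans (liminf_le_of_frequently_le' (.of_forall fun n => ?_))
    rw [← ofReal_integral_eq_lintegral_ofReal (hi n) (.of_forall (f0 n))]
    exact ENNReal.ofReal_le_ofReal (hB n)
  have h4 : Integrable g μ := ⟨hg.aestronglyMeasurable,
    (hasFiniteIntegral_iff_ofReal (.of_forall g0)).2 (h1.trans_lt ENNReal.ofReal_lt_top)⟩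
  refine ⟨h4, ?_⟩
  rw [← ofReal_integral_eq_lintegral_ofReal h4 (.of_forall g0)] at h1
  exact (ENNReal.ofReal_le_ofReal_iff B0).1 h1

/-- `L² → L⁴` -/
theorem Sol.l4_le (h : Sol F A u s) {S β : ℝ} (hS : L4 F.toPre S) (hS0 : 0 ≤ S) (hβ0 : 0 ≤ β)
    (hi : Integrable (fun x => ‖s x‖ ^ 2) F.μ) (hβ : ∫ x, ‖s x‖ ^ 2 ∂F.μ ≤ β ^ 2) :
    Integrable (fun x => ‖u x‖ ^ 4) F.μ ∧ ∫ x, ‖u x‖ ^ 4 ∂F.μ ≤ (S * β ^ 2) ^ 2 := by
  have uc := h.su.continuous
  let δ : ℕ → ℝ := fun n => 1 / (n + 1)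
  have δ0 : ∀ n, 0 < δ n := fun n => Nat.one_div_pos_of_nat
  have fc : ∀ n, Continuous fun x => max (‖u x‖ - 3 * δ n) 0 ^ 4 := fun n => by fun_prop
  have key : ∀ n, Integrable (fun x => max (‖u x‖ - 3 * δ n) 0 ^ 4) F.μ ∧
      ∫ x, max (‖u x‖ - 3 * δ n) 0 ^ 4 ∂F.μ ≤ (S * β ^ 2) ^ 2 := fun n => by
    obtain ⟨v, a1, a2, a3, -, a5⟩ := (h.sub (δ0 n)).en.l4_le hS hS0 hβ0 hi hβ (δ0 n) (δ0 n)
    have i4 : Integrable (fun x => v x ^ 4) F.μ := integ_pow a1 a2 (by norm_num)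
    have le : ∀ x, max (‖u x‖ - 3 * δ n) 0 ^ 4 ≤ v x ^ 4 := fun x => by
      rcases le_total (‖u x‖ - 3 * δ n) 0 with h1 | h1
      · rw [max_eq_right h1]; simp; positivity
      · rw [max_eq_left h1]
        exact pow_le_pow_left₀ h1 (by linarith [a3 x, norm_le_sqrt (u x) (δ n)]) 4
    have i5 := i4.mono' (fc n).aestronglyMeasurable (.of_forall fun x => by
      rw [Real.norm_of_nonneg (by positivity)]; exact le x)
    exact ⟨i5, (integral_mono i5 i4 le).trans a5⟩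
  refine fatou (uc.norm.pow 4).measurable (fun x => by positivity) (fun n => (fc n).measurable)
    (fun n => (key n).1) (fun n x => by positivity) (fun n => (key n).2) fun x => ?_
  have := (((tendsto_const_nhds (x := ‖u x‖)).sub
    ((tendsto_one_div_add_atTop_nhds_zero_nat (𝕜 := ℝ)).const_mul 3)).max
    (tendsto_const_nhds (x := (0 : ℝ)))).pow 4
  simpa [δ] using this

/-- `‖G G s‖_∞ ≤ K ‖s‖_{L²}` with `K` depending only on the Sobolev constant -/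
theorem Sol.sup_GG [F.μ.IsOpenPosMeasure] {v : M → V} (h : Sol F A u s) (h' : Sol F A v u)
    {S β : ℝ} (hS : L4 F.toPre S) (hS0 : 0 ≤ S) (hβ0 : 0 ≤ β)
    (hi : Integrable (fun x => ‖s x‖ ^ 2) F.μ) (hβ : ∫ x, ‖s x‖ ^ 2 ∂F.μ ≤ β ^ 2) (x : M) :
    ‖v x‖ ≤ (3 + 8 * S ^ 2) * (√S * β) := by
  obtain ⟨h1, h2⟩ := h.l4_le hS hS0 hβ0 hi hβ
  refine h'.sup_le hS hS0 (by positivity) h1 (h2.trans_eq ?_) x
  rw [mul_pow √S, show 4 = 2 * 2 from rfl, pow_mul, Real.sq_sqrt hS0]; ring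

end Crest.Agent.X212.Mp86

end
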