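import Crest.Agent.X212.Mp86.OuA

/-! Row 212, NT-OUT (helper86), part B: the rows outside, for two charts. -/

set_option autoImplicit false
set_option linter.unusedSectionVars false
noncomputable section
open scoped Manifold ContDiff Topology InnerProductSpace
open MeasureTheory Set Function Filter

namespace Crest.Agent.X212.Mp86.Ou
open An M Nd18 Mod61 Nk89 Cht98 Rf65 Pte3 Eqv71 Wrd81 Nt66
open Cnt93 (Rh)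

open Classical in
/-- extension by zero -/
def ext0 {α : Type} {S T : Set α} {V V' : α → Type} [∀ a, NormedAddCommGroup (V a)]
    [∀ a, NormedSpace ℝ (V a)] [∀ a, NormedAddCommGroup (V' a)] [∀ a, NormedSpace ℝ (V' a)]
    [Fintype S] [Fintype T] (L : ∀ a : S, V a →L[ℝ] V' a) : (∀ a : S, V a) →L[ℝ] ∀ a : T, V' a :=
  .pi fun a => if k : a.1 ∈ S then L ⟨a, k⟩ ∘L .proj (⟨a, k⟩ : S) else 0

theorem ext0_apply {α : Type} {S T : Set α} {V V' : α → Type} [∀ a, NormedAddCommGroup (V a)]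
    [∀ a, NormedSpace ℝ (V a)] [∀ a, NormedAddCommGroup (V' a)] [∀ a, NormedSpace ℝ (V' a)]
    [Fintype S] [Fintype T] (L : ∀ a : S, V a →L[ℝ] V' a) (v : ∀ a : S, V a) (a : T) (k : a.1 ∈ S) :
    ext0 L v a = L ⟨a, k⟩ (v ⟨a, k⟩) := by
  simp [ext0, k]

variable {Wi : Type} {X : Mf 4} {A κ lam : Type} [Fintype A] [Fintype κ] [Fintype lam]
  [DecidableEq lam] {M : Mark X A κ} {W : World M} {N : ML M lam} {Λ : Lns W N}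
  {A' h : Type} [Fintype A'] [DecidableEq A'] [Fintype h] {r n : ℕ}
  {J : Job Wi Λ A' h r n} {c : M.Cl} {σ : Cel A'} {p p₀ : Prt A A' h} {U U₀ : Type} [Fintype U]
  [Fintype U₀] {δ : ℝ} {b b₀ : Bp J c} {E : EC b p U δ} {E₀ : EC b₀ p₀ U₀ δ} {q : Wi →₀ ℝ}
  (H : CS σ E) (H₀ : CS σ E₀) {y : J.Obc c} {x : Pnt E.o r} {ψ : E.K} {x₀ : Pnt E₀.o r} {ψ₀ : E₀.K}
  (sP : W.un c p₀.P ⊆ W.un c p.P) (sV : p₀.V ⊆ p.V) (sH : p₀.H ⊆ p.H)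
  (a : Ad0 y.x (J.B c) (J.G c y.s)) (o : J.Ov σ c y.s) (R : E.RepC y x ψ) (R₀ : E₀.RepC y x₀ ψ₀)

variable (p p₀ U U₀) in
/-- the inclusion of the parameters -/
def lT : Tq p₀ U₀ →L[ℝ] Tq p U :=
  (ext0 (V := fun _ => ℝ) (V' := fun _ => ℝ) (fun _ => .id ℝ ℝ) ∘L .fst ℝ _ _).prod 0

include sV R R₀ in
theorem θ_l (t : Tq p₀ U₀) :
    ∀ a ∈ p₀.V, b₀.θ p₀ U₀ t a = b.θ p U (x.t + lT p p₀ U U₀ (t - x₀.t)) a := fun a k => by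
  rw [θ_V k, θ_V (sV k)]
  show _ = x.t.1 ⟨a, _⟩ + ext0 (V := fun _ => ℝ) (V' := fun _ => ℝ) (fun _ => .id ℝ ℝ)
    (t - x₀.t).1 (⟨a, sV k⟩ : p.V)
  rw [ext0_apply _ _ _ k, R.s]
  simp [R₀.s]

include H H₀ sP sV sH a o R R₀ in
/-- the two representatives are equivalent outside -/
theorem rel : ∃ (g : (W.Z c).M → CL E₀.o.m.V E.o.m.V) (ζ : Circle) (η : p₀.H → Circle),
    EqOn (J.B c) (J.G c (b₀.θ p₀ U₀ x₀.t)).F (W.un c p₀.P) x₀.cfg x.cfg g ζ ∧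
    ∀ i : p₀.H, ψ ⟨i, sH i.2⟩ = Rh (J.cut c i) (J.cut c i) (J.B c) (J.B c) g (η i) (ψ₀ i) := by
  obtain ⟨u, ζ, e, f⟩ := R.e
  obtain ⟨u₀, ζ₀, e₀, f₀⟩ := R₀.e
  have s₀ := θ_eq (b := b₀) R₀.s
  have s : ∀ a ∈ p₀.V, y.s a = b.θ p U x.t a := fun a k => θ_eq R.s a (sV k)
  have g1 := (H₀.pok.kt2 H.ok H.mem o (H₀.ovx x₀) s₀).toLG
  have g2 := (H₀.pok.kt2 H.ok H.mem (H₀.ovx x₀) o fun a k => (s₀ a k).symm).toLG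
  have g3 := (H₀.pok.kt2 H.ok H.mem o (H.ovx x) s).toLG
  have k0 := ceq_on e₀ fun z hz a => (H₀.pok.fr_eq H.ok H.mem o (H₀.ovx x₀) s₀ z hz a).1.symm
  have k1 := ceq_symm2 g1 H₀.cl.2 a (x₀.ad0 H₀.F) k0
  have k2 := ceq_on (ceq_mono e sP) fun z hz a =>
    (H₀.pok.fr_eq H.ok H.mem o (H.ovx x) s z hz a).1.symm
  have k := ceq_tr g2 g3 (x₀.ad0 H₀.F) a (x.ad0 H.F) k1 k2
  have ρ := fun i => Cnt93.rel_refl g1.hB (H₀.cut_sub i)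
  have t := fun i : p₀.H => (Cnt93.eqv_iff (lm H H₀ (fun a k => (s₀ a k).symm.trans (s a k)) k) (ρ i)).1
    (Cnt93.eqv_trans (φ := id) rfl (k2.m.J _ (H₀.cut_sub i ⟨(0, 0), rfl⟩)) E.o.ok.Jsq
      (Cnt93.eqv_symm (ψ := id) (g1.of_ceq a (x₀.ad0 H₀.F) k0) (ρ i) rfl (f₀ i)) (f ⟨i, sH i.2⟩))
  choose η hη using t
  exact ⟨_, _, η, k, hη⟩

variable (E) in
/-- the spinor cut to `O` -/
def cutC (O : Set (W.Z c).M) : E.o.C r 8 →L[ℝ] E.o.C r 8 :=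
  (ContinuousLinearMap.id ℝ _).prodMap (((b.F p U δ).F0.mulH 9 E.o.Pp E.o.Pp
    (O.indicator fun _ => .id ℝ _)).prodMap (.id ℝ _))

/-- the point with the spinor cut to `O` -/
def cutP {O : Set (W.Z c).M} (hO : IsClopen O) (w : Pnt E.o r) : Pnt E.o r :=
  { w with φ := O.indicator w.φ, hφ := hs_ind H hO w.hφ fun _ _ => rfl }

theorem cutP_pt {O : Set (W.Z c).M} (hO : IsClopen O) (w : Pnt E.o r) :
    (cutP H hO w).pt 8 = cutC E O (w.pt 8) := by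
  refine C_ext H.F (by norm_num) rfl (funext fun z => ?_) rfl
  refine (congrFun (Pnt.val_φ _ (by norm_num)) z).trans (Eq.trans ?_ (Sob92.val_mulH H.F.sup
    (by norm_num) (Grp76.Cb_ind hO (Sob92.Cb_const _)) (fun z v hv => ?_) (w.pt 8).2.1 z).symm)
  · rw [Pnt.val_φ _ (by norm_num)]
    by_cases hz : z ∈ O <;> simp [cutP, hz]
  · by_cases hz : z ∈ O <;> simp [hz, hv]

section psi
variable (ΨD : (b₀.F p₀ U₀ δ).F0.H 8 E₀.o.Pm →L[ℝ] (b.F p U δ).F0.H 8 E.o.Pm)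
  (ΨC : (b₀.F p₀ U₀ δ).F0.H 8 E₀.o.P2 →L[ℝ] (b.F p U δ).F0.H 8 E.o.P2)
  (g : (W.Z c).M → CL E₀.o.m.V E.o.m.V) (ζ : Circle) (η : p₀.H → Circle)

variable (E E₀) in
/-- the transfer of the fields of the cuts -/
def RK : E₀.K →L[ℝ] E.K := ext0 (V := fun i => (J.cut c i).H (J.B c) E₀.o.m)
  (V' := fun i => (J.cut c i).H (J.B c) E.o.m)
  fun i => Rh (J.cut c i) (J.cut c i) (J.B c) (J.B c) g (η i)

theorem RK_apply (v : E₀.K) (i : p.H) (k : i.1 ∈ p₀.H) : RK E E₀ g η v i =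
    Rh (J.cut c i) (J.cut c i) (J.B c) (J.B c) g (η ⟨i, k⟩) (v ⟨i, k⟩) := ext0_apply _ _ _ k

/-- the transfer of the rows -/
def PY : E₀.Y →L[ℝ] E.Y :=
  (ΨD.prodMap (ΨC.prodMap (((ζ : ℂ) ^ 2 • ContinuousLinearMap.id ℝ _).prodMap (.id ℝ _)))).prodMap
    ((RK E E₀ g η).prodMap (ext0 (V := fun _ => ℝ) (V' := fun _ => ℝ) fun _ => .id ℝ ℝ))

variable {ΨD ΨC g ζ η} {l : h} {Ω : Set (W.Z c).M} (hΩ : ∀ z ∉ Ω, z ∈ W.un c p₀.P)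
  (hl : ∀ i : p.H, i.1 ≠ l → i.1 ∈ p₀.H)
include hΩ hl

theorem inn_of {e : E.Y} {e₀ : E₀.Y}
    (d : ∀ z ∈ W.un c p₀.P, (b.F p U δ).F0.val _ _ e.1.1 z = (b.F p U δ).F0.val _ _ (ΨD e₀.1.1) z)
    (d' : ∀ z ∈ W.un c p₀.P,
      (b.F p U δ).F0.val _ _ e.1.2.1 z = (b.F p U δ).F0.val _ _ (ΨC e₀.1.2.1) z)
    (s : e.1.2.2.1 = (ζ : ℂ) ^ 2 • e₀.1.2.2.1) (s' : e.1.2.2.2 = e₀.1.2.2.2)
    (t : ∀ (i : p.H) (k : i.1 ∈ p₀.H), e.2.1 i = Rh (J.cut c i) (J.cut c i) (J.B c) (J.B c) g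
      (η ⟨i, k⟩) (e₀.2.1 ⟨i, k⟩) ∧ e.2.2 i = e₀.2.2 ⟨i, k⟩) :
    e - PY ΨD ΨC g ζ η e₀ ∈ inn E l Ω :=
  ⟨fun z hz => (congrFun (Sob92.val_sub _ _) z).trans (sub_eq_zero.2 (d z (hΩ z hz))),
    fun z hz => (congrFun (Sob92.val_sub _ _) z).trans (sub_eq_zero.2 (d' z (hΩ z hz))),
    Prod.ext (sub_eq_zero.2 s) (sub_eq_zero.2 s'), fun i k =>
      ⟨sub_eq_zero.2 ((t i (hl i k)).1.trans (RK_apply g η _ i (hl i k)).symm),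
        sub_eq_zero.2 ((t i (hl i k)).2.trans (ext0_apply (V := fun _ => ℝ) (V' := fun _ => ℝ)
          (fun _ => .id ℝ ℝ) e₀.2.2 i (hl i k)).symm)⟩⟩

include sH in
theorem PY_sur
    (d : ∀ e, ∃ e', ∀ z ∈ W.un c p₀.P,
      (b.F p U δ).F0.val _ _ (ΨD e') z = (b.F p U δ).F0.val 8 E.o.Pm e z)
    (d' : ∀ e, ∃ e', ∀ z ∈ W.un c p₀.P,
      (b.F p U δ).F0.val _ _ (ΨC e') z = (b.F p U δ).F0.val 8 E.o.P2 e z)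
    (t : ∀ i : p₀.H, Surjective
      (Rh (m := E₀.o.m) (m' := E.o.m) (J.cut c i) (J.cut c i) (J.B c) (J.B c) g (η i))) (e : E.Y) :
    ∃ e', PY ΨD ΨC g ζ η e' - e ∈ inn E l Ω := by
  obtain ⟨e1, h1⟩ := d e.1.1
  obtain ⟨e2, h2⟩ := d' e.1.2.1
  choose e3 h3 using fun i : p₀.H => t i (e.2.1 ⟨i, sH i.2⟩)
  refine ⟨((e1, e2, ((ζ⁻¹ : Circle) : ℂ) ^ 2 • e.1.2.2.1, e.1.2.2.2), e3, fun i => e.2.2 ⟨i, sH i.2⟩),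
    sub_mem_comm_iff.1 (inn_of hΩ hl (fun z hz => (h1 z hz).symm) (fun z hz => (h2 z hz).symm) ?_ rfl
      fun i k => ⟨(h3 ⟨i, k⟩).symm, rfl⟩)⟩
  simp [smul_smul]

include H H₀ in
theorem at_pt (s1 : W.un c p₀.P ⊆ W.un c p₀.P') (s2 : W.un c p₀.P ⊆ W.un c p.P')
    (d : ∀ e, ∀ z ∈ W.un c p₀.P, (b.F p U δ).F0.val _ _ (ΨD e) z =
      cs E.o.m.J ζ (g z ((b₀.F p₀ U₀ δ).F0.val _ _ e z)))
    (d' : ∀ e, ∀ z ∈ W.un c p₀.P, ∀ s, (b.F p U δ).F0.val _ _ (ΨC e) z s =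
      cj (g z) ((b₀.F p₀ U₀ δ).F0.val _ _ e z s))
    {f : E.C → E.Y} {f₀ : E₀.C → E₀.Y} (hf : E.Map q f) (hf₀ : E₀.Map q f₀) {z : Pnt E₀.o r}
    {w : Pnt E.o r} (hV : ∀ a ∈ p₀.V, b₀.θ p₀ U₀ z.t a = b.θ p U w.t a)
    (e : EqOn (J.B c) (J.G c (b₀.θ p₀ U₀ z.t)).F (W.un c p₀.P) z.cfg w.cfg g ζ)
    (o : ∀ x ∉ W.un c p₀.P, w.cfg.Φ x = 0) {χ : E.K} {χ₀ : E₀.K}
    (t : ∀ (i : p.H) (k : i.1 ∈ p₀.H),
      χ i = Rh (J.cut c i) (J.cut c i) (J.B c) (J.B c) g (η ⟨i, k⟩) (χ₀ ⟨i, k⟩)) :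
    f (w.pt 8, χ) - PY ΨD ΨC g ζ η (f₀ (z.pt 8, χ₀)) ∈ inn E l Ω := by
  obtain ⟨k1, k2, k3, k4⟩ := pw (q := q) H H₀ hV e o
  have a := hf.e w χ
  have a₀ := hf₀.e z χ₀
  refine inn_of hΩ hl (fun x hx => ?_) (fun x hx => PiLp.ext fun s => ?_)
    (a.S.trans (k3.trans (congrArg _ a₀.S.symm))) (a.R.trans (k4.trans a₀.R.symm)) fun i k => ⟨?_, ?_⟩
  · exact ((congrFun a.D x).trans (indicator_of_mem (s2 hx) _)).trans ((k1 x hx).trans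
      ((d _ x hx).trans (congrArg (fun v => cs E.o.m.J ζ (g x v))
        ((congrFun a₀.D x).trans (indicator_of_mem (s1 hx) _)))).symm)
  · exact (congrArg (· s) ((congrFun a.C x).trans (indicator_of_mem (H.F.sub (s2 hx)) _))).trans
      ((k2 x hx s).trans ((d' _ x hx s).trans (congrArg (fun v : Fm _ E₀.o.m.A => cj (g x) (v s))
        ((congrFun a₀.C x).trans (indicator_of_mem hx _)))).symm)
  · rw [hf.row, hf₀.row, t i k]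
    exact row_nat H H₀ hV e o ⟨i, k⟩ i.2 _ _
  · rw [hf.nrm, hf₀.nrm, t i k]
    exact congrArg (· ^ 2 - 1)
      (Cnt93.norm_Rh (lm H H₀ hV e) (Cnt93.rel_refl H.F.B (H₀.cut_sub ⟨i, k⟩)) _ _)

end psi

include H H₀ sV sH a o R R₀ in
/-- **the rows outside are onto** -/
theorem out_job (hT : TrfStmt (W.Z c).I (W.Z c).M (Option κ) (lam ⊕ lam))
    (cm : Prm93.Cmp (b.F p U δ).F0.toPre (b₀.F p₀ U₀ δ).F0.toPre)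
    (s1 : W.un c p₀.P ⊆ W.un c p₀.P') (s2 : W.un c p₀.P ⊆ W.un c p.P') (z : E.o.Φ0 = 0)
    (z₀ : E₀.o.Φ0 = 0) (hb : ∀ τ, E.o.b τ ∈ Mod61.Hs (b.F p U δ).F0.toPre E.o.P1)
    (hb₀ : ∀ τ, E₀.o.b τ ∈ Mod61.Hs (b₀.F p₀ U₀ δ).F0.toPre E₀.o.P1)
    (y0 : ∀ z ∉ W.un c p₀.P, y.x.Φ z = 0) {l : h} {Ω : Set (W.Z c).M}
    (hΩ : ∀ z ∉ Ω, z ∈ W.un c p₀.P) (hl : ∀ i : p.H, i.1 ≠ l → i.1 ∈ p₀.H) (rg : E₀.Reg q x₀ ψ₀)
    {f : E.C → E.Y} (hf : E.Map q f) (e : E.Y) : ∃ v, Inn l Ω (fderiv ℝ f (x.pt 8, ψ) v - e) := by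
  obtain ⟨f₀, hf₀, s⟩ := rg
  have sP : W.un c p₀.P ⊆ W.un c p.P := s2.trans H.F.sub
  obtain ⟨g, ζ, η, k, hη⟩ := rel H H₀ sP sV sH a o R R₀
  have oN : IsOpen ((b₀.F p₀ U₀ δ).Q ∩ (fun t => x.t + lT p p₀ U U₀ (t - x₀.t)) ⁻¹' (b.F p U δ).Q) :=
    H₀.F.opn.inter (H.F.opn.preimage (by fun_prop))
  have mN : x₀.t ∈ (b₀.F p₀ U₀ δ).Q ∩ (fun t => x.t + lT p p₀ U U₀ (t - x₀.t)) ⁻¹' (b.F p U δ).Q :=
    ⟨x₀.ht, by simpa using x.ht⟩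
  obtain ⟨Φ, ΨD, ΨC, d1, c1, d2, c2, tr⟩ := hT _ _ (b.F p U δ) (b₀.F p₀ U₀ δ) E.o E₀.o r 8 x x₀
    (lT p p₀ U U₀) g ζ _ (by norm_num) H.F H₀.F rfl cm sP
    (Subset.antisymm (fun _ k => ⟨H₀.F.sub k, s2 (H₀.F.sub k)⟩) fun _ k => s1 k.1) z z₀ mN
    (fun t ht => ⟨ht.2, H₀.pok.agr H.ok H.mem (H₀.ov (δ := δ) H₀.hb ht.1) (H.ov (δ := δ) H.hb ht.2)
      (θ_l sV R R₀ t)⟩)
    k hb hb₀
  have h0 : ∀ w : Pnt E.o r, ∀ u, w.cfg.Φ u = w.φ u := fun w u =>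
    (congrArg (fun v => v u + w.φ u) z).trans (zero_add _)
  have hx : cutC E (W.un c p₀.P) (x.pt 8) = x.pt 8 := by
    rw [← cutP_pt H H₀.cl]
    refine congrArg _ (Pnt.ext' rfl (indicator_eq_self.2 fun u hu => by_contra fun k => hu ?_) rfl rfl)
    obtain ⟨v, ξ, e, -⟩ := R.e
    by_cases k' : u ∈ W.un c p.P
    · exact (h0 x u).symm.trans ((e.Φ u k').trans (by rw [y0 u k, map_zero]; exact cs_zero _ _))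
    · exact (h0 x u).symm.trans (x.off H.F u fun j => k' (H.F.sub j))
  have hV : ∀ a ∈ p₀.V, b₀.θ p₀ U₀ x₀.t a = b.θ p U x.t a := by simpa using θ_l sV R R₀ x₀.t
  refine mod_surj (inn E l Ω) (inn_closed l Ω) (U := E.o.U r 8 ×ˢ univ) (g := f₀) (x := (x.pt 8, ψ))
    (x₀ := (x₀.pt 8, ψ₀))
    (D := range (Pnt.pt 8) ×ˢ univ) ((isOpen_U H.F).prod isOpen_univ)
    (oN.preimage (f := fun v : E₀.C => v.1.2.2.2) continuous_fst.snd.snd.snd) ⟨x.mem_U, trivial⟩ mN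
    (fun v hv => closure_prod_eq.ge ⟨U_subset H₀.F (by norm_num) hv.1, subset_closure trivial⟩) hf.sm
    (hf₀.sm.mono fun v hv => ⟨hv.1, trivial⟩)
    ((cutC E (W.un c p₀.P) ∘L Φ).prodMap (RK E E₀ g η)) (PY ΨD ΨC g ζ η) ?_ s
    (PY_sur sH hΩ hl d2 c2 fun i => sur_Rh (lm H H₀ hV k) H₀.cl.2 (H₀.cut_sub i) _) e
  rintro ⟨_, χ⟩ ⟨hv, ⟨u, rfl⟩, -⟩
  obtain ⟨w, w1, w2, w3⟩ := tr u hv
  have e1 : (x.pt 8, ψ) + ((cutC E (W.un c p₀.P) ∘L Φ).prodMap (RK E E₀ g η))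
      ((u.pt 8, χ) - (x₀.pt 8, ψ₀)) = ((cutP H H₀.cl w).pt 8, ψ + RK E E₀ g η (χ - ψ₀)) := by
    rw [cutP_pt, w1, map_add, hx]
    rfl
  rw [e1]
  refine at_pt H H₀ hΩ hl s1 s2 d1 c1 hf hf₀ (w := cutP H H₀.cl w) (w2 ▸ θ_l sV R R₀ u.t :)
    ⟨w3.m, w3.W, fun v k => Eq.trans ?_ (w3.Φ v k), w3.z⟩
    (fun v k => (h0 _ v).trans (indicator_of_notMem k _)) fun i k => ?_
  · exact ((h0 _ v).trans (indicator_of_mem k _)).trans (h0 w v).symm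
  · rw [Pi.add_apply, RK_apply g η _ i k, Pi.sub_apply, map_sub]
    exact (congrArg (· + _) (hη ⟨i, k⟩)).trans (add_sub_cancel _ _)

end Crest.Agent.X212.Mp86.Ou
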