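import Crest.Agent.X212.Mp86.Bar

/-!
# Row 212, layer AN (helper86): maximum principle with finitely many removable points

`maxp`: on a compact set `K`, a function bounded above and `C²` off a finite set `S`, with
`Lop f > 0` where `f > m` and `f ≤ m` on the boundary of `K`, is `≤ m`.
-/

set_option autoImplicit false
open Set Filter Topology Module
open scoped Manifold ContDiff InnerProductSpace

noncomputable section

namespace Crest.Agent.X212.Mp86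

variable {E H M : Type*} [NormedAddCommGroup E] [NormedSpace ℝ E] [FiniteDimensional ℝ E]
  [TopologicalSpace H] {I : ModelWithCorners ℝ E H} [TopologicalSpace M] [ChartedSpace H M]
  [IsManifold I ∞ M] [BoundarylessManifold I M]
  {ι : Type*} [Fintype ι] {e : ι → Π x : M, TangentSpace I x} {b : ι → M → ℝ}
  {U : Type*} [NormedAddCommGroup U] [InnerProductSpace ℝ U]

theorem le_of_sq {a m : ℝ} (h : a ^ 2 ≤ m ^ 2) (h0 : 0 ≤ m) : a ≤ m :=
  (le_abs_self a).trans (abs_le_of_sq_le_sq' h h0 |> abs_le.2)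

/-- no punctures -/
theorem maxp0 {K : Set M} (hK : IsCompact K) {f : M → ℝ} {m : ℝ} (hc : ContinuousOn f K)
    (he : ∀ x ∈ interior K, ∀ a, VF I 1 (e a) x) (hf : ∀ x ∈ interior K, m < f x → CM I 2 f x)
    (hL : ∀ x ∈ interior K, m < f x → IsMaxOn f K x → 0 < Lop I e b f x)
    (hfr : ∀ x ∈ K, x ∉ interior K → f x ≤ m) : ∀ x ∈ K, f x ≤ m := by
  intro x hx
  have := FiniteDimensional.complete ℝ E
  obtain ⟨z, hz, hm⟩ := hK.exists_isMaxOn ⟨x, hx⟩ hc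
  refine (hm hx).trans (le_of_not_gt fun h => ?_)
  by_cases hi : z ∈ interior K
  · exact (hL z hi h hm).not_ge (Lop_nonpos (he z hi) (hf z hi h)
      (hm.isLocalMax (mem_interior_iff_mem_nhds.1 hi)))
  · exact (hfr z hz hi).not_gt h

/-- one puncture, with a given barrier: `f - ε ψ → -∞` for all `ε > 0` -/
theorem maxp1 [T2Space M] {N : Set M} (hN : IsCompact N) {s : M} {f ψ : M → ℝ} {m : ℝ}
    (he : ∀ x ∈ N \ {s}, ∀ a, VF I 1 (e a) x) (hf : ∀ x ∈ N \ {s}, CM I 2 f x)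
    (hψ : ∀ x ∈ N \ {s}, CM I 2 ψ x ∧ 0 ≤ ψ x ∧ Lop I e b ψ x ≤ 0)
    (ht : ∀ ε > 0, Tendsto (fun y => f y - ε * ψ y) (𝓝[≠] s) atBot)
    (hL : ∀ x ∈ interior N \ {s}, m < f x → 0 < Lop I e b f x)
    (hfr : ∀ x ∈ N \ {s}, x ∉ interior N → f x ≤ m) : ∀ x ∈ N \ {s}, f x ≤ m := by
  intro x hx
  have := FiniteDimensional.complete ℝ E
  have key : ∀ ε > 0, f x - ε * ψ x ≤ m := by
    intro ε hε
    set g : M → ℝ := fun y => f y - ε * ψ y with hg
    have hg2 : ∀ y ∈ N \ {s}, CM I 2 g y := fun y hy =>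
      (hf y hy).sub (contMDiffAt_const.mul (hψ y hy).1)
    obtain ⟨O, hO, hsO, hlt⟩ := mem_nhdsWithin.1 ((ht ε hε).eventually_lt_atBot (g x))
    have hxO : x ∉ O := fun h => lt_irrefl (g x) (hlt ⟨h, hx.2⟩)
    have hsub : N \ O ⊆ N \ {s} := fun y hy => ⟨hy.1, fun h => hy.2 (h ▸ hsO)⟩
    obtain ⟨z, hz, hm⟩ := (hN.diff hO).exists_isMaxOn ⟨x, hx.1, hxO⟩
      fun y hy => (hg2 y (hsub hy)).continuousAt.continuousWithinAt
    have hz' := hsub hz
    have h0 : g x ≤ g z := hm ⟨hx.1, hxO⟩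
    have h1 : g z ≤ f z := sub_le_self _ (mul_nonneg hε.le (hψ z hz').2.1)
    refine h0.trans (h1.trans (le_of_not_gt fun h => ?_))
    by_cases hi : z ∈ interior N
    · have hm' : IsLocalMax g z := by
        filter_upwards [mem_interior_iff_mem_nhds.1 hi, isOpen_compl_singleton.mem_nhds hz'.2]
          with y h2 h3
        by_cases h4 : y ∈ O
        · exact (hlt ⟨h4, h3⟩).le.trans h0
        · exact hm ⟨h2, h4⟩
      have h5 := Lop_nonpos (b := b) (he z hz') (hg2 z hz') hm'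
      rw [hg, Lop_sub (w := fun y => ε * ψ y) (he z hz') (hf z hz')
        (contMDiffAt_const.mul (hψ z hz').1),
        Lop_mul _ (he z hz') (hψ z hz').1] at h5
      have h6 := hL z ⟨hi, hz'.2⟩ h
      have h7 := mul_nonpos_of_nonneg_of_nonpos hε.le (hψ z hz').2.2
      linarith
    · exact (hfr z hz' hi).not_gt h
  have : Tendsto (fun ε : ℝ => f x - ε * ψ x) (𝓝[>] 0) (𝓝 (f x - 0 * ψ x)) :=
    (tendsto_const_nhds.sub (tendsto_id.mul_const _)).mono_left nhdsWithin_le_nhds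
  rw [zero_mul, sub_zero] at this
  exact le_of_tendsto this (eventually_nhdsWithin_of_forall key)

/-- maximum principle with finitely many removable points -/
theorem maxp [T2Space M] (hd : 3 ≤ finrank ℝ E) {K S : Set M} (hK : IsCompact K) (hS : S.Finite)
    (hSK : S ⊆ interior K) {f : M → ℝ} {m C : ℝ}
    (he : ∀ x ∈ K, ∀ a, VF I 1 (e a) x) (hb : ∀ s ∈ S, ∀ a, ContinuousAt (b a) s)
    (hs : ∀ s ∈ S, Submodule.span ℝ (range fun a => (show E from e a s)) = ⊤)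
    (hf : ∀ x ∈ K \ S, CM I 2 f x) (hC : ∀ x ∈ K \ S, f x ≤ C)
    (hL : ∀ x ∈ interior K \ S, m < f x → 0 < Lop I e b f x)
    (hfr : ∀ x ∈ K, x ∉ interior K → f x ≤ m) : ∀ x ∈ K \ S, f x ≤ m := by
  have := FiniteDimensional.complete ℝ E
  have := Manifold.locallyCompact_of_finiteDimensional (M := M) I
  -- small compact neighbourhoods of the punctures
  have h1 : ∀ s ∈ S, ∃ N : Set M, N ∈ 𝓝 s ∧ IsClosed N ∧ N ⊆ interior K ∧ N ∩ S ⊆ {s} ∧
      ∀ m', m ≤ m' → (∀ x ∈ N \ {s}, x ∉ interior N → f x ≤ m') → ∀ x ∈ N \ {s}, f x ≤ m' := by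
    intro s hsS
    obtain ⟨ψ, h2, h3⟩ := exists_barrier hd (he s (interior_subset (hSK hsS))) (hb s hsS) (hs s hsS)
    have h4 : (S \ {s})ᶜ ∈ 𝓝 s :=
      (hS.subset sdiff_subset).isClosed.isOpen_compl.mem_nhds (by simp)
    obtain ⟨N, hN, hsub, hc⟩ := local_compact_nhds (inter_mem (eventually_nhdsWithin_iff.1 h3)
      (inter_mem (isOpen_interior.mem_nhds (hSK hsS)) h4))
    have h5 : N ∩ S ⊆ {s} := fun y hy => by
      by_contra h; exact (hsub hy.1).2.2 ⟨hy.2, h⟩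
    have h6 : ∀ y ∈ N \ {s}, y ∈ interior K \ S := fun y hy =>
      ⟨(hsub hy.1).2.1, fun h => hy.2 (h5 ⟨hy.1, h⟩)⟩
    have h7 : ∀ y ∈ N \ {s}, y ∈ K \ S := fun y hy => ⟨interior_subset (h6 y hy).1, (h6 y hy).2⟩
    refine ⟨N, hN, hc.isClosed, fun y hy => (hsub hy).2.1, h5, fun m' hm' hfr' => ?_⟩
    refine maxp1 (b := b) hc (fun y hy => he y (h7 y hy).1) (fun y hy => hf y (h7 y hy))
      (fun y hy => (hsub hy.1).1 hy.2) (fun ε hε => ?_)
      (fun y hy h => hL y (h6 y ⟨interior_subset hy.1, hy.2⟩) (hm'.trans_lt h)) hfr'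
    have h8 : Tendsto (fun y => C + -(ε * ψ y)) (𝓝[≠] s) atBot :=
      tendsto_atBot_add_const_left _ _ (tendsto_neg_atTop_atBot.comp (h2.const_mul_atTop hε))
    refine tendsto_atBot_mono' _ ?_ h8
    filter_upwards [nhdsWithin_le_nhds hN, self_mem_nhdsWithin] with y a1 a2
    have := hC y (h7 y ⟨a1, a2⟩)
    linarith
  choose! N hN1 hN0 hN2 hN3 hN4 using h1
  let O : M → Set M := fun s => interior (N s) \ ⋃ t ∈ S \ {s}, N t
  have hO : IsOpen (⋃ s ∈ S, O s) := isOpen_biUnion fun s _ => isOpen_interior.sdiff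
    ((hS.subset sdiff_subset).isClosed_biUnion fun t ht => hN0 t ht.1)
  set K' := K \ ⋃ s ∈ S, O s with hK'
  have hsub : K' ⊆ K \ S := fun y hy => ⟨hy.1, fun h => hy.2 (mem_biUnion h
    ⟨mem_interior_iff_mem_nhds.2 (hN1 y h), fun h2 => by
      obtain ⟨t, ht, h3⟩ := mem_iUnion₂.1 h2
      exact ht.2 (hN3 t ht.1 ⟨h3, h⟩).symm⟩)⟩
  have main : ∀ m', m ≤ m' → (∀ x ∈ K', f x ≤ m') → ∀ x ∈ K \ S, f x ≤ m' := by
    intro m' hm' H x hx
    by_cases h : x ∈ K'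
    · exact H x h
    · obtain ⟨s, hsS, h2⟩ := mem_iUnion₂.1 (not_not.1 fun h3 => h ⟨hx.1, h3⟩)
      refine hN4 s hsS m' hm' (fun y hy hi => H y ⟨interior_subset (hN2 s hsS hy.1), fun h3 => ?_⟩)
        x ⟨interior_subset h2.1, fun h3 => hx.2 (h3 ▸ hsS)⟩
      obtain ⟨t, ht, h4⟩ := mem_iUnion₂.1 h3
      by_cases h5 : s = t
      · exact hi (h5 ▸ h4.1)
      · exact h4.2 (mem_biUnion (show s ∈ S \ {t} from ⟨hsS, h5⟩) hy.1)
  refine main m le_rfl fun x hx => le_of_not_gt fun h => ?_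
  obtain ⟨z, hz, hm⟩ := (hK.diff hO).exists_isMaxOn ⟨x, hx⟩
    fun y hy => (hf y (hsub hy)).continuousAt.continuousWithinAt
  have hz1 : m < f z := h.trans_le (hm hx)
  have hz2 := hsub hz
  have hm2 : IsMaxOn f (K \ S) z := main (f z) hz1.le hm
  by_cases hi : z ∈ interior K
  · refine (hL z ⟨hi, hz2.2⟩ hz1).not_ge (Lop_nonpos (he z hz.1) (hf z hz2) (hm2.isLocalMax ?_))
    exact inter_mem (mem_interior_iff_mem_nhds.1 hi) (hS.isClosed.isOpen_compl.mem_nhds hz2.2)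
  · exact (hfr z hz.1 hi).not_gt hz1

variable {A : ι → M → U →L[ℝ] U}

omit [FiniteDimensional ℝ E] [BoundarylessManifold I M] in
/-- where `‖u‖ > m ≥ ‖u - LA u‖` the function `‖u‖²` is strictly subharmonic -/
theorem Lop_normSq_pos {u : M → U} {x : M} {m : ℝ} (he : ∀ a, VF I 1 (e a) x)
    (hA : ∀ a, CM I 1 (A a) x) (hk : ∀ a, ∀ᶠ y in 𝓝 x, ∀ s t, ⟪A a y s, t⟫_ℝ = -⟪s, A a y t⟫_ℝ)
    (hu : CM I 2 u x) (hm : ‖u x - LA I e b A u x‖ ≤ m) (h : m ^ 2 < ‖u x‖ ^ 2) :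
    0 < Lop I e b (fun y => ‖u y‖ ^ 2) x := by
  rw [Lop_normSq he hA hk hu]
  have h1 : m < ‖u x‖ := lt_of_pow_lt_pow_left₀ 2 (norm_nonneg _) h
  have h0 : 0 ≤ m := (norm_nonneg _).trans hm
  have h2 := real_inner_le_norm (u x - LA I e b A u x) (u x)
  rw [inner_sub_left, real_inner_self_eq_norm_sq] at h2
  have h3 : 0 ≤ ∑ a, ‖cd I (e a) (A a) u x‖ ^ 2 := Finset.sum_nonneg fun _ _ => sq_nonneg _
  nlinarith [mul_le_mul_of_nonneg_right hm (norm_nonneg (u x))]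

/-- sup bound for `u - LA u = s` on a compact set with punctures -/
theorem norm_le_of_LA [T2Space M] (hd : 3 ≤ finrank ℝ E) {K S : Set M} (hK : IsCompact K)
    (hS : S.Finite) (hSK : S ⊆ interior K) {u : M → U} {m C : ℝ}
    (he : ∀ x ∈ K, ∀ a, VF I 1 (e a) x) (hb : ∀ s ∈ S, ∀ a, ContinuousAt (b a) s)
    (hs : ∀ s ∈ S, Submodule.span ℝ (range fun a => (show E from e a s)) = ⊤)
    (hA : ∀ x ∈ interior K \ S, ∀ a, CM I 1 (A a) x)
    (hk : ∀ x ∈ interior K \ S, ∀ a s t, ⟪A a x s, t⟫_ℝ = -⟪s, A a x t⟫_ℝ)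
    (hu : ∀ x ∈ K \ S, CM I 2 u x) (hC : ∀ x ∈ K \ S, ‖u x‖ ≤ C) (h0 : 0 ≤ m)
    (hm : ∀ x ∈ interior K \ S, ‖u x - LA I e b A u x‖ ≤ m)
    (hfr : ∀ x ∈ K, x ∉ interior K → ‖u x‖ ≤ m) : ∀ x ∈ K \ S, ‖u x‖ ≤ m := by
  intro x hx
  refine le_of_sq (maxp (b := b) (f := fun y => ‖u y‖ ^ 2) (C := C ^ 2) hd hK hS hSK he hb hs
    (fun y hy => cm_normSq (hu y hy))
    (fun y hy => pow_le_pow_left₀ (norm_nonneg _) (hC y hy) 2) (fun y hy h => ?_)
    (fun y hy hi => pow_le_pow_left₀ (norm_nonneg _) (hfr y hy hi) 2) x hx) h0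
  refine Lop_normSq_pos (he y (interior_subset hy.1)) (hA y hy) (fun a => ?_)
    (hu y ⟨interior_subset hy.1, hy.2⟩) (hm y hy) h
  filter_upwards [(isOpen_interior.sdiff hS.isClosed).mem_nhds hy] with z hz using hk z hz a

/-- sup bound for `u - LA u = s` on a compact set, any dimension -/
theorem norm_le_of_LA0 {K : Set M} (hK : IsCompact K) {u : M → U} {m : ℝ}
    (he : ∀ x ∈ interior K, ∀ a, VF I 1 (e a) x) (hA : ∀ x ∈ interior K, ∀ a, CM I 1 (A a) x)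
    (hk : ∀ x ∈ interior K, ∀ a s t, ⟪A a x s, t⟫_ℝ = -⟪s, A a x t⟫_ℝ)
    (hc : ContinuousOn u K) (hu : ∀ x ∈ interior K, CM I 2 u x) (h0 : 0 ≤ m)
    (hm : ∀ x ∈ interior K, ‖u x - LA I e b A u x‖ ≤ m)
    (hfr : ∀ x ∈ K, x ∉ interior K → ‖u x‖ ≤ m) : ∀ x ∈ K, ‖u x‖ ≤ m := by
  intro x hx
  refine le_of_sq (maxp0 (b := b) (f := fun y => ‖u y‖ ^ 2) hK (hc.norm.pow 2) he
    (fun y hy _ => cm_normSq (hu y hy)) (fun y hy h _ => ?_)
    (fun y hy hi => pow_le_pow_left₀ (norm_nonneg _) (hfr y hy hi) 2) x hx) h0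
  refine Lop_normSq_pos (he y hy) (hA y hy) (fun a => ?_) (hu y hy) (hm y hy) h
  filter_upwards [isOpen_interior.mem_nhds hy] with z hz using hk z hz a

/-- noncompact manifolds: sections tending to zero at infinity, punctures allowed -/
theorem norm_le_of_LA_cocompact [T2Space M] (hd : 3 ≤ finrank ℝ E) {S : Set M} (hS : S.Finite)
    {u : M → U} {m C : ℝ} (he : ∀ x a, VF I 1 (e a) x) (hb : ∀ s ∈ S, ∀ a, ContinuousAt (b a) s)
    (hs : ∀ s ∈ S, Submodule.span ℝ (range fun a => (show E from e a s)) = ⊤)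
    (hA : ∀ x ∉ S, ∀ a, CM I 1 (A a) x) (hk : ∀ x ∉ S, ∀ a s t, ⟪A a x s, t⟫_ℝ = -⟪s, A a x t⟫_ℝ)
    (hu : ∀ x ∉ S, CM I 2 u x) (hC : ∀ x ∉ S, ‖u x‖ ≤ C)
    (hm : ∀ x ∉ S, ‖u x - LA I e b A u x‖ ≤ m) (h0 : Tendsto u (cocompact M) (𝓝 0)) :
    ∀ x ∉ S, ‖u x‖ ≤ m := by
  intro x hx
  have := Manifold.locallyCompact_of_finiteDimensional (M := M) I
  have hm0 : 0 ≤ m := (norm_nonneg _).trans (hm x hx)
  refine le_of_forall_pos_le_add fun ε hε => ?_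
  obtain ⟨K₀, hK₀, h1⟩ := mem_cocompact.1 (NormedAddGroup.tendsto_nhds_zero.1 h0 ε hε)
  obtain ⟨K, hK, h2⟩ := exists_compact_superset ((hK₀.union hS.isCompact).insert x)
  refine norm_le_of_LA (b := b) (C := C) hd hK hS (fun s hs' => h2 (Or.inr (Or.inr hs')))
    (fun y _ => he y) hb hs (fun y hy => hA y hy.2) (fun y hy => hk y hy.2) (fun y hy => hu y hy.2)
    (fun y hy => hC y hy.2) (by linarith) (fun y hy => (hm y hy.2).trans (by linarith))
    (fun y _ hi => ?_) x ⟨interior_subset (h2 (Or.inl rfl)), hx⟩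
  have : ‖u y‖ < ε := h1 fun h => hi (h2 (Or.inr (Or.inl h)))
  linarith

/-- removable points: a bounded solution off `S` agrees with the smooth one (closed manifolds) -/
theorem eq_of_LA [T2Space M] [CompactSpace M] (hd : 3 ≤ finrank ℝ E) {S : Set M} (hS : S.Finite)
    {u w : M → U} {C : ℝ} (he : ∀ x a, VF I 1 (e a) x) (hb : ∀ s ∈ S, ∀ a, ContinuousAt (b a) s)
    (hs : ∀ s ∈ S, Submodule.span ℝ (range fun a => (show E from e a s)) = ⊤)
    (hA : ∀ x ∉ S, ∀ a, CM I 1 (A a) x) (hk : ∀ x ∉ S, ∀ a s t, ⟪A a x s, t⟫_ℝ = -⟪s, A a x t⟫_ℝ)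
    (hu : ∀ x ∉ S, CM I 2 u x) (hw : ∀ x ∉ S, CM I 2 w x) (hC : ∀ x ∉ S, ‖u x - w x‖ ≤ C)
    (h : ∀ x ∉ S, u x - LA I e b A u x = w x - LA I e b A w x) : ∀ x ∉ S, u x = w x := by
  intro x hx
  refine sub_eq_zero.1 (norm_le_zero_iff.1 (norm_le_of_LA_cocompact (b := b) (A := A)
    (u := fun y => u y - w y) hd hS he hb hs hA hk (fun y hy => (hu y hy).sub (hw y hy)) hC
    (fun y hy => ?_) (by simp) x hx))
  rw [LA_sub (he y) (hA y hy) (hu y hy) (hw y hy), sub_sub_sub_comm, h y hy, sub_self, norm_zero]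

end Crest.Agent.X212.Mp86

end
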