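import Crest.Agent.X212.Eqv71.Gau
import Crest.Agent.X212.Met55.Trf

/-!
# Row 212 (helper86): the curvature tensor and the scalar curvature only depend on the cometric
-/

set_option autoImplicit false
set_option linter.unusedSectionVars false
open scoped Manifold ContDiff Topology
open Finset Filter

noncomputable section
namespace Crest.Agent.X212.Mp86
open Sob92 Wz78 Eqv71

section rot
variable {E H : Type*} [NormedAddCommGroup E] [NormedSpace ℝ E] [TopologicalSpace H]
  {I : ModelWithCorners ℝ E H} {M : Type*} [TopologicalSpace M] [ChartedSpace H M]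
  {E' H' : Type*} [NormedAddCommGroup E'] [NormedSpace ℝ E'] [TopologicalSpace H']
  {I' : ModelWithCorners ℝ E' H'} {M' : Type*} [TopologicalSpace M'] [ChartedSpace H' M']
  {ι ι' : Type*} [Fintype ι] [Fintype ι'] [IsManifold I ∞ M] [IsManifold I' ∞ M']
  {φ : M → M'} {O : Set M} {e : ι → (x : M) → TangentSpace I x} {P : ι → ι → M → ℝ}
  {e' : ι' → (y : M') → TangentSpace I' y} {P' : ι' → ι' → M' → ℝ} {U : ι' → ι → M → ℝ}
  {c Γ : ι → ι → ι → M → ℝ} {c' Γ' : ι' → ι' → ι' → M' → ℝ} {x : M}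

/-- a matrix as an endomorphism -/
def mt : (ι → ι → ℝ) →L[ℝ] (ι → ℝ) →L[ℝ] ι → ℝ := LinearMap.toContinuousLinearMap
  { toFun := fun G => LinearMap.toContinuousLinearMap (Matrix.mulVecLin (Matrix.of G))
    map_add' := fun G K => by ext1 v; exact Matrix.add_mulVec _ _ v
    map_smul' := fun r G => by ext1 v; exact Matrix.smul_mulVec r _ v }

theorem mt_apply (G : ι → ι → ℝ) (v : ι → ℝ) (m : ι) : mt G v m = ∑ l, G m l * v l := rfl

/-- the Levi-Civita connection on coefficient vectors -/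
def lcA (Γ : ι → ι → ι → M → ℝ) (a : ι) (y : M) : (ι → ℝ) →L[ℝ] ι → ℝ :=
  mt fun m l => -Γ a m l y

theorem con_lcA (F : Frm I e P c) (L : LC I e P c Γ) (S : Sep I e P) : Con I P (lcA Γ) :=
  ⟨fun a x => SA.clm mt (contMDiffAt_pi_space.2 fun m => contMDiffAt_pi_space.2 fun l =>
    (L.sm a m l x).neg), fun a x => by
    simp only [lcA, ← map_smul, ← map_sum]
    congr 1
    funext m l
    simp only [Finset.sum_apply, Pi.smul_apply, smul_eq_mul, mul_neg, sum_neg_distrib, L.proj1 F S]⟩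

variable (R : Rot I I' φ O e P e' P' U) (F : Frm I e P c) (F' : Frm I' e' P' c') (K : Ker e' P')
  (L : LC I e P c Γ) (L' : LC I' e' P' c' Γ') (S : Sep I e P) (S' : Sep I' e' P') (hx : x ∈ O)
include R F F' K L L' S hx

theorem rot_cov (a b : ι) : cov I e Γ (pb φ U (lcA Γ')) (fun k y m => U m k y) a b x = 0 := by
  funext m
  have h0 : dv I (e a) (fun y m => U m b y) x m = dv I (e a) (U m b) x :=
    (dv_clm (ContinuousLinearMap.proj (R := ℝ) (φ := fun _ : ι' => ℝ) m)
      (SA.md (contMDiffAt_pi_space.2 fun m => R.sU m b x hx))).symm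
  have h1 := fun a' => R.sum_gam L hx (T := fun k => P k b x)
    (fun k => (F.pr x).idem k b) a' m
  have h2 : dv I (e a) (U m b) x = ∑ k, (dv I (e a) (U m k) x * P k b x
      + U m k x * (Γ a k b x + Γ a b k x)) := by
    rw [dv_congr (v := fun y => ∑ k, U m k y * P k b y) ((R.ev hx).mono fun y hy =>
      (R.UP F hy m b).symm), dv_sum' _ fun k => (R.sU m k x hx).mul (F.sP k b x)]
    exact sum_congr rfl fun k _ => by rw [dv_mul (R.sU m k x hx) (F.sP k b x), L.met]
  have h3 : ∑ k, P a k x * ∑ j, (dv I (e k) (U m j) x * P j b x + U m j x * Γ k j b x)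
      = ∑ j, (dv I (e a) (U m j) x * P j b x + U m j x * Γ a j b x) := by
    simp only [mul_sum]
    rw [sum_comm]
    refine sum_congr rfl fun j _ => ?_
    rw [← F.projD a (U m j), ← L.proj1 F S a j b x, sum_mul, mul_sum, ← sum_add_distrib]
    exact sum_congr rfl fun k _ => by rw [smul_eq_mul]; ring
  simp only [smul_eq_mul, R.UP F hx, L.proj] at h1
  simp only [cov, nab, pb, lcA, Pi.sub_apply, Pi.add_apply, h0, Finset.sum_apply, Pi.smul_apply,
    _root_.sum_apply, smul_apply, mt_apply, smul_eq_mul,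
    neg_mul, sum_neg_distrib, mul_neg, R.gam_eq F F' K L L' hx, h1, Pi.zero_apply]
  have h5 : ∀ X : ι → ℝ, ∑ a', U a' a x * ∑ k, U a' k x * X k = ∑ k, P a k x * X k := fun X => by
    simp only [mul_sum, ← mul_assoc]
    rw [sum_comm]
    exact sum_congr rfl fun k _ => by rw [← sum_mul, R.UU a k x hx]
  rw [h5, h3, h2, ← sub_eq_add_neg, ← sum_sub_distrib, ← sum_sub_distrib]
  exact sum_eq_zero fun k _ => by ring

include S' in
theorem rot_curv (a b m : ι) : curv I e c (pb φ U (lcA Γ')) a b x (fun k => U k m x)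
    = ∑ l, Rm I e c Γ a b m l x • fun k => U k l x := by
  have h := L.ricci F (A := pb φ U (lcA Γ')) (x := x)
    (R.sa_pb hx fun a' => (con_lcA F' L' S').sm a' _) (θ := fun k y m => U m k y)
    (fun k => contMDiffAt_pi_space.2 fun m => R.sU m k x hx) (fun k => by
      funext m
      simp only [Finset.sum_apply, Pi.smul_apply, smul_eq_mul, ← R.UP F hx m k, (F.pr x).symm k, mul_comm])
    a b m
  have h1 : ∀ a b m, nab I e (pb φ U (lcA Γ')) a
      (cov I e Γ (pb φ U (lcA Γ')) (fun k y m => U m k y) b m) x = 0 := fun a b m => by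
    rw [nab_congr (v := fun _ => 0) a ((R.ev hx).mono fun y hy =>
      rot_cov R F F' K L L' S hy b m)]
    simp [nab]
  simpa only [h1, rot_cov R F F' K L L' S hx, smul_zero, sum_const_zero, sub_self, add_zero,
    sub_zero] using h

omit R F' K L L' S hx in
theorem rot_refl : Rot I I id Set.univ e P e P P :=
  ⟨isOpen_univ, fun _ _ => contMDiffAt_id, fun a b x _ => F.sP a b x, fun a x _ => by
    rw [mfderiv_id]; exact (F.proj a x).symm,
    fun a b x _ => by simpa only [(F.pr x).symm a] using (F.pr x).idem a b,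
    fun a b x _ => by simpa only [(F.pr x).symm b, id] using (F.pr x).idem a b⟩

include S' in
/-- **the curvature tensor is natural** -/
theorem rot_Rm (a' b' m' l' : ι') : Rm I' e' c' Γ' a' b' m' l' (φ x) = ∑ a, ∑ b,
    U a' a x * U b' b x * ∑ m, U m' m x * ∑ l, Rm I e c Γ a b m l x * U l' l x := by
  have C := con_lcA F' L' S'
  have h1 := rot_curv (rot_refl F') F' F' K L' L' S' S' (Set.mem_univ (φ x)) a' b' m'
  rw [show pb id P' (lcA Γ') = lcA Γ' from funext fun a => funext fun y => by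
    simpa only [pb, (F'.pr y).symm _ a, id] using C.proj a y,
    R.curv' F F' K hx (fun a => C.sm a _) (.of_forall fun z a => C.proj a z),
    show (fun k => P' k m' (φ x)) = ∑ m, U m' m x • fun k => U k m x from funext fun k => by
      simp only [← R.UU' k m' x hx, Finset.sum_apply, Pi.smul_apply, smul_eq_mul, mul_comm]] at h1
  have h2 := congrFun h1 l'
  simp only [_root_.sum_apply, smul_apply, map_sum, map_smul, rot_curv R F F' K L L' S S' hx,
    Finset.sum_apply, Pi.smul_apply, smul_eq_mul, (F'.pr _).symm l', L'.Rm_p4 F'] at h2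
  rw [← h2]
  simp only [mul_sum]
  rw [sum_comm]
  refine sum_congr rfl fun a _ => ?_
  rw [sum_comm]
  exact sum_congr rfl fun b _ => sum_congr rfl fun m _ => sum_congr rfl fun l _ => by ring

include S' in
theorem rot_scal : scal I' e' c' Γ' (φ x) = scal I e c Γ x := by
  have h : ∀ a b m l, ∑ a', ∑ b', U a' a x * U b' b x * (U b' m x * (Rm I e c Γ a b m l x *
      U a' l x)) = Rm I e c Γ a b m l x * P b m x * P a l x := fun a b m l => by
    rw [← R.UU b m x hx, ← R.UU a l x hx, mul_sum]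
    refine sum_congr rfl fun a' _ => ?_
    rw [mul_sum, sum_mul]
    exact sum_congr rfl fun b' _ => by ring
  rw [← L.scalT_eq F, scalT]
  simp only [scal, rot_Rm R F F' K L L' S S' hx, mul_sum, sum_mul, ← h]
  simp only [← Fintype.sum_prod_type']
  refine Fintype.sum_equiv ⟨fun p => (p.2.2.1, p.2.2.2.2.2, p.2.2.2.1, p.2.2.2.2.1, p.1, p.2.1),
    fun q => (q.2.2.2.2.1, q.2.2.2.2.2, q.1, q.2.2.1, q.2.2.2.1, q.2.1), fun _ => rfl,
    fun _ => rfl⟩ _ _ fun _ => rfl

end rot

section fr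
open An Met55 Prm93 Filter
variable {E : Type} [NormedAddCommGroup E] [NormedSpace ℝ E] [FiniteDimensional ℝ E]
  [MeasurableSpace E] [BorelSpace E]
  {H : Type} [TopologicalSpace H] {I : ModelWithCorners ℝ E H} [I.Boundaryless]
  {M : Type} [TopologicalSpace M] [ChartedSpace H M] [IsManifold I ∞ M] [MeasurableSpace M]
  {E' : Type} [NormedAddCommGroup E'] [NormedSpace ℝ E'] [FiniteDimensional ℝ E']
  [MeasurableSpace E'] [BorelSpace E']
  {H' : Type} [TopologicalSpace H'] {I' : ModelWithCorners ℝ E' H'} [I'.Boundaryless]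
  {M' : Type} [TopologicalSpace M'] [ChartedSpace H' M'] [IsManifold I' ∞ M'] [MeasurableSpace M']
  {E₀ : Type} [NormedAddCommGroup E₀] [NormedSpace ℝ E₀] [FiniteDimensional ℝ E₀]
  {H₀ : Type} [TopologicalSpace H₀] {J : ModelWithCorners ℝ E₀ H₀}
  {N : Type} [TopologicalSpace N] [ChartedSpace H₀ N] [IsManifold J ∞ N]
  {ι ι' κ κ' : Type} [Fintype ι] [Fintype ι'] [Fintype κ] [Fintype κ']

/-- the scalar curvature of a frame -/
abbrev scF (F : Fr I M ι) : M → ℝ := scal I F.e F.c F.Gam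

variable (J I) in
/-- near `x`, `f` is an isometry from the cometric `k` to the cometric of `e` -/
structure Rp (k : N → κ → E₀) (f : N → M) (e : ι → VF I M) (x : N) : Prop where
  ld : IsLocalDiffeomorphAt J I ∞ f x
  co : ∀ᶠ y in 𝓝 x, Co (fun i => dmp J I f y (k y i)) (atx e (f y))

variable {k : N → κ → E₀} {k' : N → κ' → E₀} {f : N → M} {f' : N → M'} {e : ι → VF I M}
  {e' : ι' → VF I' M'} {x : N}

theorem Rp.ev (h : Rp I J k f e x) : ∀ᶠ y in 𝓝 x, Rp I J k f e y :=
  ((ld_eventually h.ld).and h.co.eventually_nhds).mono fun _ hy => ⟨hy.1, hy.2⟩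

theorem Rp.of_co (h : Rp I J k f e x) (hk : ∀ᶠ y in 𝓝 x, Co (k' y) (k y)) : Rp I J k' f e x :=
  ⟨h.ld, (hk.and h.co).mono fun _ hy => (hy.1.map _).trans hy.2⟩

theorem dmp_comp {g : M → M'} {y : N} (hg : IsLocalDiffeomorphAt I I' ∞ g (f y))
    (hf : IsLocalDiffeomorphAt J I ∞ f y) (v : E₀) :
    dmp J I' (g ∘ f) y v = dmp I I' g (f y) (dmp J I f y v) :=
  DFunLike.congr_fun (mfderiv_comp y (hg.mdifferentiableAt (by simp))
    (hf.mdifferentiableAt (by simp))) v

theorem Rp.comp {g : M → M'} (h : Rp I J k f e x) (h' : Rp I' I (atx e) g e' (f x)) :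
    Rp I' J k (g ∘ f) e' x := by
  refine ⟨Cyl58.ld_comp h'.ld h.ld, ?_⟩
  filter_upwards [h.ev, h.ld.contMDiffAt.continuousAt.eventually h'.ev] with y h1 h2
  simp only [dmp_comp h2.ld h1.ld]
  exact (h1.co.self_of_nhds.map _).trans h2.co.self_of_nhds

/-- two representations differ by a local isometry -/
theorem Rp.span (h : Rp I J k f e x) (h' : Rp I' J k f' e' x) :
    ∃ g : M → M', Rp I' I (atx e) g e' (f x) ∧ g ∘ f =ᶠ[𝓝 x] f' := by
  obtain ⟨Φ, hx, hΦ⟩ := h.ld
  have e1 : ∀ y ∈ Φ.source, Φ.symm (f y) = y := fun y hy => by rw [hΦ hy]; exact Φ.left_inv hy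
  have e2 : ∀ z ∈ Φ.target, f (Φ.symm z) = z := fun z hz =>
    (hΦ (Φ.map_target hz)).trans (Φ.right_inv hz)
  have ht : f x ∈ Φ.target := hΦ hx ▸ Φ.map_source hx
  have hc : Tendsto Φ.symm (𝓝 (f x)) (𝓝 x) := by
    simpa only [e1 x hx] using (pd_ld' ht).contMDiffAt.continuousAt.tendsto
  have e3 : ∀ y ∈ Φ.source, (f' ∘ Φ.symm) ∘ f =ᶠ[𝓝 y] f' := fun y hy =>
    eventually_of_mem (Φ.open_source.mem_nhds hy) fun z hz => congrArg f' (e1 z hz)
  refine ⟨f' ∘ Φ.symm, ⟨Cyl58.ld_comp ((e1 x hx).symm ▸ h'.ld) (pd_ld' ht), ?_⟩, e3 x hx⟩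
  filter_upwards [Φ.open_target.mem_nhds ht, hc.eventually h.ev, hc.eventually h'.ev]
    with z hz h1 h2
  have h3 : IsLocalDiffeomorphAt I I' ∞ (f' ∘ Φ.symm) (f (Φ.symm z)) :=
    (e2 z hz).symm ▸ Cyl58.ld_comp h2.ld (pd_ld' hz)
  have h4 := (h1.co.self_of_nhds.map (dmp I I' (f' ∘ Φ.symm) (f (Φ.symm z)))).symm
  have h5 : dmp J I' ((f' ∘ Φ.symm) ∘ f) (Φ.symm z) = dmp J I' f' (Φ.symm z) :=
    congrArg _ (e3 _ (Φ.map_target hz)).mfderiv_eq
  simp only [← dmp_comp h3 h1.ld, h5] at h4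
  rw [e2 z hz] at h4
  exact h4.trans h2.co.self_of_nhds

variable [BorelSpace M] [T2Space M] [BorelSpace M'] [T2Space M'] {F : Fr I M ι} {F' : Fr I' M' ι'}

theorem Rp.rot {g : M → M'} {z : M} (h : Rp I' I (atx F.e) g F'.e z) : ∃ O, z ∈ O ∧
    Rot I I' g O F.e F.P F'.e F'.P fun b a y => rotU F.toPre F'.toPre g y b a := by
  obtain ⟨O, hO, ho, hz⟩ := eventually_nhds_iff.1 h.ev
  have hr : ∀ y ∈ O, ∀ b, mfderiv I I' g y (pbv I I' g (F'.e b) y) = F'.e b (g y) :=
    fun y hy b => pbv_rel (hO y hy).ld _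
  have hco : ∀ y ∈ O, Co (atx F.e y) (atx (fun b => pbv I I' g (F'.e b)) y) := fun y hy =>
    Co.of_map (A := dmp I I' g y) (ld_bij (hO y hy).ld)
      (by rw [← atx_rel (hr y hy)]; exact (hO y hy).co.self_of_nhds)
  refine ⟨O, hz, ho, fun y hy => (hO y hy).ld.contMDiffAt, fun b a y hy => msm_fM (pre_fAt _ y)
    ((pre_fAt F'.toPre _).pbv (hO y hy).ld).sm a b, fun b y hy => ?_, fun a a' y hy => ?_,
    fun b b' y hy => ?_⟩
  · rw [← hr y hy b, ← sum_fM (pre_sp F.toPre y) (fun b => pbv I I' g (F'.e b)) b, map_sum]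
    exact sum_congr rfl fun a _ => map_smul _ _ _
  · rw [fr_P, ← (fM_rot (pre_sp _ y) (hco y hy)).1]; rfl
  · rw [fr_P, ← fP_rel (hO y hy).ld ((pre_fAt F'.toPre _).pbv (hO y hy).ld).sp (hr y hy),
      ← (fM_rot (pre_sp _ y) (hco y hy)).2]; rfl

/-- **the scalar curvature only depends on the germ of the cometric** -/
theorem Rp.sc_eq (h : Rp I J k f F.e x) (h' : Rp I' J k f' F'.e x) :
    scF F' (f' x) = scF F (f x) := by
  obtain ⟨g, h1, h2⟩ := h.span h'
  obtain ⟨O, h3, R⟩ := h1.rot (F := F) (F' := F')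
  have h4 := rot_scal R (frm F) (frm F') (ker F') (lc_gam F) (lc_gam F') (sep F) (sep F') h3
  rwa [show g (f x) = f' x from h2.self_of_nhds] at h4

/-! ### local formulas -/

/-- structure functions of a local frame -/
def cL (e : ι → VF I M) (a b l : ι) (x : M) : ℝ := fT e (br I (e a) (e b)) x l

/-- Levi-Civita coefficients of a local frame -/
def gL (e : ι → VF I M) (a b k : ι) (x : M) : ℝ :=
  (dv I (e a) (fun y => fP e y b k) x + dv I (e b) (fun y => fP e y a k) x
    - dv I (e k) (fun y => fP e y a b) x + cL e a b k x - cL e a k b x - cL e b k a x) / 2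

/-- scalar curvature of a local frame -/
def scL (e : ι → VF I M) : M → ℝ := scal I e (cL e) (gL e)

theorem c_eq (F : Fr I M ι) : F.c = cL F.e := by funext a b l x; exact fr_c F a b l x

theorem Gam_eq (F : Fr I M ι) : F.Gam = gL F.e := by
  funext a b k x
  simp only [Fr.Gam, gL, c_eq, Pre.D_def, ← fr_P]

theorem scF_eq (F : Fr I M ι) : scF F = scL F.e := by rw [scF, scL, c_eq, Gam_eq]

variable {T : Type} [NormedAddCommGroup T] [NormedSpace ℝ T] {w : T → ι → VF I M} {t : T} {z : M}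
  (hw : ∀ᶠ q : T × M in 𝓝 (t, z), ∀ a, VJ I (fun s => w s a) q.1 q.2) (hs : Sp (atx (w t) z))
include hw hs

theorem jAt_dv (a : ι) {V : Type} [NormedAddCommGroup V] [NormedSpace ℝ V] {u : T → M → V}
    (hu : JAt I u t z) : JAt I (fun s => dv I (w s a) (u s)) t z :=
  have _ := hs
  JAt.dv' (e := fun s => w s a) (hw.self_of_nhds a) hu

theorem jAt_cL (a b l : ι) : JAt I (fun s => cL (w s) a b l) t z :=
  jAt_fT hw.self_of_nhds hs (vJ_br (hw.self_of_nhds a) (hw.self_of_nhds b)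
    (hw.mono fun _ h => ⟨(h a).right, (h b).right⟩)) l

theorem jAt_gL (a b k : ι) : JAt I (fun s => gL (w s) a b k) t z :=
  have h := fun a b k => jAt_dv hw hs a (u := fun s y => fP (w s) y b k)
    (mJ_fP hw.self_of_nhds hs b k)
  ((((((h a b k).add (h b a k)).sub (h k a b)).add (jAt_cL hw hs a b k)).sub
    (jAt_cL hw hs a k b)).sub (jAt_cL hw hs b k a)).div_const 2

theorem jAt_Rm (a b m l : ι) : JAt I (fun s => Rm I (w s) (cL (w s)) (gL (w s)) a b m l) t z :=
  have h := jAt_gL hw hs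
  (((jAt_dv hw hs a (h b m l)).sub (jAt_dv hw hs b (h a m l))).add
    (ContMDiffAt.sum fun k _ => (Pj41.FSm.mul' (h a m k) (h b l k)).sub
      (Pj41.FSm.mul' (h b m k) (h a l k)))).sub
    (ContMDiffAt.sum fun k _ => Pj41.FSm.mul' (jAt_cL hw hs a b k) (h k m l))

theorem jAt_scL : JAt I (fun s => scL (w s)) t z :=
  ContMDiffAt.sum fun a _ => ContMDiffAt.sum fun b _ => jAt_Rm hw hs a b b a

end fr

end Crest.Agent.X212.Mp86
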