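import Crest.Agent.X212.Add68.Exc

/-! Row 212, IX-TRG (helper86): the algebra of cut-off transports. -/

set_option autoImplicit false
set_option linter.unusedSectionVars false
noncomputable section
open Set Function

namespace Crest.Agent.X212.Mp86.Trg
open Add68 (rt exists_rot)

/-- a space of sections: values, fibres, support -/
structure SD (X N V : Type) where
  val : V → X → N
  Fb : X → N → Prop
  O : Set X

variable {X X' X1 X2 X3 X4 N N' N1 N2 N3 N4 V V' V1 V2 V3 V4 : Type}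
  [NormedAddCommGroup N] [NormedSpace ℝ N] [NormedAddCommGroup N'] [NormedSpace ℝ N']
  [NormedAddCommGroup N1] [NormedSpace ℝ N1] [NormedAddCommGroup N2] [NormedSpace ℝ N2]
  [NormedAddCommGroup N3] [NormedSpace ℝ N3] [NormedAddCommGroup N4] [NormedSpace ℝ N4]
  [NormedAddCommGroup V] [NormedSpace ℝ V] [NormedAddCommGroup V'] [NormedSpace ℝ V']
  [NormedAddCommGroup V1] [NormedSpace ℝ V1] [NormedAddCommGroup V2] [NormedSpace ℝ V2]
  [NormedAddCommGroup V3] [NormedSpace ℝ V3] [NormedAddCommGroup V4] [NormedSpace ℝ V4]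

structure SD.OK (S : SD X N V) : Prop where
  inj : Injective S.val
  add : ∀ u v, S.val (u + v) = S.val u + S.val v
  zero : S.val 0 = 0
  mem : ∀ u x, S.Fb x (S.val u x)
  off : ∀ u, ∀ x ∉ S.O, S.val u x = 0

variable (X X' N N' V V') in
/-- a link: a partial bijection, cut-off functions, the maps of the fibres and the transports -/
structure LD where
  φ : PartialEquiv X X'
  f : X → ℝ
  f' : X' → ℝ
  L : X → N →L[ℝ] N'
  L' : X' → N' →L[ℝ] N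
  a : V →L[ℝ] V'
  a' : V' →L[ℝ] V

/-- the inverse link -/
@[reducible] def LD.symm (A : LD X X' N N' V V') : LD X' X N' N V' V :=
  ⟨A.φ.symm, A.f', A.f, A.L', A.L, A.a', A.a⟩

/-- one half of the laws -/
structure Hf (A : LD X X' N N' V V') (S : SD X N V) (S' : SD X' N' V') : Prop where
  s : ∀ x, A.f x ≠ 0 → x ∈ A.φ.source
  sub : A.φ.source ⊆ S.O
  eq : ∀ x ∈ A.φ.source, A.f x = A.f' (A.φ x)
  v : ∀ u x, S.val (A.a' u) x = A.f x • A.L' (A.φ x) (S'.val u (A.φ x))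
  i : ∀ x ∈ A.φ.source, ∀ v, S.Fb x v → S'.Fb (A.φ x) (A.L x v) ∧ A.L' (A.φ x) (A.L x v) = v

/-- the laws -/
def LD.OK (A : LD X X' N N' V V') (S : SD X N V) (S' : SD X' N' V') : Prop :=
  Hf A S S' ∧ Hf A.symm S' S

namespace LD.OK
variable {A : LD X X' N N' V V'} {S : SD X N V} {S' : SD X' N' V'} (h : A.OK S S')
include h

theorem symm : A.symm.OK S' S := ⟨h.2, h.1⟩

theorem i' {x : X} (hx : x ∈ A.φ.source) {w : N'} (hw : S'.Fb (A.φ x) w) :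
    S.Fb x (A.L' (A.φ x) w) ∧ A.L x (A.L' (A.φ x) w) = w := by
  have := h.2.i _ (A.φ.map_source hx) w hw
  rwa [show A.symm.φ (A.φ x) = x from A.φ.left_inv hx] at this

theorem tgt {x : X} (hx : x ∈ A.φ.source) : A.φ x ∈ S'.O := h.2.sub (A.φ.map_source hx)

theorem sq (hS : S.OK) (u : V) (x : X) : S.val (A.a' (A.a u)) x = A.f x ^ 2 • S.val u x := by
  rw [h.1.v, h.2.v]
  by_cases k : A.f x = 0
  · simp [k]
  have hx := h.1.s x k
  rw [show A.symm.φ (A.φ x) = x from A.φ.left_inv hx, map_smul, (h.1.i x hx _ (hS.mem u x)).2,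
    show A.symm.f (A.φ x) = A.f x from (h.1.eq x hx).symm, smul_smul, pow_two]

theorem one (hS : S.OK) (s : ∀ x ∈ S.O, A.f x ^ 2 = 1) (u : V) : A.a' (A.a u) = u :=
  hS.inj (funext fun x => by
    rw [h.sq hS]
    by_cases k : x ∈ S.O
    · rw [s x k, one_smul]
    · rw [hS.off u x k, smul_zero])

end LD.OK

variable {S1 : SD X1 N1 V1} {S2 : SD X2 N2 V2} {S3 : SD X3 N3 V3} {S4 : SD X4 N4 V4}
  {A : LD X1 X3 N1 N3 V1 V3} {B : LD X3 X2 N3 N2 V3 V2} {C : LD X1 X4 N1 N4 V1 V4}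
  {D : LD X4 X2 N4 N2 V4 V2}

/-- partitions -/
def Un (S : SD X N V) (f g : X → ℝ) : Prop := ∀ x ∈ S.O, f x ^ 2 + g x ^ 2 = 1

theorem Un.swap {S : SD X N V} {f g : X → ℝ} (h : Un S f g) : Un S g f :=
  fun x k => (add_comm _ _).trans (h x k)

theorem sq_add (hS : S1.OK) (hA : A.OK S1 S3) (hC : C.OK S1 S4) (s : Un S1 A.f C.f) (u : V1) :
    A.a' (A.a u) + C.a' (C.a u) = u :=
  hS.inj (funext fun x => by
    rw [hS.add, Pi.add_apply, hA.sq hS, hC.sq hS, ← add_smul]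
    by_cases k : x ∈ S1.O
    · rw [s x k, one_smul]
    · rw [hS.off u x k, smul_zero])

variable (S1 A B C D) in
/-- the square commutes where both cut-off functions live -/
def Sq : Prop := ∀ x, A.f x ≠ 0 → C.f x ≠ 0 → B.φ (A.φ x) = D.φ (C.φ x) ∧ B.f (A.φ x) = C.f x ∧
  D.f (C.φ x) = A.f x ∧ ∀ v, S1.Fb x v → B.L (A.φ x) (A.L x v) = D.L (C.φ x) (C.L x v)

theorem Sq.swap (q : Sq S1 A B C D) : Sq S1 C D A B := fun x a b =>
  let ⟨h1, h2, h3, h4⟩ := q x b a; ⟨h1.symm, h3, h2, fun v k => (h4 v k).symm⟩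

theorem Sq.rot (q : Sq S1 A B C D) (hA : A.OK S1 S3) (hC : C.OK S1 S4) (hD : D.OK S4 S2)
    (s1 : Un S1 A.f C.f) (s3 : Un S3 A.f' B.f) : Sq S3 A.symm C B D.symm := fun z a b => by
  have hz := hA.2.s z a
  obtain ⟨x, hx, rfl⟩ : ∃ x ∈ A.φ.source, A.φ x = z := ⟨_, A.φ.map_target hz, A.φ.right_inv hz⟩
  have e := hA.1.eq x hx
  have a' : A.f x ≠ 0 := e ▸ a
  have c : C.f x ≠ 0 := fun k => b (by
    have h1 := s1 x (hA.1.sub hx)
    have h2 := s3 _ (hA.tgt hx)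
    rw [← e] at h2
    rw [k] at h1
    exact pow_eq_zero_iff two_ne_zero |>.1 (by linarith))
  obtain ⟨h1, h2, h3, h4⟩ := q x a' c
  have hd := hD.1.s _ (h3 ▸ a')
  rw [show A.symm.φ (A.φ x) = x from A.φ.left_inv hx, h1]
  refine ⟨(D.φ.left_inv hd).symm, h2.symm, ((hD.1.eq _ hd).symm.trans h3).trans e, fun v k => ?_⟩
  obtain ⟨h5, h6⟩ := hA.i' hx k
  have h7 := h4 _ h5
  rw [h6] at h7
  rw [h7]
  exact (hD.1.i _ hd _ (hC.1.i x (hC.1.s x c) _ h5).1).2.symm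

theorem van (hC : C.OK S1 S4) {f : X1 → ℝ} {g : X4 → ℝ} (s1 : Un S1 f C.f) (s4 : Un S4 C.f' g)
    {x : X1} (k : f x = 0) : C.f x * g (C.φ x) = 0 := by
  refine mul_eq_zero.2 (or_iff_not_imp_left.2 fun c => ?_)
  have hx := hC.1.s x c
  have h1 := s1 x (hC.1.sub hx)
  have h2 := s4 _ (hC.tgt hx)
  rw [← hC.1.eq x hx] at h2
  rw [k] at h1
  exact pow_eq_zero_iff two_ne_zero |>.1 (by linarith)

theorem cross (h1 : S1.OK) (h2 : S2.OK) (hA : A.OK S1 S3) (hB : B.OK S3 S2) (hC : C.OK S1 S4)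
    (hD : D.OK S4 S2) (s1 : Un S1 A.f C.f) (s3 : Un S3 A.f' B.f) (s4 : Un S4 C.f' D.f)
    (q : Sq S1 A B C D) (u : V2) : A.a' (B.a' u) = C.a' (D.a' u) := h1.inj (funext fun x => by
  rw [hA.1.v, hB.1.v, hC.1.v, hD.1.v, map_smul, map_smul, smul_smul, smul_smul]
  by_cases a : A.f x = 0
  · rw [van hC s1 s4 a, a, zero_mul, zero_smul, zero_smul]
  by_cases c : C.f x = 0
  · rw [van hA s1.swap s3 c, c, zero_mul, zero_smul, zero_smul]
  obtain ⟨k1, k2, k3, k4⟩ := q x a c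
  obtain ⟨k5, k6⟩ := hB.i' (hB.1.s _ (k2 ▸ c)) (h2.mem u _)
  obtain ⟨k7, k8⟩ := hA.i' (hA.1.s x a) k5
  have k9 := k4 _ k7
  rw [k8, k6] at k9
  obtain ⟨k10, k11⟩ := hC.1.i x (hC.1.s x c) _ k7
  rw [k2, k3, mul_comm, ← k11, ← (hD.1.i _ (hD.1.s _ (k3 ▸ a)) _ k10).2, ← k9, k1])

theorem rot (h1 : S1.OK) (h2 : S2.OK) (h3 : S3.OK) (h4 : S4.OK) (hA : A.OK S1 S3)
    (hB : B.OK S3 S2) (hC : C.OK S1 S4) (hD : D.OK S4 S2) (s1 : Un S1 A.f C.f)
    (s2 : Un S2 B.f' D.f') (s3 : Un S3 A.f' B.f) (s4 : Un S4 C.f' D.f) (q : Sq S1 A B C D) :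
    ∃ U : (V1 × V2) ≃L[ℝ] (V3 × V4), (U : V1 × V2 →L[ℝ] V3 × V4) = rt A.a B.a' C.a D.a' :=
  have q3 := q.rot hA hC hD s1 s3
  exists_rot (sq_add h1 hA hC s1) (sq_add h2 hB.symm hD.symm s2) (sq_add h3 hA.symm hB s3)
    (sq_add h4 hC.symm hD s4) (cross h1 h2 hA hB hC hD s1 s3 s4 q)
    (cross h2 h1 hB.symm hA.symm hD.symm hC.symm s2 s3.swap s4.swap
      (q3.swap.rot hB hA.symm hC s3.swap s2))
    (cross h3 h4 hA.symm hC hB hD.symm s3 s1 s2 q3)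
    (cross h4 h3 hC.symm hA hD hB.symm s4 s1.swap s2.swap (q.swap.rot hC hA hB s1.swap s4))

theorem zero (h3 : S3.OK) (hA : A.OK S1 S3) (hC : C.OK S1 S4) (k : ∀ x, A.f x * C.f x = 0)
    (u : V4) : A.a (C.a' u) = 0 := h3.inj (funext fun z => by
  rw [h3.zero, hA.2.v, hC.1.v, map_smul, smul_smul]
  by_cases a : A.f' z = 0
  · simp [a]
  · rw [hA.2.eq z (hA.2.s z a), k, zero_smul, Pi.zero_apply])

theorem split (h1 : S1.OK) (h3 : S3.OK) (h4 : S4.OK) (hA : A.OK S1 S3) (hC : C.OK S1 S4)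
    (s1 : Un S1 A.f C.f) (s3 : ∀ x ∈ S3.O, A.f' x ^ 2 = 1) (s4 : ∀ x ∈ S4.O, C.f' x ^ 2 = 1)
    (k : ∀ x, A.f x * C.f x = 0) : ∃ U : (V1 × (Fin 0 → ℝ)) ≃L[ℝ] (V3 × V4),
      (U : V1 × (Fin 0 → ℝ) →L[ℝ] V3 × V4) = rt A.a 0 C.a 0 :=
  exists_rot (b' := 0) (d' := 0) (sq_add h1 hA hC s1) (fun _ => Subsingleton.elim _ _)
    (fun u => (add_zero _).trans (hA.symm.one h3 s3 u))
    (fun u => (add_zero _).trans (hC.symm.one h4 s4 u))
    (fun _ => (map_zero _).trans (map_zero _).symm) (fun _ => rfl) (zero h3 hA hC k)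
    (zero h4 hC hA fun x => (mul_comm _ _).trans (k x))

end Crest.Agent.X212.Mp86.Trg
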