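import Crest.Agent.X212.Mp86.UqA

/-! Row 212, RFQ-UQQ (helper86): uniqueness near a transverse face object, side `Q`. -/

set_option autoImplicit false
set_option linter.unusedSectionVars false
noncomputable section
open scoped Manifold ContDiff Topology Real
open Set Function Filter

namespace Crest.Agent.X212.Mp86.Uq
open An M Nd18 Rf65 Qab60 Mp86.St G75 Ins26
open An.Job (Str Obc)

variable {κ lam : Type} [Fintype κ] [Fintype lam] [DecidableEq lam] {Lm : LM κ lam}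
  {S : Scene Lm} {D : S.Dat} {i : S.L} {Wi : Type} {r n : ℕ}
  {J : Job Wi (D.Λ i) (S.A ⊕ Unit) S.ls r n} {c : S.M.Cl} {R : S.A} {E : Finset S.A}
  {b z j : ℕ} {n₀ : ℤ} {T δ : ℝ} {Adm : (Wi →₀ ℝ) → Prop} {σ : Cel (S.A ⊕ Unit)}
  {s s' : S.A ⊕ Unit → ℝ}

theorem b01_of (hs : s ∈ Job.cl σ) (hs' : s' ∈ Job.cl σ) {a} (k : σ a ≠ none) : s a = s' a :=
  let ⟨b, e⟩ := Option.ne_none_iff_exists'.1 k
  (hs.1 a b e).trans (hs'.1 a b e).symm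

variable (G : JR J R E b z j n₀ T) (c1 : c.1 = {R})
include G c1

theorem hd_of {a : S.A} (k : a ∈ hard S {R}) : J.hd (.inl a) = some a := by
  rw [G.gx.hd]; exact if_pos k

theorem s_R (o : Ovc J c σ s) : s (.inl R) = 1 := by
  obtain ⟨a, h1, h2⟩ := G.gx.ok.inf σ o.1 s (J.cl_dom o.2.1) R (o.2.2.ge (c1.ge rfl))
  rwa [G.gx.ok.inj _ _ _ h1 (hd_of G c1 (.inr (.inr (Finset.mem_singleton_self R))))] at h2

theorem s_lt (o : Ovc J c σ s) {e : S.A} (he : e ∈ E) : s (.inl e) < 1 :=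
  (o.2.1.2 _).2.lt_of_ne fun k => by
    obtain ⟨s₀, h1, h2⟩ := G.gx.ok.lin
    have p := (G.ri.pin e he).1
    have : e = R := c1.le (o.2.2.le ((h2 _ _ (hd_of G c1 (.inl p)) s (h1.le.trans k.ge)).1.trans k))
    exact G.ri.rw.choose_spec.choose_spec.np (this ▸ p)

/-- the free coordinates of a face -/
theorem free (o : Ovc J c σ s) {e : S.A} (he : e ∈ E) (k : σ (.inl e) = none) :
    (∀ a ∈ E, σ (.inl a) = none → a = e) ∧ ∀ a, σ a = none →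
      a = .inl R ∨ a = .inl e ∨ a ∈ (pO J c (shX S {R}) σ R).V := by
  obtain ⟨τ, u, σ', rfl, h1, h2, -, h3, -⟩ := G.gx.cell σ o.1
  have m : ∀ {a}, cel τ u (.inl a) = none → a ∈ τ := fun {a} k => by_contra fun n => by
    simp [cel, n] at k
  have mR : R ∈ τ := by_contra fun n => by
    simpa [s_R G c1 o, b01] using o.2.1.1 (.inl R) false (if_neg n)
  have one : ∀ a ∈ E, cel τ u (.inl a) = none → a = e := fun a ha t =>
    Finset.card_le_one.1 (G.one τ u o.1 mR) _ (Finset.mem_inter.2 ⟨m t, ha⟩) _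
      (Finset.mem_inter.2 ⟨m k, he⟩)
  refine ⟨one, ?_⟩
  rintro (a | _) t
  · by_cases aR : a = R
    · exact .inl (congrArg _ aR)
    have hd := hd_of G c1 (h3 (m t))
    rcases G.ri.out σ' h2 (h1 mR) a (h1 (m t)) with x | x | x
    · exact (aR x).elim
    · exact .inr (.inl (congrArg _ (one a x t)))
    · refine .inr (.inr ⟨t, fun x e k => aR ((Option.some.inj (hd.symm.trans e)).trans (c1.le k)),
        .inr ⟨_, rfl, a, ⟨if_neg aR, U_hp.ge.trans' x, fun a' k => ?_⟩, hd⟩⟩)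
      obtain rfl : a' = R := by_contra fun n => k (if_neg n)
      exact (G.gx.sc.cell i σ' h2).1 (.inl (h1 (m t))) (.inl (h1 mR)) aR
  · exact nomatch (G.o _ o.1).symm.trans t

omit G in
theorem kap_ev (H : H1R J c δ σ Adm R E b z n₀) {α : Type} {l : Filter α} {q : α → Wi →₀ ℝ}
    {y : α → J.Obc c} {q₀ y₀} (a₀ : Adm q₀) (h₀ : Job.Sol σ q₀ y₀)
    (d : ∀ᶠ k in l, Adm (q k) ∧ Job.Sol σ (q k) (y k)) (t : Str l y y₀) :
    ∀ᶠ k in l, (y k).kap (oI D.W c R) = y₀.kap (oI D.W c R) := by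
  have p := hp_mem c1 false
  obtain ⟨m₀, h1⟩ := (H.inn _ _ a₀ h₀ _ p U_hp.le).2.2
  filter_upwards [d, Metric.tendsto_nhds.1 (t.kap _ p) 1 one_pos] with k a e
  obtain ⟨m, h2⟩ := (H.inn _ _ a.1 a.2 _ p U_hp.le).2.2
  rw [h1, h2] at e ⊢
  rw [dist_add_left, Int.dist_cast_real, Int.dist_eq', ← Int.cast_one, Int.cast_lt,
    Int.abs_lt_one_iff, sub_eq_zero] at e
  rw [e]

omit G c1

theorem son {sh q} {y : J.Obc c} (H : H1 J c δ sh σ Adm n₀) (a : Adm q) (k : Job.Sol σ q y)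
    (f : FA J c σ n₀ y R) : Job.SolOn (pO J c sh σ R) σ q y :=
  ⟨k.cell, k.inf, k.sol.toAdm, fun _ hz =>
    Obc.zero f.2.1 (not_not.1 (Pat85.un_out (W := D.W) f.1.2.1 ▸ hz :)),
    fun z _ => k.sol.D z, fun z _ => k.sol.C z, k.sol.S,
    fun i _ => k.cut i ((Pat85.fc_H H a k f.1).1.ge trivial), fun a b ha _ => k.lim a b ha,
    fun a ha b _ => k.crit a ha b, k.int.integrableOn⟩

/-- **LEAF UQQ** (with the inequality outside, as in `Rf65.InL`) -/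
theorem uqq {e : Bool → S.A} (G : JR J R {e false, e true} 1 z j n₀ T) (c1 : c.1 = {R})
    (hc : ClcL J c) (hk : KscL J c) {P : HD J c R} (O : P.OK Adm (fun b => .inl (e b)) (z / 4))
    (H : H1R J c δ σ Adm R {e false, e true} 1 z n₀) :
    UqL J c δ (shX S {R}) σ Adm n₀ fun q y =>
      Ok δ y (pO J c (shX S {R}) σ R) ∧ P.Tr (fun b => .inl (e b)) σ q y := by
  rintro q₀ y₀ x a₀ h₀ f₀ ro - ⟨ok, b, ξ₀, hb, t0, A₀, c₀, hd, L⟩ α 𝒰 q y y' cv d l l'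
  obtain rfl : R = x := singleton_injective (c1.symm.trans f₀.1.2.1)
  have H' := H.toH1
  have k₀ := (H.qr _ _ _ a₀ h₀ f₀.1 f₀.2.1 ok).2.1
  have z₀ := ((H.num _ _ _ a₀ h₀ f₀.1).2.2 f₀.2.1 ok).1
  have he : ∀ b, e b ∈ ({e false, e true} : Finset _) := fun b => by cases b <;> simp
  have o₀ : Ovc J c σ y₀.s := ⟨H.mem, h₀.cell, h₀.inf⟩
  have t1 : y₀.s (.inl (e b)) ∈ Ioo (0 : ℝ) 1 := ⟨t0, s_lt G c1 o₀ (he b)⟩
  obtain ⟨one, fr⟩ := free G c1 o₀ (he b) hb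
  have cl : ∀ {y : α → J.Obc c}, (∀ᶠ k in (𝒰 : Filter α), Adm (q k) ∧ Job.Sol σ (q k) (y k) ∧
      FA J c σ n₀ (y k) R) → Str 𝒰 y y₀ → ∀ᶠ k in (𝒰 : Filter α), (∃ ξ, AI J c R (q k) (y k).s (y k).x
        (z / 4) ξ ∧ P.Cl (y k).s (y k).x ξ P.g) ∧ Real.cos (2 * π * P.hl ((y k).β R true)) =
        Real.cos (2 * π * P.H P.g (q k) (update y₀.s (.inl (e b)) ((y k).s (.inl (e b))))) :=
    fun {y} d l => by
    filter_upwards [d, cls_ev O H' hc h₀ A₀ c₀ ((d.and (kap_ev c1 H a₀ h₀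
      (d.mono fun _ k => ⟨k.1, k.2.1⟩) l)).mono fun _ k => ⟨k.1.1, k.1.2.1, k.1.2.2, k.2.trans k₀⟩) l,
      (tendsto_pi_nhds.1 l.s _).eventually (Ioo_mem_nhds t1.1 t1.2)] with k a ⟨ξ, a1, a2⟩ t
    refine ⟨⟨ξ, a1, a2⟩, (cos_of H' a.1 a.2.1 a.2.2 O a1 a2).trans ?_⟩
    have o := O.line σ _ b o₀ hb _ (Ioo_subset_Ico_self t)
    rw [O.loc P.g _ σ _ _ a.1 ⟨H.mem, a.2.1.cell, a.2.1.inf⟩ o fun b' => (em _).elim
      (fun u => by rw [one _ (he b') u, update_self]) (b01_of a.2.1.cell o.2.1)]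
  have d₁ := d.mono fun _ k => And.intro k.1 k.2.1
  have d₂ := d.mono fun _ k => And.intro k.1 k.2.2
  have w : R ∈ cylW c := ⟨c1.ge rfl, f₀.1.2.2.1⟩
  filter_upwards [d, cl d₁ l, cl d₂ l', Pat85.uq_out H' a₀ h₀ f₀
      (Pat85.zw_of_dz (wl H') h₀.crit z₀) ro cv d l l',
    t_eq O a₀ o₀ hb t1 hd (sin_of H' a₀ h₀ f₀ O (k₀ ▸ ai_of H' h₀ A₀) c₀ z₀) cv (d.mono fun _ k => k.1)
      (tendsto_pi_nhds.1 l.s _) (tendsto_pi_nhds.1 l'.s _),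
    (eventually_all (ι := {l // Inn J R l})).2 fun u => (hk H.ok σ H.mem α 𝒰 q y' q₀ y₀ cv
      (d₂.mono fun _ k => k.2.1) h₀ l' u ((H.num _ _ _ a₀ h₀ f₀.1).1.ge trivial)).1 (L u u.2)]
    with k ⟨a, ⟨s₁, f₁⟩, s₂, f₂⟩ ⟨⟨ξ, a1, a2⟩, a3⟩ ⟨⟨ξ', b1, b2⟩, b3⟩ g1 t L'
  have g2 := Pat85.eqv_of_eqP H.ok H.mem (pmF H' (singleton_subset_iff.2 (hp_mem c1 true)) univ).pok
    (son H' a s₁ f₁) (son H' a s₂ f₂) g1 w (b := true) ⟨_, rfl, if_pos rfl⟩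
  have e : (y k).s = (y' k).s := funext fun u => (em _).elim (fun k => by
    rcases fr u k with rfl | rfl | k
    · rw [s_R G c1 ⟨H.mem, s₁.cell, s₁.inf⟩, s_R G c1 ⟨H.mem, s₂.cell, s₂.inf⟩]
    · exact t (by rw [← a3, ← b3, (O.clr.eqv (bs_of H' s₁ f₁ true) (bs_of H' s₂ f₂ true)).1 g2])
    · exact g1.1 u k) (b01_of s₁.cell s₂.cell)
  obtain ⟨u, p, -⟩ := O.uq _ _ _ ξ _ ξ' _ a a1 (e ▸ b1) a2 (e ▸ b2)
  exact iso_of H' a s₁ f₁ O.cl s₂ f₂ e g1 p fun v hv => L' ⟨v, hv⟩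

end Crest.Agent.X212.Mp86.Uq
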